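import Vale.Agent.P177.CDepth

/-!
Dimension theory of regular local rings: heights and dimensions of quotients, complete
intersections inside a prime.
-/

namespace Vale.Agent.P177

open CategoryTheory TensorProduct Function IsLocalRing RingTheory.Sequence Pointwise

universe u

theorem succ_le_of_lt_withBot {n : ℕ} {x : WithBot ℕ∞} (h : (n : WithBot ℕ∞) < x) :
    ((n + 1 : ℕ) : WithBot ℕ∞) ≤ x := by
  induction x using WithBot.recBotCoe with
  | bot => exact absurd h (by simp)
  | coe x =>
    have h1 : (n : ℕ∞) < x := by exact_mod_cast h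
    have h2 : ((n + 1 : ℕ) : ℕ∞) ≤ x := by
      rw [Nat.cast_add, Nat.cast_one]
      exact Order.add_one_le_of_lt h1
    exact_mod_cast h2

section chains

variable {T : Type u} [CommRing T]

theorem support_quotient_prime (P : Ideal T) (Q : PrimeSpectrum T) :
    Q ∈ Module.support T (T ⧸ P) ↔ P ≤ Q.asIdeal := by
  rw [Module.support_eq_zeroLocus, Ideal.annihilator_quotient]
  rfl

theorem supportDim_quotient_mono {P Q : Ideal T} (h : P ≤ Q) :
    Module.supportDim T (T ⧸ Q) ≤ Module.supportDim T (T ⧸ P) :=
  Module.supportDim_le_of_surjective (Submodule.factor h) (Submodule.factor_surjective h)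

theorem supportDim_quotient_strict {P Q : Ideal T} [P.IsPrime] (h : P < Q) (n : ℕ)
    (hn : (n : WithBot ℕ∞) ≤ Module.supportDim T (T ⧸ Q)) :
    ((n + 1 : ℕ) : WithBot ℕ∞) ≤ Module.supportDim T (T ⧸ P) := by
  unfold Module.supportDim at hn ⊢
  obtain ⟨l, hl⟩ := Order.le_krullDim_iff.1 hn
  rw [Order.le_krullDim_iff]
  have h1 : ∀ i, P < (l i).1.asIdeal := fun i =>
    h.trans_le ((support_quotient_prime Q _).1 (l i).2)
  let l' : LTSeries (Module.support T (T ⧸ P)) :=
    { length := l.length
      toFun := fun i => ⟨(l i).1, (support_quotient_prime P _).2 (h1 i).le⟩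
      step := fun i => l.step i }
  exact ⟨l'.cons ⟨⟨P, inferInstance⟩, (support_quotient_prime P _).2 le_rfl⟩ (h1 0),
    (RelSeries.cons_length _ _ _).trans (congrArg (· + 1) hl)⟩

theorem height_add_le {P : Ideal T} [hP : P.IsPrime] (h n : ℕ) (hh : (h : ℕ∞) ≤ P.height)
    (hn : (n : WithBot ℕ∞) ≤ Module.supportDim T (T ⧸ P)) :
    ((h + n : ℕ) : WithBot ℕ∞) ≤ ringKrullDim T := by
  unfold Module.supportDim at hn
  obtain ⟨l, hl⟩ := Order.le_krullDim_iff.1 hn
  have hh' : (h : ℕ∞) ≤ Order.height (⟨P, hP⟩ : PrimeSpectrum T) := by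
    rw [← PrimeSpectrum.height_eq_orderHeight]
    exact hh
  obtain ⟨p, hp1, hp2⟩ := Order.exists_series_of_le_height _ hh'
  let l' : LTSeries (PrimeSpectrum T) := l.map (fun x => x.1) (fun _ _ h => h)
  have hl' : l'.length = n := hl
  have hhead : (⟨P, hP⟩ : PrimeSpectrum T) ≤ l'.head := by
    change P ≤ (l 0).1.asIdeal
    exact (support_quotient_prime P _).1 (l 0).2
  unfold ringKrullDim
  rw [Order.le_krullDim_iff]
  rcases hhead.eq_or_lt with heq | hlt
  · refine ⟨p.smash l' (hp1.trans heq), ?_⟩
    change p.length + l'.length = h + n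
    rw [hp2, hl']
  · let l'' : LTSeries (PrimeSpectrum T) := p.append l' (by rw [hp1]; exact hlt)
    refine ⟨l''.take ⟨h + n, ?_⟩, ?_⟩
    · change h + n < p.length + l'.length + 1 + 1
      omega
    · rfl

end chains

section ass

variable {T : Type u} [CommRing T] [IsLocalRing T] [IsNoetherianRing T]

/-- The dimension of `T/P` for an associated prime `P` is at least the length of a regular
sequence. -/
theorem length_le_supportDim_of_isAssociatedPrime (zs : List T)
    (hzs : ∀ z ∈ zs, z ∈ maximalIdeal T) (X : Type u)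
    [AddCommGroup X] [Module T X] [Module.Finite T X] (hreg : IsWeaklyRegular X zs) (P : Ideal T)
    (hP : IsAssociatedPrime P X) :
    (zs.length : WithBot ℕ∞) ≤ Module.supportDim T (T ⧸ P) := by
  induction zs generalizing X P with
  | nil =>
    have hPp := hP.isPrime
    have hnt : Nontrivial (T ⧸ P) := Ideal.Quotient.nontrivial_iff.2 hPp.ne_top
    rw [List.length_nil, Nat.cast_zero]
    unfold Module.supportDim
    have := (Module.nonempty_support_of_nontrivial (R := T) (M := T ⧸ P)).to_subtype
    exact Order.krullDim_nonneg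
  | cons z zs ih =>
    rw [isWeaklyRegular_cons_iff] at hreg
    have hPp := hP.isPrime
    obtain ⟨-, x, hx⟩ := isAssociatedPrime_iff.1 hP
    have hx0 : x ≠ 0 := by
      rintro rfl
      apply hPp.ne_top
      rw [Ideal.eq_top_iff_one, hx, Submodule.mem_colon_singleton, smul_zero]
      exact Submodule.zero_mem _
    have hzP : z ∉ P := by
      intro hz
      rw [hx, Submodule.mem_colon_singleton] at hz
      exact hx0 ((isSMulRegular_iff_right_eq_zero_of_smul.1 hreg.1) x hz)
    -- the submodule killed by `P`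
    let N : Submodule T X := Submodule.torsionBySet T X P
    have hxN : x ∈ N := by
      rw [Submodule.mem_torsionBySet_iff]
      rintro ⟨a, ha⟩
      have ha' : a ∈ P := ha
      rw [hx, Submodule.mem_colon_singleton] at ha'
      exact ha'
    have hNnt : Nontrivial N := ⟨⟨⟨x, hxN⟩, 0, fun h => hx0 (congrArg Subtype.val h)⟩⟩
    have hzN : Nontrivial (QuotSMulTop z N) := by
      rw [← not_subsingleton_iff_nontrivial]
      intro hs
      apply not_subsingleton_iff_nontrivial.2 hNnt
      apply subsingleton_of_smul_surjective N z (hzs z List.mem_cons_self)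
      intro y
      have h1 : (Submodule.mkQ (z • (⊤ : Submodule T N))) y = 0 := Subsingleton.elim _ _
      rw [Submodule.mkQ_apply, Submodule.Quotient.mk_eq_zero,
        Submodule.mem_smul_pointwise_iff_exists] at h1
      obtain ⟨y', -, hy'⟩ := h1
      exact ⟨y', hy'.symm⟩
    obtain ⟨P', hP'⟩ := associatedPrimes.nonempty T (QuotSMulTop z N)
    have hinj : Injective (QuotSMulTop.map z N.subtype) := by
      rw [injective_iff_map_eq_zero]
      intro y hy
      obtain ⟨y, rfl⟩ := Submodule.mkQ_surjective _ y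
      have h1 : (Submodule.mkQ (z • (⊤ : Submodule T X))) (y : X) = 0 := hy
      rw [Submodule.mkQ_apply, Submodule.Quotient.mk_eq_zero,
        Submodule.mem_smul_pointwise_iff_exists] at h1
      obtain ⟨w, -, hw⟩ := h1
      have hwN : w ∈ N := by
        rw [Submodule.mem_torsionBySet_iff]
        rintro ⟨a, ha⟩
        change a • w = 0
        apply isSMulRegular_iff_right_eq_zero_of_smul.1 hreg.1
        rw [smul_comm, hw]
        exact (Submodule.mem_torsionBySet_iff _ _).1 y.2 ⟨a, ha⟩
      rw [Submodule.mkQ_apply, Submodule.Quotient.mk_eq_zero,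
        Submodule.mem_smul_pointwise_iff_exists]
      exact ⟨⟨w, hwN⟩, trivial, Subtype.ext hw⟩
    have hP'X : IsAssociatedPrime P' (QuotSMulTop z X) := hP'.map_of_injective _ hinj
    have h2 := ih (fun y hy => hzs y (List.mem_cons_of_mem _ hy)) (QuotSMulTop z X) hreg.2 P' hP'X
    have hann : Module.annihilator T (QuotSMulTop z N) ≤ P' := by
      rw [← Submodule.annihilator_top]
      exact hP'.annihilator_le
    have hle : P ≤ P' := by
      refine le_trans ?_ hann
      intro a ha
      rw [Module.mem_annihilator]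
      intro y
      obtain ⟨y, rfl⟩ := Submodule.mkQ_surjective _ y
      rw [← map_smul]
      have h3 : a • y = 0 :=
        Subtype.ext ((Submodule.mem_torsionBySet_iff _ _).1 y.2 ⟨a, ha⟩)
      rw [h3, map_zero]
    have hzP' : z ∈ P' := hann (QuotSMulTop.mem_annihilator N z)
    have hlt : P < P' := lt_of_le_of_ne hle (fun h => hzP (h ▸ hzP'))
    rw [List.length_cons]
    exact supportDim_quotient_strict hlt _ h2

end ass

section regular

variable {T : Type u} [CommRing T] [IsRegularLocalRing T] {t : ℕ}

theorem tor_self_residue_subsingleton (T : Type u) [CommRing T] [IsLocalRing T] :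
    ∀ j, 0 < j → Subsingleton (TorM T j T (T ⧸ maximalIdeal T)) := by
  intro j hj
  obtain ⟨j, rfl⟩ : ∃ k, j = k + 1 := ⟨j - 1, by omega⟩
  exact tor_subsingleton_of_flat j

/-- Length of a weakly regular sequence in a prime is at most the height. -/
theorem length_le_height {R : Type u} [CommRing R] [IsNoetherianRing R] (P : Ideal R) [P.IsPrime]
    (zs : List R) (hzs : ∀ z ∈ zs, z ∈ P) (hreg : IsWeaklyRegular R zs) :
    (zs.length : ℕ∞) ≤ P.height := by
  have h1 := hreg.isRegular_of_isLocalization_of_mem (Localization.AtPrime P) P hzs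
  have h2 := ringKrullDim_add_length_eq_ringKrullDim_of_isRegular _ h1
  rw [IsLocalization.AtPrime.ringKrullDim_eq_height P (Localization.AtPrime P),
    List.length_map] at h2
  have h3 : 0 ≤ ringKrullDim (Localization.AtPrime P ⧸
      Ideal.ofList (zs.map (algebraMap R (Localization.AtPrime P)))) := by
    have : Nontrivial (Localization.AtPrime P ⧸
      Ideal.ofList (zs.map (algebraMap R (Localization.AtPrime P)))) := by
      rw [Ideal.Quotient.nontrivial_iff]
      intro htop
      apply h1.top_ne_smul
      rw [htop]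
      simp
    exact ringKrullDim_nonneg_of_nontrivial
  have h4 : ((zs.length : ℕ∞) : WithBot ℕ∞) ≤ (P.height : WithBot ℕ∞) := by
    rw [← h2]
    calc ((zs.length : ℕ∞) : WithBot ℕ∞) = 0 + ((zs.length : ℕ∞) : WithBot ℕ∞) := (zero_add _).symm
      _ ≤ _ := by gcongr; rfl
  exact_mod_cast h4

theorem exists_maximal_regular (ht : ringKrullDim T = t) (P : Ideal T) [P.IsPrime] :
    ∃ zs : List T, (∀ z ∈ zs, z ∈ P) ∧ IsWeaklyRegular T zs ∧
      ∀ z ∈ P, ¬ IsSMulRegular (T ⧸ (Ideal.ofList zs • ⊤ : Submodule T T)) z := by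
  by_contra hcon
  push Not at hcon
  have h1 : ∀ n : ℕ, ∃ zs : List T, zs.length = n ∧ (∀ z ∈ zs, z ∈ P) ∧ IsWeaklyRegular T zs := by
    intro n
    induction n with
    | zero => exact ⟨[], rfl, by simp, IsWeaklyRegular.nil _ _⟩
    | succ n ih =>
      obtain ⟨zs, hlen, hmem, hreg⟩ := ih
      obtain ⟨z, hz, hzr⟩ := hcon zs hmem hreg
      refine ⟨zs ++ [z], by simp [hlen], ?_, ?_⟩
      · intro y hy
        rw [List.mem_append, List.mem_singleton] at hy
        rcases hy with hy | rfl
        · exact hmem y hy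
        · exact hz
      · rw [isWeaklyRegular_append_iff]
        exact ⟨hreg, (isWeaklyRegular_singleton_iff _ _).2 hzr⟩
  obtain ⟨zs, hlen, hmem, hreg⟩ := h1 (t + 1)
  have h2 := length_le_height P zs hmem hreg
  have h3 : (P.height : WithBot ℕ∞) ≤ t := ht ▸ Ideal.height_le_ringKrullDim_of_isPrime
  rw [hlen] at h2
  have h4 : ((t + 1 : ℕ) : WithBot ℕ∞) ≤ t := le_trans (by exact_mod_cast h2) h3
  have h5 : t + 1 ≤ t := by exact_mod_cast h4
  omega

/-- The height and coheight of a prime of a regular local ring add up to the dimension, and the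
prime is associated to a complete intersection of the same height. -/
theorem exists_ci (ht : ringKrullDim T = t) (P : Ideal T) [hP : P.IsPrime] :
    ∃ zs : List T, (∀ z ∈ zs, z ∈ P) ∧ IsWeaklyRegular T zs ∧ zs.length ≤ t ∧
      P.height = zs.length ∧ Module.supportDim T (T ⧸ P) = ((t - zs.length : ℕ) : WithBot ℕ∞) ∧
      IsAssociatedPrime P (T ⧸ (Ideal.ofList zs • ⊤ : Submodule T T)) := by
  obtain ⟨zs, hmem, hreg, hmax⟩ := exists_maximal_regular ht P
  have hfin := associatedPrimes.finite T (T ⧸ (Ideal.ofList zs • ⊤ : Submodule T T))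
  have hsub : (P : Set T) ⊆ ⋃ I ∈ associatedPrimes T
      (T ⧸ (Ideal.ofList zs • ⊤ : Submodule T T)), (I : Set T) := by
    intro z hz
    rw [biUnion_associatedPrimes_eq_compl_regular]
    exact hmax z hz
  obtain ⟨P', hP', hle⟩ := (Ideal.subset_union_prime_finite hfin (f := id) ⊥ ⊥ (by
    intro I hI _ _
    exact hI.isPrime)).1 hsub
  change P ≤ P' at hle
  have hP'p := hP'.isPrime
  have hlen := length_le_height P zs hmem hreg
  have hPt : (P.height : WithBot ℕ∞) ≤ t := ht ▸ Ideal.height_le_ringKrullDim_of_isPrime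
  have hlt : zs.length ≤ t := by
    have h4 : ((zs.length : ℕ) : WithBot ℕ∞) ≤ t := le_trans (by exact_mod_cast hlen) hPt
    exact_mod_cast h4
  obtain ⟨ws, hws, hwm, hwr⟩ := exists_regular_ext_list ht T zs hreg 0
    (tor_self_residue_subsingleton T) (t - zs.length) (by omega)
  have hwr' := ((isWeaklyRegular_append_iff _ _ _).1 hwr).2
  have h5 := length_le_supportDim_of_isAssociatedPrime ws hwm _ hwr' P' hP'
  rw [hws] at h5
  have h6 := h5.trans (supportDim_quotient_mono hle)
  -- upper bound for the height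
  have hup : P.height ≤ zs.length := by
    by_contra hlt'
    rw [not_le] at hlt'
    have h7 : ((zs.length + 1 : ℕ) : ℕ∞) ≤ P.height := by
      rw [Nat.cast_add, Nat.cast_one]
      exact Order.add_one_le_of_lt hlt'
    have h8 := height_add_le _ _ h7 h6
    rw [ht] at h8
    have h9 : zs.length + 1 + (t - zs.length) ≤ t := by exact_mod_cast h8
    omega
  have hheight : P.height = zs.length := le_antisymm hup hlen
  have hupd : ∀ n : ℕ, (n : WithBot ℕ∞) ≤ Module.supportDim T (T ⧸ P) → n ≤ t - zs.length := by
    intro n hn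
    have h8 := height_add_le _ _ hlen hn
    rw [ht] at h8
    have h9 : zs.length + n ≤ t := by exact_mod_cast h8
    omega
  have hdim : Module.supportDim T (T ⧸ P) = ((t - zs.length : ℕ) : WithBot ℕ∞) := by
    apply le_antisymm _ h6
    by_contra hlt'
    rw [not_le] at hlt'
    have h7 : ((t - zs.length + 1 : ℕ) : WithBot ℕ∞) ≤ Module.supportDim T (T ⧸ P) :=
      succ_le_of_lt_withBot hlt'
    have := hupd _ h7
    omega
  refine ⟨zs, hmem, hreg, hlt, hheight, hdim, ?_⟩
  rcases hle.eq_or_lt with heq | hlt'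
  · rw [heq]; exact hP'
  · exfalso
    have := hupd _ (supportDim_quotient_strict hlt' _ h5)
    omega

end regular

end Vale.Agent.P177
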