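import Vale.Agent.P177.TorFlatIso

/-!
Serre's theorem: localizations of regular local rings are regular.
-/

namespace Vale.Agent.P177

open CategoryTheory TensorProduct Function IsLocalRing RingTheory.Sequence Pointwise

universe u

section crit

variable (S : Type u) [CommRing S] [IsLocalRing S] [IsNoetherianRing S]

/-- vanishing against the residue field -/
theorem tor_vanish_of_residue (n : ℕ) (Z : Type u) [AddCommGroup Z] [Module S Z]
    [Module.Finite S Z]
    (h : ∀ j, n ≤ j → Subsingleton (TorM S j (S ⧸ maximalIdeal S) Z))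
    (M : Type u) [AddCommGroup M] [Module S M] [Module.Finite S M] (j : ℕ) (hj : n ≤ j) :
    Subsingleton (TorM S j M Z) := by
  have h3 := local_crit (S := S) (B := S) n Z (fun j hj => by
    have := h j hj
    exact (torCongrLeft j (TensorProduct.lid S _) Z).toEquiv.subsingleton) M j hj
  exact (torCongrLeft j (TensorProduct.lid S M).symm Z).toEquiv.subsingleton

/-- If `k` embeds in `S` and `Tor_j(k,k)` vanishes for large `j` then `S` is a field. -/
theorem maximalIdeal_eq_bot_of_embedding (n₀ : ℕ)
    (h : ∀ j, n₀ ≤ j → Subsingleton (TorM S j (S ⧸ maximalIdeal S) (S ⧸ maximalIdeal S)))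
    (f : (S ⧸ maximalIdeal S) →ₗ[S] S) (hf : Injective f) : maximalIdeal S = ⊥ := by
  classical
  have hex : ∃ n, ∀ j, n ≤ j →
      Subsingleton (TorM S j (S ⧸ maximalIdeal S) (S ⧸ maximalIdeal S)) := ⟨n₀, h⟩
  obtain ⟨hn, hmin⟩ : (∀ j, Nat.find hex ≤ j →
      Subsingleton (TorM S j (S ⧸ maximalIdeal S) (S ⧸ maximalIdeal S))) ∧
      ∀ m, m < Nat.find hex → ¬ (∀ j, m ≤ j →
        Subsingleton (TorM S j (S ⧸ maximalIdeal S) (S ⧸ maximalIdeal S))) :=
    ⟨Nat.find_spec hex, fun m hm => Nat.find_min hex hm⟩
  generalize Nat.find hex = n at hn hmin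
  have hall := tor_vanish_of_residue S n (S ⧸ maximalIdeal S) hn
  rcases n with _ | _ | n
  · exfalso
    have h0 := hn 0 le_rfl
    have h1 := nontrivial_tor_zero (B := S) (S ⧸ maximalIdeal S) (S ⧸ maximalIdeal S)
    exact not_subsingleton _ h0
  · have h1 := hn 1 le_rfl
    by_contra hne
    have hnt : Nontrivial (maximalIdeal S) := Submodule.nontrivial_iff_ne_bot.2 hne
    have hex2 : Exact (maximalIdeal S).subtype (maximalIdeal S).mkQ :=
      LinearMap.exact_subtype_mkQ _
    obtain ⟨e⟩ := tor_one (maximalIdeal S).subtype (maximalIdeal S).mkQ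
      (Submodule.injective_subtype _) (Submodule.mkQ_surjective _) hex2 (S ⧸ maximalIdeal S)
    have h2 : LinearMap.ker ((maximalIdeal S).subtype.rTensor (S ⧸ maximalIdeal S)) = ⊤ := by
      rw [eq_top_iff]
      intro x _
      rw [LinearMap.mem_ker]
      induction x using TensorProduct.induction_on with
      | zero => simp
      | tmul a b =>
        obtain ⟨b, rfl⟩ := Submodule.mkQ_surjective _ b
        rw [LinearMap.rTensor_tmul]
        have h5 : ((maximalIdeal S).subtype a) ⊗ₜ[S] ((maximalIdeal S).mkQ b) =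
            (1 : S) ⊗ₜ[S] ((a : S) • (maximalIdeal S).mkQ b) := by
          rw [← TensorProduct.smul_tmul, smul_eq_mul, mul_one]
          rfl
        rw [h5, ← map_smul, smul_eq_mul]
        have h6 : (maximalIdeal S).mkQ ((a : S) * b) = 0 := by
          rw [Submodule.mkQ_apply, Submodule.Quotient.mk_eq_zero]
          exact Ideal.mul_mem_right _ _ a.2
        rw [h6, TensorProduct.tmul_zero]
      | add x y hx hy => rw [map_add, hx trivial, hy trivial, add_zero]
    have h3 : Subsingleton (LinearMap.ker
      ((maximalIdeal S).subtype.rTensor (S ⧸ maximalIdeal S))) := e.symm.toEquiv.subsingleton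
    have h4 := nontrivial_tor_zero (B := S) (maximalIdeal S) (S ⧸ maximalIdeal S)
    have h5 : Subsingleton (TorM S 0 (maximalIdeal S) (S ⧸ maximalIdeal S)) := by
      refine ⟨fun x y => ?_⟩
      apply (torZero (maximalIdeal S) (S ⧸ maximalIdeal S)).injective
      have hx : torZero (maximalIdeal S) (S ⧸ maximalIdeal S) x ∈ LinearMap.ker
        ((maximalIdeal S).subtype.rTensor (S ⧸ maximalIdeal S)) := by rw [h2]; trivial
      have hy : torZero (maximalIdeal S) (S ⧸ maximalIdeal S) y ∈ LinearMap.ker
        ((maximalIdeal S).subtype.rTensor (S ⧸ maximalIdeal S)) := by rw [h2]; trivial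
      exact congrArg Subtype.val (Subsingleton.elim (⟨_, hx⟩ : LinearMap.ker
        ((maximalIdeal S).subtype.rTensor (S ⧸ maximalIdeal S))) ⟨_, hy⟩)
    exact not_subsingleton _ h5
  · exfalso
    apply hmin (n + 1) (by omega)
    intro j hj
    rcases Nat.eq_or_lt_of_le hj with rfl | hlt
    · have hex3 : Exact f (LinearMap.range f).mkQ := LinearMap.exact_map_mkQ_range f
      obtain ⟨δ, h1, h2, -⟩ := exists_torDelta f (LinearMap.range f).mkQ hf
        (Submodule.mkQ_surjective _) hex3 (S ⧸ maximalIdeal S)
      have h4 : Subsingleton (TorM S (n + 1 + 1) (S ⧸ LinearMap.range f) (S ⧸ maximalIdeal S)) :=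
        hall _ _ le_rfl
      have h5 : Subsingleton (TorM S (n + 1) S (S ⧸ maximalIdeal S)) :=
        tor_subsingleton_of_flat n
      refine subsingleton_of_forall_eq 0 fun x => ?_
      obtain ⟨y, rfl⟩ := (h2 (n + 1) x).1 (Subsingleton.elim _ _)
      rw [Subsingleton.elim y 0, map_zero]
    · exact hn j (by omega)

/-- Choice of a good element. -/
theorem exists_regular_notMem_sq (hne : maximalIdeal S ≠ ⊥)
    (hass : maximalIdeal S ∉ associatedPrimes S S) :
    ∃ x ∈ maximalIdeal S, x ∉ maximalIdeal S ^ 2 ∧ IsSMulRegular S x := by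
  classical
  have hfin := associatedPrimes.finite S S
  by_contra hcon
  push Not at hcon
  have hsub : (maximalIdeal S : Set S) ⊆
      ⋃ i ∈ (↑(insert (maximalIdeal S ^ 2) hfin.toFinset) : Set (Ideal S)),
        ((id i : Ideal S) : Set S) := by
    intro z hz
    by_cases hz2 : z ∈ maximalIdeal S ^ 2
    · exact Set.mem_biUnion (Finset.mem_coe.mpr (Finset.mem_insert_self _ _)) hz2
    · have h1 := hcon z hz hz2
      have h2 : z ∈ ⋃ p ∈ associatedPrimes S S, (p : Set S) := by
        rw [biUnion_associatedPrimes_eq_compl_nonZeroDivisors]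
        intro h3
        apply h1
        intro a b hab
        have h4 : z * (a - b) = 0 := by
          rw [mul_sub, sub_eq_zero]
          exact hab
        exact sub_eq_zero.1 ((mem_nonZeroDivisors_iff.1 h3).1 _ h4)
      simp only [Set.mem_iUnion] at h2
      obtain ⟨P, hP, hzP⟩ := h2
      exact Set.mem_biUnion (Finset.mem_coe.mpr (Finset.mem_insert_of_mem
        (hfin.mem_toFinset.mpr hP))) hzP
  rw [Ideal.subset_union_prime (f := id) (maximalIdeal S ^ 2) (maximalIdeal S ^ 2)] at hsub
  · obtain ⟨P, hP, hle⟩ := hsub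
    rcases Finset.mem_insert.mp hP with rfl | hP
    · apply hne
      apply Submodule.eq_bot_of_le_smul_of_le_jacobson_bot (maximalIdeal S) _
        ((maximalIdeal S).fg_of_isNoetherianRing)
      · rw [smul_eq_mul, ← pow_two]; exact hle
      · rw [IsLocalRing.jacobson_eq_maximalIdeal _ bot_ne_top]
    · have hP2 := hfin.mem_toFinset.mp hP
      have hPp : P.IsPrime := hP2.1
      have hPeq : P = maximalIdeal S := le_antisymm (le_maximalIdeal hPp.ne_top) hle
      exact hass (hPeq ▸ hP2)
  · intro P hP h1 _
    rcases Finset.mem_insert.mp hP with rfl | hP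
    · exact absurd rfl h1
    · exact (hfin.mem_toFinset.mp hP).1

/-- A functional on the maximal ideal. -/
theorem exists_functional (x : maximalIdeal S) (hx : (x : S) ∉ maximalIdeal S ^ 2) :
    ∃ l : maximalIdeal S →ₗ[S] (S ⧸ maximalIdeal S), l x = Ideal.Quotient.mk _ 1 := by
  have h0 : (maximalIdeal S).toCotangent x ≠ 0 := by
    rw [Ne, Ideal.toCotangent_eq_zero]
    exact hx
  have h1 : ∃ f : Module.Dual (ResidueField S) (CotangentSpace S),
      f ((maximalIdeal S).toCotangent x) ≠ 0 := by
    by_contra hcon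
    push Not at hcon
    exact h0 ((Module.forall_dual_apply_eq_zero_iff (ResidueField S) _).1 hcon)
  obtain ⟨f, hf⟩ := h1
  let g : Module.Dual (ResidueField S) (CotangentSpace S) :=
    (f ((maximalIdeal S).toCotangent x))⁻¹ • f
  have hg : g ((maximalIdeal S).toCotangent x) = 1 := by
    change (f ((maximalIdeal S).toCotangent x))⁻¹ • f ((maximalIdeal S).toCotangent x) = 1
    rw [smul_eq_mul, inv_mul_cancel₀ hf]
  let l : maximalIdeal S →ₗ[S] ResidueField S :=
    (g.restrictScalars S) ∘ₗ (maximalIdeal S).toCotangent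
  exact ⟨l, hg⟩

end crit

section step

variable {S A : Type u} [CommRing S] [IsLocalRing S] [IsNoetherianRing S] [CommRing A]
  [IsLocalRing A] [Algebra S A]

omit [IsNoetherianRing S] in
theorem exists_residue_equiv (hsurj : Surjective (algebraMap S A)) :
    ∃ e : (S ⧸ maximalIdeal S) ≃ₗ[S] (A ⧸ maximalIdeal A),
      e (Submodule.Quotient.mk 1) = Submodule.Quotient.mk 1 := by
  let q : S →ₗ[S] (A ⧸ maximalIdeal A) :=
    ((maximalIdeal A).mkQ.restrictScalars S) ∘ₗ (Algebra.linearMap S A)
  have hq : Surjective q := (Submodule.mkQ_surjective _).comp hsurj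
  have hker : LinearMap.ker q = maximalIdeal S := by
    have h1 : LinearMap.ker q = (maximalIdeal A).comap (algebraMap S A) := by
      ext s
      rw [LinearMap.mem_ker, Ideal.mem_comap]
      change (maximalIdeal A).mkQ _ = 0 ↔ _
      rw [Submodule.mkQ_apply, Submodule.Quotient.mk_eq_zero]
      rfl
    rw [h1]
    have : IsLocalHom (algebraMap S A) := IsLocalHom.of_surjective _ hsurj
    exact ((IsLocalRing.local_hom_TFAE (algebraMap S A)).out 0 4).1 this
  refine ⟨Submodule.quotEquivOfEq _ _ hker.symm ≪≫ₗ q.quotKerEquivOfSurjective hq, ?_⟩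
  change q 1 = _
  change (maximalIdeal A).mkQ (algebraMap S A 1) = _
  rw [map_one]
  rfl

/-- Tor over `S/x` of the residue field vanishes if it does over `S`. -/
theorem tor_residue_quotient (x : S) (hx : x ∈ maximalIdeal S) (hx2 : x ∉ maximalIdeal S ^ 2)
    (H : IsHypersurface S A x) (n₀ : ℕ)
    (h : ∀ j, n₀ ≤ j → Subsingleton (TorM S j (S ⧸ maximalIdeal S) (S ⧸ maximalIdeal S)))
    (j : ℕ) (hj : n₀ + 1 ≤ j) :
    Subsingleton (TorM A j (A ⧸ maximalIdeal A) (A ⧸ maximalIdeal A)) := by
  have hm : (maximalIdeal S).map (algebraMap S A) = maximalIdeal A :=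
    map_maximalIdeal_of_surjective _ H.surj
  obtain ⟨e, he⟩ := exists_residue_equiv (S := S) (A := A) H.surj
  have hKreg : IsSMulRegular (maximalIdeal S) x := by
    intro a b hab
    apply Subtype.ext
    apply H.regular
    exact congrArg Subtype.val hab
  obtain ⟨X, _, _, _, _, φ, hφ⟩ := exists_baseChange (R := S) A (maximalIdeal S)
  have hX : Subsingleton (TorM A j X (A ⧸ maximalIdeal A)) := by
    have h1 := H.length_tor_baseChange j hφ hKreg (A ⧸ maximalIdeal A)
    rw [← Module.length_eq_zero_iff (R := A), ← h1, Module.length_eq_zero_iff]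
    obtain ⟨i, rfl⟩ : ∃ i, j = i + 1 := ⟨j - 1, by omega⟩
    obtain ⟨e2⟩ := tor_shift (maximalIdeal S).subtype (maximalIdeal S).mkQ
      (Submodule.injective_subtype _) (Submodule.mkQ_surjective _)
      (LinearMap.exact_subtype_mkQ _) (A ⧸ maximalIdeal A) i
    have h3 := h (i + 2) (by omega)
    have h4 : Subsingleton (TorM S (i + 2) (S ⧸ maximalIdeal S) (A ⧸ maximalIdeal A)) :=
      (torCongrRight (i + 2) (S ⧸ maximalIdeal S) e).symm.toEquiv.subsingleton
    exact e2.symm.toEquiv.subsingleton
  -- the splitting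
  obtain ⟨l, hl⟩ := exists_functional S ⟨x, hx⟩ hx2
  obtain ⟨π, hπ⟩ : ∃ π : X →ₗ[A] (A ⧸ maximalIdeal A), ∀ k, π (φ k) = e (l k) :=
    ⟨hφ.lift (e.toLinearMap ∘ₗ l), fun k => hφ.lift_eq _ k⟩
  have hkill : maximalIdeal A ≤ LinearMap.ker
      (LinearMap.toSpanSingleton A X (φ ⟨x, hx⟩)) := by
    rw [← hm, Ideal.map_le_iff_le_comap]
    intro s hs
    rw [Ideal.mem_comap, LinearMap.mem_ker, LinearMap.toSpanSingleton_apply, algebraMap_smul,
      ← map_smul]
    have h5 : s • (⟨x, hx⟩ : maximalIdeal S) = x • (⟨s, hs⟩ : maximalIdeal S) := by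
      apply Subtype.ext
      exact mul_comm s x
    rw [h5]
    exact H.baseChange_smul φ _
  let ι : (A ⧸ maximalIdeal A) →ₗ[A] X :=
    Submodule.liftQ _ (LinearMap.toSpanSingleton A X (φ ⟨x, hx⟩)) hkill
  have hι : ∀ a : A, ι (Submodule.Quotient.mk a) = a • φ ⟨x, hx⟩ := fun a => rfl
  have hπι : π ∘ₗ ι = LinearMap.id := by
    refine LinearMap.ext fun t => ?_
    obtain ⟨a, rfl⟩ := Submodule.Quotient.mk_surjective _ t
    rw [LinearMap.comp_apply, hι, map_smul, hπ, hl, LinearMap.id_apply]
    have h8 : e (Ideal.Quotient.mk (maximalIdeal S) 1) = Submodule.Quotient.mk 1 := he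
    rw [h8, ← Submodule.Quotient.mk_smul, smul_eq_mul, mul_one]
  refine subsingleton_of_forall_eq 0 fun t => ?_
  have h7 : torMap j π (A ⧸ maximalIdeal A) (torMap j ι (A ⧸ maximalIdeal A) t) = t := by
    have := congrArg (fun f => f t) (torMap_comp (N := (A ⧸ maximalIdeal A)) j ι π)
    rw [hπι, torMap_id] at this
    exact this.symm
  rw [← h7, Subsingleton.elim (torMap j ι (A ⧸ maximalIdeal A) t) 0, map_zero]

end step

section main

/-- Homological characterization of regularity. -/
theorem isRegularLocalRing_of_tor (d : ℕ) : ∀ (S : Type u) [CommRing S] [IsLocalRing S]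
    [IsNoetherianRing S] (n₀ : ℕ) (_ : ringKrullDim S = d)
    (_ : ∀ j, n₀ ≤ j → Subsingleton (TorM S j (S ⧸ maximalIdeal S) (S ⧸ maximalIdeal S))),
    IsRegularLocalRing S := by
  classical
  induction d with
  | zero =>
    intro S _ _ _ n₀ hd h
    by_cases hne : maximalIdeal S = ⊥
    · refine IsRegularLocalRing.of_spanFinrank_maximalIdeal_le S ?_
      rw [hne, Submodule.spanFinrank_bot, hd]
    · exfalso
      have hass : maximalIdeal S ∉ associatedPrimes S S := by
        intro hass
        obtain ⟨-, x, hx⟩ := isAssociatedPrime_iff.1 hass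
        have hker : maximalIdeal S = LinearMap.ker (LinearMap.toSpanSingleton S S x) := by
          rw [hx]
          ext a
          rw [Submodule.mem_colon_singleton, LinearMap.mem_ker]
          rfl
        exact hne (maximalIdeal_eq_bot_of_embedding S n₀ h
          ((maximalIdeal S).liftQ (LinearMap.toSpanSingleton S S x) hker.le) (by
            rw [← LinearMap.ker_eq_bot, Submodule.ker_liftQ_eq_bot']
            exact hker))
      obtain ⟨x, hx, -, hreg⟩ := exists_regular_notMem_sq S hne hass
      have h1 := ringKrullDim_quotient_span_singleton_succ_eq_ringKrullDim hreg hx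
      have hnt : Nontrivial (S ⧸ Ideal.span {x}) := by
        rw [Ideal.Quotient.nontrivial_iff, Ne, Ideal.span_singleton_eq_top]
        exact hx
      have h2 : (0 : WithBot ℕ∞) ≤ ringKrullDim (S ⧸ Ideal.span {x}) :=
        ringKrullDim_nonneg_of_nontrivial
      rw [hd] at h1
      have h3 : (0 : WithBot ℕ∞) + 1 ≤ 0 := by
        calc (0 : WithBot ℕ∞) + 1 ≤ ringKrullDim (S ⧸ Ideal.span {x}) + 1 := by gcongr
          _ = 0 := by rw [h1]; rfl
      rw [zero_add] at h3
      exact absurd h3 (by decide)
  | succ d ih =>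
    intro S _ _ _ n₀ hd h
    have hne : maximalIdeal S ≠ ⊥ := by
      intro hb
      have h1 := ringKrullDim_le_spanFinrank_maximalIdeal S
      rw [hb, Submodule.spanFinrank_bot, hd] at h1
      norm_cast at h1
    have hass : maximalIdeal S ∉ associatedPrimes S S := by
      intro hass
      obtain ⟨-, x, hx⟩ := isAssociatedPrime_iff.1 hass
      have hker : maximalIdeal S = LinearMap.ker (LinearMap.toSpanSingleton S S x) := by
        rw [hx]
        ext a
        rw [Submodule.mem_colon_singleton, LinearMap.mem_ker]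
        rfl
      exact hne (maximalIdeal_eq_bot_of_embedding S n₀ h
        ((maximalIdeal S).liftQ (LinearMap.toSpanSingleton S S x) hker.le) (by
          rw [← LinearMap.ker_eq_bot, Submodule.ker_liftQ_eq_bot']
          exact hker))
    obtain ⟨x, hx, hx2, hreg⟩ := exists_regular_notMem_sq S hne hass
    have h1 := ringKrullDim_quotient_span_singleton_succ_eq_ringKrullDim hreg hx
    have hnt : Nontrivial (S ⧸ Ideal.span {x}) := by
      rw [Ideal.Quotient.nontrivial_iff, Ne, Ideal.span_singleton_eq_top]
      exact hx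
    have hloc : IsLocalRing (S ⧸ Ideal.span {x}) :=
      IsLocalRing.of_surjective' (Ideal.Quotient.mk _) Ideal.Quotient.mk_surjective
    have H : IsHypersurface S (S ⧸ Ideal.span {x}) x :=
      { regular := hreg
        surj := Ideal.Quotient.mk_surjective
        ker := Ideal.mk_ker }
    obtain ⟨n, hn⟩ := exists_nat_eq_ringKrullDim (S ⧸ Ideal.span {x})
    have hnd : n = d := by
      rw [hn, hd] at h1
      norm_cast at h1
      omega
    subst hnd
    have hreg' := ih (S ⧸ Ideal.span {x}) (n₀ + 1) hn
      (fun j hj => tor_residue_quotient x hx hx2 H n₀ h j hj)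
    -- generators
    obtain ⟨s, hcard, hs⟩ := Submodule.FG.exists_span_finset_card_eq_spanFinrank
      ((maximalIdeal (S ⧸ Ideal.span {x})).fg_of_isNoetherianRing)
    change Ideal.span (s : Set (S ⧸ Ideal.span {x})) = maximalIdeal (S ⧸ Ideal.span {x}) at hs
    have hm : (maximalIdeal S).map (Ideal.Quotient.mk (Ideal.span {x})) =
        maximalIdeal (S ⧸ Ideal.span {x}) :=
      map_maximalIdeal_of_surjective _ Ideal.Quotient.mk_surjective
    let lift : (S ⧸ Ideal.span {x}) → S := surjInv Ideal.Quotient.mk_surjective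
    have hlift : ∀ y, Ideal.Quotient.mk (Ideal.span {x}) (lift y) = y :=
      surjInv_eq Ideal.Quotient.mk_surjective
    have hspan : maximalIdeal S = Ideal.span ((insert x (s.image lift) : Finset S) : Set S) := by
      apply le_antisymm
      · intro z hz
        have h4 : Ideal.Quotient.mk (Ideal.span {x}) z ∈
            (Ideal.span ((s.image lift : Finset S) : Set S)).map
              (Ideal.Quotient.mk (Ideal.span {x})) := by
          rw [Ideal.map_span, Finset.coe_image, ← Set.image_comp]
          have h5 : (Ideal.Quotient.mk (Ideal.span {x}) ∘ lift) '' (s : Set _) = s := by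
            rw [show (Ideal.Quotient.mk (Ideal.span {x}) ∘ lift) = id from funext hlift]
            simp
          rw [h5, hs, ← hm]
          exact Ideal.mem_map_of_mem _ hz
        rw [Ideal.mem_map_iff_of_surjective _ Ideal.Quotient.mk_surjective] at h4
        obtain ⟨w, hw, hwz⟩ := h4
        rw [Ideal.Quotient.mk_eq_mk_iff_sub_mem] at hwz
        have h6 : z = w - (w - z) := by ring
        rw [h6]
        apply Ideal.sub_mem
        · exact Ideal.span_mono (by simp) hw
        · exact Ideal.span_mono (by simp) hwz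
      · rw [Ideal.span_le]
        intro z hz
        rw [Finset.coe_insert] at hz
        rcases hz with rfl | hz
        · exact hx
        · rw [Finset.coe_image] at hz
          obtain ⟨y, hy, rfl⟩ := hz
          have h7 : y ∈ maximalIdeal (S ⧸ Ideal.span {x}) := by
            rw [← hs]
            exact Ideal.subset_span hy
          have hl : IsLocalHom (Ideal.Quotient.mk (Ideal.span {x})) :=
            IsLocalHom.of_surjective _ Ideal.Quotient.mk_surjective
          change lift y ∈ maximalIdeal S
          rw [mem_maximalIdeal, mem_nonunits_iff] at h7 ⊢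
          intro hu
          apply h7
          rw [← hlift y]
          exact hu.map _
    refine IsRegularLocalRing.of_spanFinrank_maximalIdeal_le S ?_
    have h8 : (maximalIdeal S).spanFinrank ≤ (insert x (s.image lift)).card := by
      rw [hspan]
      refine (Submodule.spanFinrank_span_le_ncard_of_finite (Finset.finite_toSet _)).trans ?_
      rw [Set.ncard_coe_finset]
    have h9 : (insert x (s.image lift)).card ≤ s.card + 1 :=
      (Finset.card_insert_le _ _).trans (by
        gcongr
        exact Finset.card_image_le)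
    have h10 : s.card = n := by
      have h11 := exists_nat_ringKrullDim (S ⧸ Ideal.span {x})
      rw [hn] at h11
      rw [hcard]
      exact_mod_cast h11.symm
    rw [hd]
    have : (maximalIdeal S).spanFinrank ≤ n + 1 := by omega
    exact_mod_cast this

/-- Localizations of regular local rings at primes are regular. -/
theorem isRegularLocalRing_localization (R : Type u) [CommRing R] [IsRegularLocalRing R]
    (P : Ideal R) [hP : P.IsPrime] (B : Type u) [CommRing B] [Algebra R B]
    [IsLocalization.AtPrime B P] [IsLocalRing B] : IsRegularLocalRing B := by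
  have hflat : Module.Flat R B := IsLocalization.flat B P.primeCompl
  have hnoe : IsNoetherianRing B := IsLocalization.isNoetherianRing P.primeCompl B inferInstance
  obtain ⟨d, hd⟩ := exists_nat_eq_ringKrullDim R
  obtain ⟨e, he⟩ := exists_nat_eq_ringKrullDim B
  refine isRegularLocalRing_of_tor e B (d + 1) he ?_
  intro j hj
  have h1 := regular_tor_vanish R d hd (R ⧸ P) (R ⧸ P) j hj
  have hm : P.map (algebraMap R B) = maximalIdeal B :=
    IsLocalization.AtPrime.map_eq_maximalIdeal P B
  have h2 : (B ⊗[R] (R ⧸ P)) ≃ₗ[B] (B ⧸ maximalIdeal B) :=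
    (Algebra.TensorProduct.quotIdealMapEquivTensorQuot B P).symm.toLinearEquiv ≪≫ₗ
      Submodule.quotEquivOfEq _ _ hm
  obtain ⟨e1⟩ := exists_tor_flat_iso (C := B) j (TensorProduct.isBaseChange R (R ⧸ P) B)
    (TensorProduct.isBaseChange R (R ⧸ P) B)
  have h3 : Subsingleton (B ⊗[R] (TorM R j (R ⧸ P) (R ⧸ P))) := inferInstance
  have h4 : Subsingleton (TorM B j (B ⊗[R] (R ⧸ P)) (B ⊗[R] (R ⧸ P))) :=
    e1.toEquiv.subsingleton
  have h5 : Subsingleton (TorM B j (B ⧸ maximalIdeal B) (B ⊗[R] (R ⧸ P))) :=
    (torCongrLeft j h2 _).symm.toEquiv.subsingleton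
  exact (torCongrRight j _ h2).symm.toEquiv.subsingleton

theorem isRegularRing_of_isRegularLocalRing (R : Type u) [CommRing R] [IsRegularLocalRing R] :
    IsRegularRing R := by
  rw [isRegularRing_iff]
  intro p hp
  exact isRegularLocalRing_localization R p (Localization.AtPrime p)

end main

end Vale.Agent.P177
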