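import Vale.Agent.P177.CLocDef
import Vale.Agent.P177.CDim
import Vale.Agent.P177.RegularLocalization

/-!
The associativity formula for the Koszul Euler characteristic.
-/

namespace Vale.Agent.P177

open CategoryTheory TensorProduct Function IsLocalRing RingTheory.Sequence Pointwise

universe u

section vanish

variable {B : Type u} [CommRing B] [IsLocalRing B] [IsNoetherianRing B]

theorem eul_eq_zero_of_dim_lt (zs : List B) (hzs : ∀ z ∈ zs, z ∈ maximalIdeal B) (X : Type u)
    [AddCommGroup X] [Module B X] [Module.Finite B X] (hX : FL zs X)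
    (hd : Module.supportDim B X < (zs.length : WithBot ℕ∞)) : eul zs X = 0 := by
  induction zs generalizing X with
  | nil =>
    have h1 : Module.supportDim B X = ⊥ := by
      by_contra hne
      rw [← ne_eq, Module.supportDim_ne_bot_iff_nontrivial] at hne
      have h2 : (0 : WithBot ℕ∞) ≤ Module.supportDim B X := by
        have h3 := (Module.supportDim_ne_bot_iff_nontrivial B X).2 hne
        generalize Module.supportDim B X = c at h3 ⊢
        induction c using WithBot.recBotCoe with
        | bot => exact absurd rfl h3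
        | coe a => exact_mod_cast bot_le
      rw [List.length_nil] at hd
      exact absurd h2 (not_le.2 (by exact_mod_cast hd))
    rw [Module.supportDim_eq_bot_iff_subsingleton] at h1
    exact eul_subsingleton _ X
  | cons z zs ih =>
    obtain ⟨n, Γ, hΓ, hreg⟩ := exists_torsion_pow X z
    have hzs' : ∀ y ∈ zs, y ∈ maximalIdeal B := fun y hy => hzs y (List.mem_cons_of_mem _ hy)
    have hex : Exact Γ.subtype Γ.mkQ := LinearMap.exact_subtype_mkQ Γ
    have hadd := eul_add (z :: zs) Γ.subtype Γ.mkQ (Submodule.injective_subtype _)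
      (Submodule.mkQ_surjective _) hex hX
    have hFLΓ : FL (z :: zs) Γ := hX.of_injective Γ.subtype (Submodule.injective_subtype _)
    have hFLΓ' : FL zs Γ := hFLΓ.of_pow n hΓ
    have hFLQ : FL (z :: zs) (X ⧸ Γ) := hX.of_surjective Γ.mkQ (Submodule.mkQ_surjective _)
    rw [eul_cons_eq_zero z zs Γ hFLΓ', zero_add] at hadd
    have htors : Subsingleton (Submodule.torsionBy B (X ⧸ Γ) z) := by
      refine subsingleton_of_forall_eq 0 ?_
      rintro ⟨x, hx⟩
      apply Subtype.ext
      rw [isSMulRegular_iff_right_eq_zero_of_smul] at hreg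
      exact hreg x hx
    have h2 : eul (z :: zs) (X ⧸ Γ) = eul zs (QuotSMulTop z (X ⧸ Γ)) := by
      change eul zs (QuotSMulTop z (X ⧸ Γ)) - eul zs (Submodule.torsionBy B (X ⧸ Γ) z) = _
      rw [eul_subsingleton zs (Submodule.torsionBy B (X ⧸ Γ) z), sub_zero]
    rw [hadd, h2]
    apply ih hzs' _ hFLQ.quot
    have h3 := Module.supportDim_quotSMulTop_succ_eq_supportDim hreg (hzs z List.mem_cons_self)
    have h4 : Module.supportDim B (X ⧸ Γ) < ((z :: zs).length : WithBot ℕ∞) :=
      lt_of_le_of_lt (Module.supportDim_le_of_surjective Γ.mkQ (Submodule.mkQ_surjective _)) hd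
    rw [← h3, List.length_cons] at h4
    push_cast at h4
    generalize Module.supportDim B (QuotSMulTop z (X ⧸ Γ)) = a at h4 ⊢
    induction a using WithBot.recBotCoe with
    | bot => exact WithBot.bot_lt_coe _
    | coe a =>
      have h7 : a + 1 < ((zs.length : ℕ∞) + 1) := by exact_mod_cast h4
      have h8 : a < (zs.length : ℕ∞) := by
        by_contra hcon
        rw [not_lt] at hcon
        exact absurd h7 (not_lt.2 (by gcongr))
      exact_mod_cast h8

end vanish

section locLen

variable {T : Type u} [CommRing T]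

/-- Length of the localization at a prime. -/
noncomputable def locLen (Q : Ideal T) [Q.IsPrime] (X : Type u) [AddCommGroup X] [Module T X] :
    ℕ∞ :=
  Module.length (Localization.AtPrime Q) (Localization.AtPrime Q ⊗[T] X)

theorem locLen_add (Q : Ideal T) [Q.IsPrime] {X' X X'' : Type u} [AddCommGroup X'] [Module T X']
    [AddCommGroup X] [Module T X] [AddCommGroup X''] [Module T X'']
    (f : X' →ₗ[T] X) (g : X →ₗ[T] X'') (hf : Injective f) (hg : Surjective g) (h : Exact f g) :
    locLen Q X = locLen Q X' + locLen Q X'' := by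
  have hflat : Module.Flat T (Localization.AtPrime Q) := IsLocalization.flat _ Q.primeCompl
  obtain ⟨h1, h2, h3⟩ := baseChange_ses (B := Localization.AtPrime Q) f g hf hg h
  exact Module.length_eq_add_of_exact _ _ h1 h2 h3

theorem locLen_congr (Q : Ideal T) [Q.IsPrime] {X Y : Type u} [AddCommGroup X] [Module T X]
    [AddCommGroup Y] [Module T Y] (e : X ≃ₗ[T] Y) : locLen Q X = locLen Q Y :=
  (e.baseChange T (Localization.AtPrime Q) _ _).length_eq

/-- an element outside `Q` killing `X` -/
theorem locLen_eq_zero (Q : Ideal T) [Q.IsPrime] (X : Type u) [AddCommGroup X] [Module T X]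
    (a : T) (ha : a ∉ Q) (h : ∀ x : X, a • x = 0) : locLen Q X = 0 := by
  unfold locLen
  rw [Module.length_eq_zero_iff]
  have hu : IsUnit (algebraMap T (Localization.AtPrime Q) a) :=
    IsLocalization.map_units (Localization.AtPrime Q) (⟨a, ha⟩ : Q.primeCompl)
  refine subsingleton_of_forall_eq 0 fun z => ?_
  have h1 : algebraMap T (Localization.AtPrime Q) a • z = 0 := by
    induction z using TensorProduct.induction_on with
    | zero => exact smul_zero _
    | tmul b x =>
      rw [TensorProduct.smul_tmul', smul_eq_mul, ← Algebra.smul_def, TensorProduct.smul_tmul, h,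
        TensorProduct.tmul_zero]
    | add x y hx hy => rw [smul_add, hx, hy, add_zero]
  obtain ⟨v, hv⟩ := hu
  rw [← hv] at h1
  have h2 := congrArg (fun t => (v⁻¹ : (Localization.AtPrime Q)ˣ) • t) h1
  simpa [Units.smul_def, smul_smul] using h2

theorem locLen_self (Q : Ideal T) [Q.IsPrime] : locLen Q (T ⧸ Q) = 1 := by
  unfold locLen
  have hm : Q.map (algebraMap T (Localization.AtPrime Q)) =
      maximalIdeal (Localization.AtPrime Q) :=
    IsLocalization.AtPrime.map_eq_maximalIdeal Q (Localization.AtPrime Q)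
  have e : (Localization.AtPrime Q ⊗[T] (T ⧸ Q)) ≃ₗ[Localization.AtPrime Q]
      (Localization.AtPrime Q ⧸ maximalIdeal (Localization.AtPrime Q)) :=
    (Algebra.TensorProduct.quotIdealMapEquivTensorQuot _ Q).symm.toLinearEquiv ≪≫ₗ
      Submodule.quotEquivOfEq _ _ hm
  rw [e.length_eq, Module.length_eq_one_iff]
  exact isSimpleModule_iff_quot_maximal.mpr ⟨_, inferInstance, ⟨LinearEquiv.refl _ _⟩⟩

end locLen

section assoc

variable {T : Type u} [CommRing T] [IsLocalRing T] [IsNoetherianRing T]

/-- The associativity formula. -/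
theorem assoc_formula (zs : List T) (hzs : ∀ z ∈ zs, z ∈ maximalIdeal T)
    (W : Finset (PrimeSpectrum T))
    (hW : ∀ Q ∈ W, Module.supportDim T (T ⧸ Q.asIdeal) = (zs.length : WithBot ℕ∞))
    (X : Type u) [AddCommGroup X] [Module T X] [Module.Finite T X] (hX : FL zs X)
    (hcov : ∀ Q ∈ Module.support T X, (zs.length : WithBot ℕ∞) ≤
      Module.supportDim T (T ⧸ Q.asIdeal) → Q ∈ W) :
    (∀ Q ∈ W, locLen Q.asIdeal X ≠ ⊤) ∧
      eul zs X = ∑ Q ∈ W, ((locLen Q.asIdeal X).toNat : ℤ) * eul zs (T ⧸ Q.asIdeal) := by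
  classical
  suffices H : ∀ (X : Type u) [AddCommGroup X] [Module T X] (_ : Module.Finite T X), FL zs X →
      (∀ Q ∈ Module.support T X, (zs.length : WithBot ℕ∞) ≤
        Module.supportDim T (T ⧸ Q.asIdeal) → Q ∈ W) →
      (∀ Q ∈ W, locLen Q.asIdeal X ≠ ⊤) ∧
      eul zs X = ∑ Q ∈ W, ((locLen Q.asIdeal X).toNat : ℤ) * eul zs (T ⧸ Q.asIdeal) from
    H X inferInstance hX hcov
  intro X _ _ hfin
  induction hfin using IsNoetherianRing.induction_on_isQuotientEquivQuotientPrime T with
  | subsingleton N =>
    intro _ _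
    have h0 : ∀ Q : PrimeSpectrum T, locLen Q.asIdeal N = 0 := fun Q =>
      locLen_eq_zero Q.asIdeal N 1 (fun h => Q.2.ne_top ((Ideal.eq_top_iff_one _).2 h))
        (fun x => Subsingleton.elim _ _)
    refine ⟨fun Q _ => by rw [h0]; simp, ?_⟩
    rw [eul_subsingleton]
    symm
    apply Finset.sum_eq_zero
    intro Q _
    rw [h0]
    simp
  | quotient N P e =>
    intro hFL hcov
    have hFL' : FL zs (T ⧸ P.1) := hFL.of_surjective e.toLinearMap e.surjective
    have hPmem : P ∈ Module.support T N := by
      rw [e.support_eq, support_quotient_prime]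
    -- vanishing of the other local lengths
    have hzero : ∀ Q ∈ W, Q ≠ P → locLen Q.asIdeal N = 0 := by
      intro Q hQ hne
      rw [locLen_congr Q.asIdeal e]
      have hnle : ¬ P.asIdeal ≤ Q.asIdeal := by
        intro hle
        have hlt : P.asIdeal < Q.asIdeal := lt_of_le_of_ne hle
          (fun h => hne (PrimeSpectrum.ext h.symm))
        have h1 := supportDim_quotient_strict hlt zs.length (hW Q hQ).ge
        have h2 := supportDim_le_length zs hzs (T ⧸ P.asIdeal) hFL'
        have h3 := h1.trans h2
        have h4 : zs.length + 1 ≤ zs.length := by exact_mod_cast h3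
        omega
      obtain ⟨a, haP, haQ⟩ := Set.not_subset.1 hnle
      refine locLen_eq_zero Q.asIdeal _ a haQ (fun x => ?_)
      obtain ⟨x, rfl⟩ := Ideal.Quotient.mk_surjective x
      change Ideal.Quotient.mk P.asIdeal (a * x) = 0
      exact Ideal.Quotient.eq_zero_iff_mem.2 (Ideal.mul_mem_right _ _ haP)
    have hone : locLen P.asIdeal N = 1 := by
      rw [locLen_congr P.asIdeal e, locLen_self]
    refine ⟨?_, ?_⟩
    · intro Q hQ
      by_cases hQP : Q = P
      · rw [hQP, hone]
        simp
      · rw [hzero Q hQ hQP]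
        simp
    · rw [eul_congr zs e]
      by_cases hP : P ∈ W
      · rw [Finset.sum_eq_single_of_mem P hP]
        · rw [hone]
          simp
        · intro Q hQ hne
          rw [hzero Q hQ hne]
          simp
      · have hd : Module.supportDim T (T ⧸ P.asIdeal) < (zs.length : WithBot ℕ∞) := by
          by_contra hcon
          exact hP (hcov P hPmem (not_lt.1 hcon))
        rw [eul_eq_zero_of_dim_lt zs hzs _ hFL' hd]
        symm
        apply Finset.sum_eq_zero
        intro Q hQ
        rw [hzero Q hQ (fun h => hP (h ▸ hQ))]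
        simp
  | exact N₁ N₂ N₃ f g hf hg h ih1 ih3 =>
    intro hFL hcov
    obtain ⟨a1, a2⟩ := ih1 (hFL.of_injective f hf)
      (fun Q hQ => hcov Q (Module.support_subset_of_injective f hf hQ))
    obtain ⟨b1, b2⟩ := ih3 (hFL.of_surjective g hg)
      (fun Q hQ => hcov Q (Module.support_subset_of_surjective g hg hQ))
    have hadd : ∀ Q ∈ W, locLen Q.asIdeal N₂ = locLen Q.asIdeal N₁ + locLen Q.asIdeal N₃ :=
      fun Q _ => locLen_add Q.asIdeal f g hf hg h
    refine ⟨?_, ?_⟩
    · intro Q hQ
      rw [hadd Q hQ]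
      exact WithTop.add_ne_top.2 ⟨a1 Q hQ, b1 Q hQ⟩
    · rw [eul_add zs f g hf hg h hFL, a2, b2, ← Finset.sum_add_distrib]
      refine Finset.sum_congr rfl fun Q hQ => ?_
      rw [hadd Q hQ, ENat.toNat_add (a1 Q hQ) (b1 Q hQ)]
      push_cast
      ring

end assoc

end Vale.Agent.P177
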