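import Vale.Agent.P177.TorApi

/-!
Tor in degree zero, dimension shifting, finiteness, annihilators and symmetry of Tor.
-/

namespace Vale.Agent.P177

open CategoryTheory MonoidalCategory Limits TensorProduct

universe u v

lemma fromLeftDerivedZero_natural {C D : Type*} [Category C] [Category D]
    [Abelian C] [HasProjectiveResolutions C] [Abelian D] {F G : C ⥤ D} [F.Additive] [G.Additive]
    (α : F ⟶ G) (X : C) :
    (NatTrans.leftDerived α 0).app X ≫ G.fromLeftDerivedZero.app X =
      F.fromLeftDerivedZero.app X ≫ α.app X := by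
  let P := projectiveResolution X
  rw [P.fromLeftDerivedZero_eq F, P.fromLeftDerivedZero_eq G, P.leftDerived_app_eq α 0]
  simp only [Category.assoc, Iso.inv_hom_id_assoc]
  congr 1
  have h1 : HomologicalComplex.opcyclesMap
      ((NatTrans.mapHomologicalComplex α (ComplexShape.down ℕ)).app P.complex) 0 ≫
        P.fromLeftDerivedZero' G = P.fromLeftDerivedZero' F ≫ α.app X := by
    rw [← cancel_epi (HomologicalComplex.pOpcycles _ _)]
    simp only [HomologicalComplex.p_opcyclesMap_assoc]
    rw [ProjectiveResolution.pOpcycles_comp_fromLeftDerivedZero']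
    rw [ProjectiveResolution.pOpcycles_comp_fromLeftDerivedZero'_assoc]
    exact (α.naturality _).symm
  refine Eq.trans ?_ (Category.assoc _ _ _).symm
  rw [← h1]
  exact HomologicalComplex.homologyι_naturality_assoc _ _ _

variable {R : Type u} [CommRing R]
variable {M M' M'' N N' K F : Type u} [AddCommGroup M] [Module R M] [AddCommGroup M'] [Module R M']
  [AddCommGroup M''] [Module R M''] [AddCommGroup N] [Module R N] [AddCommGroup N'] [Module R N']
  [AddCommGroup K] [Module R K] [AddCommGroup F] [Module R F]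

/-- `Tor_0(M,N) ≃ M ⊗ N`. -/
noncomputable def torZero (M N : Type u) [AddCommGroup M] [Module R M]
    [AddCommGroup N] [Module R N] : TorM R 0 M N ≃ₗ[R] M ⊗[R] N :=
  (((tensorLeft (ModuleCat.of R M)).leftDerivedZeroIsoSelf).app (ModuleCat.of R N)).toLinearEquiv

theorem torZero_naturality (f : M →ₗ[R] M') (x : TorM R 0 M N) :
    torZero M' N (torMap 0 f N x) = f.rTensor N (torZero M N x) := by
  have h := fromLeftDerivedZero_natural
    ((tensoringLeft (ModuleCat.{u} R)).map (ModuleCat.ofHom f)) (ModuleCat.of R N)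
  have h2 := congrArg (fun t => t.hom x) h
  exact h2

theorem torZero_naturality' (f : M →ₗ[R] M') :
    (torZero M' N).toLinearMap ∘ₗ torMap 0 f N = f.rTensor N ∘ₗ (torZero M N).toLinearMap := by
  ext x
  exact torZero_naturality f x

/-- Dimension shifting in the first variable. -/
theorem tor_shift [Module.Flat R F] (f : K →ₗ[R] F) (g : F →ₗ[R] M) (hf : Function.Injective f)
    (hg : Function.Surjective g) (h : Function.Exact f g) (N : Type u) [AddCommGroup N]
    [Module R N] (n : ℕ) : Nonempty (TorM R (n + 2) M N ≃ₗ[R] TorM R (n + 1) K N) := by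
  obtain ⟨δ, h1, h2, -⟩ := exists_torDelta f g hf hg h N
  have s1 : Subsingleton (TorM R (n + 2) F N) := tor_subsingleton_of_flat (n + 1)
  have s2 : Subsingleton (TorM R (n + 1) F N) := tor_subsingleton_of_flat n
  refine ⟨LinearEquiv.ofBijective (δ (n + 1)) ⟨?_, ?_⟩⟩
  · rw [injective_iff_map_eq_zero]
    intro x hx
    obtain ⟨y, rfl⟩ := (h1 (n + 1) x).1 hx
    rw [Subsingleton.elim y 0, map_zero]
  · intro x
    exact (h2 (n + 1) x).1 (Subsingleton.elim _ _)

/-- `Tor_1(M,N)` as a kernel. -/
theorem tor_one [Module.Flat R F] (f : K →ₗ[R] F) (g : F →ₗ[R] M) (hf : Function.Injective f)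
    (hg : Function.Surjective g) (h : Function.Exact f g) (N : Type u) [AddCommGroup N]
    [Module R N] : Nonempty (TorM R 1 M N ≃ₗ[R] LinearMap.ker (f.rTensor N)) := by
  obtain ⟨δ, h1, h2, -⟩ := exists_torDelta f g hf hg h N
  have s1 : Subsingleton (TorM R 1 F N) := tor_subsingleton_of_flat 0
  let φ : TorM R 1 M N →ₗ[R] K ⊗[R] N := (torZero K N).toLinearMap ∘ₗ δ 0
  have hφ : ∀ x, φ x ∈ LinearMap.ker (f.rTensor N) := by
    intro x
    rw [LinearMap.mem_ker]
    change f.rTensor N (torZero K N (δ 0 x)) = 0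
    rw [← torZero_naturality, (h2 0 _).2 ⟨x, rfl⟩, map_zero]
  refine ⟨LinearEquiv.ofBijective (φ.codRestrict _ hφ) ⟨?_, ?_⟩⟩
  · rw [injective_iff_map_eq_zero]
    intro x hx
    have hx' : φ x = 0 := congrArg Subtype.val hx
    have hx2 : δ 0 x = 0 := (torZero K N).injective (by rw [map_zero]; exact hx')
    obtain ⟨y, rfl⟩ := (h1 0 x).1 hx2
    rw [Subsingleton.elim y 0, map_zero]
  · rintro ⟨x, hx⟩
    rw [LinearMap.mem_ker] at hx
    have : torMap 0 f N ((torZero K N).symm x) = 0 := by
      apply (torZero F N).injective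
      rw [torZero_naturality, LinearEquiv.apply_symm_apply, hx, map_zero]
    obtain ⟨y, hy⟩ := (h2 0 _).1 this
    refine ⟨y, Subtype.ext ?_⟩
    change torZero K N (δ 0 y) = x
    rw [hy, LinearEquiv.apply_symm_apply]

/-- Finite presentation step: a short exact sequence with finite free middle term. -/
theorem exists_finite_free_cover [IsNoetherianRing R] (M : Type u) [AddCommGroup M] [Module R M]
    [Module.Finite R M] :
    ∃ (m : ℕ) (K : Submodule R (Fin m → R)) (g : (Fin m → R) →ₗ[R] M),
      Function.Surjective g ∧ Function.Exact K.subtype g := by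
  obtain ⟨m, g, hg⟩ := Module.Finite.exists_fin' R M
  refine ⟨m, LinearMap.ker g, g, hg, ?_⟩
  intro x
  simp

/-- Tor is finitely generated. -/
theorem tor_finite [IsNoetherianRing R] (n : ℕ) (M N : Type u) [AddCommGroup M] [Module R M]
    [AddCommGroup N] [Module R N] [Module.Finite R M] [Module.Finite R N] :
    Module.Finite R (TorM R n M N) := by
  induction n generalizing M with
  | zero => exact Module.Finite.equiv (torZero M N).symm
  | succ n ih =>
    obtain ⟨m, K, g, hg, h⟩ := exists_finite_free_cover (R := R) M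
    cases n with
    | zero =>
      obtain ⟨e⟩ := tor_one K.subtype g K.injective_subtype hg h N
      have hK : Module.Finite R K := inferInstance
      have hKN : Module.Finite R (K ⊗[R] N) := inferInstance
      have hn := isNoetherian_of_isNoetherianRing_of_finite R (K ⊗[R] N)
      exact Module.Finite.of_injective
        ((LinearMap.ker (K.subtype.rTensor N)).subtype ∘ₗ e.toLinearMap)
        ((Submodule.injective_subtype _).comp e.injective)
    | succ n =>
      obtain ⟨e⟩ := tor_shift K.subtype g K.injective_subtype hg h N n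
      have := ih K
      exact Module.Finite.equiv e.symm

/-! ### Annihilators -/

/-- An element killing all the terms of a complex kills its homology. -/
theorem homology_smul_eq_zero (L : ChainComplex (ModuleCat.{u} R) ℕ) (a : R) (n : ℕ)
    (h : ∀ x : L.X n, a • x = 0) (y : L.homology n) : a • y = 0 := by
  have hπ : Function.Surjective (L.homologyπ n) :=
    (ModuleCat.epi_iff_surjective _).1 inferInstance
  have hi : Function.Injective (L.iCycles n) :=
    (ModuleCat.mono_iff_injective _).1 inferInstance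
  obtain ⟨z, rfl⟩ := hπ y
  have : a • z = 0 := by
    apply hi
    rw [map_smul, map_zero]
    exact h _
  rw [← map_smul, this, map_zero]

theorem tensor_smul_eq_zero_left (a : R) (h : ∀ m : M, a • m = 0) (y : M ⊗[R] N) :
    a • y = 0 := by
  induction y using TensorProduct.induction_on with
  | zero => exact smul_zero _
  | tmul m p => rw [TensorProduct.smul_tmul', h, TensorProduct.zero_tmul]
  | add y z hy hz => rw [smul_add, hy, hz, add_zero]

theorem tor_smul_eq_zero_left (a : R) (h : ∀ m : M, a • m = 0) (n : ℕ) (N : Type u)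
    [AddCommGroup N] [Module R N] (x : TorM R n M N) : a • x = 0 := by
  let P := projectiveResolution (ModuleCat.of R N)
  let e := (torIso R n (ModuleCat.of R M) P).toLinearEquiv
  apply e.injective
  rw [map_smul, map_zero]
  apply homology_smul_eq_zero
  intro y
  exact tensor_smul_eq_zero_left (M := M) (N := P.complex.X n) a h y

/-! ### Symmetry -/

/-- The two descriptions of Tor_1 agree. -/
theorem tor_one_symm_aux {F G K L : Type u} [AddCommGroup F] [Module R F] [AddCommGroup G]
    [Module R G] [AddCommGroup K] [Module R K] [AddCommGroup L] [Module R L]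
    [Module.Flat R F] [Module.Flat R G]
    (f : K →ₗ[R] F) (g : F →ₗ[R] M) (hf : Function.Injective f)
    (hg : Function.Surjective g) (h : Function.Exact f g)
    (f' : L →ₗ[R] G) (g' : G →ₗ[R] N) (hf' : Function.Injective f')
    (hg' : Function.Surjective g') (h' : Function.Exact f' g') :
    Nonempty (LinearMap.ker (f.rTensor N) ≃ₗ[R] LinearMap.ker (f'.lTensor M)) := by
  have hrow1 : Function.Exact (f'.lTensor K) (g'.lTensor K) := lTensor_exact K h' hg'
  have hrow2 : Function.Exact (f'.lTensor F) (g'.lTensor F) := lTensor_exact F h' hg'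
  have hi2 : Function.Injective (f.rTensor G) := Module.Flat.rTensor_preserves_injective_linearMap f hf
  have hbot : Function.Injective (f'.lTensor F) :=
    Module.Flat.lTensor_preserves_injective_linearMap f' hf'
  have htop : Function.Surjective (g'.lTensor K) := LinearMap.lTensor_surjective K hg'
  have c1 : (f'.lTensor F).comp (f.rTensor L) = (f.rTensor G).comp (f'.lTensor K) := by
    rw [LinearMap.lTensor_comp_rTensor, LinearMap.rTensor_comp_lTensor]
  have c2 : (g'.lTensor F).comp (f.rTensor G) = (f.rTensor N).comp (g'.lTensor K) := by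
    rw [LinearMap.lTensor_comp_rTensor, LinearMap.rTensor_comp_lTensor]
  have hι₃ : Function.Exact (LinearMap.ker (f.rTensor N)).subtype (f.rTensor N) := by
    intro x; simp
  have hι₂ : Function.Exact (0 : PUnit.{1} →ₗ[R] K ⊗[R] G) (f.rTensor G) := by
    intro x
    constructor
    · intro hx
      exact ⟨PUnit.unit, (hi2 (by rw [hx, LinearMap.zero_apply, map_zero])).symm⟩
    · rintro ⟨y, rfl⟩
      simp
  have hπ₁ : Function.Exact (f.rTensor L) (g.rTensor L) := rTensor_exact L h hg
  have hπ₂ : Function.Exact (f.rTensor G) (g.rTensor G) := rTensor_exact G h hg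
  have hπ₁s : Function.Surjective (g.rTensor L) := LinearMap.rTensor_surjective L hg
  let δ := SnakeLemma.δ' (f.rTensor L) (f.rTensor G) (f.rTensor N) (f'.lTensor K) (g'.lTensor K)
    hrow1 (f'.lTensor F) (g'.lTensor F) hrow2 c1 c2 (LinearMap.ker (f.rTensor N)).subtype hι₃
    (g.rTensor L) hπ₁ htop hbot
  have e1 : Function.Exact (0 : PUnit.{1} →ₗ[R] LinearMap.ker (f.rTensor N)) δ :=
    SnakeLemma.exact_δ'_right _ _ _ _ _ _ _ _ _ _ _ _ hι₂ _ _ _ _ htop hbot _ (by simp)
      (Submodule.injective_subtype _)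
  have e2 : Function.Exact δ (f'.lTensor M) :=
    SnakeLemma.exact_δ'_left _ _ _ _ _ _ _ _ _ _ _ _ _ _ _ (g.rTensor G) hπ₂ htop hbot
      (f'.lTensor M) (by rw [LinearMap.lTensor_comp_rTensor, LinearMap.rTensor_comp_lTensor]) hπ₁s
  have dinj : Function.Injective δ := by
    rw [injective_iff_map_eq_zero]
    intro x hx
    obtain ⟨y, rfl⟩ := (e1 x).1 hx
    simp
  refine ⟨LinearEquiv.ofBijective (δ.codRestrict _ (fun x => ?_)) ⟨?_, ?_⟩⟩
  · rw [LinearMap.mem_ker]
    exact (e2 _).2 ⟨x, rfl⟩
  · intro x y hxy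
    exact dinj (congrArg Subtype.val hxy)
  · rintro ⟨x, hx⟩
    obtain ⟨y, hy⟩ := (e2 x).1 hx
    exact ⟨y, Subtype.ext hy⟩

/-- Every module is a quotient of a free module. -/
theorem exists_cover (R : Type u) [CommRing R] (M : Type u) [AddCommGroup M] [Module R M] :
    ∃ (F K : Type u) (_ : AddCommGroup F) (_ : Module R F) (_ : AddCommGroup K) (_ : Module R K)
      (f : K →ₗ[R] F) (g : F →ₗ[R] M), Module.Free R F ∧ Function.Injective f ∧
        Function.Surjective g ∧ Function.Exact f g := by
  refine ⟨M →₀ R, LinearMap.ker (Finsupp.linearCombination R (id : M → M)), inferInstance,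
    inferInstance, inferInstance, inferInstance, Submodule.subtype _,
    Finsupp.linearCombination R (id : M → M), inferInstance, Submodule.injective_subtype _, ?_, ?_⟩
  · intro m
    exact ⟨Finsupp.single m 1, by simp⟩
  · intro x
    simp

lemma ker_comm (f : K →ₗ[R] F) :
    Nonempty (LinearMap.ker (f.rTensor N) ≃ₗ[R] LinearMap.ker (f.lTensor N)) := by
  refine ⟨LinearEquiv.ofSubmodules (TensorProduct.comm R K N) _ _ ?_⟩
  have h : (f.lTensor N) ∘ₗ (TensorProduct.comm R K N).toLinearMap =
      (TensorProduct.comm R F N).toLinearMap ∘ₗ f.rTensor N := by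
    ext; simp
  ext x
  simp only [Submodule.mem_map, LinearMap.mem_ker]
  constructor
  · rintro ⟨y, hy, rfl⟩
    have := LinearMap.congr_fun h y
    simp only [LinearMap.comp_apply] at this
    rw [hy, map_zero] at this
    exact this
  · intro hx
    refine ⟨(TensorProduct.comm R K N).symm x, ?_, by simp⟩
    have := LinearMap.congr_fun h ((TensorProduct.comm R K N).symm x)
    simp only [LinearMap.comp_apply, LinearEquiv.coe_coe, LinearEquiv.apply_symm_apply] at this
    rw [hx] at this
    exact (TensorProduct.comm R F N).injective (by rw [← this, map_zero])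

theorem tor_symm_one (M N : Type u) [AddCommGroup M] [Module R M] [AddCommGroup N] [Module R N] :
    Nonempty (TorM R 1 M N ≃ₗ[R] TorM R 1 N M) := by
  obtain ⟨F, K, _, _, _, _, f, g, hF, hf, hg, h⟩ := exists_cover R M
  obtain ⟨G, L, _, _, _, _, f', g', hG, hf', hg', h'⟩ := exists_cover R N
  obtain ⟨e1⟩ := tor_one f g hf hg h N
  obtain ⟨e2⟩ := tor_one f' g' hf' hg' h' M
  obtain ⟨e3⟩ := tor_one_symm_aux f g hf hg h f' g' hf' hg' h'
  obtain ⟨e4⟩ := ker_comm (N := M) f'
  exact ⟨e1 ≪≫ₗ e3 ≪≫ₗ e4.symm ≪≫ₗ e2.symm⟩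

lemma ker_ker_aux {F G K L : Type u} [AddCommGroup F] [Module R F] [AddCommGroup G]
    [Module R G] [AddCommGroup K] [Module R K] [AddCommGroup L] [Module R L]
    [Module.Flat R F] [Module.Flat R G] (f : K →ₗ[R] F) (hf : Function.Injective f)
    (f' : L →ₗ[R] G) (hf' : Function.Injective f') :
    Nonempty (LinearMap.ker (f'.rTensor K) ≃ₗ[R] LinearMap.ker (f.rTensor L)) := by
  have h1 : LinearMap.ker (f'.rTensor K) = LinearMap.ker (TensorProduct.map f' f) := by
    have : TensorProduct.map f' f = f.lTensor G ∘ₗ f'.rTensor K := by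
      rw [LinearMap.lTensor_comp_rTensor]
    rw [this, LinearMap.ker_comp_of_ker_eq_bot]
    exact LinearMap.ker_eq_bot.2 (Module.Flat.lTensor_preserves_injective_linearMap f hf)
  have h2 : LinearMap.ker (f.rTensor L) = LinearMap.ker (TensorProduct.map f f') := by
    have : TensorProduct.map f f' = f'.lTensor F ∘ₗ f.rTensor L := by
      rw [LinearMap.lTensor_comp_rTensor]
    rw [this, LinearMap.ker_comp_of_ker_eq_bot]
    exact LinearMap.ker_eq_bot.2 (Module.Flat.lTensor_preserves_injective_linearMap f' hf')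
  rw [h1, h2]
  refine ⟨LinearEquiv.ofSubmodules (TensorProduct.comm R L K) _ _ ?_⟩
  have h : (TensorProduct.map f f') ∘ₗ (TensorProduct.comm R L K).toLinearMap =
      (TensorProduct.comm R G F).toLinearMap ∘ₗ (TensorProduct.map f' f) := by
    ext; simp
  ext x
  simp only [Submodule.mem_map, LinearMap.mem_ker]
  constructor
  · rintro ⟨y, hy, rfl⟩
    have := LinearMap.congr_fun h y
    simp only [LinearMap.comp_apply] at this
    rw [hy, map_zero] at this
    exact this
  · intro hx
    refine ⟨(TensorProduct.comm R L K).symm x, ?_, by simp⟩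
    have := LinearMap.congr_fun h ((TensorProduct.comm R L K).symm x)
    simp only [LinearMap.comp_apply, LinearEquiv.coe_coe, LinearEquiv.apply_symm_apply] at this
    rw [hx] at this
    exact (TensorProduct.comm R G F).injective (by rw [← this, map_zero])

/-- Tor is symmetric. -/
theorem tor_symm (n : ℕ) (M N : Type u) [AddCommGroup M] [Module R M]
    [AddCommGroup N] [Module R N] :
    Nonempty (TorM R n M N ≃ₗ[R] TorM R n N M) := by
  induction n using Nat.strong_induction_on generalizing M N with
  | _ n ih =>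
    obtain ⟨F, K, _, _, _, _, f, g, hF, hf, hg, h⟩ := exists_cover R M
    obtain ⟨G, L, _, _, _, _, f', g', hG, hf', hg', h'⟩ := exists_cover R N
    match n, ih with
    | 0, _ => exact ⟨torZero M N ≪≫ₗ TensorProduct.comm R M N ≪≫ₗ (torZero N M).symm⟩
    | 1, _ => exact tor_symm_one M N
    | 2, _ =>
      obtain ⟨e1⟩ := tor_shift f g hf hg h N 0
      obtain ⟨e2⟩ := tor_symm_one (R := R) K N
      obtain ⟨e3⟩ := tor_one f' g' hf' hg' h' K
      obtain ⟨e4⟩ := ker_ker_aux f hf f' hf'
      obtain ⟨e5⟩ := tor_shift f' g' hf' hg' h' M 0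
      obtain ⟨e6⟩ := tor_symm_one (R := R) L M
      obtain ⟨e7⟩ := tor_one f g hf hg h L
      exact ⟨e1 ≪≫ₗ e2 ≪≫ₗ e3 ≪≫ₗ e4 ≪≫ₗ e7.symm ≪≫ₗ e6.symm ≪≫ₗ e5.symm⟩
    | k + 3, ih =>
      obtain ⟨e1⟩ := tor_shift f g hf hg h N (k + 1)
      obtain ⟨e2⟩ := ih (k + 2) (by omega) K N
      obtain ⟨e3⟩ := tor_shift f' g' hf' hg' h' K k
      obtain ⟨e4⟩ := ih (k + 1) (by omega) L K
      obtain ⟨e5⟩ := tor_shift f g hf hg h L k
      obtain ⟨e6⟩ := ih (k + 2) (by omega) M L
      obtain ⟨e7⟩ := tor_shift f' g' hf' hg' h' M (k + 1)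
      exact ⟨e1 ≪≫ₗ e2 ≪≫ₗ e3 ≪≫ₗ e4 ≪≫ₗ e5.symm ≪≫ₗ e6 ≪≫ₗ e7.symm⟩

theorem tor_smul_eq_zero_right (a : R) (h : ∀ m : N, a • m = 0) (n : ℕ) (M : Type u)
    [AddCommGroup M] [Module R M] (x : TorM R n M N) : a • x = 0 := by
  obtain ⟨e⟩ := tor_symm (R := R) n M N
  apply e.injective
  rw [map_smul, map_zero]
  exact tor_smul_eq_zero_left a h n M _

end Vale.Agent.P177
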