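import Vale.Agent.P177.EulerTransfer

/-!
The transfer principle: `χ^R(M,N)` only depends on the hypersurface `A = R/(f)`.
-/

namespace Vale.Agent.P177

open TensorProduct Function

universe u

/-- Truncated Euler characteristic of Tor. -/
noncomputable def eulerTor (R : Type u) [CommRing R] (n : ℕ) (M N : Type u) [AddCommGroup M]
    [Module R M] [AddCommGroup N] [Module R N] : ℤ :=
  ∑ i ∈ Finset.range n, (-1) ^ i * ((Module.length R (TorM R i M N)).toNat : ℤ)

theorem numeric {t r ρ a b : ℕ → ℕ∞} (hρ : ρ 0 = 0) (h0 : r 0 = t 0)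
    (h1 : ∀ n, t n = ρ (n + 1) + a n) (h2 : ∀ n, r (n + 1) = a n + b n)
    (h3 : ∀ n, t (n + 1) = b n + ρ n) (hfin : ∀ n, t n ≠ ⊤) (n : ℕ) :
    ∑ i ∈ Finset.range (n + 1), (-1) ^ i * ((r i).toNat : ℤ) =
      (-1) ^ n * (((t n).toNat : ℤ) - (ρ n).toNat) := by
  have ha : ∀ n, a n ≠ ⊤ := fun n h => hfin n (by rw [h1, h, add_top])
  have hb : ∀ n, b n ≠ ⊤ := fun n h => hfin (n + 1) (by rw [h3, h, top_add])
  have hρf : ∀ n, ρ n ≠ ⊤ := fun n h => hfin (n + 1) (by rw [h3, h, add_top])
  have hr : ∀ n, r n ≠ ⊤ := by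
    intro n
    cases n with
    | zero => rw [h0]; exact hfin 0
    | succ n => rw [h2]; exact WithTop.add_ne_top.2 ⟨ha n, hb n⟩
  have e1 : ∀ n, ((t n).toNat : ℤ) = (ρ (n + 1)).toNat + (a n).toNat := by
    intro n
    rw [h1, ENat.toNat_add (hρf _) (ha _)]
    push_cast
    ring
  have e2 : ∀ n, ((r (n + 1)).toNat : ℤ) = (a n).toNat + (b n).toNat := by
    intro n
    rw [h2, ENat.toNat_add (ha _) (hb _)]
    push_cast
    ring
  have e3 : ∀ n, ((t (n + 1)).toNat : ℤ) = (b n).toNat + (ρ n).toNat := by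
    intro n
    rw [h3, ENat.toNat_add (hb _) (hρf _)]
    push_cast
    ring
  induction n with
  | zero => simp [hρ, h0]
  | succ n ih =>
    rw [Finset.sum_range_succ, ih, e2, pow_succ]
    have := e1 n
    have := e3 n
    linear_combination (-1) ^ n * e1 n + (-1) ^ n * e3 n

/-- The Euler characteristic over `R` in terms of Tor over `A = R/f`. -/
theorem IsHypersurface.eulerTor_eq {R A : Type u} [CommRing R] [CommRing A] [Algebra R A] {f : R}
    (H : IsHypersurface R A f)
    (M N : Type u) [AddCommGroup M] [Module R M] [Module A M] [IsScalarTower R A M]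
    [AddCommGroup N] [Module R N] [Module A N] [IsScalarTower R A N]
    (hfin : ∀ n, Module.length A (TorM A n M N) ≠ ⊤) (n : ℕ)
    (hn : Module.length R (TorM R (n + 1) M N) = 0) :
    eulerTor R (n + 1) M N = (-1) ^ n * (((Module.length A (TorM A n M N)).toNat : ℤ) -
      (Module.length A (TorM A (n + 1) M N)).toNat) := by
  obtain ⟨ρ, a, b, hρ, h0, h1, h2, h3⟩ := H.exists_rho M N
  unfold eulerTor
  rw [numeric hρ h0 h1 h2 h3 hfin n, h3 n]
  have hab := h2 n
  rw [hn] at hab
  have hb : b n = 0 := by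
    have : b n ≤ 0 := by rw [hab]; exact le_add_self
    exact le_antisymm this bot_le
  rw [hb, zero_add]

/-- **Transfer principle**: if `A` is a quotient of both `R` and `S` by a regular element then
`χ^R(M,N) = χ^S(M,N)` for `A`-modules. -/
theorem eulerTor_transfer {R S A : Type u} [CommRing R] [CommRing S] [CommRing A] [Algebra R A]
    [Algebra S A] {f : R} {g : S} (H : IsHypersurface R A f) (H' : IsHypersurface S A g)
    (M N : Type u) [AddCommGroup M] [Module R M] [Module S M] [Module A M] [IsScalarTower R A M]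
    [IsScalarTower S A M]
    [AddCommGroup N] [Module R N] [Module S N] [Module A N] [IsScalarTower R A N]
    [IsScalarTower S A N]
    (hfin : ∀ n, Module.length A (TorM A n M N) ≠ ⊤) (n : ℕ)
    (hn : Module.length R (TorM R (n + 1) M N) = 0)
    (hn' : Module.length S (TorM S (n + 1) M N) = 0) :
    eulerTor R (n + 1) M N = eulerTor S (n + 1) M N := by
  rw [H.eulerTor_eq M N hfin n hn, H'.eulerTor_eq M N hfin n hn']

end Vale.Agent.P177
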