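import Mathlib

/-!
Definitions for the cases of Serre's positivity conjecture.
-/

namespace Vale.Agent.P177.Serre

open CategoryTheory IsLocalRing TensorProduct

universe u

/-- Serre's intersection multiplicity `∑_{i ≤ d} (-1)^i length Tor_i^R(M, N)`. -/
noncomputable def chi (R : Type u) [CommRing R] (d : ℕ) (M N : Type u) [AddCommGroup M]
    [Module R M] [AddCommGroup N] [Module R N] : ℤ :=
  ∑ i ∈ Finset.range (d + 1), (-1 : ℤ) ^ i * ((Module.length R
    (((Tor (ModuleCat.{u} R) i).obj (ModuleCat.of R M)).obj (ModuleCat.of R N))).toNat : ℤ)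

/-- The assertions for a pair `M`, `N` over the regular local ring `R` of dimension `d`: the modules
`Tor_i(M, N)` have finite length and vanish for `i > d`, Serre's intersection multiplicity is
nonnegative, and it is positive if `dim M + dim N = d`. -/
def SerreHolds (R : Type u) [CommRing R] (d : ℕ) (M N : Type u) [AddCommGroup M]
    [Module R M] [AddCommGroup N] [Module R N] : Prop :=
  (∀ i : ℕ, Module.length R
    (((Tor (ModuleCat.{u} R) i).obj (ModuleCat.of R M)).obj (ModuleCat.of R N)) ≠ ⊤) ∧
  (∀ i : ℕ, d < i → Subsingleton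
    (((Tor (ModuleCat.{u} R) i).obj (ModuleCat.of R M)).obj (ModuleCat.of R N))) ∧
  0 ≤ chi R d M N ∧
  (Module.supportDim R M + Module.supportDim R N = d → 0 < chi R d M N)

/-- The ring homomorphism `φ` of local rings with maximal ideals `m` and `n` is flat and local, and
its closed fibre has finite length: `φ(m)C ⊆ n` and `n^k ⊆ φ(m)C` for some `k`. -/
def FlatFiniteFibre {R C : Type u} [CommRing R] [IsLocalRing R] [CommRing C] [IsLocalRing C]
    (φ : R →+* C) : Prop :=
  φ.Flat ∧ (maximalIdeal R).map φ ≤ maximalIdeal C ∧
    ∃ k : ℕ, maximalIdeal C ^ k ≤ (maximalIdeal R).map φ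

/-- `ϖ, y_1, …, y_s` are the images of a regular system of parameters `f, t_1, …, t_s` of the regular
local ring `L` of dimension `s + 1`, and `L → R/m` is surjective. -/
def AreImages {L R : Type u} [CommRing L] [IsRegularLocalRing L] [CommRing R] [IsLocalRing R]
    (ψ : L →+* R) (ϖ : R) {s : ℕ} (y : Fin s → R) : Prop :=
  ringKrullDim L = (s + 1 : ℕ) ∧
  (∃ (f : L) (t : Fin s → L), maximalIdeal L = Ideal.span {f} ⊔ Ideal.span (Set.range t) ∧
    ψ f = ϖ ∧ ∀ i, ψ (t i) = y i) ∧ ∀ r : R, ∃ v : L, r - ψ v ∈ maximalIdeal R

/-- Either `p = u ϖ^a ∏ y_i^(b_i)` in the local ring `R`, where `p` is a prime number, `u` is a unit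
and `a` is prime to `p` (for example `p = ϖ`), or `ϖ, y_1, …, y_s` are the images of a regular
system of parameters of a regular local ring `L` under a homomorphism `ψ : L → R` such that
`L → R/m` is surjective. -/
def IsUniformizing {R : Type u} [CommRing R] [IsLocalRing R] (ϖ : R) {s : ℕ} (y : Fin s → R) :
    Prop :=
  (∃ (p a : ℕ) (b : Fin s → ℕ) (u : R), p.Prime ∧ ¬ p ∣ a ∧ IsUnit u ∧
    (p : R) = u * ϖ ^ a * ∏ i, y i ^ b i) ∨
  ∃ (L : Type u) (_ : CommRing L) (_ : IsRegularLocalRing L) (ψ : L →+* R), AreImages ψ ϖ y

/-- `R` has a regular system of parameters `z = (x_1, …, x_r, y_1, …, y_s)`, `s ≤ 1`, and a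
uniformizing element of the form `∑ z_i c_ij z_j` for which the determinant of the polar form
`(c_ij + c_ji)` in the variables `x` is a unit. -/
def CorankAtMostOne (R : Type u) [CommRing R] [IsRegularLocalRing R] : Prop :=
  ∃ (r s : ℕ) (z : Fin r ⊕ Fin s → R) (c : Fin r ⊕ Fin s → Fin r ⊕ Fin s → R), s ≤ 1 ∧
    ringKrullDim R = (r + s : ℕ) ∧ Ideal.span (Set.range z) = maximalIdeal R ∧
    IsUniformizing (∑ i, ∑ j, z i * c i j * z j) (fun i => z (.inr i)) ∧
    IsUnit (Matrix.det (Matrix.of fun i j => c (.inl i) (.inl j) + c (.inl j) (.inl i)))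

/-- The smallest class of regular local rings which contains the local rings essentially smooth over
a regular local ring `A` of dimension at most four, the rings `A[[x₁, …, xₙ]]` for such `A`, the
regular local rings with a uniformizing element given by a quadratic form of corank at most one,
and all regular local rings with a flat local map with closed fibre of finite length to a ring of
the class. -/
inductive Tame : (R : Type u) → [CommRing R] → Prop
  | smooth {A R : Type u} [CommRing A] [IsRegularLocalRing A] [CommRing R] [IsLocalRing R]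
      [Algebra A R] [Algebra.EssFiniteType A R] [Algebra.FormallySmooth A R] :
      ringKrullDim A ≤ 4 → Tame R
  | powerSeries {A : Type u} [CommRing A] [IsRegularLocalRing A] (n : ℕ) :
      ringKrullDim A ≤ 4 → Tame (MvPowerSeries (Fin n) A)
  | quadric {R : Type u} [CommRing R] [IsRegularLocalRing R] : CorankAtMostOne R → Tame R
  | descend {R C : Type u} [CommRing R] [IsRegularLocalRing R] [CommRing C] [IsLocalRing C]
      (φ : R →+* C) : FlatFiniteFibre φ → Tame C → Tame R

/-- The tangent cones of `C/I` and `C/J` and the linear space defined by the linear forms of the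
elements of `U` meet only at the origin: `m^(n+1) ⊆ (I ∩ m^(n+1)) + (J ∩ m^(n+1)) + U m^n` for
some `n`, where `m` is the maximal ideal of `C` and `U ⊆ m`. -/
def MeetOnlyAtOrigin {C : Type u} [CommRing C] [IsLocalRing C] (I J U : Ideal C) : Prop :=
  ∃ n : ℕ, maximalIdeal C ^ (n + 1) ≤ (I ⊓ maximalIdeal C ^ (n + 1)) ⊔
    (J ⊓ maximalIdeal C ^ (n + 1)) ⊔ U * maximalIdeal C ^ n

/-- `C` is a regular local ring (for example `C = R`) with a regular system of parameters `x` and a
uniformizing element `∑ x_i c_ij x_j`, where the matrix `c` is arbitrary, and the tangent cones of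
`C/PC` and `C/QC` meet the radical of the polar form `(c_ij + c_ji)` only at the origin. -/
def Transversal {R C : Type u} [CommRing R] [CommRing C] [IsRegularLocalRing C] (φ : R →+* C)
    (P Q : Ideal R) : Prop :=
  ∃ (r : ℕ) (x : Fin r → C) (c : Fin r → Fin r → C), ringKrullDim C = r ∧
    Ideal.span (Set.range x) = maximalIdeal C ∧ IsUniformizing (∑ i, ∑ j, x i * c i j * x j) ![] ∧
    MeetOnlyAtOrigin (P.map φ) (Q.map φ)
      (Ideal.span (Set.range fun i => ∑ j, (c i j + c j i) * x j))

/-- `V(P)` and `V(Q)` lie on the hypersurface `A = R/f`, and `C = S/g` is a hypersurface in a tame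
ring `S` of the same dimension as `R`. -/
def OnHypersurface {R S A C : Type u} [CommRing R] [CommRing S] [CommRing A] [CommRing C]
    (α : R →+* A) (β : S →+* C) (P Q : Ideal R) : Prop :=
  ringKrullDim S = ringKrullDim R ∧ Tame S ∧ Function.Surjective α ∧ Function.Surjective β ∧
    (∃ f ∈ P ⊓ Q, f ≠ 0 ∧ RingHom.ker α = Ideal.span {f}) ∧
    ∃ g, g ≠ 0 ∧ RingHom.ker β = Ideal.span {g}

/-- The pairs of primes `P`, `Q` of `R` for which one of the following holds. -/
inductive GoodPair {R : Type u} [CommRing R] [IsLocalRing R] (P Q : Ideal R) : Prop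
  /-- One of the subschemes `V(P)`, `V(Q)` lies on a closed subscheme `Spec R'` with `R'` tame
  (if `R` itself is tame, this holds for all `P` and `Q`). -/
  | tame {R' : Type u} [CommRing R'] (ψ : R →+* R') : Function.Surjective ψ →
      RingHom.ker ψ ≤ P ∨ RingHom.ker ψ ≤ Q → Tame R' → GoodPair P Q
  /-- `V(P)` and `V(Q)` are transversal in the sense above. -/
  | transversal {C : Type u} [CommRing C] [IsRegularLocalRing C] (φ : R →+* C) :
      FlatFiniteFibre φ → Transversal φ P Q → GoodPair P Q
  /-- `V(P)` and `V(Q)` lie on a hypersurface `A = R/f` which has a flat local map with closed fibre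
  of finite length to a hypersurface `C = S/g` in a tame ring `S` of the same dimension as `R`. -/
  | hypersurface {S A C : Type u} [CommRing S] [CommRing A] [IsLocalRing A] [CommRing C]
      [IsLocalRing C] (α : R →+* A) (β : S →+* C) (φ : A →+* C) :
      OnHypersurface α β P Q → FlatFiniteFibre φ → GoodPair P Q
  /-- `V(P)` and `V(Q)` lie on the hypersurface `p = 0`, where `p` is a prime number. -/
  | residual (p : ℕ) : p.Prime → (p : R) ≠ 0 → (p : R) ∈ P ⊓ Q → GoodPair P Q

/-- Serre's positivity conjecture for all `M`, `N` over any regular local ring `R` such that the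
pair `P`, `Q` is good for all irreducible components `V(P)` and `V(Q)` of the supports of `M`
and `N`. -/
def GoodCase : Prop :=
  ∀ (R : Type u) [CommRing R] [IsRegularLocalRing R] (d : ℕ), ringKrullDim R = d →
    ∀ (M N : Type u) [AddCommGroup M] [Module R M] [Module.Finite R M]
      [AddCommGroup N] [Module R N] [Module.Finite R N],
      (∀ P ∈ (Module.annihilator R M).minimalPrimes, ∀ Q ∈ (Module.annihilator R N).minimalPrimes,
        GoodPair P Q) →
      Module.length R (M ⊗[R] N) ≠ ⊤ → SerreHolds R d M N

/-- The fibre of the support of `X` over the prime `q` of `A` has codimension at most one: for every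
irreducible component `V(p)` of the support of `X` and every irreducible component `V(P)` of
`V(p + qR)` which lies over `q`, there is no prime strictly between `p` and `P`. -/
def FibreCodimAtMostOne (A R X : Type u) [CommRing A] [CommRing R] [Algebra A R] [AddCommGroup X]
    [Module R X] (q : Ideal A) : Prop :=
  ∀ p ∈ (Module.annihilator R X).minimalPrimes,
    ∀ P ∈ (p ⊔ q.map (algebraMap A R)).minimalPrimes, P.comap (algebraMap A R) = q →
      ∀ p' : Ideal R, p'.IsPrime → p < p' → ¬ p' < P

/-- (III) `R` is local and essentially smooth over a regular local ring `A`, under a condition on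
the fibres over the primes of `A` of height at least five. -/
def EssSmoothCase : Prop :=
  ∀ (A R : Type u) [CommRing A] [IsRegularLocalRing A] [CommRing R] [IsLocalRing R]
    [Algebra A R] [Algebra.EssFiniteType A R] [Algebra.FormallySmooth A R] (d : ℕ),
    ringKrullDim R = d →
    ∀ (M N : Type u) [AddCommGroup M] [Module R M] [Module.Finite R M]
      [AddCommGroup N] [Module R N] [Module.Finite R N],
      (∀ q : Ideal A, q.IsPrime → 5 ≤ q.height →
        FibreCodimAtMostOne A R M q ∨ FibreCodimAtMostOne A R N q) →
      Module.length R (M ⊗[R] N) ≠ ⊤ → IsRegularLocalRing R ∧ SerreHolds R d M N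

end Vale.Agent.P177.Serre
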