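import Vale.Agent.P177.MathlibUsed

/-!
Definitions for the cases of Serre's positivity conjecture.
-/

namespace Vale.Agent.P177.Serre

open CategoryTheory IsLocalRing TensorProduct

universe u

/-- Serre's intersection multiplicity `∑_{i ≤ d} (-1)^i length Tor_i^R(M, N)`. -/
noncomputable def chi (R : Type u) [CommRing R] (d : ℕ) (M N : Type u) [AddCommGroup M]
    [Module R M] [AddCommGroup N] [Module R N] : ℤ :=
  ∑ i ∈ Finset.range (d + 1), (-1 : ℤ) ^ i * ((Module.length R
    (((Tor (ModuleCat.{u} R) i).obj (ModuleCat.of R M)).obj (ModuleCat.of R N))).toNat : ℤ)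

/-- The assertions for a pair `M`, `N` over the regular local ring `R` of dimension `d`: the modules
`Tor_i(M, N)` have finite length and vanish for `i > d`, Serre's intersection multiplicity is
nonnegative, and it is positive if `dim M + dim N = d`. -/
def SerreHolds (R : Type u) [CommRing R] (d : ℕ) (M N : Type u) [AddCommGroup M]
    [Module R M] [AddCommGroup N] [Module R N] : Prop :=
  (∀ i : ℕ, Module.length R
    (((Tor (ModuleCat.{u} R) i).obj (ModuleCat.of R M)).obj (ModuleCat.of R N)) ≠ ⊤) ∧
  (∀ i : ℕ, d < i → Subsingleton
    (((Tor (ModuleCat.{u} R) i).obj (ModuleCat.of R M)).obj (ModuleCat.of R N))) ∧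
  0 ≤ chi R d M N ∧
  (Module.supportDim R M + Module.supportDim R N = d → 0 < chi R d M N)

/-- The ring homomorphism `φ` of local rings with maximal ideals `m` and `n` is flat and local, and
its closed fibre has finite length: `φ(m)C ⊆ n` and `n^k ⊆ φ(m)C` for some `k`. -/
def FlatFiniteFibre {R C : Type u} [CommRing R] [IsLocalRing R] [CommRing C] [IsLocalRing C]
    (φ : R →+* C) : Prop :=
  φ.Flat ∧ (maximalIdeal R).map φ ≤ maximalIdeal C ∧
    ∃ k : ℕ, maximalIdeal C ^ k ≤ (maximalIdeal R).map φ

/-- `ϖ` is a prime number `p` (viewed as an element of the local ring `R`), or the image of a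
uniformizer of a discrete valuation ring `V` (a regular local ring of dimension one) under a ring
homomorphism `ψ : V → R` such that `V → R/m` is surjective. -/
def IsUniformizing {R : Type u} [CommRing R] [IsLocalRing R] (ϖ : R) : Prop :=
  (∃ p : ℕ, p.Prime ∧ (p : R) = ϖ) ∨
  ∃ (V : Type u) (_ : CommRing V) (_ : IsRegularLocalRing V) (τ : V) (ψ : V →+* R),
    ringKrullDim V = 1 ∧ maximalIdeal V = Ideal.span {τ} ∧ ψ τ = ϖ ∧
      ∀ r : R, ∃ v : V, r - ψ v ∈ maximalIdeal R

/-- The smallest class of regular local rings which contains the local rings essentially smooth over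
a regular local ring `A` of dimension at most four, the rings `A[[x₁, …, xₙ]]` for such `A`, the
regular local rings `R` with a regular system of parameters `x` and a uniformizing element of the
form `∑ x_i c_ij x_j` for which the determinant of the polar form `(c_ij + c_ji)` is a unit, and all
regular local rings with a flat local map with closed fibre of finite length to a ring of the
class. -/
inductive Tame : (R : Type u) → [CommRing R] → Prop
  | smooth {A R : Type u} [CommRing A] [IsRegularLocalRing A] [CommRing R] [IsLocalRing R]
      [Algebra A R] [Algebra.EssFiniteType A R] [Algebra.FormallySmooth A R] :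
      ringKrullDim A ≤ 4 → Tame R
  | powerSeries {A : Type u} [CommRing A] [IsRegularLocalRing A] (n : ℕ) :
      ringKrullDim A ≤ 4 → Tame (MvPowerSeries (Fin n) A)
  | quadric {R : Type u} [CommRing R] [IsRegularLocalRing R] (d : ℕ) (x : Fin d → R)
      (c : Fin d → Fin d → R) : ringKrullDim R = d → Ideal.span (Set.range x) = maximalIdeal R →
      IsUniformizing (∑ i, ∑ j, x i * c i j * x j) →
      IsUnit (Matrix.det (Matrix.of fun i j => c i j + c j i)) → Tame R
  | descend {R C : Type u} [CommRing R] [IsRegularLocalRing R] [CommRing C] [IsLocalRing C]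
      (φ : R →+* C) : FlatFiniteFibre φ → Tame C → Tame R

/-- The component `V(P)` lies on a closed subscheme `Spec R'` of `Spec R` with `R'` tame. -/
def LiesOnTame (R : Type u) [CommRing R] (P : Ideal R) : Prop :=
  ∃ (R' : Type u) (_ : CommRing R') (ψ : R →+* R'),
    Function.Surjective ψ ∧ RingHom.ker ψ ≤ P ∧ Tame R'

/-- (I) `R` is any regular local ring and, for all irreducible components `V(P)` and `V(Q)` of the
supports of `M` and `N`, one of the two lies on a closed subscheme `Spec R'` of `Spec R` with `R'`
tame. If `R` itself is tame, this is the case of all `M` and `N`. -/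
def TameCase : Prop :=
  ∀ (R : Type u) [CommRing R] [IsRegularLocalRing R] (d : ℕ), ringKrullDim R = d →
    ∀ (M N : Type u) [AddCommGroup M] [Module R M] [Module.Finite R M]
      [AddCommGroup N] [Module R N] [Module.Finite R N],
      (∀ P ∈ (Module.annihilator R M).minimalPrimes, ∀ Q ∈ (Module.annihilator R N).minimalPrimes,
        LiesOnTame R P ∨ LiesOnTame R Q) →
      Module.length R (M ⊗[R] N) ≠ ⊤ → SerreHolds R d M N

/-- The tangent cones of `C/I` and `C/J` and the linear space defined by the linear forms of the
elements of `U` meet only at the origin: `m^(n+1) ⊆ (I ∩ m^(n+1)) + (J ∩ m^(n+1)) + U m^n` for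
some `n`, where `m` is the maximal ideal of `C` and `U ⊆ m`. -/
def MeetOnlyAtOrigin {C : Type u} [CommRing C] [IsLocalRing C] (I J U : Ideal C) : Prop :=
  ∃ n : ℕ, maximalIdeal C ^ (n + 1) ≤ (I ⊓ maximalIdeal C ^ (n + 1)) ⊔
    (J ⊓ maximalIdeal C ^ (n + 1)) ⊔ U * maximalIdeal C ^ n

/-- (II) `R` has a flat local map `φ` with closed fibre of finite length to a regular local ring `C`
(for example `C = R`) with a regular system of parameters `x` and a uniformizing element of the form
`∑ x_i c_ij x_j`, where the matrix `c` is arbitrary, and the tangent cones of `C ⊗ M` and `C ⊗ N`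
meet the radical of the polar form `(c_ij + c_ji)` only at the origin. -/
def TransversalCase : Prop :=
  ∀ (R C : Type u) [CommRing R] [IsRegularLocalRing R] [CommRing C] [IsRegularLocalRing C]
    (φ : R →+* C) (d : ℕ) (x : Fin d → C) (c : Fin d → Fin d → C), FlatFiniteFibre φ →
    ringKrullDim R = d → Ideal.span (Set.range x) = maximalIdeal C →
    IsUniformizing (∑ i, ∑ j, x i * c i j * x j) →
    ∀ (M N : Type u) [AddCommGroup M] [Module R M] [Module.Finite R M]
      [AddCommGroup N] [Module R N] [Module.Finite R N],
      MeetOnlyAtOrigin ((Module.annihilator R M).map φ) ((Module.annihilator R N).map φ)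
        (Ideal.span (Set.range fun i => ∑ j, (c i j + c j i) * x j)) →
      Module.length R (M ⊗[R] N) ≠ ⊤ → SerreHolds R d M N

/-- The fibre of the support of `X` over the prime `q` of `A` has codimension at most one: for every
irreducible component `V(p)` of the support of `X` and every irreducible component `V(P)` of
`V(p + qR)` which lies over `q`, there is no prime strictly between `p` and `P`. -/
def FibreCodimAtMostOne (A R X : Type u) [CommRing A] [CommRing R] [Algebra A R] [AddCommGroup X]
    [Module R X] (q : Ideal A) : Prop :=
  ∀ p ∈ (Module.annihilator R X).minimalPrimes,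
    ∀ P ∈ (p ⊔ q.map (algebraMap A R)).minimalPrimes, P.comap (algebraMap A R) = q →
      ∀ p' : Ideal R, p'.IsPrime → p < p' → ¬ p' < P

/-- (III) `R` is local and essentially smooth over a regular local ring `A`, under a condition on
the fibres over the primes of `A` of height at least five. -/
def EssSmoothCase : Prop :=
  ∀ (A R : Type u) [CommRing A] [IsRegularLocalRing A] [CommRing R] [IsLocalRing R]
    [Algebra A R] [Algebra.EssFiniteType A R] [Algebra.FormallySmooth A R] (d : ℕ),
    ringKrullDim R = d →
    ∀ (M N : Type u) [AddCommGroup M] [Module R M] [Module.Finite R M]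
      [AddCommGroup N] [Module R N] [Module.Finite R N],
      (∀ q : Ideal A, q.IsPrime → 5 ≤ q.height →
        FibreCodimAtMostOne A R M q ∨ FibreCodimAtMostOne A R N q) →
      Module.length R (M ⊗[R] N) ≠ ⊤ → IsRegularLocalRing R ∧ SerreHolds R d M N

/-- (IV) `R` is any regular local ring, `M` and `N` are killed by powers of `f`, and the
hypersurface `A = R/f` has a flat local map with closed fibre of finite length to a hypersurface
`C = S/g` in a tame ring `S` of the same dimension as `R`. -/
def TorsionCase : Prop :=
  ∀ (R S A C : Type u) [CommRing R] [IsRegularLocalRing R] [CommRing S] [CommRing A]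
    [IsLocalRing A] [CommRing C] [IsLocalRing C] (d : ℕ) (f : R) (g : S)
    (α : R →+* A) (β : S →+* C) (φ : A →+* C),
    ringKrullDim R = d → ringKrullDim S = d → f ≠ 0 → g ≠ 0 →
    Function.Surjective α → RingHom.ker α = Ideal.span {f} →
    Function.Surjective β → RingHom.ker β = Ideal.span {g} →
    Tame S → FlatFiniteFibre φ →
    ∀ (M N : Type u) [AddCommGroup M] [Module R M] [Module.Finite R M]
      [AddCommGroup N] [Module R N] [Module.Finite R N] (s t : ℕ),
      (∀ x : M, f ^ s • x = 0) → (∀ x : N, f ^ t • x = 0) →
      Module.length R (M ⊗[R] N) ≠ ⊤ → SerreHolds R d M N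

/-- (V) `R` is any regular local ring of mixed characteristic `(0, p)`, ramified or not, and `M`
and `N` are killed by powers of `p`. -/
def PPowerTorsionCase : Prop :=
  ∀ (R : Type u) [CommRing R] [IsRegularLocalRing R] (d p : ℕ) [Fact p.Prime],
    ringKrullDim R = d → (p : R) ≠ 0 → (p : R) ∈ maximalIdeal R →
    ∀ (M N : Type u) [AddCommGroup M] [Module R M] [Module.Finite R M]
      [AddCommGroup N] [Module R N] [Module.Finite R N] (s t : ℕ),
      (∀ x : M, (p : R) ^ s • x = 0) → (∀ x : N, (p : R) ^ t • x = 0) →
      Module.length R (M ⊗[R] N) ≠ ⊤ → SerreHolds R d M N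

end Vale.Agent.P177.Serre
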