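import Vale.Agent.P177.CFres

/-!
Action of strict resolutions on filtered modules, and filtered homotopies.
-/

namespace Vale.Agent.P177

open Function IsLocalRing

universe u

section act

variable {A : Type*} [CommRing A] {I : Ideal A} {p q : ℕ} {N : Type*} [AddCommGroup N]
  [Module A N] {G : ℕ → Submodule A N}

theorem act_mem (hG : GoodFil I G) {δ : (Fin p → A) →ₗ[A] (Fin q → A)} {a : Fin p → ℕ}
    {a' : Fin q → ℕ} {r : ℕ} (hδ : ∀ j k, δ (Pi.single j 1) k ∈ I ^ (a j + r - a' k)) {n : ℕ}
    {v : Fin p → N} (hv : v ∈ wfil G a n) : act N δ v ∈ wfil G a' (n + r) := by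
  rw [mem_wfil] at hv ⊢
  intro k
  rw [act_apply]
  refine Submodule.sum_mem _ fun j _ => ?_
  exact hG.antitone (by omega) (hG.smul_mem (hδ j k) (hv j))

theorem act_add (δ δ' : (Fin p → A) →ₗ[A] (Fin q → A)) (v : Fin p → N) :
    act N (δ + δ') v = act N δ v + act N δ' v := by
  funext k
  simp only [act_apply, LinearMap.add_apply, Pi.add_apply, add_smul, Finset.sum_add_distrib]

theorem act_smul_id (c : A) (v : Fin p → N) :
    act N (c • (LinearMap.id : (Fin p → A) →ₗ[A] (Fin p → A))) v = c • v := by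
  funext k
  rw [act_apply, Finset.sum_eq_single k]
  · simp
  · intro j _ hj
    simp [Pi.single_eq_of_ne hj.symm]
  · simp

/-- Lifting through a linear map generator by generator. -/
theorem exists_lift_basis {q : ℕ} (δ : (Fin q → A) →ₗ[A] (Fin p → A))
    (g : (Fin p → A) →ₗ[A] (Fin p → A)) (a : Fin p → ℕ) (a' : Fin q → ℕ) (r : ℕ)
    (h : ∀ j, g (Pi.single j 1) ∈ (wfil (fun k => (I ^ k : Ideal A)) a' (a j + r)).map δ) :
    ∃ s : (Fin p → A) →ₗ[A] (Fin q → A), (∀ j k, s (Pi.single j 1) k ∈ I ^ (a j + r - a' k)) ∧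
      δ.comp s = g := by
  choose w hw hwg using h
  refine ⟨lc w, ?_, ?_⟩
  · intro j k
    have h1 : lc w (Pi.single j (1 : A)) = w j := by
      rw [lc_apply, Finset.sum_eq_single j]
      · rw [Pi.single_eq_same, one_smul]
      · intro i _ hi
        rw [Pi.single_eq_of_ne hi, zero_smul]
      · simp
    rw [h1]
    exact mem_wfil.1 (hw j) k
  · refine LinearMap.pi_ext' fun j => LinearMap.ext_ring ?_
    change δ (lc w (Pi.single j 1)) = g (Pi.single j 1)
    have h1 : lc w (Pi.single j (1 : A)) = w j := by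
      rw [lc_apply, Finset.sum_eq_single j]
      · rw [Pi.single_eq_same, one_smul]
      · intro i _ hi
        rw [Pi.single_eq_of_ne hi, zero_smul]
      · simp
    rw [h1, hwg]

theorem single_mem_wfil (a : Fin p → ℕ) (j : Fin p) :
    (Pi.single j 1 : Fin p → A) ∈ wfil (fun k => (I ^ k : Ideal A)) a (a j) := by
  rw [mem_wfil]
  intro k
  by_cases h : k = j
  · subst h
    simp
  · simp [Pi.single_eq_of_ne h]

end act

section fres

variable {A : Type u} [CommRing A] {I : Ideal A} {M : Type u} [AddCommGroup M] [Module A M]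
  {F : ℕ → Submodule A M} {r : ℕ} (X : FRes I F r)

theorem FRes.delta_mem (i : ℕ) (j : Fin (X.b (i + 1))) (k : Fin (X.b i)) :
    X.δ i (Pi.single j 1) k ∈ I ^ (X.a (i + 1) j + 0 - X.a i k) := by
  rw [add_zero]
  have h1 : X.δ i (Pi.single j 1) ∈ wfil (fun k => (I ^ k : Ideal A)) (X.a i) (X.a (i + 1) j) := by
    cases i with
    | zero =>
      have h2 : X.δ 0 (Pi.single j 1) ∈ (wfil (fun k => (I ^ k : Ideal A)) (X.a 1)
          (X.a 1 j)).map (X.δ 0) := ⟨_, single_mem_wfil _ _, rfl⟩
      rw [X.strict_zero] at h2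
      exact h2.2
    | succ i =>
      have h2 : X.δ (i + 1) (Pi.single j 1) ∈ (wfil (fun k => (I ^ k : Ideal A)) (X.a (i + 2))
          (X.a (i + 2) j)).map (X.δ (i + 1)) := ⟨_, single_mem_wfil _ _, rfl⟩
      rw [X.strict_succ] at h2
      exact h2.2
  exact mem_wfil.1 h1 k

theorem FRes.comp_eq_zero (i : ℕ) : (X.δ i).comp (X.δ (i + 1)) = 0 :=
  LinearMap.ext fun v => (X.exact_succ i).apply_apply_eq_zero v

variable (N : Type u) [AddCommGroup N] [Module A N]

/-- Multiplication by an element of `I ^ m` that kills `M` is homotopic to zero in a filtered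
way. -/
theorem FRes.homotopy {c : A} {m : ℕ} (hc : c ∈ I ^ m) (hcM : ∀ v : M, c • v = 0) (i : ℕ) :
    ∃ s : (Fin (X.b i) → A) →ₗ[A] (Fin (X.b (i + 1)) → A),
      (∀ j k, s (Pi.single j 1) k ∈ I ^ (X.a i j + m - X.a (i + 1) k)) ∧
      ((X.δ i).comp s).comp (X.δ i) = c • X.δ i ∧
      ∀ v ∈ X.Z N i, c • v = act N (X.δ i) (act N s v) := by
  have hcf : ∀ (i : ℕ) (j : Fin (X.b i)), c • (Pi.single j 1 : Fin (X.b i) → A) ∈
      wfil (fun k => (I ^ k : Ideal A)) (X.a i) (X.a i j + m) := fun i j =>
    ((goodFil_self I).weighted (X.a i)).smul_mem hc (single_mem_wfil _ _)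
  induction i with
  | zero =>
    obtain ⟨s, hs, hsc⟩ := exists_lift_basis (I := I) (X.δ 0) (c • LinearMap.id) (X.a 0) (X.a 1) m
      (by
        intro j
        rw [X.strict_zero]
        refine ⟨?_, hcf 0 j⟩
        change X.ε (c • Pi.single j 1) = 0
        rw [map_smul, hcM])
    refine ⟨s, hs, ?_, ?_⟩
    · rw [hsc, LinearMap.smul_comp, LinearMap.id_comp]
    · intro v _
      rw [← act_comp, hsc, act_smul_id]
  | succ i ih =>
    obtain ⟨s, hs, hsc, -⟩ := ih
    obtain ⟨s', hs', hsc'⟩ := exists_lift_basis (I := I) (X.δ (i + 1))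
      (c • LinearMap.id - s.comp (X.δ i)) (X.a (i + 1)) (X.a (i + 2)) m
      (by
        intro j
        rw [X.strict_succ]
        refine ⟨?_, ?_⟩
        · change X.δ i (c • Pi.single j 1 - s (X.δ i (Pi.single j 1))) = 0
          have := LinearMap.congr_fun hsc (Pi.single j 1)
          change X.δ i (s (X.δ i (Pi.single j 1))) = c • X.δ i (Pi.single j 1) at this
          rw [map_sub, map_smul, this, sub_self]
        · refine Submodule.sub_mem _ (hcf _ j) ?_
          rw [mem_wfil]
          intro k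
          change s (X.δ i (Pi.single j 1)) k ∈ _
          rw [apply_eq_sum]
          refine Submodule.sum_mem _ fun l _ => ?_
          have h1 := Ideal.mul_mem_mul (X.delta_mem i j l) (hs l k)
          rw [← pow_add] at h1
          exact Ideal.pow_le_pow_right (by omega) h1)
    have hz := X.comp_eq_zero i
    refine ⟨s', hs', ?_, ?_⟩
    · rw [hsc', LinearMap.sub_comp, LinearMap.smul_comp, LinearMap.id_comp, LinearMap.comp_assoc,
        hz, LinearMap.comp_zero, sub_zero]
    · intro v hv
      have hv' : act N (X.δ i) v = 0 := hv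
      rw [← act_comp, hsc', sub_eq_add_neg, act_add, act_smul_id]
      have h1 : act N (-(s.comp (X.δ i))) v = - act N (s.comp (X.δ i)) v := by
        funext k
        simp only [act_apply, LinearMap.neg_apply, Pi.neg_apply, neg_smul, Finset.sum_neg_distrib]
      rw [h1, act_comp, hv', map_zero, neg_zero, add_zero]

variable {N} {G : ℕ → Submodule A N}

theorem FRes.map_wfil_le (hG : GoodFil I G) (i n : ℕ) :
    (wfil G (X.a (i + 1)) n).map (act N (X.δ i)) ≤ wfil G (X.a i) n := by
  rintro _ ⟨v, hv, rfl⟩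
  exact act_mem hG (X.delta_mem i) hv

end fres

end Vale.Agent.P177
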