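import Vale.Agent.P177.CDim

/-!
Additivity and symmetry of the Euler characteristic of Tor.
-/

namespace Vale.Agent.P177

open CategoryTheory TensorProduct Function IsLocalRing RingTheory.Sequence Pointwise

universe u

variable {T : Type u} [CommRing T]

theorem eulerTor_congr {X X' Y Y' : Type u} [AddCommGroup X] [Module T X] [AddCommGroup X']
    [Module T X'] [AddCommGroup Y] [Module T Y] [AddCommGroup Y'] [Module T Y']
    (e : X ≃ₗ[T] X') (e' : Y ≃ₗ[T] Y') (n : ℕ) : eulerTor T n X Y = eulerTor T n X' Y' := by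
  unfold eulerTor
  refine Finset.sum_congr rfl fun j _ => ?_
  rw [(torCongrLeft j e Y).length_eq, (torCongrRight j X' e').length_eq]

theorem eulerTor_symm (X Y : Type u) [AddCommGroup X] [Module T X] [AddCommGroup Y] [Module T Y]
    (n : ℕ) : eulerTor T n X Y = eulerTor T n Y X := by
  unfold eulerTor
  refine Finset.sum_congr rfl fun j _ => ?_
  obtain ⟨e⟩ := tor_symm (R := T) j X Y
  rw [e.length_eq]

theorem eulerTor_of_vanish (X Y : Type u) [AddCommGroup X] [Module T X] [AddCommGroup Y]
    [Module T Y] (m n : ℕ) (hmn : m ≤ n) (h : ∀ j, m ≤ j → Subsingleton (TorM T j X Y)) :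
    eulerTor T n X Y = eulerTor T m X Y := by
  induction n, hmn using Nat.le_induction with
  | base => rfl
  | succ n hmn ih =>
    rw [← ih]
    unfold eulerTor
    rw [Finset.sum_range_succ]
    have := h n hmn
    rw [Module.length_eq_zero]
    simp

theorem numeric_add {a b c d f g : ℕ → ℤ} (h1 : ∀ n, a n = d n + f n) (h2 : ∀ n, b n = f n + g n)
    (h30 : c 0 = g 0) (h3 : ∀ n, c (n + 1) = g (n + 1) + d n) (n : ℕ) :
    ∑ j ∈ Finset.range (n + 1), (-1 : ℤ) ^ j * a j + ∑ j ∈ Finset.range (n + 1), (-1 : ℤ) ^ j * c j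
      = ∑ j ∈ Finset.range (n + 1), (-1 : ℤ) ^ j * b j + (-1) ^ n * d n := by
  induction n with
  | zero =>
    simp only [zero_add, Finset.sum_range_one, pow_zero, one_mul]
    rw [h1, h2, h30]; ring
  | succ n ih =>
    rw [Finset.sum_range_succ, Finset.sum_range_succ _ (n + 1), Finset.sum_range_succ _ (n + 1)]
    have e1 := h1 (n + 1)
    have e2 := h2 (n + 1)
    have e3 := h3 n
    rw [e1, e2, e3]
    linear_combination ih

theorem toNat_length_ker_add_range {X Y : Type u} [AddCommGroup X] [Module T X] [AddCommGroup Y]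
    [Module T Y] (φ : X →ₗ[T] Y) (h : Module.length T X ≠ ⊤) :
    ((Module.length T X).toNat : ℤ) = ((Module.length T (LinearMap.ker φ)).toNat : ℤ) +
      ((Module.length T (LinearMap.range φ)).toNat : ℤ) := by
  have h1 := length_ker_add_range φ
  have h2 : Module.length T (LinearMap.ker φ) ≠ ⊤ := fun h' => h (by rw [h1, h', top_add])
  have h3 : Module.length T (LinearMap.range φ) ≠ ⊤ := fun h' => h (by rw [h1, h', add_top])
  rw [h1, ENat.toNat_add h2 h3]
  push_cast
  rfl

/-- Additivity of the Euler characteristic in the first variable. -/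
theorem eulerTor_add {X' X X'' : Type u} [AddCommGroup X'] [Module T X'] [AddCommGroup X]
    [Module T X] [AddCommGroup X''] [Module T X''] (f : X' →ₗ[T] X) (g : X →ₗ[T] X'')
    (hf : Injective f) (hg : Surjective g) (h : Exact f g) (Y : Type u) [AddCommGroup Y]
    [Module T Y] (n : ℕ) (h1 : ∀ j, Module.length T (TorM T j X' Y) ≠ ⊤)
    (h2 : ∀ j, Module.length T (TorM T j X Y) ≠ ⊤)
    (h3 : ∀ j, Module.length T (TorM T j X'' Y) ≠ ⊤)
    (hv : Subsingleton (TorM T (n + 1) X'' Y)) :
    eulerTor T (n + 1) X Y = eulerTor T (n + 1) X' Y + eulerTor T (n + 1) X'' Y := by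
  obtain ⟨δ, e1, e2, e3⟩ := exists_torDelta f g hf hg h Y
  have hnum := numeric_add (n := n)
    (a := fun j => ((Module.length T (TorM T j X' Y)).toNat : ℤ))
    (b := fun j => ((Module.length T (TorM T j X Y)).toNat : ℤ))
    (c := fun j => ((Module.length T (TorM T j X'' Y)).toNat : ℤ))
    (d := fun j => ((Module.length T (LinearMap.range (δ j))).toNat : ℤ))
    (f := fun j => ((Module.length T (LinearMap.range (torMap j f Y))).toNat : ℤ))
    (g := fun j => ((Module.length T (LinearMap.range (torMap j g Y))).toNat : ℤ))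
    (by
      intro j
      rw [toNat_length_ker_add_range (torMap j f Y) (h1 j), LinearMap.exact_iff.1 (e2 j)])
    (by
      intro j
      rw [toNat_length_ker_add_range (torMap j g Y) (h2 j), LinearMap.exact_iff.1 (e3 j)])
    (by
      have : LinearMap.range (torMap 0 g Y) = ⊤ :=
        LinearMap.range_eq_top.2 (torMap_zero_surjective g hg Y)
      change ((Module.length T (TorM T 0 X'' Y)).toNat : ℤ) =
        ((Module.length T (LinearMap.range (torMap 0 g Y))).toNat : ℤ)
      rw [this, Module.length_top])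
    (by
      intro j
      rw [toNat_length_ker_add_range (δ j) (h3 (j + 1)), LinearMap.exact_iff.1 (e1 j)])
  have hd : Module.length T (LinearMap.range (δ n)) = 0 := by
    rw [Module.length_eq_zero_iff]
    exact (LinearMap.surjective_rangeRestrict (δ n)).subsingleton
  simp only [hd, ENat.toNat_zero, Nat.cast_zero, mul_zero, add_zero] at hnum
  exact hnum.symm

end Vale.Agent.P177
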