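import Vale.Agent.P177.TorEul

/-!
Lower bound for dimensions of tensor products of base changes.
-/

namespace Vale.Agent.P177

open CategoryTheory TensorProduct Function IsLocalRing RingTheory.Sequence Pointwise

universe u

section prelim

variable {S : Type u} [CommRing S] [IsLocalRing S]

/-- A nonzero finitely generated module over a local ring surjects onto the residue field. -/
theorem exists_surjective_residue (M : Type u) [AddCommGroup M] [Module S M] [Module.Finite S M]
    [Nontrivial M] : ∃ g : M →ₗ[S] (S ⧸ maximalIdeal S), Surjective g := by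
  obtain ⟨N, hN⟩ := IsCoatomic.exists_coatom (Submodule S M)
  have hs : IsSimpleModule S (M ⧸ N) := isSimpleModule_iff_isCoatom.2 hN
  obtain ⟨I, hI, ⟨e⟩⟩ := isSimpleModule_iff_quot_maximal.1 hs
  have hI' : I = maximalIdeal S := IsLocalRing.eq_maximalIdeal hI
  subst hI'
  exact ⟨e.toLinearMap ∘ₗ N.mkQ, e.surjective.comp (Submodule.mkQ_surjective N)⟩

/-- A prime of the support starting a long chain is associated: embedding of `S/P`. -/
theorem exists_prime_embedding [IsNoetherianRing S] (n : ℕ) (M : Type u) [AddCommGroup M]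
    [Module S M] [Module.Finite S M]
    (hn : (n + 1 : ℕ) ≤ Module.supportDim S M) :
    ∃ P : Ideal S, P.IsPrime ∧ P < maximalIdeal S ∧
      (∃ f : (S ⧸ P) →ₗ[S] M, Injective f) ∧ (n + 1 : ℕ) ≤ Module.supportDim S (S ⧸ P) := by
  unfold Module.supportDim at hn
  obtain ⟨l, hl⟩ := Order.le_krullDim_iff.1 hn
  have hle : Module.annihilator S M ≤ l.head.1.asIdeal :=
    Module.annihilator_le_of_mem_support l.head.2
  have hprime := l.head.1.2
  obtain ⟨P, hP, hPle⟩ := Ideal.exists_minimalPrimes_le hle
  have hass := Module.associatedPrimes.minimalPrimes_annihilator_subset_associatedPrimes S M hP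
  obtain ⟨hPp, x, hx⟩ := isAssociatedPrime_iff.1 hass
  refine ⟨P, hPp, ?_, ?_, ?_⟩
  · have h1 : l.head < l.last := by
      apply l.strictMono
      rw [Fin.lt_def]
      change 0 < l.length
      omega
    have h2 : l.head.1.asIdeal < l.last.1.asIdeal := h1
    exact (hPle.trans_lt h2).trans_le (le_maximalIdeal l.last.1.2.ne_top)
  · have hker : P = LinearMap.ker (LinearMap.toSpanSingleton S M x) := by
      rw [hx]
      ext a
      rw [Submodule.mem_colon_singleton, LinearMap.mem_ker]
      rfl
    refine ⟨P.liftQ (LinearMap.toSpanSingleton S M x) hker.le, ?_⟩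
    rw [← LinearMap.ker_eq_bot, Submodule.ker_liftQ_eq_bot']
    exact hker
  · unfold Module.supportDim
    rw [Order.le_krullDim_iff]
    have hmem : ∀ i, (l i).1 ∈ Module.support S (S ⧸ P) := by
      intro i
      rw [Module.support_eq_zeroLocus, Ideal.annihilator_quotient]
      have h3 : l.head.1.asIdeal ≤ (l i).1.asIdeal := l.head_le i
      exact hPle.trans h3
    exact ⟨{ length := l.length
             toFun := fun i => ⟨(l i).1, hmem i⟩
             step := fun i => l.step i }, hl⟩

end prelim

section

variable {S B : Type u} [CommRing S] [CommRing B] [Algebra S B]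
variable [IsLocalRing S] [IsNoetherianRing S] [IsLocalRing B] [IsNoetherianRing B]
  [Module.Flat S B] [IsLocalHom (algebraMap S B)]

omit [IsLocalRing B] [IsNoetherianRing B] in
theorem torMap_zero_injective {M' M M'' : Type u} [AddCommGroup M'] [Module B M']
    [AddCommGroup M] [Module B M] [AddCommGroup M''] [Module B M'']
    (f : M' →ₗ[B] M) (g : M →ₗ[B] M'') (hf : Injective f)
    (hg : Surjective g) (h : Exact f g) (Z : Type u) [AddCommGroup Z] [Module B Z]
    (h2 : Subsingleton (TorM B 1 M'' Z)) : Injective (torMap 0 f Z) := by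
  obtain ⟨δ, -, h3, -⟩ := exists_torDelta f g hf hg h Z
  rw [injective_iff_map_eq_zero]
  intro x hx
  obtain ⟨y, rfl⟩ := (h3 0 x).1 hx
  rw [Subsingleton.elim y 0, map_zero]

theorem le_supportDim_tor (Z : Type u) [AddCommGroup Z] [Module B Z] [Module.Finite B Z]
    (hv : ∀ (M : Type u) [AddCommGroup M] [Module S M] [Module.Finite S M],
      Subsingleton (TorM B 1 (B ⊗[S] M) Z))
    (m : ℕ) (hm : (m : WithBot ℕ∞) ≤
      Module.supportDim B (TorM B 0 (B ⊗[S] (S ⧸ maximalIdeal S)) Z))
    (n : ℕ) (M : Type u) [AddCommGroup M] [Module S M] [Module.Finite S M]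
    (hn : (n : WithBot ℕ∞) ≤ Module.supportDim S M) :
    ((n + m : ℕ) : WithBot ℕ∞) ≤ Module.supportDim B (TorM B 0 (B ⊗[S] M) Z) := by
  induction n generalizing M with
  | zero =>
    have hnt : Nontrivial M := by
      rw [← Module.supportDim_ne_bot_iff_nontrivial S M]
      intro hb
      rw [hb] at hn
      simp at hn
    obtain ⟨g, hg⟩ := exists_surjective_residue (S := S) M
    rw [zero_add]
    refine hm.trans ?_
    have hg' : Surjective (g.baseChange B) := by
      rw [LinearMap.baseChange_eq_ltensor]
      exact LinearMap.lTensor_surjective B hg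
    exact Module.supportDim_le_of_surjective _ (torMap_zero_surjective (g.baseChange B) hg' Z)
  | succ n ih =>
    obtain ⟨P, hPp, hPm, ⟨f, hf⟩, hdim⟩ := exists_prime_embedding n M hn
    -- embed `S/P`
    have e1 : Exact f (LinearMap.range f).mkQ := by
      intro y
      simp
    obtain ⟨k1, k2, k3⟩ := baseChange_ses (B := B) f (LinearMap.range f).mkQ hf
      (Submodule.mkQ_surjective _) e1
    have hinj : Injective (torMap 0 (f.baseChange B) Z) :=
      torMap_zero_injective _ _ k1 k2 k3 Z (hv _)
    refine le_trans ?_ (Module.supportDim_le_of_injective _ hinj)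
    -- multiplication by an element outside `P`
    obtain ⟨x, hxm, hxP⟩ := SetLike.exists_of_lt hPm
    have hxreg : IsSMulRegular (S ⧸ P) x := by
      rw [isSMulRegular_iff_right_eq_zero_of_smul]
      intro a ha
      obtain ⟨a, rfl⟩ := Ideal.Quotient.mk_surjective a
      have h1 : Ideal.Quotient.mk P (x * a) = 0 := ha
      rw [Ideal.Quotient.eq_zero_iff_mem] at h1 ⊢
      exact (hPp.mem_or_mem h1).resolve_left hxP
    obtain ⟨φ, ψ, hφ, hi, hs, hex⟩ := quot_ses (S ⧸ P) x hxreg
    obtain ⟨j1, j2, j3⟩ := baseChange_ses (B := B) φ ψ hi hs hex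
    have hle : (maximalIdeal S).map (algebraMap S B) ≤ maximalIdeal B :=
      ((IsLocalRing.local_hom_TFAE (algebraMap S B)).out 0 2).mp ‹_›
    have hb : algebraMap S B x ∈ maximalIdeal B := hle (Ideal.mem_map_of_mem _ hxm)
    have hφ' : ∀ t, torMap 0 (φ.baseChange B) Z t = algebraMap S B x • t :=
      torMap_smul_id 0 (algebraMap S B x) _ (baseChange_smul_eq x φ hφ)
    have hinj2 : Injective (torMap 0 (φ.baseChange B) Z) :=
      torMap_zero_injective _ _ j1 j2 j3 Z (hv _)
    have hreg : IsSMulRegular (TorM B 0 (B ⊗[S] (S ⧸ P)) Z) (algebraMap S B x) := by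
      intro a b hab
      apply hinj2
      rw [hφ', hφ']
      exact hab
    obtain ⟨δ, -, -, h3⟩ := exists_torDelta _ _ j1 j2 j3 Z
    obtain ⟨e⟩ := exists_quotSMulTop_equiv (algebraMap S B x) (torMap 0 (φ.baseChange B) Z)
      hφ' (torMap 0 (ψ.baseChange B) Z) (torMap_zero_surjective _ j2 Z) (h3 0)
    have i1 := tor_finite (R := B) 0 (B ⊗[S] (S ⧸ P)) Z
    rw [← Module.supportDim_quotSMulTop_succ_eq_supportDim hreg hb,
      Module.supportDim_eq_of_equiv e]
    have h4 : (n : WithBot ℕ∞) ≤ Module.supportDim S (QuotSMulTop x (S ⧸ P)) := by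
      have h5 := Module.supportDim_le_supportDim_quotSMulTop_succ (M := S ⧸ P) hxm
      have h6 := hdim.trans h5
      generalize Module.supportDim S (QuotSMulTop x (S ⧸ P)) = a at h6 ⊢
      push_cast at h6
      induction a using WithBot.recBotCoe with
      | bot => simp at h6
      | coe a =>
        have h7 : ((n : ℕ∞) + 1) ≤ a + 1 := by exact_mod_cast h6
        have h8 : (n : ℕ∞) ≤ a := (ENat.add_le_add_iff_right (by simp)).1 h7
        exact_mod_cast h8
    have h9 := ih _ h4
    calc ((n + 1 + m : ℕ) : WithBot ℕ∞) = ((n + m : ℕ) : WithBot ℕ∞) + 1 := by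
          push_cast
          ring
      _ ≤ _ := by gcongr

end

end Vale.Agent.P177
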