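import Vale.Agent.P177.CLocA
import Vale.Agent.P177.DimLemma

/-!
Base change along a flat map: vanishing of Tor, quotients by sequences, dimension and depth.
-/

namespace Vale.Agent.P177

open CategoryTheory TensorProduct Function IsLocalRing RingTheory.Sequence Pointwise

universe u

section general

variable {R : Type u} [CommRing R]

/-- Vanishing of the first Tor against cyclic modules gives flatness. -/
theorem flat_of_tor_one (K : Type u) [AddCommGroup K] [Module R K]
    (h : ∀ I : Ideal R, Subsingleton (TorM R 1 (R ⧸ I) K)) : Module.Flat R K := by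
  rw [Module.Flat.iff_rTensor_injective']
  intro I
  have hex : Exact I.subtype I.mkQ := by
    intro x
    rw [Submodule.mkQ_apply, Submodule.Quotient.mk_eq_zero]
    simp
  obtain ⟨δ, -, h3, -⟩ := exists_torDelta I.subtype I.mkQ (Submodule.injective_subtype _)
    (Submodule.mkQ_surjective _) hex K
  rw [injective_iff_map_eq_zero]
  intro x hx
  have h4 : torMap 0 I.subtype K ((torZero I K).symm x) = 0 := by
    apply (torZero R K).injective
    rw [torZero_naturality, LinearEquiv.apply_symm_apply, map_zero]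
    exact hx
  obtain ⟨y, hy⟩ := (h3 0 _).1 h4
  have := h I
  rw [Subsingleton.elim y 0, map_zero] at hy
  rw [← (torZero I K).apply_symm_apply x, ← hy, map_zero]

variable {T : Type u} [CommRing T] [Algebra R T] [Module.Flat R T]

/-- Vanishing of Tor is preserved by flat base change. -/
theorem tor_vanish_baseChange (m : ℕ) (K : Type u) [AddCommGroup K] [Module R K]
    (hK : ∀ j, m + 1 ≤ j → ∀ I : Ideal R, Subsingleton (TorM R j K (R ⧸ I)))
    (j : ℕ) (hj : m + 1 ≤ j) (X : Type u) [AddCommGroup X] [Module T X] :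
    Subsingleton (TorM T j (T ⊗[R] K) X) := by
  induction m generalizing K j with
  | zero =>
    have : Module.Flat R K := flat_of_tor_one K fun I =>
      tor_symm_subsingleton _ _ _ (hK 1 le_rfl I)
    obtain ⟨j, rfl⟩ : ∃ k, j = k + 1 := ⟨j - 1, by omega⟩
    exact tor_subsingleton_of_flat j
  | succ m ih =>
    obtain ⟨F, K1, _, _, _, _, f, g, hF, hf, hg, hex⟩ := exists_cover R K
    obtain ⟨j, rfl⟩ : ∃ k, j = k + 1 := ⟨j - 1, by omega⟩
    have h1 : ∀ j, m + 1 ≤ j → ∀ I : Ideal R, Subsingleton (TorM R j K1 (R ⧸ I)) := by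
      intro j hj I
      obtain ⟨δ, -, h2, -⟩ := exists_torDelta f g hf hg hex (R ⧸ I)
      obtain ⟨i, rfl⟩ : ∃ k, j = k + 1 := ⟨j - 1, by omega⟩
      have h3 : Subsingleton (TorM R (i + 1) F (R ⧸ I)) := tor_subsingleton_of_flat i
      have h4 := hK (i + 1 + 1) (by omega) I
      refine subsingleton_of_forall_eq 0 fun x => ?_
      obtain ⟨y, rfl⟩ := (h2 (i + 1) x).1 (Subsingleton.elim _ _)
      rw [Subsingleton.elim y 0, map_zero]
    have h2 := ih K1 h1 j (by omega)
    obtain ⟨k1, k2, k3⟩ := baseChange_ses (B := T) f g hf hg hex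
    obtain ⟨δ, h4, -, -⟩ := exists_torDelta _ _ k1 k2 k3 X
    have h5 : Subsingleton (TorM T (j + 1) (T ⊗[R] F) X) := tor_subsingleton_of_flat j
    refine subsingleton_of_forall_eq 0 fun x => ?_
    obtain ⟨y, rfl⟩ := (h4 j x).1 (Subsingleton.elim _ _)
    rw [Subsingleton.elim y 0, map_zero]

omit [Module.Flat R T] in
/-- Base change of a quotient by a sequence. -/
theorem exists_baseChange_quot (zs : List R) (M : Type u) [AddCommGroup M] [Module R M] :
    Nonempty ((T ⊗[R] (M ⧸ (Ideal.ofList zs • ⊤ : Submodule R M))) ≃ₗ[T]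
      ((T ⊗[R] M) ⧸ (Ideal.ofList (zs.map (algebraMap R T)) • ⊤ : Submodule T (T ⊗[R] M)))) := by
  set N : Submodule R M := Ideal.ofList zs • ⊤ with hN
  have hex : Exact (N.subtype.baseChange T) (N.mkQ.baseChange T) := by
    rw [LinearMap.baseChange_eq_ltensor, LinearMap.baseChange_eq_ltensor]
    refine lTensor_exact T ?_ (Submodule.mkQ_surjective _)
    intro x
    simp
  have hsurj : Surjective (N.mkQ.baseChange T) := by
    rw [LinearMap.baseChange_eq_ltensor]
    exact LinearMap.lTensor_surjective T (Submodule.mkQ_surjective _)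
  have hker : (Ideal.ofList (zs.map (algebraMap R T)) • ⊤ : Submodule T (T ⊗[R] M)) =
      LinearMap.ker (N.mkQ.baseChange T) := by
    apply le_antisymm
    · rw [Submodule.smul_le]
      intro a ha x _
      have hle : Ideal.ofList (zs.map (algebraMap R T)) ≤
          Module.annihilator T (T ⊗[R] (M ⧸ N)) := by
        rw [Ideal.ofList, Ideal.span_le]
        intro y hy
        have hy' : y ∈ zs.map (algebraMap R T) := hy
        rw [List.mem_map] at hy'
        obtain ⟨z, hz, rfl⟩ := hy'
        change algebraMap R T z ∈ Module.annihilator T (T ⊗[R] (M ⧸ N))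
        rw [Module.mem_annihilator]
        intro w
        induction w using TensorProduct.induction_on with
        | zero => exact smul_zero _
        | tmul t m =>
          obtain ⟨m, rfl⟩ := Submodule.mkQ_surjective N m
          rw [algebraMap_smul, TensorProduct.smul_tmul', TensorProduct.smul_tmul, ← map_smul]
          have : N.mkQ (z • m) = 0 := by
            rw [Submodule.mkQ_apply, Submodule.Quotient.mk_eq_zero]
            exact Submodule.smul_mem_smul (Ideal.subset_span hz) trivial
          rw [this, TensorProduct.tmul_zero]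
        | add x y hx hy => rw [smul_add, hx, hy, add_zero]
      rw [LinearMap.mem_ker, map_smul]
      exact Module.mem_annihilator.1 (hle ha) _
    · rw [LinearMap.exact_iff.1 hex]
      rintro _ ⟨y, rfl⟩
      induction y using TensorProduct.induction_on with
      | zero => rw [map_zero]; exact Submodule.zero_mem _
      | tmul t n =>
        obtain ⟨n, hn⟩ := n
        change t ⊗ₜ[R] n ∈ _
        rw [hN] at hn
        induction hn using Submodule.smul_induction_on' with
        | smul a ha m _ =>
          have h1 : t ⊗ₜ[R] (a • m) = (algebraMap R T a) • (t ⊗ₜ[R] m) := by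
            rw [algebraMap_smul, TensorProduct.tmul_smul]
          rw [h1]
          refine Submodule.smul_mem_smul ?_ trivial
          rw [← Ideal.map_ofList]
          exact Ideal.mem_map_of_mem _ ha
        | add x hx y hy h1 h2 =>
          rw [TensorProduct.tmul_add]
          exact Submodule.add_mem _ h1 h2
      | add x y hx hy => rw [map_add]; exact Submodule.add_mem _ hx hy
  exact ⟨((Submodule.quotEquivOfEq _ _ hker) ≪≫ₗ
    (N.mkQ.baseChange T).quotKerEquivOfSurjective hsurj).symm⟩

end general

section onesided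

variable {R T : Type u} [CommRing R] [IsRegularLocalRing R] [CommRing T] [IsRegularLocalRing T]
  [Algebra R T] [Module.Flat R T] [IsLocalHom (algebraMap R T)] {r t : ℕ}

/-- Dimension of the closed fibre. -/
theorem supportDim_fibre (hr : ringKrullDim R = r) (ht : ringKrullDim T = t) :
    Module.supportDim T (T ⊗[R] (R ⧸ maximalIdeal R)) = ((t - r : ℕ) : WithBot ℕ∞) := by
  obtain ⟨rs, hrs, hlen, hreg⟩ := exists_rsp R hr
  have h1 : IsWeaklyRegular T (rs.map (algebraMap R T)) := hreg.of_flat
  have h2 := supportDim_quot_of_weaklyRegular ht _ (map_mem_maximalIdeal (fun z hz => by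
    rw [← hrs]; exact Ideal.subset_span hz)) h1
  obtain ⟨e⟩ := exists_baseChange_quot (T := T) rs R
  have e1 : (R ⧸ maximalIdeal R) ≃ₗ[R] (R ⧸ (Ideal.ofList rs • ⊤ : Submodule R R)) :=
    Submodule.quotEquivOfEq _ _ (by rw [hrs]; simp)
  have e2 : (T ⊗[R] R) ≃ₗ[T] T := AlgebraTensorModule.rid R T T
  have e3 : ((T ⊗[R] R) ⧸ (Ideal.ofList (rs.map (algebraMap R T)) • ⊤ :
      Submodule T (T ⊗[R] R))) ≃ₗ[T]
      (T ⧸ (Ideal.ofList (rs.map (algebraMap R T)) • ⊤ : Submodule T T)) :=
    Submodule.Quotient.equiv _ _ e2 (by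
      rw [Submodule.map_smul'', Submodule.map_top, LinearEquiv.range])
  rw [Module.supportDim_eq_of_equiv ((AlgebraTensorModule.congr (LinearEquiv.refl T T) e1) ≪≫ₗ
    e ≪≫ₗ e3), h2, List.length_map, hlen]

/-- Lower bound for the dimension of a base change. -/
theorem le_supportDim_baseChange (hr : ringKrullDim R = r) (ht : ringKrullDim T = t)
    (E : Type u) [AddCommGroup E] [Module R E] [Module.Finite R E] (e : ℕ)
    (he : (e : WithBot ℕ∞) ≤ Module.supportDim R E) :
    ((e + (t - r) : ℕ) : WithBot ℕ∞) ≤ Module.supportDim T (T ⊗[R] E) := by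
  have h1 : ∀ (M : Type u) [AddCommGroup M] [Module R M],
      Nonempty (TorM T 0 (T ⊗[R] M) T ≃ₗ[T] (T ⊗[R] M)) := fun M _ _ =>
    ⟨torZero _ _ ≪≫ₗ TensorProduct.rid T _⟩
  have h2 := le_supportDim_tor (S := R) (B := T) T (fun M _ _ _ =>
    tor_subsingleton_of_projective_right 0) (t - r) (by
      obtain ⟨e1⟩ := h1 (R ⧸ maximalIdeal R)
      rw [Module.supportDim_eq_of_equiv e1, supportDim_fibre hr ht]) e E he
  obtain ⟨e1⟩ := h1 E
  rwa [Module.supportDim_eq_of_equiv e1] at h2

/-- Depth of a base change. -/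
theorem exists_regular_baseChange (hr : ringKrullDim R = r) (ht : ringKrullDim T = t)
    (E : Type u) [AddCommGroup E] [Module R E] [Module.Finite R E] (zs : List R)
    (hzs : ∀ z ∈ zs, z ∈ maximalIdeal R) (hreg : IsWeaklyRegular E zs) (hle : zs.length ≤ r) :
    ∃ ws : List T, ws.length = zs.length + (t - r) ∧ (∀ z ∈ ws, z ∈ maximalIdeal T) ∧
      IsWeaklyRegular (T ⊗[R] E) ws := by
  have hrt := dim_le_dim (R := R) (T := T) hr ht
  have hFL : FL2 ([] : List R) E (R ⧸ maximalIdeal R) := by
    unfold FL2
    rw [Ideal.annihilator_quotient]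
    exact (le_sup_of_le_left le_sup_right).trans Ideal.le_radical
  have h1 : ∀ j, r - zs.length + 1 ≤ j → Subsingleton (TorM R j E (R ⧸ maximalIdeal R)) :=
    fun j hj => tor_subsingleton_of_depth hr E (R ⧸ maximalIdeal R) hFL zs [] hzs (by simp)
      hreg (IsWeaklyRegular.nil _ _) j (by rw [List.length_nil]; omega)
  have h2 := tor_vanish_baseChange (T := T) (r - zs.length) E (fun j hj I =>
    tor_subsingleton_of_residue E (r - zs.length + 1) h1 (R ⧸ I) j hj)
  obtain ⟨ws, hlen, hws, hwreg⟩ := exists_regular_ext_list ht (T ⊗[R] E) []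
    (IsWeaklyRegular.nil _ _) (r - zs.length)
    (fun j hj => h2 j (by omega) (T ⧸ maximalIdeal T)) (zs.length + (t - r))
    (by rw [List.length_nil]; omega)
  exact ⟨ws, hlen, hws, by simpa using hwreg⟩

end onesided

end Vale.Agent.P177
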