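import Vale.Agent.P177.CRees
import Mathlib.RingTheory.RingHom.Flat

/-!
Base change of extended Rees algebras.
-/

namespace Vale.Agent.P177

open IsLocalRing Function TensorProduct

universe u

section gen

/-- A flatness criterion: a pushout of a flat map. -/
theorem flat_of_pushout {R A E' E : Type u} [CommRing R] [CommRing A] [CommRing E']
    [CommRing E] [Algebra R A] [Algebra R E'] [Module.Flat R A] (m : E' →+* E) (a : A →+* E)
    (h : ∀ r, m (algebraMap R E' r) = a (algebraMap R A r))
    (hpush : ∀ (B : Type u) [CommRing B] (f : E' →+* B) (g : A →+* B),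
      (∀ r, f (algebraMap R E' r) = g (algebraMap R A r)) →
      ∃ G : E →+* B, (∀ z, G (m z) = f z) ∧ ∀ z, G (a z) = g z)
    (hgen : ∀ f g : E →+* E, (∀ z, f (m z) = g (m z)) → (∀ z, f (a z) = g (a z)) → f = g) :
    m.Flat := by
  let iL : E' →+* E' ⊗[R] A := Algebra.TensorProduct.includeLeftRingHom
  let iR : A →+* E' ⊗[R] A := (Algebra.TensorProduct.includeRight : A →ₐ[R] E' ⊗[R] A).toRingHom
  obtain ⟨G, hGm, hGa⟩ := hpush (E' ⊗[R] A) iL iR (fun r => by
    change (algebraMap R E' r) ⊗ₜ[R] (1 : A) = 1 ⊗ₜ[R] (algebraMap R A r)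
    rw [Algebra.algebraMap_eq_smul_one, Algebra.algebraMap_eq_smul_one, TensorProduct.smul_tmul])
  let _ : Algebra R E := (m.comp (algebraMap R E')).toAlgebra
  let f : E' →ₐ[R] E := { m with commutes' := fun _ => rfl }
  let g : A →ₐ[R] E := { a with commutes' := fun r => (h r).symm }
  let F : E' ⊗[R] A →+* E := (Algebra.TensorProduct.productMap f g : E' ⊗[R] A →ₐ[R] E)
  have hF : ∀ z w, F (z ⊗ₜ w) = m z * a w := fun z w =>
    Algebra.TensorProduct.productMap_apply_tmul f g z w
  have hF1 : ∀ z, F (iL z) = m z := fun z => (hF z 1).trans (by rw [map_one, mul_one])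
  have hF2 : ∀ z, F (iR z) = a z := fun z => (hF 1 z).trans (by rw [map_one, one_mul])
  have hFG : F.comp G = RingHom.id _ := by
    refine hgen _ _ (fun z => ?_) (fun z => ?_)
    · rw [RingHom.comp_apply, hGm, hF1, RingHom.id_apply]
    · rw [RingHom.comp_apply, hGa, hF2, RingHom.id_apply]
  have hGF : G.comp F = RingHom.id _ := by
    refine RingHom.ext fun z => ?_
    rw [RingHom.comp_apply, RingHom.id_apply]
    induction z with
    | zero => rw [map_zero, map_zero]
    | add z w hz hw => rw [map_add, map_add, hz, hw]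
    | tmul z w =>
      rw [hF, map_mul, hGm, hGa]
      change (z ⊗ₜ[R] (1 : A)) * ((1 : E') ⊗ₜ[R] w) = _
      rw [Algebra.TensorProduct.tmul_mul_tmul, mul_one, one_mul]
  let e : E' ⊗[R] A ≃+* E := RingEquiv.ofRingHom F G hFG hGF
  have he : (e : E' ⊗[R] A →+* E).comp (algebraMap E' (E' ⊗[R] A)) = m := by
    ext z
    exact hF1 z
  rw [← he]
  exact RingHom.Flat.comp (RingHom.flat_algebraMap_iff.2 inferInstance)
    (RingHom.Flat.of_bijective e.bijective)

end gen

section bc

variable {R A : Type u} [CommRing R] [CommRing A] [Algebra R A] {d : ℕ} {x' : Fin d → R}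
  {x : Fin d → A} (θ : Fin d → Fin d → A)
  (hθ : ∀ i, algebraMap R A (x' i) = ∑ l, θ i l * x l)

/-- The map of extended Rees algebras given by a change of parameters. -/
noncomputable def eMap : ERees x' →+* ERees x :=
  eLift x' ((algebraMap A (ERees x)).comp (algebraMap R A)) (eT x)
    (fun i => ∑ l, algebraMap A (ERees x) (θ i l) * eY x l) (by
    intro i
    rw [RingHom.comp_apply, hθ, map_sum, Finset.mul_sum]
    refine Finset.sum_congr rfl fun l _ => ?_
    rw [map_mul, algebraMap_rees]
    ring)

@[simp]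
theorem eMap_algebraMap (r : R) : eMap θ hθ (algebraMap R _ r) =
    algebraMap A (ERees x) (algebraMap R A r) := eLift_algebraMap _ _ _ _ _

@[simp]
theorem eMap_eT : eMap θ hθ (eT x') = eT x := eLift_eT _ _ _ _

@[simp]
theorem eMap_eY (i : Fin d) : eMap θ hθ (eY x' i) = ∑ l, algebraMap A (ERees x) (θ i l) * eY x l :=
  eLift_eY _ _ _ _ _

theorem sum_ite_mul {B : Type*} [CommRing B] (l : Fin d) (v : Fin d → B) :
    ∑ m, (if l = m then (1 : B) else 0) * v m = v l := by
  simp

theorem eMap_flat [Module.Flat R A] (θ' : Fin d → Fin d → A)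
    (hθ' : ∀ l, x l = ∑ i, θ' l i * algebraMap R A (x' i))
    (h1 : ∀ i l, ∑ m, θ i m * θ' m l = if i = l then 1 else 0)
    (h2 : ∀ i l, ∑ m, θ' i m * θ m l = if i = l then 1 else 0) :
    (eMap θ hθ).Flat := by
  have hY : ∀ l, eY x l = ∑ i, algebraMap A (ERees x) (θ' l i) * eMap θ hθ (eY x' i) := by
    intro l
    have h3 : ∀ i, algebraMap A (ERees x) (θ' l i) * eMap θ hθ (eY x' i) =
        ∑ m, algebraMap A (ERees x) (θ' l i * θ i m) * eY x m := by
      intro i
      rw [eMap_eY, Finset.mul_sum]
      refine Finset.sum_congr rfl fun m _ => ?_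
      rw [map_mul]
      ring
    rw [Finset.sum_congr rfl fun i _ => h3 i, Finset.sum_comm]
    have h4 : ∀ m, ∑ i, algebraMap A (ERees x) (θ' l i * θ i m) * eY x m =
        (if l = m then 1 else 0) * eY x m := by
      intro m
      rw [← Finset.sum_mul, ← map_sum, h2]
      split_ifs
      · rw [map_one]
      · rw [map_zero]
    rw [Finset.sum_congr rfl fun m _ => h4 m, sum_ite_mul]
  refine flat_of_pushout (eMap θ hθ) (algebraMap A (ERees x)) (fun r => eMap_algebraMap θ hθ r)
    ?_ ?_
  · intro B _ iL iR hLR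
    let G : ERees x →+* B :=
      eLift x iR (iL (eT x')) (fun l => ∑ i, iR (θ' l i) * iL (eY x' i)) (by
        intro l
        rw [hθ', map_sum, Finset.mul_sum]
        refine Finset.sum_congr rfl fun i _ => ?_
        rw [map_mul, ← hLR, algebraMap_rees, map_mul]
        ring)
    have hG1 : ∀ a, G (algebraMap A _ a) = iR a := fun a => eLift_algebraMap _ _ _ _ a
    have hG2 : G (eT x) = iL (eT x') := eLift_eT _ _ _ _
    have hG3 : ∀ l, G (eY x l) = ∑ i, iR (θ' l i) * iL (eY x' i) := fun l =>
      eLift_eY _ _ _ _ l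
    refine ⟨G, ?_, hG1⟩
    have h3 : G.comp (eMap θ hθ) = iL := by
      refine eRees_hom_ext (fun a => ?_) ?_ (fun l => ?_)
      · rw [RingHom.comp_apply, eMap_algebraMap, hG1, hLR]
      · rw [RingHom.comp_apply, eMap_eT, hG2]
      · rw [RingHom.comp_apply, eMap_eY, map_sum]
        have h4 : ∀ m, G (algebraMap A (ERees x) (θ l m) * eY x m) =
            ∑ i, iR (θ l m * θ' m i) * iL (eY x' i) := by
          intro m
          rw [map_mul, hG1, hG3, Finset.mul_sum]
          refine Finset.sum_congr rfl fun i _ => ?_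
          rw [map_mul]
          ring
        rw [Finset.sum_congr rfl fun m _ => h4 m, Finset.sum_comm]
        have h5 : ∀ i, ∑ m, iR (θ l m * θ' m i) * iL (eY x' i) =
            (if l = i then 1 else 0) * iL (eY x' i) := by
          intro i
          rw [← Finset.sum_mul, ← map_sum, h1]
          split_ifs
          · rw [map_one]
          · rw [map_zero]
        rw [Finset.sum_congr rfl fun i _ => h5 i, sum_ite_mul]
    exact fun z => RingHom.congr_fun h3 z
  · intro f g hf hg
    refine eRees_hom_ext hg ?_ (fun l => ?_)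
    · have := hf (eT x')
      rwa [eMap_eT] at this
    · rw [hY, map_sum, map_sum]
      refine Finset.sum_congr rfl fun i _ => ?_
      rw [map_mul, map_mul, hf, hg]

end bc

section res

variable {R A : Type u} [CommRing R] [CommRing A] [Algebra R A] [IsLocalRing R] [IsLocalRing A]
  [IsLocalHom (algebraMap R A)] {d : ℕ} {x' : Fin d → R}
  {x : Fin d → A} (θ : Fin d → Fin d → A)
  (hθ : ∀ i, algebraMap R A (x' i) = ∑ l, θ i l * x l)

variable (R) in
/-- The change of coordinates on the associated graded rings. -/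
noncomputable def jMap : MvPolynomial (Fin d) (ResidueField R) →+*
    MvPolynomial (Fin d) (ResidueField A) :=
  MvPolynomial.eval₂Hom (MvPolynomial.C.comp (ResidueField.map (algebraMap R A)))
    (fun i => ∑ l, MvPolynomial.C (residue A (θ i l)) * MvPolynomial.X l)

@[simp]
theorem jMap_C (r : ResidueField R) : jMap R θ (MvPolynomial.C r) =
    MvPolynomial.C (ResidueField.map (algebraMap R A) r) := by
  unfold jMap
  simp

@[simp]
theorem jMap_X (i : Fin d) : jMap R θ (MvPolynomial.X i) =
    ∑ l, MvPolynomial.C (residue A (θ i l)) * MvPolynomial.X l := by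
  unfold jMap
  simp

theorem eRes_eMap (hx' : Ideal.span (Set.range x') = maximalIdeal R)
    (hx : Ideal.span (Set.range x) = maximalIdeal A) :
    (eRes hx).comp (eMap θ hθ) = (jMap R θ).comp (eRes hx') := by
  refine eRees_hom_ext (fun a => ?_) ?_ (fun l => ?_)
  · rw [RingHom.comp_apply, RingHom.comp_apply, eMap_algebraMap, eRes_algebraMap, eRes_algebraMap,
      jMap_C, ResidueField.map_residue]
  · rw [RingHom.comp_apply, RingHom.comp_apply, eMap_eT, eRes_eT, eRes_eT, map_zero]
  · rw [RingHom.comp_apply, RingHom.comp_apply, eMap_eY, eRes_eY, jMap_X, map_sum]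
    refine Finset.sum_congr rfl fun i _ => ?_
    rw [map_mul, eRes_algebraMap, eRes_eY]

end res

end Vale.Agent.P177
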