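import Vale.Agent.P177.CRees
import Mathlib.Algebra.Polynomial.Laurent

/-!
A chart of the blow-up and the extended Rees algebra.
-/

namespace Vale.Agent.P177

open IsLocalRing Function

universe u

section chart

variable {A : Type u} [CommRing A] {d : ℕ} (x c : Fin d → A)

/-- The linear form with coefficients `c`. -/
noncomputable def eXi : ERees x := ∑ i, algebraMap A _ (c i) * eY x i

/-- The ideal defining the chart. -/
noncomputable def chartIdeal : Ideal (ERees x) := Ideal.span {eXi x c - 1}

/-- The chart of the blow-up given by the linear form with coefficients `c`. -/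
def Chart := ERees x ⧸ chartIdeal x c

noncomputable instance chartCommRing : CommRing (Chart x c) :=
  inferInstanceAs (CommRing (ERees x ⧸ chartIdeal x c))

noncomputable instance chartAlgebra : Algebra A (Chart x c) :=
  inferInstanceAs (Algebra A (ERees x ⧸ chartIdeal x c))

/-- The projection to the chart. -/
noncomputable def cMk : ERees x →+* Chart x c := Ideal.Quotient.mk (chartIdeal x c)

theorem cMk_surjective : Surjective (cMk x c) := Ideal.Quotient.mk_surjective

theorem cMk_algebraMap (a : A) : cMk x c (algebraMap A _ a) = algebraMap A (Chart x c) a := rfl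

/-- The coordinates on the chart. -/
noncomputable def cY (i : Fin d) : Chart x c := cMk x c (eY x i)

/-- The equation of the exceptional divisor. -/
def x0 : A := ∑ i, c i * x i

theorem algebraMap_x0 : algebraMap A (ERees x) (x0 x c) = eT x * eXi x c := by
  unfold x0 eXi
  rw [map_sum, Finset.mul_sum]
  refine Finset.sum_congr rfl fun i _ => ?_
  rw [map_mul, algebraMap_rees]
  ring

theorem mk_eXi : cMk x c (eXi x c) = 1 := by
  rw [← sub_eq_zero, ← map_one (cMk x c), ← map_sub]
  exact Ideal.Quotient.eq_zero_iff_mem.2 (Ideal.mem_span_singleton_self _)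

theorem sum_cY : ∑ i, algebraMap A (Chart x c) (c i) * cY x c i = 1 := by
  rw [← mk_eXi]
  unfold eXi
  rw [map_sum]
  refine Finset.sum_congr rfl fun i _ => ?_
  rw [map_mul]
  rfl

theorem mk_eT : cMk x c (eT x) = algebraMap A (Chart x c) (x0 x c) := by
  rw [← cMk_algebraMap, algebraMap_x0, map_mul, mk_eXi, mul_one]

theorem algebraMap_chart (i : Fin d) : algebraMap A (Chart x c) (x i) =
    algebraMap A (Chart x c) (x0 x c) * cY x c i := by
  rw [← cMk_algebraMap, algebraMap_rees, map_mul, mk_eT]
  rfl

/-- A ring homomorphism out of the chart. -/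
noncomputable def cLift {B : Type*} [CommRing B] (f : A →+* B) (t : B) (y : Fin d → B)
    (h : ∀ i, f (x i) = t * y i) (h1 : ∑ i, f (c i) * y i = 1) : Chart x c →+* B :=
  Ideal.Quotient.lift (chartIdeal x c) (eLift x f t y h) (by
    intro a ha
    have h2 : chartIdeal x c ≤ RingHom.ker (eLift x f t y h) := by
      unfold chartIdeal
      rw [Ideal.span_le]
      rintro _ rfl
      change eLift x f t y h (eXi x c - 1) = 0
      unfold eXi
      rw [map_sub, map_sum, map_one]
      simp [h1]
    exact h2 ha)

variable {x c}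

@[simp]
theorem cLift_algebraMap {B : Type*} [CommRing B] (f : A →+* B) (t : B) (y : Fin d → B)
    (h : ∀ i, f (x i) = t * y i) (h1 : ∑ i, f (c i) * y i = 1) (a : A) :
    cLift x c f t y h h1 (algebraMap A _ a) = f a := eLift_algebraMap f t y h a

@[simp]
theorem cLift_cY {B : Type*} [CommRing B] (f : A →+* B) (t : B) (y : Fin d → B)
    (h : ∀ i, f (x i) = t * y i) (h1 : ∑ i, f (c i) * y i = 1) (i : Fin d) :
    cLift x c f t y h h1 (cY x c i) = y i := eLift_eY f t y h i

theorem chart_hom_ext {B : Type*} [CommRing B] {f g : Chart x c →+* B}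
    (h : ∀ a, f (algebraMap A _ a) = g (algebraMap A _ a))
    (hY : ∀ i, f (cY x c i) = g (cY x c i)) : f = g := by
  have h1 : f.comp (cMk x c) = g.comp (cMk x c) := by
    refine eRees_hom_ext (fun a => h a) ?_ (fun i => hY i)
    rw [RingHom.comp_apply, RingHom.comp_apply, mk_eT]
    exact h _
  ext z
  obtain ⟨z, rfl⟩ := cMk_surjective x c z
  exact RingHom.congr_fun h1 z

/-- Every element of the chart is a polynomial in the coordinates. -/
theorem chart_induction {p : Chart x c → Prop} (hA : ∀ a, p (algebraMap A _ a))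
    (hY : ∀ i, p (cY x c i)) (hadd : ∀ a b, p a → p b → p (a + b))
    (hmul : ∀ a b, p a → p b → p (a * b)) (z : Chart x c) : p z := by
  obtain ⟨z, rfl⟩ := cMk_surjective x c z
  obtain ⟨z, rfl⟩ := Ideal.Quotient.mk_surjective z
  induction z using MvPolynomial.induction_on with
  | C a => exact hA a
  | add a b ha hb =>
    rw [map_add, map_add]
    exact hadd _ _ ha hb
  | mul_X a i ha =>
    rw [map_mul, map_mul]
    refine hmul _ _ ha ?_
    rcases i with _ | i
    · have := hA (x0 x c)
      rw [← mk_eT] at this
      exact this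
    · exact hY i

variable (x c)

open LaurentPolynomial in
/-- The map from the extended Rees algebra to Laurent polynomials over the chart. -/
noncomputable def chartPhi : ERees x →+* LaurentPolynomial (Chart x c) :=
  eLift x ((C : Chart x c →+* _).comp (algebraMap A (Chart x c)))
    (C (algebraMap A (Chart x c) (x0 x c)) * T (-1)) (fun i => C (cY x c i) * T 1) (by
    intro i
    have h : (T (-1) * T 1 : LaurentPolynomial (Chart x c)) = 1 := by
      rw [← T_add]
      simp
    rw [RingHom.comp_apply, algebraMap_chart, map_mul]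
    calc C (algebraMap A (Chart x c) (x0 x c)) * C (cY x c i)
        = C (algebraMap A (Chart x c) (x0 x c)) * C (cY x c i) * (T (-1) * T 1) := by
          rw [h, mul_one]
      _ = _ := by ring)

open LaurentPolynomial in
@[simp]
theorem chartPhi_algebraMap (a : A) : chartPhi x c (algebraMap A _ a) =
    C (algebraMap A (Chart x c) a) := eLift_algebraMap _ _ _ _ _

open LaurentPolynomial in
@[simp]
theorem chartPhi_eT : chartPhi x c (eT x) = C (algebraMap A (Chart x c) (x0 x c)) * T (-1) :=
  eLift_eT _ _ _ _

open LaurentPolynomial in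
@[simp]
theorem chartPhi_eY (i : Fin d) : chartPhi x c (eY x i) = C (cY x c i) * T 1 :=
  eLift_eY _ _ _ _ _

open LaurentPolynomial in
theorem chartPhi_eXi : chartPhi x c (eXi x c) = T 1 := by
  unfold eXi
  rw [map_sum]
  have h : ∀ i, chartPhi x c (algebraMap A _ (c i) * eY x i) =
      C (algebraMap A (Chart x c) (c i) * cY x c i) * T 1 := by
    intro i
    rw [map_mul, chartPhi_algebraMap, chartPhi_eY, map_mul, mul_assoc]
  rw [Finset.sum_congr rfl fun i _ => h i, ← Finset.sum_mul, ← map_sum, sum_cY, map_one, one_mul]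

open LaurentPolynomial in
/-- A left inverse of `chartPhi` up to localization. -/
theorem exists_chartPsi {L : Type*} [CommRing L] (g : ERees x →+* L) (hg : IsUnit (g (eXi x c))) :
    ∃ ψ : LaurentPolynomial (Chart x c) →+* L, ψ.comp (chartPhi x c) = g := by
  obtain ⟨u, hu⟩ := hg
  have hu1 : g (eXi x c) * (u⁻¹ : Lˣ) = 1 := by rw [← hu, Units.mul_inv]
  let ψ₀ : Chart x c →+* L := cLift x c (g.comp (algebraMap A _)) (g (algebraMap A _ (x0 x c)))
    (fun i => g (eY x i) * (u⁻¹ : Lˣ)) (by
      intro i
      rw [RingHom.comp_apply, algebraMap_rees, algebraMap_x0, map_mul, map_mul]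
      calc g (eT x) * g (eY x i) = g (eT x) * g (eY x i) * (g (eXi x c) * (u⁻¹ : Lˣ)) := by
            rw [hu1, mul_one]
        _ = _ := by ring) (by
      rw [← hu1]
      unfold eXi
      rw [map_sum, Finset.sum_mul]
      refine Finset.sum_congr rfl fun i _ => ?_
      rw [RingHom.comp_apply, map_mul]
      ring)
  have hA : ∀ a, ψ₀ (algebraMap A _ a) = g (algebraMap A _ a) := fun a =>
    cLift_algebraMap _ _ _ _ _ a
  have hY : ∀ i, ψ₀ (cY x c i) = g (eY x i) * (u⁻¹ : Lˣ) := fun i => cLift_cY _ _ _ _ _ i
  refine ⟨eval₂ ψ₀ u, eRees_hom_ext (fun a => ?_) ?_ (fun i => ?_)⟩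
  · rw [RingHom.comp_apply, chartPhi_algebraMap, eval₂_C, hA]
  · rw [RingHom.comp_apply, chartPhi_eT, eval₂_C_mul_T, hA, algebraMap_x0, map_mul, mul_assoc]
    simp [hu1]
  · rw [RingHom.comp_apply, chartPhi_eY, eval₂_C_mul_T, hY, mul_assoc]
    simp

open LaurentPolynomial in
/-- Laurent polynomials over the chart are the localization of the extended Rees algebra. -/
theorem chart_isLocalization :
    letI := (chartPhi x c).toAlgebra
    IsLocalization.Away (eXi x c) (LaurentPolynomial (Chart x c)) := by
  let _ := (chartPhi x c).toAlgebra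
  have hT : ∀ n : ℕ, chartPhi x c (eXi x c ^ n) = T n := by
    intro n
    rw [map_pow, chartPhi_eXi, T_pow]
    simp
  refine ⟨⟨?_, ?_, ?_⟩⟩
  · rintro ⟨_, n, rfl⟩
    change IsUnit (chartPhi x c (eXi x c ^ n))
    rw [hT]
    exact isUnit_T _
  · have key : ∀ z : LaurentPolynomial (Chart x c), ∃ (n : ℕ) (F : ERees x),
        z * T n = chartPhi x c F := by
      have hadd : ∀ z w : LaurentPolynomial (Chart x c),
          (∃ (n : ℕ) (F : ERees x), z * T n = chartPhi x c F) →
          (∃ (n : ℕ) (F : ERees x), w * T n = chartPhi x c F) →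
          ∃ (n : ℕ) (F : ERees x), (z + w) * T n = chartPhi x c F := by
        rintro z w ⟨n, F, hF⟩ ⟨m, G, hG⟩
        refine ⟨n + m, F * eXi x c ^ m + G * eXi x c ^ n, ?_⟩
        rw [map_add, map_mul, map_mul, hT, hT, ← hF, ← hG]
        push_cast
        rw [T_add]
        ring
      have hmul : ∀ z w : LaurentPolynomial (Chart x c),
          (∃ (n : ℕ) (F : ERees x), z * T n = chartPhi x c F) →
          (∃ (n : ℕ) (F : ERees x), w * T n = chartPhi x c F) →
          ∃ (n : ℕ) (F : ERees x), (z * w) * T n = chartPhi x c F := by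
        rintro z w ⟨n, F, hF⟩ ⟨m, G, hG⟩
        refine ⟨n + m, F * G, ?_⟩
        rw [map_mul, ← hF, ← hG]
        push_cast
        rw [T_add]
        ring
      have hC : ∀ s : Chart x c, ∃ (n : ℕ) (F : ERees x), (C s) * T n = chartPhi x c F := by
        intro s
        refine chart_induction (p := fun s => ∃ (n : ℕ) (F : ERees x), (C s) * T n =
          chartPhi x c F) ?_ ?_ ?_ ?_ s
        · intro a
          exact ⟨0, algebraMap A _ a, by simp⟩
        · intro i
          exact ⟨1, eY x i, by simp⟩
        · intro a b ha hb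
          rw [map_add]
          exact hadd _ _ ha hb
        · intro a b ha hb
          rw [map_mul]
          exact hmul _ _ ha hb
      intro z
      induction z using LaurentPolynomial.induction_on' with
      | add p q hp hq => exact hadd _ _ hp hq
      | C_mul_T n a =>
        refine hmul _ _ (hC a) ?_
        rcases n with n | n
        · exact ⟨0, eXi x c ^ n, by rw [hT]; simp⟩
        · refine ⟨n + 1, 1, ?_⟩
          rw [← T_add, map_one]
          have : Int.negSucc n + ((n + 1 : ℕ) : ℤ) = 0 := by omega
          rw [this, T_zero]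
    intro z
    obtain ⟨n, F, hF⟩ := key z
    refine ⟨(F, ⟨eXi x c ^ n, n, rfl⟩), ?_⟩
    change z * chartPhi x c (eXi x c ^ n) = chartPhi x c F
    rw [hT, hF]
  · intro F G h
    change chartPhi x c F = chartPhi x c G at h
    obtain ⟨ψ, hψ⟩ := exists_chartPsi x c
      (algebraMap (ERees x) (Localization.Away (eXi x c)))
      (IsLocalization.Away.algebraMap_isUnit (eXi x c))
    have h1 := congrArg ψ h
    rw [← RingHom.comp_apply, ← RingHom.comp_apply, hψ] at h1
    exact IsLocalization.exists_of_eq h1

end chart

end Vale.Agent.P177
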