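import Vale.Agent.P177.CStab

/-!
Strict transforms of filtered modules.
-/

namespace Vale.Agent.P177

open Function IsLocalRing

universe u

section basic

variable {A : Type*} [CommRing A] {M M₁ : Type*} [AddCommGroup M] [Module A M]
  [AddCommGroup M₁] [Module A M₁] {x : A}

/-- `M₁` is the union of the `x ^ (-n) F n`. -/
structure IsStrict (x : A) (F : ℕ → Submodule A M) (ι : M →ₗ[A] M₁) : Prop where
  reg : ∀ v : M₁, x • v = 0 → v = 0
  div : ∀ n, ∀ m ∈ F n, ∃ v, x ^ n • v = ι m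
  surj : ∀ v, ∃ n, ∃ m ∈ F n, x ^ n • v = ι m
  ker : ∀ m, ι m = 0 → ∃ l, x ^ l • m = 0

variable {F : ℕ → Submodule A M} {ι : M →ₗ[A] M₁}

theorem IsStrict.reg_pow (h : IsStrict x F ι) (n : ℕ) {v : M₁} (hv : x ^ n • v = 0) : v = 0 := by
  induction n with
  | zero => simpa using hv
  | succ n ih =>
    rw [pow_succ', mul_smul] at hv
    exact ih (h.reg _ hv)

theorem IsStrict.cancel (h : IsStrict x F ι) (n : ℕ) {v w : M₁} (hv : x ^ n • v = x ^ n • w) :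
    v = w := by
  rw [← sub_eq_zero]
  apply h.reg_pow n
  rw [smul_sub, hv, sub_self]

/-- Division by `x ^ n`. -/
noncomputable def IsStrict.divMap (h : IsStrict x F ι) (n : ℕ) : F n →ₗ[A] M₁ where
  toFun m := (h.div n m.1 m.2).choose
  map_add' m m' := by
    apply h.cancel n
    rw [smul_add, (h.div n _ (m + m').2).choose_spec, (h.div n _ m.2).choose_spec,
      (h.div n _ m'.2).choose_spec]
    exact map_add ι _ _
  map_smul' c m := by
    apply h.cancel n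
    rw [(h.div n _ (c • m).2).choose_spec, smul_comm, RingHom.id_apply,
      (h.div n _ m.2).choose_spec]
    exact map_smul ι _ _

theorem IsStrict.divMap_spec (h : IsStrict x F ι) (n : ℕ) (m : F n) :
    x ^ n • h.divMap n m = ι m := (h.div n m.1 m.2).choose_spec

/-- The weighted version of a map. -/
def wmap (x : A) (ι : M →ₗ[A] M₁) {b : ℕ} (a : Fin b → ℕ) : (Fin b → M) →ₗ[A] (Fin b → M₁) where
  toFun f j := x ^ a j • ι (f j)
  map_add' f g := by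
    funext j
    simp
  map_smul' c f := by
    funext j
    simp only [Pi.smul_apply, map_smul, RingHom.id_apply]
    exact smul_comm _ _ _

theorem wmap_apply {b : ℕ} (a : Fin b → ℕ) (f : Fin b → M) (j : Fin b) :
    wmap x ι a f j = x ^ a j • ι (f j) := rfl

theorem pow_smul_mem {F : ℕ → Submodule A M} (hxF : ∀ n, ∀ m ∈ F n, x • m ∈ F (n + 1)) {n : ℕ}
    {m : M} (hm : m ∈ F n) (k : ℕ) : x ^ k • m ∈ F (n + k) := by
  induction k with
  | zero => simpa using hm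
  | succ k ih =>
    rw [pow_succ', mul_smul, ← add_assoc]
    exact hxF _ _ ih

theorem IsStrict.weighted (h : IsStrict x F ι) (hanti : Antitone F)
    (hxF : ∀ n, ∀ m ∈ F n, x • m ∈ F (n + 1)) {b : ℕ} (a : Fin b → ℕ) :
    IsStrict x (wfil F a) (wmap x ι a) where
  reg v hv := by
    funext j
    exact h.reg _ (congrFun hv j)
  div n m hm := by
    rw [mem_wfil] at hm
    have h1 : ∀ j, ∃ v, x ^ n • v = x ^ a j • ι (m j) := by
      intro j
      rcases le_total (a j) n with hj | hj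
      · obtain ⟨v, hv⟩ := h.div _ _ (hm j)
        refine ⟨v, ?_⟩
        rw [← hv, ← mul_smul, ← pow_add]
        congr 2
        omega
      · refine ⟨x ^ (a j - n) • ι (m j), ?_⟩
        rw [← mul_smul, ← pow_add]
        congr 2
        omega
    choose v hv using h1
    exact ⟨v, funext fun j => hv j⟩
  surj v := by
    have h1 : ∀ j, ∃ n, ∃ m ∈ F n, x ^ n • v j = ι m := fun j => h.surj (v j)
    choose n m hm hv using h1
    refine ⟨∑ j, (n j + a j), fun j => x ^ (∑ i, (n i + a i) - n j - a j) • m j, ?_, ?_⟩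
    · rw [mem_wfil]
      intro j
      have hj : n j + a j ≤ ∑ i, (n i + a i) := Finset.single_le_sum
        (f := fun i => n i + a i) (fun _ _ => Nat.zero_le _) (Finset.mem_univ j)
      exact hanti (by omega) (pow_smul_mem hxF (hm j) _)
    · funext j
      have hj : n j + a j ≤ ∑ i, (n i + a i) := Finset.single_le_sum
        (f := fun i => n i + a i) (fun _ _ => Nat.zero_le _) (Finset.mem_univ j)
      rw [wmap_apply, map_smul, ← hv j, ← mul_smul, ← mul_smul, ← pow_add, ← pow_add]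
      change x ^ _ • v j = _
      congr 2
      omega
  ker m hm := by
    have h1 : ∀ j, ∃ l, x ^ l • m j = 0 := fun j => h.ker _ (h.reg_pow _ (congrFun hm j))
    choose l hl using h1
    refine ⟨∑ j, l j, ?_⟩
    funext j
    obtain ⟨e, he⟩ := Nat.exists_eq_add_of_le (Finset.single_le_sum (f := l)
      (fun _ _ => Nat.zero_le _) (Finset.mem_univ j))
    change x ^ (∑ j, l j) • m j = 0
    rw [he, add_comm, pow_add, mul_smul, hl, smul_zero]

end basic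

section compare

variable {A : Type*} [CommRing A] {C₂ C₁ E₂ E₁ : Type*} [AddCommGroup C₂] [Module A C₂]
  [AddCommGroup C₁] [Module A C₁] [AddCommGroup E₂] [Module A E₂] [AddCommGroup E₁] [Module A E₁]
  {x : A} {K₂ : ℕ → Submodule A C₂} {K₁ : ℕ → Submodule A C₁} {ι₂ : C₂ →ₗ[A] E₂}
  {ι₁ : C₁ →ₗ[A] E₁}

theorem strict_homology (h₂ : IsStrict x K₂ ι₂) (h₁ : IsStrict x K₁ ι₁) {D : C₂ →ₗ[A] C₁}
    {D₁ : E₂ →ₗ[A] E₁} (hD : ∀ v, D₁ (ι₂ v) = ι₁ (D v))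
    (hx₂ : ∀ n, ∀ m ∈ K₂ n, x • m ∈ K₂ (n + 1)) (hx₁ : ∀ n, ∀ m ∈ K₁ n, x • m ∈ K₁ (n + 1))
    {Z : Submodule A C₁} {Z₁ : Submodule A E₁}
    (zA : ∀ (v : E₁) (n : ℕ), ∀ m ∈ K₁ n, x ^ n • v = ι₁ m → v ∈ Z₁ → ∃ e, x ^ e • m ∈ Z)
    (zB : ∀ (v : E₁) (n : ℕ), ∀ m ∈ K₁ n, x ^ n • v = ι₁ m → m ∈ Z → v ∈ Z₁)
    {k : ℕ} (hs : ∀ k', k ≤ k' → ∀ z ∈ Z ⊓ K₁ (k' + 1), ∃ w ∈ Z ⊓ K₁ k', z - x • w ∈
      (K₂ (k' + 1)).map D)
    (hi : ∀ k', k ≤ k' → ∀ w ∈ Z ⊓ K₁ k', x • w ∈ (K₂ (k' + 1)).map D → w ∈ (K₂ k').map D) :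
    Nonempty (((Z ⊓ K₁ k : Submodule A C₁) ⧸ ((K₂ k).map D).submoduleOf (Z ⊓ K₁ k)) ≃ₗ[A]
      (Z₁ ⧸ (LinearMap.range D₁).submoduleOf Z₁)) := by
  have hs' : ∀ e, ∀ z ∈ Z ⊓ K₁ (k + e), ∃ w ∈ Z ⊓ K₁ k, z - x ^ e • w ∈ (K₂ (k + e)).map D := by
    intro e
    induction e with
    | zero =>
      intro z hz
      exact ⟨z, hz, by simp⟩
    | succ e ih =>
      intro z hz
      obtain ⟨w, hw, u, hu, hzw⟩ := hs (k + e) (by omega) z hz
      obtain ⟨w', hw', u', hu', hww'⟩ := ih w hw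
      refine ⟨w', hw', u + x • u', add_mem hu (hx₂ _ _ hu'), ?_⟩
      rw [map_add, map_smul, hzw, hww', smul_sub, pow_succ', mul_smul]
      abel
  have hi' : ∀ e, ∀ w ∈ Z ⊓ K₁ k, x ^ e • w ∈ (K₂ (k + e)).map D → w ∈ (K₂ k).map D := by
    intro e
    induction e with
    | zero =>
      intro w _ h
      simpa using h
    | succ e ih =>
      intro w hw h
      apply ih w hw
      refine hi (k + e) (by omega) _ ⟨Submodule.smul_mem _ _ hw.1, pow_smul_mem hx₁ hw.2 e⟩ ?_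
      rw [← mul_smul, ← pow_succ']
      exact h
  let g : (Z ⊓ K₁ k : Submodule A C₁) →ₗ[A] Z₁ :=
    ((h₁.divMap k).comp (Submodule.inclusion inf_le_right)).codRestrict Z₁ (fun v =>
      zB _ k v.1 v.2.2 (h₁.divMap_spec k _) v.2.1)
  have hg : ∀ v, x ^ k • (g v).1 = ι₁ v.1 := fun v => h₁.divMap_spec k ⟨v.1, v.2.2⟩
  let π : (Z ⊓ K₁ k : Submodule A C₁) →ₗ[A] (Z₁ ⧸ (LinearMap.range D₁).submoduleOf Z₁) :=
    (Submodule.mkQ _).comp g
  have hπ : Surjective π := by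
    intro v
    obtain ⟨⟨v, hv⟩, rfl⟩ := Submodule.mkQ_surjective _ v
    obtain ⟨n, m, hm, hvm⟩ := h₁.surj v
    obtain ⟨e, he⟩ := zA v n m hm hvm hv
    have hz1 : x ^ (e + k) • m ∈ Z ⊓ K₁ (k + (n + e)) := by
      refine ⟨?_, ?_⟩
      · rw [add_comm, pow_add, mul_smul]
        exact Submodule.smul_mem _ _ he
      · have := pow_smul_mem hx₁ hm (e + k)
        have e1 : n + (e + k) = k + (n + e) := by omega
        rwa [e1] at this
    obtain ⟨w, hw, u, hu, hzw⟩ := hs' (n + e) _ hz1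
    obtain ⟨u₁, hu₁⟩ := h₂.div _ _ hu
    have key : v - D₁ u₁ = (g ⟨w, hw⟩).1 := by
      apply h₁.cancel (k + (n + e))
      rw [smul_sub, ← map_smul, hu₁, hD, hzw, map_sub, map_smul, map_smul, ← hvm, ← mul_smul,
        ← pow_add]
      have e2 : e + k + n = k + (n + e) := by omega
      have e3 : x ^ (k + (n + e)) • (g ⟨w, hw⟩).1 = x ^ (n + e) • ι₁ w := by
        rw [← hg ⟨w, hw⟩, ← mul_smul, ← pow_add, add_comm]
      rw [e2, sub_sub_cancel, e3]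
    refine ⟨⟨w, hw⟩, ?_⟩
    change (Submodule.Quotient.mk (g ⟨w, hw⟩) : Z₁ ⧸ (LinearMap.range D₁).submoduleOf Z₁) =
      Submodule.Quotient.mk ⟨v, hv⟩
    rw [eq_comm, Submodule.Quotient.eq]
    change v - (g ⟨w, hw⟩).1 ∈ LinearMap.range D₁
    rw [← key, sub_sub_cancel]
    exact ⟨u₁, rfl⟩
  have hk : LinearMap.ker π = ((K₂ k).map D).submoduleOf (Z ⊓ K₁ k) := by
    ext w
    constructor
    · intro hw
      have hw' : (Submodule.Quotient.mk (g w) : Z₁ ⧸ (LinearMap.range D₁).submoduleOf Z₁) = 0 := hw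
      rw [Submodule.Quotient.mk_eq_zero] at hw'
      obtain ⟨u₁, hu₁⟩ := hw'
      have hu₁' : D₁ u₁ = (g w).1 := hu₁
      obtain ⟨n, u, hu, hun⟩ := h₂.surj u₁
      have h3 : ι₁ (x ^ n • w.1 - x ^ k • D u) = 0 := by
        rw [map_sub, map_smul, map_smul, ← hg w, ← hD, ← hun, map_smul, hu₁', smul_comm, sub_self]
      obtain ⟨l, hl⟩ := h₁.ker _ h3
      rw [smul_sub, ← mul_smul, ← mul_smul, ← pow_add, ← pow_add, sub_eq_zero] at hl
      refine hi' (l + n) w.1 w.2 ?_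
      rw [hl, ← map_smul]
      refine ⟨_, ?_, rfl⟩
      have h4 := pow_smul_mem hx₂ hu (l + k)
      have e1 : n + (l + k) = k + (l + n) := by omega
      rwa [e1] at h4
    · rintro ⟨u, hu, huw⟩
      have huw' : D u = w.1 := huw
      obtain ⟨u₁, hu₁⟩ := h₂.div _ _ hu
      change (Submodule.Quotient.mk (g w) : Z₁ ⧸ (LinearMap.range D₁).submoduleOf Z₁) = 0
      rw [Submodule.Quotient.mk_eq_zero]
      refine ⟨u₁, ?_⟩
      change D₁ u₁ = (g w).1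
      apply h₁.cancel k
      rw [← map_smul, hu₁, hD, huw', hg]
  exact ⟨(Submodule.quotEquivOfEq _ _ hk.symm).trans (LinearMap.quotKerEquivOfSurjective π hπ)⟩

/-- Exactness of the strict transforms of a strict exact sequence. -/
theorem strict_exact (h₂ : IsStrict x K₂ ι₂) (h₁ : IsStrict x K₁ ι₁) {D : C₂ →ₗ[A] C₁}
    {D₁ : E₂ →ₗ[A] E₁} (hD : ∀ v, D₁ (ι₂ v) = ι₁ (D v))
    (hx₁ : ∀ n, ∀ m ∈ K₁ n, x • m ∈ K₁ (n + 1))
    {Z : Submodule A C₁} {Z₁ : Submodule A E₁}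
    (zA : ∀ (v : E₁) (n : ℕ), ∀ m ∈ K₁ n, x ^ n • v = ι₁ m → v ∈ Z₁ → ∃ e, x ^ e • m ∈ Z)
    (hex : ∀ n, (K₂ n).map D = Z ⊓ K₁ n) : Z₁ ≤ LinearMap.range D₁ := by
  intro v hv
  obtain ⟨n, m, hm, hvm⟩ := h₁.surj v
  obtain ⟨e, he⟩ := zA v n m hm hvm hv
  have hz1 : x ^ e • m ∈ (K₂ (n + e)).map D := by
    rw [hex]
    exact ⟨he, pow_smul_mem hx₁ hm e⟩
  obtain ⟨u, hu, hum⟩ := hz1
  obtain ⟨u₁, hu₁⟩ := h₂.div _ _ hu
  refine ⟨u₁, ?_⟩
  apply h₁.cancel (n + e)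
  rw [← map_smul, hu₁, hD, hum, map_smul, ← hvm, ← mul_smul, ← pow_add, add_comm]

variable {C₀ E₀ : Type*} [AddCommGroup C₀] [Module A C₀] [AddCommGroup E₀] [Module A E₀]
  {K₀ : ℕ → Submodule A C₀} {ι₀ : C₀ →ₗ[A] E₀}

theorem zA_ker (h₀ : IsStrict x K₀ ι₀) {D : C₁ →ₗ[A] C₀} {D₁ : E₁ →ₗ[A] E₀}
    (hD : ∀ v, D₁ (ι₁ v) = ι₀ (D v)) (v : E₁) (n : ℕ) (m : C₁)
    (hvm : x ^ n • v = ι₁ m) (hv : v ∈ LinearMap.ker D₁) : ∃ e, x ^ e • m ∈ LinearMap.ker D := by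
  obtain ⟨l, hl⟩ := h₀.ker (D m) (by
    rw [← hD, ← hvm, map_smul]
    have : D₁ v = 0 := hv
    rw [this, smul_zero])
  exact ⟨l, by rw [LinearMap.mem_ker, map_smul, hl]⟩

theorem zB_ker (h₀ : IsStrict x K₀ ι₀) {D : C₁ →ₗ[A] C₀} {D₁ : E₁ →ₗ[A] E₀}
    (hD : ∀ v, D₁ (ι₁ v) = ι₀ (D v)) (v : E₁) (n : ℕ) (m : C₁)
    (hvm : x ^ n • v = ι₁ m) (hm : m ∈ LinearMap.ker D) : v ∈ LinearMap.ker D₁ := by
  apply h₀.reg_pow n
  rw [← map_smul, hvm, hD]
  have : D m = 0 := hm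
  rw [this, map_zero]

end compare

end Vale.Agent.P177
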