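import Vale.Agent.P177.CChart
import Vale.Agent.P177.CStrict

/-!
The chart as a strict transform, and strict transforms of modules.
-/

namespace Vale.Agent.P177

open IsLocalRing Function TensorProduct

universe u

section inv

variable {A : Type u} [CommRing A] {d : ℕ} (x c : Fin d → A)

/-- The chart maps to the localization at the equation of the exceptional divisor. -/
theorem exists_chart_away (L : Type*) [CommRing L] [Algebra A L]
    (hL : IsUnit (algebraMap A L (x0 x c))) :
    ∃ f : Chart x c →+* L, ∀ a, f (algebraMap A _ a) = algebraMap A L a := by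
  obtain ⟨u, hu⟩ := hL
  have hu1 : algebraMap A L (x0 x c) * (u⁻¹ : Lˣ) = 1 := by rw [← hu, Units.mul_inv]
  refine ⟨cLift x c (algebraMap A L) (algebraMap A L (x0 x c))
    (fun i => algebraMap A L (x i) * (u⁻¹ : Lˣ)) ?_ ?_, fun a => cLift_algebraMap _ _ _ _ _ a⟩
  · intro i
    rw [mul_left_comm, hu1, mul_one]
  · rw [← hu1]
    unfold x0
    rw [map_sum, Finset.sum_mul]
    refine Finset.sum_congr rfl fun i _ => ?_
    rw [map_mul]
    ring

variable {x c}

open LaurentPolynomial in
theorem laurent_C_injective {R : Type*} [CommRing R] :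
    Injective (C : R →+* LaurentPolynomial R) := by
  intro a b h
  have h1 := congrArg (fun p : LaurentPolynomial R => p.coeff 0) h
  simpa using h1

end inv

section reg

variable {A : Type u} [CommRing A] [IsRegularLocalRing A] {d : ℕ} (hd : ringKrullDim A = d)
  {x : Fin d → A} (hx : Ideal.span (Set.range x) = maximalIdeal A) (c : Fin d → A)

include hd hx in
open LaurentPolynomial in
theorem chart_x0_regular (v : Chart x c) (hv : algebraMap A (Chart x c) (x0 x c) * v = 0) :
    v = 0 := by
  let _ := (chartPhi x c).toAlgebra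
  have hloc : IsLocalization.Away (eXi x c) (LaurentPolynomial (Chart x c)) :=
    chart_isLocalization x c
  obtain ⟨⟨F, ⟨_, n, rfl⟩⟩, hF⟩ := IsLocalization.surj (Submonoid.powers (eXi x c))
    (C v : LaurentPolynomial (Chart x c))
  change C v * chartPhi x c (eXi x c ^ n) = chartPhi x c F at hF
  have hTn : chartPhi x c (eXi x c ^ n) = T n := by
    rw [map_pow, chartPhi_eXi, T_pow]
    simp
  have h1 : chartPhi x c (eT x * F) = 0 := by
    rw [map_mul, ← hF, chartPhi_eT, mul_mul_mul_comm, ← map_mul, hv, map_zero, zero_mul]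
  have h2 : algebraMap (ERees x) (LaurentPolynomial (Chart x c)) (eT x * F) =
      algebraMap (ERees x) (LaurentPolynomial (Chart x c)) 0 := by
    rw [map_zero]
    exact h1
  obtain ⟨⟨_, m, rfl⟩, hm⟩ := IsLocalization.exists_of_eq (M := Submonoid.powers (eXi x c)) h2
  have h3 : eT x * (eXi x c ^ m * F) = 0 := by
    have : eXi x c ^ m * (eT x * F) = 0 := by rw [hm, mul_zero]
    rw [← this]
    ring
  have h4 := eT_regular hd hx _ h3
  have h5 : T m * (C v * T n) = (0 : LaurentPolynomial (Chart x c)) := by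
    rw [← hTn, hF]
    have h6 := congrArg (chartPhi x c) h4
    rw [map_mul, map_pow, chartPhi_eXi, T_pow, map_zero] at h6
    simpa using h6
  have h6 : C v * T n = (0 : LaurentPolynomial (Chart x c)) :=
    (isUnit_T _).mul_right_eq_zero.1 h5
  have h7 : (C v : LaurentPolynomial (Chart x c)) = 0 := (isUnit_T _).mul_left_eq_zero.1 h6
  apply laurent_C_injective
  rw [h7, map_zero]

include hx in
theorem chart_div (n : ℕ) (a : A) (ha : a ∈ maximalIdeal A ^ n) :
    ∃ v : Chart x c, (algebraMap A (Chart x c) (x0 x c)) ^ n * v = algebraMap A _ a := by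
  rw [← hx, Ideal.mem_span_pow_iff_exists_isHomogeneous] at ha
  obtain ⟨F, hF, rfl⟩ := ha
  refine ⟨cMk x c (MvPolynomial.aeval (eY x) F), ?_⟩
  rw [← mk_eT, ← map_pow, ← map_mul, ← algebraMap_eval_of_isHomogeneous F n hF]
  rfl

include hx in
theorem x0_mem : x0 x c ∈ maximalIdeal A := by
  unfold x0
  refine Ideal.sum_mem _ fun i _ => Ideal.mul_mem_left _ _ ?_
  rw [← hx]
  exact Ideal.subset_span ⟨i, rfl⟩

include hx in
theorem chart_surj (v : Chart x c) : ∃ n, ∃ a ∈ maximalIdeal A ^ n,
    (algebraMap A (Chart x c) (x0 x c)) ^ n * v = algebraMap A _ a := by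
  have hx0 := x0_mem hx c
  refine chart_induction (p := fun v => ∃ n, ∃ a ∈ maximalIdeal A ^ n,
    (algebraMap A (Chart x c) (x0 x c)) ^ n * v = algebraMap A _ a) ?_ ?_ ?_ ?_ v
  · intro a
    exact ⟨0, a, by simp, by simp⟩
  · intro i
    refine ⟨1, x i, ?_, ?_⟩
    · rw [pow_one, ← hx]
      exact Ideal.subset_span ⟨i, rfl⟩
    · rw [pow_one, algebraMap_chart]
  · rintro v w ⟨n, a, ha, hv⟩ ⟨m, b, hb, hw⟩
    refine ⟨n + m, x0 x c ^ m * a + x0 x c ^ n * b, ?_, ?_⟩
    · refine add_mem ?_ ?_
      · rw [pow_add, mul_comm (maximalIdeal A ^ n)]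
        exact Ideal.mul_mem_mul (Ideal.pow_mem_pow hx0 m) ha
      · rw [pow_add]
        exact Ideal.mul_mem_mul (Ideal.pow_mem_pow hx0 n) hb
    · rw [map_add, map_mul, map_mul, ← hv, ← hw, map_pow, map_pow]
      ring
  · rintro v w ⟨n, a, ha, hv⟩ ⟨m, b, hb, hw⟩
    refine ⟨n + m, a * b, ?_, ?_⟩
    · rw [pow_add]
      exact Ideal.mul_mem_mul ha hb
    · rw [map_mul, ← hv, ← hw]
      ring

include hd hx in
/-- The chart is the strict transform of the ring. -/
theorem chart_isStrict : IsStrict (x0 x c) (fun k => (maximalIdeal A ^ k : Ideal A))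
    (Algebra.linearMap A (Chart x c)) where
  reg v hv := by
    rw [Algebra.smul_def] at hv
    exact chart_x0_regular hd hx c v hv
  div n a ha := by
    obtain ⟨v, hv⟩ := chart_div hx c n a ha
    refine ⟨v, ?_⟩
    rw [Algebra.smul_def, map_pow, hv]
    rfl
  surj v := by
    obtain ⟨n, a, ha, hv⟩ := chart_surj hx c v
    refine ⟨n, a, ha, ?_⟩
    rw [Algebra.smul_def, map_pow, hv]
    rfl
  ker a ha := by
    obtain ⟨f, hf⟩ := exists_chart_away x c (Localization.Away (x0 x c))
      (IsLocalization.Away.algebraMap_isUnit (x0 x c))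
    have h1 : algebraMap A (Localization.Away (x0 x c)) a = 0 := by
      rw [← hf]
      change f (Algebra.linearMap A (Chart x c) a) = 0
      rw [ha, map_zero]
    obtain ⟨⟨_, n, rfl⟩, hn⟩ := (IsLocalization.map_eq_zero_iff (Submonoid.powers (x0 x c))
      (Localization.Away (x0 x c)) a).1 h1
    exact ⟨n, hn⟩

end reg

end Vale.Agent.P177
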