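import Vale.Agent.P177.CSt

/-!
Comparison of strict transforms under flat base change.
-/

namespace Vale.Agent.P177

open Function TensorProduct

universe u

theorem st_compare {R₁ A S S' Λ Ω : Type u} [CommRing R₁] [CommRing A] [CommRing S] [CommRing S']
    [CommRing Λ] [CommRing Ω] [Algebra R₁ A] [Algebra A S] [Algebra S S'] [Algebra S' Ω]
    [Algebra S Ω] [IsScalarTower S S' Ω] [Algebra A Ω] [IsScalarTower A S Ω] [Algebra R₁ Ω]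
    [IsScalarTower R₁ A Ω] [Algebra R₁ Λ] [Algebra Λ Ω] [IsScalarTower R₁ Λ Ω] [Module.Flat S Ω]
    [Module.Flat Λ Ω] (t : S) (t' : Λ) (u : Ωˣ) (h : algebraMap S Ω t = u * algebraMap Λ Ω t')
    (M : Type u) [AddCommGroup M] [Module R₁ M] :
    Nonempty ((Ω ⊗[S'] (S' ⊗[S] St t (S ⊗[A] (A ⊗[R₁] M)))) ≃ₗ[Ω]
      (Ω ⊗[Λ] St t' (Λ ⊗[R₁] M))) := by
  have e1 := TensorProduct.AlgebraTensorModule.cancelBaseChange S S' Ω Ω
    (St t (S ⊗[A] (A ⊗[R₁] M)))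
  obtain ⟨e2⟩ := St_baseChange (S' := Ω) (t := t) (W := S ⊗[A] (A ⊗[R₁] M))
  obtain ⟨e3⟩ := St_congr (t := algebraMap S Ω t)
    (TensorProduct.AlgebraTensorModule.cancelBaseChange A S Ω Ω (A ⊗[R₁] M))
  obtain ⟨e4⟩ := St_congr (t := algebraMap S Ω t)
    (TensorProduct.AlgebraTensorModule.cancelBaseChange R₁ A Ω Ω M)
  obtain ⟨e5⟩ := St_unit (W := Ω ⊗[R₁] M) u h
  obtain ⟨e6⟩ := St_congr (t := algebraMap Λ Ω t')
    (TensorProduct.AlgebraTensorModule.cancelBaseChange R₁ Λ Ω Ω M)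
  obtain ⟨e7⟩ := St_baseChange (S' := Ω) (t := t') (W := Λ ⊗[R₁] M)
  exact ⟨e1 ≪≫ₗ e2 ≪≫ₗ e3 ≪≫ₗ e4 ≪≫ₗ e5 ≪≫ₗ e6.symm ≪≫ₗ e7.symm⟩

end Vale.Agent.P177
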