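import Vale.Agent.P177.CFlatCrit

/-!
Completions of regular local rings.
-/

namespace Vale.Agent.P177

open CategoryTheory TensorProduct Function IsLocalRing RingTheory.Sequence Pointwise

universe u

theorem exists_powerSeries_surjective_gen {ι A R : Type*} [Finite ι] [CommRing A] [IsLocalRing A]
    [IsAdicComplete (maximalIdeal A) A] [CommRing R] (σ : R →+* A)
    (hσ : Function.Surjective (fun x => residue A (σ x))) (x : ι → A)
    (hx : Ideal.span (Set.range x) = maximalIdeal A) :
    ∃ φ : MvPowerSeries ι R →+* A, Function.Surjective φ := by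
  obtain ⟨φ, hφ⟩ := exists_evalHom (maximalIdeal A) σ x
    (fun i => hx ▸ Ideal.subset_span ⟨i, rfl⟩)
  refine ⟨φ, ?_⟩
  have hX : ∀ i, φ (MvPowerSeries.X i) = x i := by
    intro i
    rw [← MvPolynomial.coe_X, hφ]
    simp
  have hmap : (Ideal.span (Set.range MvPowerSeries.X) : Ideal (MvPowerSeries ι R)).map φ =
      maximalIdeal A := by
    rw [Ideal.map_span, ← Set.range_comp, ← hx]
    congr 2
    ext i
    exact hX i
  have hH : IsHausdorff ((Ideal.span (Set.range MvPowerSeries.X) :
      Ideal (MvPowerSeries ι R)).map φ) A := by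
    rw [hmap]
    infer_instance
  apply surjective_of_mk_map_comp_surjective (I := Ideal.span (Set.range MvPowerSeries.X)) φ
  intro y
  obtain ⟨a, rfl⟩ := Ideal.Quotient.mk_surjective y
  obtain ⟨c, hc⟩ := hσ (residue A a)
  refine ⟨MvPowerSeries.C c, ?_⟩
  rw [← MvPolynomial.coe_C, RingHom.comp_apply, hφ]
  simp only [MvPolynomial.coe_eval₂Hom, MvPolynomial.eval₂_C]
  rw [Ideal.Quotient.mk_eq_mk_iff_sub_mem, hmap]
  rw [← Ideal.Quotient.mk_eq_mk_iff_sub_mem]
  exact hc

theorem isNoetherianRing_adicCompletion (R : Type u) [CommRing R] [IsLocalRing R]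
    [IsNoetherianRing R] : IsNoetherianRing (AdicCompletion (maximalIdeal R) R) := by
  obtain ⟨s, hs⟩ := (maximalIdeal R).fg_of_isNoetherianRing
  obtain ⟨φ, hφ⟩ := exists_powerSeries_surjective_gen (ι := s)
    (A := AdicCompletion (maximalIdeal R) R) (algebraMap R (AdicCompletion (maximalIdeal R) R))
    (by
      intro y
      obtain ⟨z, hz⟩ := (AdicCompletion.residueField_map_bijective R).2 y
      obtain ⟨z, rfl⟩ := residue_surjective z
      exact ⟨z, hz⟩)
    (fun i => algebraMap R (AdicCompletion (maximalIdeal R) R) i.1)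
    (by
      rw [AdicCompletion.maximalIdeal_eq_map]
      refine Eq.trans ?_ (congrArg
        (Ideal.map (algebraMap R (AdicCompletion (maximalIdeal R) R))) hs)
      refine Eq.trans ?_ (Ideal.map_span _ _).symm
      congr 1
      ext y
      simp)
  exact isNoetherianRing_of_surjective _ _ φ hφ

theorem ringKrullDim_adicCompletion (R : Type u) [CommRing R] [IsRegularLocalRing R] {r : ℕ}
    (hr : ringKrullDim R = r) [IsNoetherianRing (AdicCompletion (maximalIdeal R) R)] :
    ringKrullDim (AdicCompletion (maximalIdeal R) R) = r := by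
  have hspan : ((maximalIdeal (AdicCompletion (maximalIdeal R) R)).spanFinrank :
      WithBot ℕ∞) = r := by
    rw [AdicCompletion.spanFinrank_maximalIdeal_eq, IsRegularLocalRing.spanFinrank_maximalIdeal,
      hr]
  refine le_antisymm ?_ ?_
  · rw [← hspan]
    exact ringKrullDim_le_spanFinrank_maximalIdeal _
  · obtain ⟨rs, hrs, hlen, hreg⟩ := exists_rsp R hr
    have h1 : IsWeaklyRegular (AdicCompletion (maximalIdeal R) R)
      (rs.map (algebraMap R (AdicCompletion (maximalIdeal R) R))) := hreg.of_flat
    have h2 := length_le_height (maximalIdeal _) _ (map_mem_maximalIdeal (fun z hz => by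
      rw [← hrs]; exact Ideal.subset_span hz)) h1
    rw [List.length_map, hlen] at h2
    refine le_trans ?_ (Ideal.height_le_ringKrullDim_of_isPrime
      (I := maximalIdeal (AdicCompletion (maximalIdeal R) R)))
    exact_mod_cast h2

/-- The completion of a regular local ring with its universal property. -/
theorem exists_regular_completion (R : Type u) [CommRing R] [IsRegularLocalRing R] {r : ℕ}
    (hr : ringKrullDim R = r) :
    ∃ (S : Type u) (_ : CommRing S) (_ : IsRegularLocalRing S) (_ : Algebra R S),
      Module.Flat R S ∧ IsLocalHom (algebraMap R S) ∧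
      (maximalIdeal R).map (algebraMap R S) = maximalIdeal S ∧ ringKrullDim S = r ∧
      IsAdicComplete (maximalIdeal S) S ∧
      ∀ (C : Type u) [CommRing C] (J : Ideal C) [IsAdicComplete J C] (f : R →+* C),
        maximalIdeal R ≤ J.comap f → ∃ g : S →+* C, g.comp (algebraMap R S) = f := by
  have hN := isNoetherianRing_adicCompletion R
  have hdim := ringKrullDim_adicCompletion R hr
  refine ⟨AdicCompletion (maximalIdeal R) R, inferInstance, ?_, inferInstance, inferInstance,
    inferInstance, AdicCompletion.maximalIdeal_eq_map.symm, hdim, inferInstance, ?_⟩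
  · apply IsRegularLocalRing.of_spanFinrank_maximalIdeal_le
    rw [AdicCompletion.spanFinrank_maximalIdeal_eq, IsRegularLocalRing.spanFinrank_maximalIdeal,
      hr, hdim]
  · intro C _ J _ f hf
    have hI : ∀ n, maximalIdeal R ^ n ≤ (J ^ n).comap f := by
      intro n
      rw [← Ideal.map_le_iff_le_comap, Ideal.map_pow]
      exact Ideal.pow_right_mono (Ideal.map_le_iff_le_comap.2 hf) n
    let F : (n : ℕ) → AdicCompletion (maximalIdeal R) R →+* C ⧸ J ^ n := fun n =>
      (Ideal.quotientMap (J ^ n) f (hI n)).comp (AdicCompletion.evalₐ (maximalIdeal R) n).toRingHom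
    have hF : ∀ {m n : ℕ} (hle : m ≤ n), (Ideal.Quotient.factorPow J hle).comp (F n) = F m := by
      intro m n hle
      ext z
      obtain ⟨z, rfl⟩ := AdicCompletion.mk_surjective (maximalIdeal R) R z
      change Ideal.Quotient.factorPow J hle (Ideal.quotientMap (J ^ n) f (hI n)
        (AdicCompletion.evalₐ (maximalIdeal R) n (AdicCompletion.mk (maximalIdeal R) R z))) =
        Ideal.quotientMap (J ^ m) f (hI m)
        (AdicCompletion.evalₐ (maximalIdeal R) m (AdicCompletion.mk (maximalIdeal R) R z))
      rw [AdicCompletion.evalₐ_mk, AdicCompletion.evalₐ_mk, Ideal.quotientMap_mk,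
        Ideal.quotientMap_mk]
      change Ideal.Quotient.mk (J ^ m) (f (z.1 n)) = Ideal.Quotient.mk (J ^ m) (f (z.1 m))
      rw [Ideal.Quotient.mk_eq_mk_iff_sub_mem, ← map_sub]
      apply hI m
      have h1 := z.2 hle
      rw [SModEq.comm, SModEq.sub_mem, smul_eq_mul, Ideal.mul_top] at h1
      exact h1
    refine ⟨IsAdicComplete.liftRingHom J F hF, ?_⟩
    ext z
    rw [← sub_eq_zero]
    apply IsHausdorff.haus (I := J) inferInstance
    intro n
    rw [SModEq.zero, smul_eq_mul, Ideal.mul_top, ← Ideal.Quotient.eq_zero_iff_mem, map_sub,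
      RingHom.comp_apply, IsAdicComplete.mk_liftRingHom, sub_eq_zero]
    change Ideal.quotientMap (J ^ n) f (hI n)
      (AdicCompletion.evalₐ (maximalIdeal R) n (AdicCompletion.of _ _ z)) = _
    rw [AdicCompletion.evalₐ_of, Ideal.quotientMap_mk]

end Vale.Agent.P177
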