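import Vale.Agent.P177.CCondB

/-!
Existence of a good chart.
-/

namespace Vale.Agent.P177

open IsLocalRing Function

universe u

section cond

variable {R₁ R₂ A : Type u} [CommRing R₁] [CommRing R₂] [CommRing A]
  [IsRegularLocalRing R₁] [IsRegularLocalRing R₂] [IsRegularLocalRing A]
  [Algebra R₁ A] [Algebra R₂ A]
  [IsLocalHom (algebraMap R₁ A)] [IsLocalHom (algebraMap R₂ A)] {d : ℕ}

/-- The initial forms of the elements of an ideal, over the residue field of `A`. -/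
def inSet {R A : Type u} [CommRing R] [CommRing A] [IsLocalRing A] [Algebra R A]
    {d : ℕ} (x' : Fin d → R) (θ : Fin d → Fin d → A) (I : Ideal R) :
    Set (MvPolynomial (Fin d) (ResidueField A)) :=
  {f | ∃ (n : ℕ) (F : MvPolynomial (Fin d) R), F.IsHomogeneous n ∧ MvPolynomial.eval x' F ∈ I ∧
    f = (tMap R θ F).map (residue A)}

theorem inForm_of_le {R A : Type u} [CommRing R] [CommRing A] [IsLocalRing R] [IsLocalRing A]
    [Algebra R A] [IsLocalHom (algebraMap R A)] {d : ℕ} {x' : Fin d → R}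
    {θ : Fin d → Fin d → A} {I : Ideal R} {z : Ideal (MvPolynomial (Fin d) (ResidueField A))}
    (h : inSet x' θ I ⊆ z) : InForm x' I (z.comap (jMap R θ)) := by
  intro n F hF hFI
  change jMap R θ (F.map (residue R)) ∈ z
  rw [← map_tMap]
  exact h ⟨n, F, hF, hFI, rfl⟩

theorem exists_linear [Infinite (ResidueField A)] (hd₁ : ringKrullDim R₁ = d)
    (hd₂ : ringKrullDim R₂ = d) {x₁ : Fin d → R₁} {x₂ : Fin d → R₂}
    (hx₁ : Ideal.span (Set.range x₁) = maximalIdeal R₁)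
    (hx₂ : Ideal.span (Set.range x₂) = maximalIdeal R₂) (θ₁ θ₂ : Fin d → Fin d → A)
    (I : Ideal R₁) (J : Ideal R₂)
    (hK : ∀ (z : Ideal (MvPolynomial (Fin d) (ResidueField A))) [z.IsPrime],
      (∀ f ∈ z, ∀ n, MvPolynomial.homogeneousComponent n f ∈ z) →
      (∃ i, MvPolynomial.X i ∉ z) →
      InForm x₁ I (z.comap (jMap R₁ θ₁)) →
      InForm x₂ J (z.comap (jMap R₂ θ₂)) →
      (z.comap (jMap R₁ θ₁)).height + (z.comap (jMap R₂ θ₂)).height ≤ z.height + 1)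
    (hH : ∀ P₁ : Ideal R₁, P₁.IsPrime → I ≤ P₁ → ∀ P₂ : Ideal R₂, P₂.IsPrime → J ≤ P₂ →
      (d : ℕ∞) ≤ P₁.height + P₂.height) :
    ∃ (c : Fin d → A) (n : ℕ), (Ideal.span (Set.range MvPolynomial.X)) ^ (n + 1) ≤
      Ideal.span (inSet x₁ θ₁ I ∪ inSet x₂ θ₂ J ∪
        {∑ i, MvPolynomial.C (residue A (c i)) * MvPolynomial.X i}) := by
  obtain ⟨c', hc'⟩ := exists_generic (Ideal.span (inSet x₁ θ₁ I ∪ inSet x₂ θ₂ J))
  choose c hc using fun i => residue_surjective (c' i)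
  obtain rfl : (fun i => residue A (c i)) = c' := funext hc
  have hs : ∀ f ∈ inSet x₁ θ₁ I ∪ inSet x₂ θ₂ J, ∃ n : ℕ, f.IsHomogeneous n := by
    rintro f (⟨n, F, hF, -, rfl⟩ | ⟨n, F, hF, -, rfl⟩)
    · exact ⟨n, (tMap_isHomogeneous θ₁ hF).map _⟩
    · exact ⟨n, (tMap_isHomogeneous θ₂ hF).map _⟩
  have hs' : ∀ f ∈ inSet x₁ θ₁ I ∪ inSet x₂ θ₂ J ∪
        {∑ i, MvPolynomial.C (residue A (c i)) * MvPolynomial.X i}, ∃ n : ℕ,
        f.IsHomogeneous n := by
    rintro f (hf | rfl)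
    · exact hs f hf
    · refine ⟨1, MvPolynomial.IsHomogeneous.sum _ _ _ fun l _ => ?_⟩
      exact MvPolynomial.IsHomogeneous.C_mul (MvPolynomial.isHomogeneous_X _ _) _
  have key : Ideal.span (Set.range MvPolynomial.X) ≤ (Ideal.span (inSet x₁ θ₁ I ∪
      inSet x₂ θ₂ J ∪ {∑ i, MvPolynomial.C (residue A (c i)) * MvPolynomial.X i})).radical := by
    rw [← Ideal.sInf_minimalPrimes]
    refine le_sInf fun z' hz' => ?_
    rw [Ideal.span_le]
    by_contra hcon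
    rw [Set.range_subset_iff] at hcon
    push Not at hcon
    obtain ⟨i, hi⟩ := hcon
    have hz'p : z'.IsPrime := hz'.1.1
    have hz'h : HomId z' := minimal_homId _ hs' rfl hz'
    have hle : Ideal.span (inSet x₁ θ₁ I ∪ inSet x₂ θ₂ J) ≤ z' :=
      (Ideal.span_mono Set.subset_union_left).trans hz'.1.2
    obtain ⟨z, hz, hzz'⟩ := Ideal.exists_minimalPrimes_le hle
    have hzp : z.IsPrime := hz.1.1
    have hzh : HomId z := minimal_homId _ hs rfl hz
    have hiz : MvPolynomial.X i ∉ z := fun h => hi (hzz' h)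
    have hξ := hc' z hz ⟨i, hiz⟩
    have hlt : z < z' := by
      refine lt_of_le_of_ne hzz' ?_
      rintro rfl
      exact hξ (hz'.1.2 (Ideal.subset_span (Or.inr rfl)))
    have h1 := Ideal.height_add_one_le_of_lt_of_isPrime hlt
    have h2 := height_lt_of_homogeneous z' hz'h ⟨i, hi⟩
    have hin₁ : InForm x₁ I (z.comap (jMap R₁ θ₁)) := inForm_of_le fun f hf =>
      hz.1.2 (Ideal.subset_span (Or.inl hf))
    have hin₂ : InForm x₂ J (z.comap (jMap R₂ θ₂)) := inForm_of_le fun f hf =>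
      hz.1.2 (Ideal.subset_span (Or.inr hf))
    have h3 := hK z hzh ⟨i, hiz⟩ hin₁ hin₂
    obtain ⟨P₁, hP₁, hIP₁, hht₁⟩ := exists_prime_height_le (I := I) hd₁ hx₁
      (z.comap (jMap R₁ θ₁)) (eStar_le hx₁ _ hin₁)
    obtain ⟨P₂, hP₂, hJP₂, hht₂⟩ := exists_prime_height_le (I := J) hd₂ hx₂
      (z.comap (jMap R₂ θ₂)) (eStar_le hx₂ _ hin₂)
    have h4 : (d : ℕ∞) ≤ z.height + 1 :=
      (hH P₁ hP₁ hIP₁ P₂ hP₂ hJP₂).trans ((add_le_add hht₁ hht₂).trans h3)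
    have h5 : z.height + 1 + 1 ≤ d := (add_le_add h1 le_rfl).trans h2
    have h6 : z.height + 1 + 1 ≤ z.height + 1 := h5.trans h4
    have h7 : z.height ≠ ⊤ := by
      intro h8
      rw [h8] at h5
      exact absurd (top_le_iff.1 h5) (by simp)
    obtain ⟨m, hm⟩ := ENat.ne_top_iff_exists.1 h7
    rw [← hm] at h6
    have h8 : m + 1 + 1 ≤ m + 1 := by exact_mod_cast h6
    omega
  obtain ⟨n, hn⟩ := Ideal.exists_pow_le_of_le_radical_of_fg key (IsNoetherian.noetherian _)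
  exact ⟨c, n, (Ideal.pow_le_pow_right (Nat.le_succ n)).trans hn⟩

/-- Existence of a chart satisfying the generation condition. -/
theorem exists_chart [Infinite (ResidueField A)] (hd₁ : ringKrullDim R₁ = d)
    (hd₂ : ringKrullDim R₂ = d) {x₁ : Fin d → R₁} {x₂ : Fin d → R₂} {x : Fin d → A}
    (hx₁ : Ideal.span (Set.range x₁) = maximalIdeal R₁)
    (hx₂ : Ideal.span (Set.range x₂) = maximalIdeal R₂)
    (hx : Ideal.span (Set.range x) = maximalIdeal A) (θ₁ θ₂ : Fin d → Fin d → A)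
    (hθ₁ : ∀ i, algebraMap R₁ A (x₁ i) = ∑ l, θ₁ i l * x l)
    (hθ₂ : ∀ i, algebraMap R₂ A (x₂ i) = ∑ l, θ₂ i l * x l)
    (I : Ideal R₁) (J : Ideal R₂)
    (hK : ∀ (z : Ideal (MvPolynomial (Fin d) (ResidueField A))) [z.IsPrime],
      (∀ f ∈ z, ∀ n, MvPolynomial.homogeneousComponent n f ∈ z) →
      (∃ i, MvPolynomial.X i ∉ z) →
      InForm x₁ I (z.comap (jMap R₁ θ₁)) →
      InForm x₂ J (z.comap (jMap R₂ θ₂)) →
      (z.comap (jMap R₁ θ₁)).height + (z.comap (jMap R₂ θ₂)).height ≤ z.height + 1)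
    (hH : ∀ P₁ : Ideal R₁, P₁.IsPrime → I ≤ P₁ → ∀ P₂ : Ideal R₂, P₂.IsPrime → J ≤ P₂ →
      (d : ℕ∞) ≤ P₁.height + P₂.height) :
    ∃ (c : Fin d → A) (n₀ : ℕ), maximalIdeal A ^ (n₀ + 1) ≤
      (I.map (algebraMap R₁ A) ⊓ maximalIdeal A ^ (n₀ + 1)) ⊔
      (J.map (algebraMap R₂ A) ⊓ maximalIdeal A ^ (n₀ + 1)) ⊔
      Ideal.span {x0 x c} * maximalIdeal A ^ n₀ := by
  obtain ⟨c, n₀, hc⟩ := exists_linear hd₁ hd₂ hx₁ hx₂ θ₁ θ₂ I J hK hH
  refine ⟨c, n₀, ?_⟩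
  refine pow_le_of_liftable hx (W := fun n => (I.map (algebraMap R₁ A) ⊓ maximalIdeal A ^ n) ⊔
      (J.map (algebraMap R₂ A) ⊓ maximalIdeal A ^ n) ⊔
      Ideal.span {x0 x c} * maximalIdeal A ^ (n - 1)) ?_ (n₀ + 1) hc
  rintro f ((⟨n, F, hF, hFI, rfl⟩ | ⟨n, F, hF, hFI, rfl⟩) | rfl)
  · refine ⟨n, tMap R₁ θ₁ F, tMap_isHomogeneous θ₁ hF, rfl, fun j b hb => ?_⟩
    have h1 := eval_mem_pow hx (tMap_isHomogeneous θ₁ hF)
    refine Submodule.mem_sup_left (Submodule.mem_sup_left ⟨?_, ?_⟩)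
    · rw [eval_tMap θ₁ hθ₁]
      exact Ideal.mul_mem_left _ _ (Ideal.mem_map_of_mem _ hFI)
    · rw [pow_add]
      exact Ideal.mul_mem_mul hb h1
  · refine ⟨n, tMap R₂ θ₂ F, tMap_isHomogeneous θ₂ hF, rfl, fun j b hb => ?_⟩
    have h1 := eval_mem_pow hx (tMap_isHomogeneous θ₂ hF)
    refine Submodule.mem_sup_left (Submodule.mem_sup_right ⟨?_, ?_⟩)
    · rw [eval_tMap θ₂ hθ₂]
      exact Ideal.mul_mem_left _ _ (Ideal.mem_map_of_mem _ hFI)
    · rw [pow_add]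
      exact Ideal.mul_mem_mul hb h1
  · refine ⟨1, ∑ i, MvPolynomial.C (c i) * MvPolynomial.X i, ?_, ?_, fun j b hb => ?_⟩
    · refine MvPolynomial.IsHomogeneous.sum _ _ _ fun l _ => ?_
      exact MvPolynomial.IsHomogeneous.C_mul (MvPolynomial.isHomogeneous_X _ _) _
    · rw [map_sum]
      refine Finset.sum_congr rfl fun i _ => ?_
      rw [map_mul, MvPolynomial.map_C, MvPolynomial.map_X]
    · refine Submodule.mem_sup_right ?_
      have h1 : MvPolynomial.eval x (∑ i, MvPolynomial.C (c i) * MvPolynomial.X i) = x0 x c := by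
        rw [map_sum]
        unfold x0
        refine Finset.sum_congr rfl fun i _ => ?_
        rw [map_mul, MvPolynomial.eval_C, MvPolynomial.eval_X]
      rw [h1, mul_comm b, Nat.add_sub_cancel]
      exact Ideal.mul_mem_mul (Ideal.mem_span_singleton_self _) hb

end cond

end Vale.Agent.P177
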