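import Mathlib

/-!
Flat local base change: length and dimension.
-/

namespace Vale.Agent.P177

open IsLocalRing TensorProduct

universe u v w

section general

variable {A : Type u} {C : Type v} [CommRing A] [CommRing C] [Algebra A C] [Module.Flat A C]

lemma mem_support_baseChange (M : Type w) [AddCommGroup M] [Module A M]
    (P : PrimeSpectrum C) (h : PrimeSpectrum.comap (algebraMap A C) P ∈ Module.support A M) :
    P ∈ Module.support C (C ⊗[A] M) := by
  obtain ⟨m, hm⟩ := Module.mem_support_iff_exists_annihilator.mp h
  rw [Module.mem_support_iff_exists_annihilator]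
  refine ⟨1 ⊗ₜ m, ?_⟩
  intro c hc
  rw [Submodule.mem_annihilator_span_singleton] at hc
  let J : Ideal A := (Submodule.span A {m}).annihilator
  let f : (A ⧸ J) →ₗ[A] M := Submodule.liftQ J (LinearMap.toSpanSingleton A M m) (by
    intro a ha
    rw [LinearMap.mem_ker, LinearMap.toSpanSingleton_apply]
    exact (Submodule.mem_annihilator_span_singleton m a).mp ha)
  have hf : Function.Injective f := by
    rw [← LinearMap.ker_eq_bot, Submodule.ker_liftQ_eq_bot']
    ext a
    rw [LinearMap.mem_ker, LinearMap.toSpanSingleton_apply]
    exact (Submodule.mem_annihilator_span_singleton m a)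
  have hfC : Function.Injective (f.lTensor C) := Module.Flat.lTensor_preserves_injective_linearMap f hf
  have h1 : f.lTensor C (c ⊗ₜ[A] (Ideal.Quotient.mk J 1)) = 0 := by
    rw [LinearMap.lTensor_tmul]
    have : f (Ideal.Quotient.mk J 1) = m := by
      change f (Submodule.Quotient.mk 1) = m
      rw [Submodule.liftQ_apply, LinearMap.toSpanSingleton_apply, one_smul]
    rw [this]
    rw [TensorProduct.smul_tmul', smul_eq_mul, mul_one] at hc
    exact hc
  have h2 : c ⊗ₜ[A] (Ideal.Quotient.mk J 1) = 0 := hfC (by rw [h1, map_zero])
  have h3 : Ideal.Quotient.mk (J.map (algebraMap A C)) c = 0 := by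
    apply (Algebra.TensorProduct.quotIdealMapEquivTensorQuot C J).injective
    rw [Algebra.TensorProduct.quotIdealMapEquivTensorQuot_mk, map_zero]
    exact h2
  rw [Ideal.Quotient.eq_zero_iff_mem] at h3
  have h4 : J.map (algebraMap A C) ≤ P.asIdeal := by
    rw [Ideal.map_le_iff_le_comap]
    exact hm
  exact h4 h3

theorem supportDim_le_baseChange_of_faithfullyFlat [Module.FaithfullyFlat A C]
    (M : Type w) [AddCommGroup M] [Module A M] :
    Module.supportDim A M ≤ Module.supportDim C (C ⊗[A] M) := by
  refine iSup_le fun l => ?_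
  let l' : LTSeries (PrimeSpectrum A) := l.map Subtype.val (fun _ _ h => h)
  obtain ⟨Q, hQ, hQl⟩ := Ideal.exists_isPrime_liesOver_of_faithfullyFlat (B := C) l'.last.asIdeal
  obtain ⟨L, hlen, -, hmap⟩ := Ideal.exists_ltSeries_of_hasGoingDown l' Q
  have hmem : ∀ i, L i ∈ Module.support C (C ⊗[A] M) := by
    intro i
    apply mem_support_baseChange
    have h1 : PrimeSpectrum.comap (algebraMap A C) (L i) ∈ l'.toList := by
      rw [← hmap]
      apply List.mem_map_of_mem
      rw [RelSeries.mem_toList]
      exact ⟨i, rfl⟩
    rw [RelSeries.mem_toList] at h1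
    obtain ⟨j, hj⟩ := h1
    rw [← hj]
    exact (l j).2
  let L' : LTSeries (Module.support C (C ⊗[A] M)) :=
    { length := L.length
      toFun := fun i => ⟨L i, hmem i⟩
      step := fun i => L.step i }
  have : (l.length : WithBot ℕ∞) = L'.length := by
    change (l.length : WithBot ℕ∞) = (L.length : WithBot ℕ∞)
    rw [hlen]
    rfl
  rw [this]
  exact le_iSup (fun p : LTSeries (Module.support C (C ⊗[A] M)) => (p.length : WithBot ℕ∞)) L'

end general

section TaskG

variable (A C : Type u) [CommRing A] [IsLocalRing A] [IsNoetherianRing A]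
  [CommRing C] [IsLocalRing C] [IsNoetherianRing C] [Algebra A C] [Module.Flat A C]
  (hloc : (maximalIdeal A).map (algebraMap A C) = maximalIdeal C)
  (hres : ∀ c : C, ∃ a : A, c - algebraMap A C a ∈ maximalIdeal C)

omit [IsNoetherianRing A] [IsNoetherianRing C] [Module.Flat A C] in
include hloc in
lemma isLocalHom_of_map_maximalIdeal : IsLocalHom (algebraMap A C) :=
  ((local_hom_TFAE (algebraMap A C)).out 0 2).mpr hloc.le

omit [IsNoetherianRing A] [IsNoetherianRing C] in
include hloc in
theorem length_baseChange' (T : Type u) [AddCommGroup T] [Module A T] :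
    Module.length C (C ⊗[A] T) = Module.length A T := by
  have := isLocalHom_of_map_maximalIdeal A C hloc
  rw [IsLocalRing.length_baseChange, hloc]
  have : Module.length C (C ⧸ maximalIdeal C) = 1 := by
    rw [Module.length_eq_one_iff]
    exact isSimpleModule_iff_quot_maximal.mpr ⟨_, inferInstance, ⟨LinearEquiv.refl _ _⟩⟩
  rw [this, mul_one]

omit [IsNoetherianRing A] [IsNoetherianRing C] in
include hloc hres in
set_option linter.unusedVariables false in
theorem length_baseChange (T : Type u) [AddCommGroup T] [Module A T]
    (hT : Module.length A T ≠ ⊤) :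
    Module.length C (C ⊗[A] T) = Module.length A T :=
  length_baseChange' A C hloc T

omit [IsNoetherianRing A] [IsNoetherianRing C] in
include hloc in
theorem supportDim_le_baseChange (M : Type u) [AddCommGroup M] [Module A M] [Module.Finite A M] :
    Module.supportDim A M ≤ Module.supportDim C (C ⊗[A] M) := by
  have := isLocalHom_of_map_maximalIdeal A C hloc
  have : Module.FaithfullyFlat A C := Module.FaithfullyFlat.of_flat_of_isLocalHom
  exact supportDim_le_baseChange_of_faithfullyFlat M

end TaskG

end Vale.Agent.P177
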