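import Vale.Agent.P177.SerreEqui
import Vale.Agent.P177.FlatLocal

/-!
Flat local base change of Tor (both variables) and additivity of Euler characteristics.
-/

namespace Vale.Agent.P177

open CategoryTheory TensorProduct Function IsLocalRing RingTheory.Sequence Pointwise

universe u

section bc2

variable {A C : Type u} [CommRing A] [CommRing C] [Algebra A C]
variable {K F N X Y Z : Type u} [AddCommGroup K] [Module A K] [AddCommGroup F] [Module A F]
  [AddCommGroup N] [Module A N]
  [AddCommGroup X] [Module A X] [Module C X] [IsScalarTower A C X]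
  [AddCommGroup Y] [Module A Y] [Module C Y] [IsScalarTower A C Y]
  [AddCommGroup Z] [Module A Z] [Module C Z] [IsScalarTower A C Z]

theorem exists_cancel₂ {φ : K →ₗ[A] X} (hφ : IsBaseChange C φ) {ψ : N →ₗ[A] Y}
    (hψ : IsBaseChange C ψ) :
    ∃ e : X ⊗[C] Y ≃ₗ[C] C ⊗[A] (K ⊗[A] N),
      ∀ c k n, e.symm (c ⊗ₜ[A] (k ⊗ₜ[A] n)) = c • (φ k ⊗ₜ[C] ψ n) := by
  refine ⟨(AlgebraTensorModule.distribBaseChange A C K N ≪≫ₗ
    TensorProduct.congr hφ.equiv hψ.equiv).symm, ?_⟩
  intro c k n
  rw [LinearEquiv.symm_symm, LinearEquiv.trans_apply]
  simp [IsBaseChange.equiv_tmul, TensorProduct.smul_tmul']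

theorem length_ker_baseChange_flat [IsLocalRing A] [IsLocalRing C] [Module.Flat A C]
    (hloc : (maximalIdeal A).map (algebraMap A C) = maximalIdeal C) {P Q : Type u}
    [AddCommGroup P] [Module A P] [AddCommGroup Q] [Module A Q] (f : P →ₗ[A] Q) :
    Module.length C (LinearMap.ker (f.baseChange C)) = Module.length A (LinearMap.ker f) := by
  rw [← length_baseChange' A C hloc (LinearMap.ker f)]
  have hex : Exact (LinearMap.ker f).subtype f := by
    intro x
    simp
  have h1 : Injective ((LinearMap.ker f).subtype.baseChange C) := by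
    rw [LinearMap.baseChange_eq_ltensor]
    exact Module.Flat.lTensor_preserves_injective_linearMap _ (Submodule.injective_subtype _)
  have h2 : Exact ((LinearMap.ker f).subtype.baseChange C) (f.baseChange C) := by
    rw [LinearMap.baseChange_eq_ltensor, LinearMap.baseChange_eq_ltensor]
    exact Module.Flat.lTensor_exact C hex
  have h3 := LinearEquiv.ofInjective _ h1
  rw [LinearMap.exact_iff.1 h2]
  exact h3.symm.length_eq

/-- Both variables base changed along a flat local map with `m_A C = m_C`. -/
theorem length_tor_bc₂ [IsLocalRing A] [IsLocalRing C] [Module.Flat A C]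
    (hloc : (maximalIdeal A).map (algebraMap A C) = maximalIdeal C) (n : ℕ) {K X N Y : Type u}
    [AddCommGroup K] [Module A K] [AddCommGroup N] [Module A N]
    [AddCommGroup X] [Module A X] [Module C X] [IsScalarTower A C X]
    [AddCommGroup Y] [Module A Y] [Module C Y] [IsScalarTower A C Y]
    {φ : K →ₗ[A] X} (hφ : IsBaseChange C φ) {ψ : N →ₗ[A] Y} (hψ : IsBaseChange C ψ) :
    Module.length A (TorM A n K N) = Module.length C (TorM C n X Y) := by
  induction n generalizing K X with
  | zero =>
    obtain ⟨e, -⟩ := exists_cancel₂ hφ hψ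
    rw [(torZero K N).length_eq, (torZero X Y).length_eq, e.length_eq,
      length_baseChange' A C hloc]
  | succ n ih =>
    obtain ⟨F, K1, _, _, _, _, i, g, hF, hi, hg, h⟩ := exists_cover A K
    obtain ⟨Y1, _, _, _, _, ψ1, hψ1⟩ := exists_baseChange (R := A) C F
    obtain ⟨X1, _, _, _, _, φ1, hφ1⟩ := exists_baseChange (R := A) C K1
    let j : X1 →ₗ[C] Y1 := hφ1.lift (ψ1 ∘ₗ i)
    have hj : ∀ k, j (φ1 k) = ψ1 (i k) := fun k => hφ1.lift_eq _ k
    let q : Y1 →ₗ[C] X := hψ1.lift (φ ∘ₗ g)
    have hq : ∀ y, q (ψ1 y) = φ (g y) := fun y => hψ1.lift_eq _ y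
    have hjinj : Injective j := bc_injective hφ1 hψ1 i j hj hi
    have hqs : Surjective q := bc_surjective hψ1 hφ g q hq hg
    have hex : Exact j q := bc_exact hφ1 hψ1 hφ i j hj g q hq hg h
    have hYflat : Module.Flat C Y1 := Module.Flat.isBaseChange A C F Y1 hψ1
    cases n with
    | zero =>
      obtain ⟨e1⟩ := tor_one i g hi hg h N
      obtain ⟨e2⟩ := tor_one j q hjinj hqs hex Y
      rw [e1.length_eq, e2.length_eq, ← length_ker_baseChange_flat (C := C) hloc (i.rTensor N)]
      obtain ⟨eX, heX⟩ := exists_cancel₂ hφ1 hψ
      obtain ⟨eY, heY⟩ := exists_cancel₂ hψ1 hψ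
      have key : ∀ z : C ⊗[A] (K1 ⊗[A] N), j.rTensor Y (eX.symm z) =
          eY.symm ((i.rTensor N).baseChange C z) := by
        intro z
        induction z using TensorProduct.induction_on with
        | zero => simp
        | tmul c w =>
          induction w using TensorProduct.induction_on with
          | zero => simp
          | tmul k n =>
            rw [heX, map_smul, LinearMap.rTensor_tmul, hj, LinearMap.baseChange_tmul,
              LinearMap.rTensor_tmul, heY]
          | add a b ha hb => rw [TensorProduct.tmul_add, map_add, map_add, ha, hb, map_add, map_add]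
        | add a b ha hb => rw [map_add, map_add, ha, hb, map_add, map_add]
      obtain ⟨e3⟩ := ker_equiv eX.symm eY.symm ((i.rTensor N).baseChange C) (j.rTensor Y) key
      exact e3.length_eq
    | succ n =>
      obtain ⟨e1⟩ := tor_shift i g hi hg h N n
      obtain ⟨e2⟩ := tor_shift j q hjinj hqs hex Y n
      rw [e1.length_eq, e2.length_eq]
      exact ih hφ1

end bc2

section additivity

variable {R : Type u} [CommRing R]

/-- Alternating sums along the long exact sequence. -/
theorem eulerTor_add_aux {M' M M'' : Type u} [AddCommGroup M'] [Module R M']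
    [AddCommGroup M] [Module R M] [AddCommGroup M''] [Module R M'']
    (f : M' →ₗ[R] M) (g : M →ₗ[R] M'') (hf : Injective f) (hg : Surjective g) (h : Exact f g)
    (N : Type u) [AddCommGroup N] [Module R N]
    (h1 : ∀ i, Module.length R (TorM R i M' N) ≠ ⊤)
    (h2 : ∀ i, Module.length R (TorM R i M N) ≠ ⊤)
    (n : ℕ)
    (hn : Module.length R (TorM R n M'' N) = 0) :
    eulerTor R n M N = eulerTor R n M' N + eulerTor R n M'' N := by
  obtain ⟨δ, k1, k2, k3⟩ := exists_torDelta f g hf hg h N
  have l1 : ∀ i, Module.length R (TorM R i M' N) = Module.length R (LinearMap.range (δ i)) +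
      Module.length R (LinearMap.range (torMap i f N)) := by
    intro i
    rw [length_ker_add_range (torMap i f N), LinearMap.exact_iff.1 (k2 i)]
  have l2 : ∀ i, Module.length R (TorM R i M N) =
      Module.length R (LinearMap.range (torMap i f N)) +
      Module.length R (LinearMap.range (torMap i g N)) := by
    intro i
    rw [length_ker_add_range (torMap i g N), LinearMap.exact_iff.1 (k3 i)]
  have l3 : ∀ i, Module.length R (TorM R (i + 1) M'' N) =
      Module.length R (LinearMap.range (torMap (i + 1) g N)) +
      Module.length R (LinearMap.range (δ i)) := by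
    intro i
    rw [length_ker_add_range (δ i), LinearMap.exact_iff.1 (k1 i)]
  have l4 : Module.length R (TorM R 0 M'' N) =
      Module.length R (LinearMap.range (torMap 0 g N)) := by
    rw [LinearMap.range_eq_top.2 (torMap_zero_surjective g hg N), Module.length_top]
  have f1 : ∀ i, Module.length R (LinearMap.range (δ i)) ≠ ⊤ := fun i hi =>
    h1 i (by rw [l1, hi, top_add])
  have f2 : ∀ i, Module.length R (LinearMap.range (torMap i f N)) ≠ ⊤ := fun i hi =>
    h1 i (by rw [l1, hi, add_top])
  have f3 : ∀ i, Module.length R (LinearMap.range (torMap i g N)) ≠ ⊤ := fun i hi =>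
    h2 i (by rw [l2, hi, add_top])
  have m1 : ∀ i, ((Module.length R (TorM R i M' N)).toNat : ℤ) =
      (Module.length R (LinearMap.range (δ i))).toNat +
      (Module.length R (LinearMap.range (torMap i f N))).toNat := by
    intro i
    rw [l1, ENat.toNat_add (f1 i) (f2 i)]
    push_cast
    ring
  have m2 : ∀ i, ((Module.length R (TorM R i M N)).toNat : ℤ) =
      (Module.length R (LinearMap.range (torMap i f N))).toNat +
      (Module.length R (LinearMap.range (torMap i g N))).toNat := by
    intro i
    rw [l2, ENat.toNat_add (f2 i) (f3 i)]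
    push_cast
    ring
  have m3 : ∀ i, ((Module.length R (TorM R (i + 1) M'' N)).toNat : ℤ) =
      (Module.length R (LinearMap.range (torMap (i + 1) g N))).toNat +
      (Module.length R (LinearMap.range (δ i))).toNat := by
    intro i
    rw [l3, ENat.toNat_add (f3 _) (f1 _)]
    push_cast
    ring
  have key : ∀ n, eulerTor R (n + 1) M' N + eulerTor R (n + 1) M'' N -
      eulerTor R (n + 1) M N = (-1) ^ n * (Module.length R (LinearMap.range (δ n))).toNat := by
    intro n
    unfold eulerTor
    induction n with
    | zero =>
      simp only [zero_add, Finset.sum_range_one, pow_zero, one_mul]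
      rw [m1, m2, l4]
      ring
    | succ n ih =>
      rw [Finset.sum_range_succ, Finset.sum_range_succ _ (n + 1), Finset.sum_range_succ _ (n + 1)]
      rw [m1, m2, m3, pow_succ]
      linear_combination ih
  cases n with
  | zero => simp [eulerTor]
  | succ n =>
    have h5 : Module.length R (LinearMap.range (δ n)) = 0 := by
      have := l3 n
      rw [hn] at this
      have h6 : Module.length R (LinearMap.range (δ n)) ≤ 0 := by rw [this]; exact le_add_self
      exact le_antisymm h6 bot_le
    have h7 := key n
    rw [h5] at h7
    simp only [ENat.toNat_zero, Nat.cast_zero, mul_zero] at h7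
    linarith

end additivity

section dim

/-- Dimension over a quotient ring. -/
theorem supportDim_eq_of_surjective {R A : Type u} [CommRing R] [CommRing A] [Algebra R A]
    (hs : Surjective (algebraMap R A)) (M : Type u) [AddCommGroup M] [Module R M] [Module A M]
    [IsScalarTower R A M] [Module.Finite R M] :
    Module.supportDim R M = Module.supportDim A M := by
  have : Module.Finite A M := Module.Finite.of_restrictScalars_finite R A M
  rw [Module.supportDim_eq_ringKrullDim_quotient_annihilator,
    Module.supportDim_eq_ringKrullDim_quotient_annihilator]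
  have h1 : (Ideal.Quotient.mk (Module.annihilator A M)).comp (algebraMap R A) =
      (Ideal.Quotient.mk (Module.annihilator A M)).comp (algebraMap R A) := rfl
  let ψ : R →+* A ⧸ Module.annihilator A M :=
    (Ideal.Quotient.mk (Module.annihilator A M)).comp (algebraMap R A)
  have hψ : Surjective ψ := Ideal.Quotient.mk_surjective.comp hs
  have hker : RingHom.ker ψ = Module.annihilator R M := by
    ext r
    rw [RingHom.mem_ker]
    change Ideal.Quotient.mk _ (algebraMap R A r) = 0 ↔ _
    rw [Ideal.Quotient.eq_zero_iff_mem, Module.mem_annihilator, Module.mem_annihilator]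
    simp
  exact ringKrullDim_eq_of_ringEquiv ((Ideal.quotEquivOfEq hker.symm).trans
    (RingHom.quotientKerEquivOfSurjective hψ))

end dim

end Vale.Agent.P177
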