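import Vale.Agent.P177.CLocP
import Vale.Agent.P177.TorComplete

/-!
Nonnegativity at the points of a chart, for strict transforms.
-/

namespace Vale.Agent.P177

open IsLocalRing Function TensorProduct

universe u

section side

variable {R : Type u} [CommRing R] [IsRegularLocalRing R] {d : ℕ} {x' : Fin d → R}

theorem exists_side (hd : ringKrullDim R = d) (hx' : Ideal.span (Set.range x') = maximalIdeal R)
    {Ω : Type u} [CommRing Ω] [IsLocalRing Ω] (ρ : ERees x' →+* Ω) (hρ : ρ.Flat)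
    (q : Ideal (MvPolynomial (Fin d) (ResidueField R))) [q.IsPrime]
    (hq : (maximalIdeal Ω).comap ρ = q.comap (eRes hx')) :
    ∃ (Λ : Type u) (_ : CommRing Λ) (_ : IsRegularLocalRing Λ) (_ : Algebra Λ Ω)
      (_ : Module.Flat Λ Ω) (_ : IsLocalHom (algebraMap Λ Ω)) (σ : ERees x' →+* Λ),
      ringKrullDim Λ = ((q.height + 1 : ℕ∞) : WithBot ℕ∞) ∧ ∀ z, algebraMap Λ Ω (σ z) = ρ z := by
  obtain ⟨hreg, hht, -⟩ := eRees_regular_aux hd hx' q
  let 𝔭 : Ideal (ERees x') := q.comap (eRes hx')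
  have hu : ∀ y : 𝔭.primeCompl, IsUnit (ρ y) := by
    rintro ⟨y, hy⟩
    by_contra hcon
    apply hy
    change y ∈ q.comap (eRes hx')
    rw [← hq]
    exact hcon
  let f : Localization.AtPrime 𝔭 →+* Ω := IsLocalization.lift hu
  have hf : ∀ z, f (algebraMap _ _ z) = ρ z := fun z => IsLocalization.lift_eq hu z
  let _ : Algebra (Localization.AtPrime 𝔭) Ω := f.toAlgebra
  let _ : Algebra (ERees x') Ω := ρ.toAlgebra
  have htow : IsScalarTower (ERees x') (Localization.AtPrime 𝔭) Ω :=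
    IsScalarTower.of_algebraMap_eq fun z => (hf z).symm
  have hflat₀ : Module.Flat (ERees x') Ω := RingHom.flat_algebraMap_iff.1 hρ
  have hflat : Module.Flat (Localization.AtPrime 𝔭) Ω :=
    (Module.flat_iff_of_isLocalization (Localization.AtPrime 𝔭) 𝔭.primeCompl Ω).2 hflat₀
  have hlocal : IsLocalHom (algebraMap (Localization.AtPrime 𝔭) Ω) := by
    refine ⟨fun a ha => ?_⟩
    by_contra hcon
    obtain ⟨⟨z, s⟩, hzs⟩ := IsLocalization.surj 𝔭.primeCompl a
    have hz : z ∈ 𝔭 := by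
      have h1 : algebraMap (ERees x') (Localization.AtPrime 𝔭) z ∈
          maximalIdeal (Localization.AtPrime 𝔭) := by
        rw [← hzs]
        exact Ideal.mul_mem_right _ _ hcon
      exact (IsLocalization.AtPrime.to_map_mem_maximal_iff (Localization.AtPrime 𝔭) 𝔭 z).1 h1
    have h2 : ρ z ∈ maximalIdeal Ω := by
      have : z ∈ (maximalIdeal Ω).comap ρ := by rw [hq]; exact hz
      exact this
    have h3 : IsUnit (ρ z) := by
      rw [← hf, ← hzs, map_mul]
      refine IsUnit.mul ha ?_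
      rw [hf]
      exact hu s
    exact h2 h3
  refine ⟨Localization.AtPrime 𝔭, inferInstance, hreg, inferInstance, hflat, hlocal,
    algebraMap _ _, ?_, hf⟩
  rw [IsLocalization.AtPrime.ringKrullDim_eq_height 𝔭 (Localization.AtPrime 𝔭), hht]

end side

section transfer

theorem eulerTor_bc {B C : Type u} [CommRing B] [CommRing C] [IsLocalRing B] [IsNoetherianRing B]
    [IsLocalRing C] [IsNoetherianRing C] [Algebra B C] [Module.Flat B C]
    (hloc : (maximalIdeal B).map (algebraMap B C) = maximalIdeal C) (n : ℕ) (X Y : Type u)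
    [AddCommGroup X] [Module B X] [AddCommGroup Y] [Module B Y] :
    eulerTor B n X Y = eulerTor C n (C ⊗[B] X) (C ⊗[B] Y) := by
  unfold eulerTor
  refine Finset.sum_congr rfl fun j _ => ?_
  rw [length_tor_bc₂ (A := B) (C := C) hloc j (TensorProduct.isBaseChange B X C)
    (TensorProduct.isBaseChange B Y C)]

theorem eulerTor_left_zero {C : Type u} [CommRing C] (n : ℕ) (X Y : Type u)
    [AddCommGroup X] [Module C X] [AddCommGroup Y] [Module C Y] (hX : Subsingleton X) :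
    eulerTor C n X Y = 0 := by
  unfold eulerTor
  refine Finset.sum_eq_zero fun j _ => ?_
  have h0 : Subsingleton (TorM C j X Y) := tor_subsingleton_left (T := C) j X Y
  rw [Module.length_eq_zero]
  simp

theorem eulerTor_right_zero {C : Type u} [CommRing C] (n : ℕ) (X Y : Type u)
    [AddCommGroup X] [Module C X] [AddCommGroup Y] [Module C Y] (hY : Subsingleton Y) :
    eulerTor C n X Y = 0 := by
  unfold eulerTor
  refine Finset.sum_eq_zero fun j _ => ?_
  obtain ⟨e⟩ := tor_symm (R := C) j X Y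
  have h0 : Subsingleton (TorM C j Y X) := tor_subsingleton_left (T := C) j Y X
  have h1 : Subsingleton (TorM C j X Y) := e.toEquiv.subsingleton
  rw [Module.length_eq_zero]
  simp

theorem length_congr₂ {C : Type u} [CommRing C] {X X' Y Y' : Type u} [AddCommGroup X] [Module C X]
    [AddCommGroup X'] [Module C X'] [AddCommGroup Y] [Module C Y] [AddCommGroup Y'] [Module C Y']
    (e₁ : X ≃ₗ[C] X') (e₂ : Y ≃ₗ[C] Y') :
    Module.length C (X ⊗[C] Y) = Module.length C (X' ⊗[C] Y') :=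
  (TensorProduct.congr e₁ e₂).length_eq

end transfer

section height

variable {K : Type u} [Field K] {d : ℕ}

/-- A homogeneous prime different from the irrelevant ideal has height less than `d`. -/
theorem height_lt_of_homogeneous (q : Ideal (MvPolynomial (Fin d) K)) [q.IsPrime]
    (hhom : ∀ f ∈ q, ∀ n, MvPolynomial.homogeneousComponent n f ∈ q)
    (hX : ∃ i, MvPolynomial.X i ∉ q) : q.height + 1 ≤ d := by
  let n : Ideal (MvPolynomial (Fin d) K) :=
    RingHom.ker (MvPolynomial.constantCoeff : MvPolynomial (Fin d) K →+* K)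
  have hn : n.IsPrime := RingHom.ker_isPrime _
  have hle : q ≤ n := by
    intro f hf
    have h1 := hhom f hf 0
    rw [MvPolynomial.homogeneousComponent_zero] at h1
    by_contra hcon
    apply (inferInstance : q.IsPrime).ne_top
    refine Ideal.eq_top_of_isUnit_mem _ h1 ?_
    exact (IsUnit.mk0 _ hcon).map MvPolynomial.C
  have hlt : q < n := by
    refine lt_of_le_of_ne hle ?_
    rintro rfl
    obtain ⟨i, hi⟩ := hX
    apply hi
    change MvPolynomial.constantCoeff (MvPolynomial.X i) = 0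
    simp
  refine (Ideal.height_add_one_le_of_lt_of_isPrime hlt).trans ?_
  have h1 : ringKrullDim (MvPolynomial (Fin d) K) = d := by
    rw [MvPolynomial.ringKrullDim_of_isNoetherianRing, ringKrullDim_eq_zero_of_field]
    simp
  have h2 : (n.height : WithBot ℕ∞) ≤ d := by
    rw [← h1]
    exact Ideal.height_le_ringKrullDim_of_isPrime
  exact_mod_cast h2

end height

section forms

variable {R : Type u} [CommRing R] [IsLocalRing R] {d : ℕ}

/-- The ideal `z` contains the initial forms of the elements of `I` (with respect to the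
system of parameters `x`). -/
def InForm (x : Fin d → R) (I : Ideal R) (z : Ideal (MvPolynomial (Fin d) (ResidueField R))) :
    Prop :=
  ∀ (n : ℕ) (F : MvPolynomial (Fin d) R), F.IsHomogeneous n → MvPolynomial.eval x F ∈ I →
    F.map (residue R) ∈ z

omit [IsLocalRing R] in
theorem st_subsingleton {x : Fin d → R} {Λ : Type u} [CommRing Λ] [Algebra R Λ]
    (σ : ERees x →+* Λ) (hσ : ∀ r, σ (algebraMap R _ r) = algebraMap R Λ r)
    (M : Type u) [AddCommGroup M] [Module R M] {n : ℕ} {F : MvPolynomial (Fin d) R}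
    (hF : F.IsHomogeneous n) (hFM : MvPolynomial.eval x F ∈ Module.annihilator R M)
    (hu : IsUnit (σ (MvPolynomial.aeval (eY x) F))) :
    Subsingleton (St (σ (eT x)) (Λ ⊗[R] M)) := by
  rw [Submodule.Quotient.subsingleton_iff, eq_top_iff]
  intro w _
  have h1 : ∀ w : Λ ⊗[R] M, algebraMap R Λ (MvPolynomial.eval x F) • w = 0 := by
    intro w
    induction w with
    | zero => rw [smul_zero]
    | add y z hy hz => rw [smul_add, hy, hz, add_zero]
    | tmul s m =>
      rw [algebraMap_smul, ← TensorProduct.tmul_smul, Module.mem_annihilator.1 hFM,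
        TensorProduct.tmul_zero]
  rw [← hσ, algebraMap_eval_of_isHomogeneous F n hF, map_mul, map_pow] at h1
  obtain ⟨u, hu⟩ := hu
  refine ⟨n, ?_⟩
  have h2 := h1 ((u⁻¹ : Λˣ) • w)
  rw [← hu, mul_smul] at h2
  have h3 : (u : Λ) • ((u⁻¹ : Λˣ) • w) = w := by
    rw [Units.smul_def, ← mul_smul, Units.mul_inv, one_smul]
  rwa [h3] at h2

theorem subsingleton_of_not_inForm {x : Fin d → R}
    (hx : Ideal.span (Set.range x) = maximalIdeal R) {Λ : Type u} [CommRing Λ] [Algebra R Λ]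
    (σ : ERees x →+* Λ) (hσ : ∀ r, σ (algebraMap R _ r) = algebraMap R Λ r)
    {q : Ideal (MvPolynomial (Fin d) (ResidueField R))}
    (hu : ∀ z, z ∉ q.comap (eRes hx) → IsUnit (σ z))
    (M : Type u) [AddCommGroup M] [Module R M]
    (hin : ¬ InForm x (Module.annihilator R M) q) :
    Subsingleton (St (σ (eT x)) (Λ ⊗[R] M)) := by
  unfold InForm at hin
  push Not at hin
  obtain ⟨n, F, hF, hFM, hq⟩ := hin
  refine st_subsingleton σ hσ M hF hFM (hu _ ?_)
  change eRes hx _ ∉ q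
  rwa [eRes_aeval]

end forms

section main

variable {R₁ R₂ A : Type u} [CommRing R₁] [CommRing R₂] [CommRing A]
  [IsRegularLocalRing R₁] [IsRegularLocalRing R₂] [IsRegularLocalRing A]
  [Algebra R₁ A] [Algebra R₂ A]
  [IsLocalHom (algebraMap R₁ A)] [IsLocalHom (algebraMap R₂ A)] {d : ℕ}

noncomputable instance chart_noetherian (x c : Fin d → A) : IsNoetherianRing (Chart x c) :=
  isNoetherianRing_of_surjective _ _ (cMk x c) (cMk_surjective x c)

theorem nat_of_height {B Λ : Type u} [CommRing B] [CommRing Λ] [IsLocalRing Λ]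
    [IsNoetherianRing Λ] (q : Ideal B) (h : ringKrullDim Λ = ((q.height + 1 : ℕ∞) : WithBot ℕ∞)) :
    ∃ n : ℕ, q.height = n ∧ ringKrullDim Λ = ((n + 1 : ℕ) : WithBot ℕ∞) := by
  obtain ⟨m, hm⟩ := exists_nat_eq_ringKrullDim Λ
  rw [hm] at h
  have h1 : (m : ℕ∞) = q.height + 1 := by exact_mod_cast h
  have h2 : q.height ≠ ⊤ := by
    intro h3
    rw [h3] at h1
    exact ENat.natCast_ne_top m h1
  obtain ⟨n, hn⟩ := ENat.ne_top_iff_exists.1 h2
  refine ⟨n, hn.symm, ?_⟩
  rw [← hn] at h1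
  have h3 : m = n + 1 := by exact_mod_cast h1
  rw [hm, h3]

/-- Nonnegativity of the local Euler characteristics of strict transforms. -/
theorem chart_local_nonneg (hd₁ : ringKrullDim R₁ = d) (hd₂ : ringKrullDim R₂ = d)
    (hd : ringKrullDim A = d) {x₁ : Fin d → R₁} {x₂ : Fin d → R₂} {x : Fin d → A}
    (hx₁ : Ideal.span (Set.range x₁) = maximalIdeal R₁)
    (hx₂ : Ideal.span (Set.range x₂) = maximalIdeal R₂)
    (hx : Ideal.span (Set.range x) = maximalIdeal A) (θ₁ θ₂ : Fin d → Fin d → A)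
    (hθ₁ : ∀ i, algebraMap R₁ A (x₁ i) = ∑ l, θ₁ i l * x l)
    (hθ₂ : ∀ i, algebraMap R₂ A (x₂ i) = ∑ l, θ₂ i l * x l)
    (hf₁ : (eMap θ₁ hθ₁).Flat) (hf₂ : (eMap θ₂ hθ₂).Flat)
    (c : Fin d → A) (P : Ideal (Chart x c)) [P.IsMaximal]
    (hmP : ∀ a ∈ maximalIdeal A, algebraMap A (Chart x c) a ∈ P)
    (M N : Type u) [AddCommGroup M] [Module R₁ M] [Module.Finite R₁ M]
    [AddCommGroup N] [Module R₂ N] [Module.Finite R₂ N]
    (hK : ∀ (z : Ideal (MvPolynomial (Fin d) (ResidueField A))) [z.IsPrime],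
      (∀ f ∈ z, ∀ n, MvPolynomial.homogeneousComponent n f ∈ z) →
      (∃ i, MvPolynomial.X i ∉ z) →
      InForm x₁ (Module.annihilator R₁ M) (z.comap (jMap R₁ θ₁)) →
      InForm x₂ (Module.annihilator R₂ N) (z.comap (jMap R₂ θ₂)) →
      (z.comap (jMap R₁ θ₁)).height + (z.comap (jMap R₂ θ₂)).height ≤ z.height + 1)
    (hfin : Module.length (Localization.AtPrime P) (TorM (Localization.AtPrime P) 0
      (Localization.AtPrime P ⊗[Chart x c] StM (S := Chart x c) (x0 x c) (A ⊗[R₁] M))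
      (Localization.AtPrime P ⊗[Chart x c] StM (S := Chart x c) (x0 x c) (A ⊗[R₂] N))) ≠ ⊤) :
    0 ≤ eulerTor (Localization.AtPrime P) (d + 1)
      (Localization.AtPrime P ⊗[Chart x c] StM (S := Chart x c) (x0 x c) (A ⊗[R₁] M))
      (Localization.AtPrime P ⊗[Chart x c] StM (S := Chart x c) (x0 x c) (A ⊗[R₂] N)) := by
  obtain ⟨Ω, _, _, _, _, ρ, q, _, hmax, hdimΩ, hhom, hX, hA, ⟨u, hu⟩, hρflat, hρcomap⟩ :=
    exists_omega c hd hx P hmP
  have hq₁ : (maximalIdeal Ω).comap (ρ.comp (eMap θ₁ hθ₁)) =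
      (q.comap (jMap R₁ θ₁)).comap (eRes hx₁) := by
    rw [← Ideal.comap_comap, hρcomap, Ideal.comap_comap, Ideal.comap_comap,
      eRes_eMap θ₁ hθ₁ hx₁ hx]
  have hq₂ : (maximalIdeal Ω).comap (ρ.comp (eMap θ₂ hθ₂)) =
      (q.comap (jMap R₂ θ₂)).comap (eRes hx₂) := by
    rw [← Ideal.comap_comap, hρcomap, Ideal.comap_comap, Ideal.comap_comap,
      eRes_eMap θ₂ hθ₂ hx₂ hx]
  obtain ⟨Λ₁, _, _, _, _, _, σ₁, hdimΛ₁, hσ₁⟩ := exists_side hd₁ hx₁ (ρ.comp (eMap θ₁ hθ₁))
    (hf₁.comp hρflat) (q.comap (jMap R₁ θ₁)) hq₁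
  obtain ⟨Λ₂, _, _, _, _, _, σ₂, hdimΛ₂, hσ₂⟩ := exists_side hd₂ hx₂ (ρ.comp (eMap θ₂ hθ₂))
    (hf₂.comp hρflat) (q.comap (jMap R₂ θ₂)) hq₂
  obtain ⟨h, hh, hdΩ⟩ := nat_of_height q hdimΩ
  obtain ⟨h₁, hh₁, hdΛ₁⟩ := nat_of_height _ hdimΛ₁
  obtain ⟨h₂, hh₂, hdΛ₂⟩ := nat_of_height _ hdimΛ₂
  have hhd : h + 1 ≤ d := by
    have := height_lt_of_homogeneous q hhom hX
    rw [hh] at this
    exact_mod_cast this
  -- algebra structures
  let S := Chart x c
  let SP := Localization.AtPrime P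
  let _ : Algebra R₁ Λ₁ := (σ₁.comp (algebraMap R₁ (ERees x₁))).toAlgebra
  let _ : Algebra R₂ Λ₂ := (σ₂.comp (algebraMap R₂ (ERees x₂))).toAlgebra
  let _ : Algebra R₁ Ω := ((algebraMap Λ₁ Ω).comp (algebraMap R₁ Λ₁)).toAlgebra
  let _ : Algebra R₂ Ω := ((algebraMap Λ₂ Ω).comp (algebraMap R₂ Λ₂)).toAlgebra
  let _ : Algebra A Ω := (ρ.comp (algebraMap A (ERees x))).toAlgebra
  let _ : Algebra S Ω := ((algebraMap SP Ω).comp (algebraMap S SP)).toAlgebra
  have t1 : IsScalarTower R₁ Λ₁ Ω := IsScalarTower.of_algebraMap_eq fun _ => rfl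
  have t2 : IsScalarTower R₂ Λ₂ Ω := IsScalarTower.of_algebraMap_eq fun _ => rfl
  have t3 : IsScalarTower R₁ A Ω := by
    refine IsScalarTower.of_algebraMap_eq fun r => ?_
    change algebraMap Λ₁ Ω (σ₁ (algebraMap R₁ (ERees x₁) r)) = ρ (algebraMap A (ERees x) _)
    rw [hσ₁, RingHom.comp_apply, eMap_algebraMap]
  have t4 : IsScalarTower R₂ A Ω := by
    refine IsScalarTower.of_algebraMap_eq fun r => ?_
    change algebraMap Λ₂ Ω (σ₂ (algebraMap R₂ (ERees x₂) r)) = ρ (algebraMap A (ERees x) _)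
    rw [hσ₂, RingHom.comp_apply, eMap_algebraMap]
  have t5 : IsScalarTower S SP Ω := IsScalarTower.of_algebraMap_eq fun _ => rfl
  have t6 : IsScalarTower A S Ω := IsScalarTower.of_algebraMap_eq fun a => (hA a).symm
  have f1 : Module.Flat S Ω := Module.Flat.trans S SP Ω
  obtain ⟨e₁⟩ := st_compare (R₁ := R₁) (A := A) (S := S) (S' := SP) (Λ := Λ₁) (Ω := Ω)
    (algebraMap A S (x0 x c)) (σ₁ (eT x₁)) u (by
      rw [hσ₁, RingHom.comp_apply, eMap_eT]
      exact hu) M
  obtain ⟨e₂⟩ := st_compare (R₁ := R₂) (A := A) (S := S) (S' := SP) (Λ := Λ₂) (Ω := Ω)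
    (algebraMap A S (x0 x c)) (σ₂ (eT x₂)) u (by
      rw [hσ₂, RingHom.comp_apply, eMap_eT]
      exact hu) N
  let E := St (σ₁ (eT x₁)) (Λ₁ ⊗[R₁] M)
  let G := St (σ₂ (eT x₂)) (Λ₂ ⊗[R₂] N)
  have hnoeth : IsNoetherianRing SP := inferInstance
  rw [eulerTor_bc (B := SP) (C := Ω) hmax, eulerTor_congr e₁ e₂]
  by_cases hin₁ : InForm x₁ (Module.annihilator R₁ M) (q.comap (jMap R₁ θ₁))
  swap
  · have hE : Subsingleton E := subsingleton_of_not_inForm hx₁ σ₁ (fun _ => rfl)
      (fun z hz => by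
        rw [← isUnit_map_iff (algebraMap Λ₁ Ω), hσ₁]
        by_contra hcon
        have h5 : z ∈ (maximalIdeal Ω).comap (ρ.comp (eMap θ₁ hθ₁)) := hcon
        rw [hq₁] at h5
        exact hz h5) M hin₁
    have hE' : Subsingleton (Ω ⊗[Λ₁] E) := inferInstance
    rw [eulerTor_left_zero _ _ _ hE']
  by_cases hin₂ : InForm x₂ (Module.annihilator R₂ N) (q.comap (jMap R₂ θ₂))
  swap
  · have hE : Subsingleton G := subsingleton_of_not_inForm hx₂ σ₂ (fun _ => rfl)
      (fun z hz => by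
        rw [← isUnit_map_iff (algebraMap Λ₂ Ω), hσ₂]
        by_contra hcon
        have h5 : z ∈ (maximalIdeal Ω).comap (ρ.comp (eMap θ₂ hθ₂)) := hcon
        rw [hq₂] at h5
        exact hz h5) N hin₂
    have hE' : Subsingleton (Ω ⊗[Λ₂] G) := inferInstance
    rw [eulerTor_right_zero _ _ _ hE']
  have hbound : h₁ + h₂ ≤ h + 1 := by
    have := hK q hhom hX hin₁ hin₂
    rw [hh, hh₁, hh₂] at this
    exact_mod_cast this
  refine pair_nonneg (R₁ := Λ₁) (R₂ := Λ₂) (T := Ω) hdΛ₁ hdΛ₂ hdΩ (by omega) (d + 1) (by omega)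
    E G ?_
  rw [← Module.length_ne_top_iff]
  have h3 := length_tor_bc₂ (A := SP) (C := Ω) hmax 0
    (TensorProduct.isBaseChange SP (SP ⊗[S] StM (S := S) (x0 x c) (A ⊗[R₁] M)) Ω)
    (TensorProduct.isBaseChange SP (SP ⊗[S] StM (S := S) (x0 x c) (A ⊗[R₂] N)) Ω)
  rw [h3, (torZero _ _).length_eq] at hfin
  have h4 := length_congr₂ e₁ e₂
  exact fun hc => hfin (h4.trans hc)

end main

end Vale.Agent.P177
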