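import Vale.Agent.P177.CTcB
import Vale.Agent.P177.CLocQ
import Mathlib.GroupTheory.CosetCover
import Mathlib.RingTheory.GradedAlgebra.Radical
import Mathlib.RingTheory.Ideal.MinimalPrime.Noetherian

/-!
Homogeneous primes and a generic linear form.
-/

namespace Vale.Agent.P177

open IsLocalRing Function

universe u

section graded

variable {K : Type u} [Field K] {d : ℕ}

attribute [local instance] MvPolynomial.gradedAlgebra

/-- Stability under taking homogeneous components. -/
def HomId (z : Ideal (MvPolynomial (Fin d) K)) : Prop :=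
  ∀ f ∈ z, ∀ n, MvPolynomial.homogeneousComponent n f ∈ z

theorem homId_of_isHomogeneous {z : Ideal (MvPolynomial (Fin d) K)}
    (h : z.IsHomogeneous (MvPolynomial.homogeneousSubmodule (Fin d) K)) : HomId z := by
  intro f hf n
  have h1 := h n hf
  have h2 := MvPolynomial.decomposition.decompose'_apply f n
  rw [← h2]
  exact h1

theorem minimal_homId {𝔞 z : Ideal (MvPolynomial (Fin d) K)} (s : Set (MvPolynomial (Fin d) K))
    (hs : ∀ f ∈ s, ∃ n : ℕ, f.IsHomogeneous n) (h𝔞 : 𝔞 = Ideal.span s)
    (hz : z ∈ 𝔞.minimalPrimes) : HomId z := by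
  have h1 : 𝔞.IsHomogeneous (MvPolynomial.homogeneousSubmodule (Fin d) K) := by
    rw [h𝔞]
    refine Ideal.homogeneous_span _ _ fun f hf => ?_
    obtain ⟨n, hn⟩ := hs f hf
    exact ⟨n, hn⟩
  have hzp : z.IsPrime := hz.1.1
  have h2 := hzp.homogeneousCore (𝒜 := MvPolynomial.homogeneousSubmodule (Fin d) K)
  have h3 : 𝔞 ≤ (z.homogeneousCore (MvPolynomial.homogeneousSubmodule (Fin d) K)).toIdeal := by
    have h4 := Ideal.homogeneousCore_mono (MvPolynomial.homogeneousSubmodule (Fin d) K) hz.1.2
    have h5 := h1.toIdeal_homogeneousCore_eq_self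
    rw [← h5]
    exact h4
  have h4 := hz.2 ⟨h2, h3⟩ (Ideal.toIdeal_homogeneousCore_le _ _)
  apply homId_of_isHomogeneous
  rw [Ideal.IsHomogeneous.iff_eq]
  exact le_antisymm (Ideal.toIdeal_homogeneousCore_le _ _) h4

/-- A generic linear form avoids finitely many relevant primes. -/
theorem exists_generic [Infinite K] (𝔞 : Ideal (MvPolynomial (Fin d) K)) :
    ∃ c : Fin d → K, ∀ z ∈ 𝔞.minimalPrimes, (∃ i, MvPolynomial.X i ∉ z) →
      ∑ i, MvPolynomial.C (c i) * MvPolynomial.X i ∉ z := by
  classical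
  let L : (Fin d → K) →ₗ[K] MvPolynomial (Fin d) K :=
    ∑ i, (LinearMap.toSpanSingleton K _ (MvPolynomial.X i)).comp (LinearMap.proj i)
  have hL : ∀ c, L c = ∑ i, MvPolynomial.C (c i) * MvPolynomial.X i := by
    intro c
    change (∑ i, (LinearMap.toSpanSingleton K _ (MvPolynomial.X i)).comp (LinearMap.proj i)) c = _
    rw [LinearMap.sum_apply]
    refine Finset.sum_congr rfl fun i _ => ?_
    rw [LinearMap.comp_apply, LinearMap.toSpanSingleton_apply, LinearMap.proj_apply,
      MvPolynomial.smul_eq_C_mul]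
  let ι := {z : Ideal (MvPolynomial (Fin d) K) // z ∈ 𝔞.minimalPrimes ∧ ∃ i, MvPolynomial.X i ∉ z}
  have hfin : Finite ι := by
    have h1 := 𝔞.finite_minimalPrimes_of_isNoetherianRing
    exact (h1.subset (fun z hz => hz.1 :
      {z | z ∈ 𝔞.minimalPrimes ∧ ∃ i, MvPolynomial.X i ∉ z} ⊆ 𝔞.minimalPrimes)).to_subtype
  let p : ι → Subspace K (Fin d → K) := fun z => (z.1.restrictScalars K).comap L
  by_contra hcon
  push Not at hcon
  have hcov : ⋃ i, (p i : Set (Fin d → K)) = Set.univ := by
    rw [Set.eq_univ_iff_forall]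
    intro c
    obtain ⟨z, hz, hi, hc⟩ := hcon c
    rw [Set.mem_iUnion]
    refine ⟨⟨z, hz, hi⟩, ?_⟩
    change L c ∈ z
    rw [hL]
    exact hc
  obtain ⟨⟨z, hz, i, hi⟩, htop⟩ := Subspace.exists_eq_top_of_iUnion_eq_univ hcov
  apply hi
  have h1 : (Pi.single i 1 : Fin d → K) ∈ p ⟨z, hz, i, hi⟩ := by
    rw [htop]
    trivial
  have h2 : L (Pi.single i 1) ∈ z := h1
  rw [hL, Finset.sum_eq_single i] at h2
  · simpa using h2
  · intro j _ hj
    rw [Pi.single_eq_of_ne hj, map_zero, zero_mul]
  · intro h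
    exact absurd (Finset.mem_univ i) h

end graded

section tmap

variable {R A : Type u} [CommRing R] [CommRing A] [Algebra R A] {d : ℕ} {x' : Fin d → R}
  {x : Fin d → A} (θ : Fin d → Fin d → A)

variable (R) in
/-- The change of coordinates on polynomial rings. -/
noncomputable def tMap : MvPolynomial (Fin d) R →+* MvPolynomial (Fin d) A :=
  MvPolynomial.eval₂Hom (MvPolynomial.C.comp (algebraMap R A))
    (fun i => ∑ l, MvPolynomial.C (θ i l) * MvPolynomial.X l)

theorem tMap_isHomogeneous {F : MvPolynomial (Fin d) R} {n : ℕ} (hF : F.IsHomogeneous n) :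
    (tMap R θ F).IsHomogeneous n := by
  have h1 := hF.eval₂ (MvPolynomial.C.comp (algebraMap R A))
    (fun i => ∑ l, MvPolynomial.C (θ i l) * MvPolynomial.X l)
    (fun r => MvPolynomial.isHomogeneous_C _ _) (n := 1) (fun i => by
      refine MvPolynomial.IsHomogeneous.sum _ _ _ fun l _ => ?_
      exact MvPolynomial.IsHomogeneous.C_mul (MvPolynomial.isHomogeneous_X _ _) _)
  rw [one_mul] at h1
  exact h1

theorem eval_tMap (hθ : ∀ i, algebraMap R A (x' i) = ∑ l, θ i l * x l)
    (F : MvPolynomial (Fin d) R) :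
    MvPolynomial.eval x (tMap R θ F) = algebraMap R A (MvPolynomial.eval x' F) := by
  have h1 : (MvPolynomial.eval x).comp (tMap R θ) =
      (algebraMap R A).comp (MvPolynomial.eval x') := by
    refine MvPolynomial.ringHom_ext (fun a => ?_) (fun i => ?_)
    · rw [RingHom.comp_apply, RingHom.comp_apply]
      unfold tMap
      simp
    · rw [RingHom.comp_apply, RingHom.comp_apply, MvPolynomial.eval_X, hθ]
      unfold tMap
      simp
  exact RingHom.congr_fun h1 F

theorem map_tMap [IsLocalRing R] [IsLocalRing A] [IsLocalHom (algebraMap R A)]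
    (F : MvPolynomial (Fin d) R) :
    (tMap R θ F).map (residue A) = jMap R θ (F.map (residue R)) := by
  have h1 : (MvPolynomial.map (residue A)).comp (tMap R θ) =
      (jMap R θ).comp (MvPolynomial.map (residue R)) := by
    refine MvPolynomial.ringHom_ext (fun a => ?_) (fun i => ?_)
    · rw [RingHom.comp_apply, RingHom.comp_apply, MvPolynomial.map_C, jMap_C]
      unfold tMap
      simp
    · rw [RingHom.comp_apply, RingHom.comp_apply, MvPolynomial.map_X, jMap_X]
      unfold tMap
      simp
  exact RingHom.congr_fun h1 F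

end tmap

end Vale.Agent.P177
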