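import Vale.Agent.P177.CCondA

/-!
Lifting initial forms and the generation condition for powers of the maximal ideal.
-/

namespace Vale.Agent.P177

open IsLocalRing Function

universe u

section lift

variable {A : Type u} [CommRing A] [IsLocalRing A] {d : ℕ}

/-- Homogeneous polynomials over the residue field lift to homogeneous polynomials. -/
theorem exists_homogeneous_lift {g : MvPolynomial (Fin d) (ResidueField A)} {n : ℕ}
    (hg : g.IsHomogeneous n) :
    ∃ G : MvPolynomial (Fin d) A, G.IsHomogeneous n ∧ G.map (residue A) = g := by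
  obtain ⟨G, rfl⟩ := MvPolynomial.map_surjective (residue A) residue_surjective g
  refine ⟨MvPolynomial.homogeneousComponent n G,
    MvPolynomial.homogeneousComponent_isHomogeneous n G, ?_⟩
  ext m
  rw [MvPolynomial.coeff_map, MvPolynomial.coeff_homogeneousComponent, MvPolynomial.coeff_map]
  split_ifs with h
  · rfl
  · rw [map_zero]
    by_contra hcon
    have h1 : MvPolynomial.coeff m (MvPolynomial.map (residue A) G) ≠ 0 := by
      rw [MvPolynomial.coeff_map]
      exact fun h2 => hcon h2.symm
    apply h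
    have h2 := hg h1
    rw [← h2, Finsupp.degree_eq_weight_one]
    rfl

theorem eval_mem_pow {x : Fin d → A} (hx : Ideal.span (Set.range x) = maximalIdeal A)
    {G : MvPolynomial (Fin d) A} {n : ℕ} (hG : G.IsHomogeneous n) :
    MvPolynomial.eval x G ∈ maximalIdeal A ^ n := by
  rw [← hx, Ideal.mem_span_pow_iff_exists_isHomogeneous]
  exact ⟨G, hG, rfl⟩

theorem eval_mem_mul {x : Fin d → A} (hx : Ideal.span (Set.range x) = maximalIdeal A)
    {G : MvPolynomial (Fin d) A} {n : ℕ} (hG : G.IsHomogeneous n) (h0 : G.map (residue A) = 0) :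
    MvPolynomial.eval x G ∈ maximalIdeal A * maximalIdeal A ^ n := by
  rw [MvPolynomial.as_sum G, map_sum]
  refine Ideal.sum_mem _ fun m hm => ?_
  have h1 : MvPolynomial.monomial m (MvPolynomial.coeff m G) =
      MvPolynomial.C (MvPolynomial.coeff m G) * MvPolynomial.monomial m 1 := by
    rw [MvPolynomial.C_mul_monomial, mul_one]
  rw [h1, map_mul, MvPolynomial.eval_C]
  refine Ideal.mul_mem_mul ?_ ?_
  · rw [← residue_eq_zero_iff, ← MvPolynomial.coeff_map, h0, MvPolynomial.coeff_zero]
  · refine eval_mem_pow hx (MvPolynomial.isHomogeneous_monomial 1 ?_)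
    have h2 := hG (MvPolynomial.mem_support_iff.1 hm)
    rw [← h2, Finsupp.degree_eq_weight_one]
    rfl

/-- The property of having good lifts in each degree. -/
def Liftable (x : Fin d → A) (W : ℕ → Ideal A) (f : MvPolynomial (Fin d) (ResidueField A)) :
    Prop :=
  ∀ n, ∃ G : MvPolynomial (Fin d) A, G.IsHomogeneous n ∧
    G.map (residue A) = MvPolynomial.homogeneousComponent n f ∧ MvPolynomial.eval x G ∈ W n

theorem Liftable.add {x : Fin d → A} {W : ℕ → Ideal A}
    {f g : MvPolynomial (Fin d) (ResidueField A)} (hf : Liftable x W f) (hg : Liftable x W g) :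
    Liftable x W (f + g) := by
  intro n
  obtain ⟨F, h1, h2, h3⟩ := hf n
  obtain ⟨G, h4, h5, h6⟩ := hg n
  exact ⟨F + G, h1.add h4, by rw [map_add, map_add, h2, h5], by
    rw [map_add]; exact add_mem h3 h6⟩

theorem Liftable.zero (x : Fin d → A) (W : ℕ → Ideal A) :
    Liftable x W (0 : MvPolynomial (Fin d) (ResidueField A)) := by
  intro n
  exact ⟨0, MvPolynomial.isHomogeneous_zero _ _ _, by rw [map_zero, map_zero], by
    rw [map_zero]; exact zero_mem _⟩

theorem Liftable.sum {x : Fin d → A} {W : ℕ → Ideal A} {ι : Type*} (s : Finset ι)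
    (f : ι → MvPolynomial (Fin d) (ResidueField A)) (hf : ∀ i ∈ s, Liftable x W (f i)) :
    Liftable x W (∑ i ∈ s, f i) := by
  classical
  induction s using Finset.induction_on with
  | empty =>
    rw [Finset.sum_empty]
    exact Liftable.zero x W
  | insert i s hi ih =>
    rw [Finset.sum_insert hi]
    exact (hf i (Finset.mem_insert_self i s)).add
      (ih fun j hj => hf j (Finset.mem_insert_of_mem hj))

theorem Liftable.of_homogeneous {x : Fin d → A} {W : ℕ → Ideal A} {n : ℕ}
    (G : MvPolynomial (Fin d) A) (hG : G.IsHomogeneous n) (hW : MvPolynomial.eval x G ∈ W n) :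
    Liftable x W (G.map (residue A)) := by
  intro m
  have h1 := MvPolynomial.homogeneousComponent_of_mem (m := m) (hG.map (residue A))
  by_cases h : m = n
  · subst h
    exact ⟨G, hG, by rw [h1, if_pos rfl], hW⟩
  · exact ⟨0, MvPolynomial.isHomogeneous_zero _ _ _, by rw [h1, if_neg h, map_zero], by
      rw [map_zero]; exact zero_mem _⟩

theorem Liftable.mul {x : Fin d → A} (hx : Ideal.span (Set.range x) = maximalIdeal A)
    {W : ℕ → Ideal A} {n : ℕ} (F : MvPolynomial (Fin d) A) (hF : F.IsHomogeneous n)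
    (hW : ∀ j, ∀ b ∈ maximalIdeal A ^ j, b * MvPolynomial.eval x F ∈ W (j + n))
    (g : MvPolynomial (Fin d) (ResidueField A)) :
    Liftable x W (g * F.map (residue A)) := by
  rw [← MvPolynomial.sum_homogeneousComponent g, Finset.sum_mul]
  refine Liftable.sum _ _ fun j _ => ?_
  obtain ⟨G, hG, hGg⟩ := exists_homogeneous_lift
    (MvPolynomial.homogeneousComponent_isHomogeneous j g)
  rw [← hGg, ← map_mul]
  refine Liftable.of_homogeneous (n := j + n) _ (hG.mul hF) ?_
  rw [map_mul]
  exact hW j _ (eval_mem_pow hx hG)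

theorem Liftable.of_span {x : Fin d → A} (hx : Ideal.span (Set.range x) = maximalIdeal A)
    {W : ℕ → Ideal A} {s : Set (MvPolynomial (Fin d) (ResidueField A))}
    (hs : ∀ f ∈ s, ∃ (n : ℕ) (F : MvPolynomial (Fin d) A), F.IsHomogeneous n ∧
      F.map (residue A) = f ∧
      ∀ j, ∀ b ∈ maximalIdeal A ^ j, b * MvPolynomial.eval x F ∈ W (j + n))
    (f : MvPolynomial (Fin d) (ResidueField A)) (hf : f ∈ Ideal.span s) : Liftable x W f := by
  refine Submodule.span_induction (p := fun f _ => ∀ g, Liftable x W (g * f)) ?_ ?_ ?_ ?_ hf 1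
    |> fun h => by rwa [one_mul] at h
  · intro f hf g
    obtain ⟨n, F, hF, rfl, hW⟩ := hs f hf
    exact Liftable.mul hx F hF hW g
  · intro g
    rw [mul_zero]
    exact Liftable.zero x W
  · intro f f' _ _ h h' g
    rw [mul_add]
    exact (h g).add (h' g)
  · intro a f _ h g
    rw [smul_eq_mul, ← mul_assoc]
    exact h _

/-- If the irrelevant ideal to the power `n` has good lifts then so has the power of the maximal
ideal. -/
theorem pow_le_of_liftable [IsNoetherianRing A] {x : Fin d → A}
    (hx : Ideal.span (Set.range x) = maximalIdeal A)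
    {W : ℕ → Ideal A} {s : Set (MvPolynomial (Fin d) (ResidueField A))}
    (hs : ∀ f ∈ s, ∃ (n : ℕ) (F : MvPolynomial (Fin d) A), F.IsHomogeneous n ∧
      F.map (residue A) = f ∧
      ∀ j, ∀ b ∈ maximalIdeal A ^ j, b * MvPolynomial.eval x F ∈ W (j + n)) (n : ℕ)
    (hn : (Ideal.span (Set.range MvPolynomial.X)) ^ n ≤ Ideal.span s) :
    maximalIdeal A ^ n ≤ W n := by
  refine Submodule.le_of_le_smul_of_le_jacobson_bot (I := maximalIdeal A)
    (IsNoetherian.noetherian _) (maximalIdeal_le_jacobson _) ?_
  intro a ha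
  rw [← hx, Ideal.mem_span_pow_iff_exists_isHomogeneous] at ha
  obtain ⟨F, hF, rfl⟩ := ha
  have hF' := hF.map (residue A)
  have h1 : F.map (residue A) ∈ Ideal.span s := by
    apply hn
    rw [Ideal.mem_span_pow_iff_exists_isHomogeneous]
    refine ⟨(F.map (residue A)).map MvPolynomial.C, hF'.map _, ?_⟩
    rw [MvPolynomial.eval_map, MvPolynomial.eval₂_eta]
  obtain ⟨G, hG, hGF, hGW⟩ := Liftable.of_span hx hs _ h1 n
  rw [MvPolynomial.homogeneousComponent_eq_self hF'] at hGF
  have h2 : MvPolynomial.eval x (F - G) ∈ maximalIdeal A * maximalIdeal A ^ n := by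
    refine eval_mem_mul hx (hF.sub hG) ?_
    rw [map_sub, hGF, sub_self]
  have h3 : MvPolynomial.eval x F = MvPolynomial.eval x G + MvPolynomial.eval x (F - G) := by
    rw [map_sub]
    ring
  rw [h3]
  exact add_mem (Submodule.mem_sup_left hGW) (Submodule.mem_sup_right h2)

end lift

end Vale.Agent.P177
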