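import Vale.Agent.P177.DimLemma

/-!
Depth over a regular local ring in terms of Tor with the residue field.
-/

namespace Vale.Agent.P177

open CategoryTheory TensorProduct Function IsLocalRing RingTheory.Sequence Pointwise

universe u

section basic

variable {T : Type u} [CommRing T] [IsLocalRing T]

theorem smul_tor_residue (z : T) (hz : z ∈ maximalIdeal T) (j : ℕ) (X : Type u) [AddCommGroup X]
    [Module T X] (x : TorM T j X (T ⧸ maximalIdeal T)) : z • x = 0 := by
  apply tor_smul_eq_zero_right z _ j X x
  intro m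
  obtain ⟨m, rfl⟩ := Ideal.Quotient.mk_surjective m
  change Ideal.Quotient.mk _ (z * m) = 0
  rw [Ideal.Quotient.eq_zero_iff_mem]
  exact Ideal.mul_mem_right _ _ hz

/-- Nonvanishing of Tor with the residue field moves up by one after cutting. -/
theorem nontrivial_tor_residue_quot (z : T) (hz : z ∈ maximalIdeal T) (X : Type u)
    [AddCommGroup X] [Module T X] (hreg : IsSMulRegular X z) (j : ℕ)
    (h : Nontrivial (TorM T j X (T ⧸ maximalIdeal T))) :
    Nontrivial (TorM T (j + 1) (QuotSMulTop z X) (T ⧸ maximalIdeal T)) := by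
  obtain ⟨f, g, hf, hi, hs, hex⟩ := quot_ses X z hreg
  obtain ⟨δ, -, h2, -⟩ := exists_torDelta f g hi hs hex (T ⧸ maximalIdeal T)
  by_contra hn
  rw [not_nontrivial_iff_subsingleton] at hn
  apply not_subsingleton_iff_nontrivial.2 h
  refine subsingleton_of_forall_eq 0 fun x => ?_
  have h3 : torMap j f (T ⧸ maximalIdeal T) x = 0 := by
    rw [torMap_smul_id j z f hf, smul_tor_residue z hz j X x]
  obtain ⟨y, rfl⟩ := (h2 j x).1 h3
  rw [Subsingleton.elim y 0, map_zero]

theorem nontrivial_tor_residue_list (zs : List T) (hzs : ∀ z ∈ zs, z ∈ maximalIdeal T)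
    (X : Type u) [AddCommGroup X] [Module T X] (hreg : IsWeaklyRegular X zs) (j : ℕ)
    (h : Nontrivial (TorM T j X (T ⧸ maximalIdeal T))) :
    Nontrivial (TorM T (j + zs.length) (X ⧸ (Ideal.ofList zs • ⊤ : Submodule T X))
      (T ⧸ maximalIdeal T)) := by
  induction zs generalizing X j with
  | nil =>
    have e : (X ⧸ (Ideal.ofList ([] : List T) • ⊤ : Submodule T X)) ≃ₗ[T] X :=
      Submodule.quotEquivOfEqBot _ (by simp)
    exact (torCongrLeft j e _).toEquiv.nontrivial
  | cons z zs ih =>
    rw [isWeaklyRegular_cons_iff] at hreg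
    have h1 := nontrivial_tor_residue_quot z (hzs z List.mem_cons_self) X hreg.1 j h
    have h2 := ih (fun y hy => hzs y (List.mem_cons_of_mem _ hy)) (QuotSMulTop z X) hreg.2
      (j + 1) h1
    have h3 := (torCongrLeft (j + 1 + zs.length)
      (Submodule.quotOfListConsSMulTopEquivQuotSMulTopInner X z zs)
      (T ⧸ maximalIdeal T)).toEquiv.nontrivial
    have h4 : j + (z :: zs).length = j + 1 + zs.length := by
      rw [List.length_cons]; ring
    rw [h4]
    exact h3

/-- Existence of a regular element in the absence of socle elements. -/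
theorem exists_regular_of_no_socle [IsNoetherianRing T] (X : Type u) [AddCommGroup X] [Module T X]
    [Module.Finite T X] (h : ∀ x : X, (∀ a ∈ maximalIdeal T, a • x = 0) → x = 0) :
    ∃ z ∈ maximalIdeal T, IsSMulRegular X z := by
  have hfin : (associatedPrimes T X).Finite := associatedPrimes.finite T X
  by_contra hcon
  push Not at hcon
  have hsub : (maximalIdeal T : Set T) ⊆ ⋃ I ∈ associatedPrimes T X, (I : Set T) := by
    intro z hz
    rw [biUnion_associatedPrimes_eq_compl_regular]
    exact hcon z hz
  obtain ⟨P, hP, hle⟩ := (Ideal.subset_union_prime_finite hfin (f := id) ⊥ ⊥ (by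
    intro I hI _ _
    exact hI.isPrime)).1 hsub
  have hPm : P = maximalIdeal T := le_antisymm (le_maximalIdeal hP.isPrime.ne_top) hle
  obtain ⟨hPp, x, hx⟩ := isAssociatedPrime_iff.1 hP
  have hx0 : x = 0 := by
    apply h x
    intro a ha
    rw [← hPm, hx, Submodule.mem_colon_singleton] at ha
    exact ha
  apply hPp.ne_top
  rw [Ideal.eq_top_iff_one, hx, Submodule.mem_colon_singleton, hx0, smul_zero]
  exact Submodule.zero_mem _

end basic

section regular

variable {T : Type u} [CommRing T] [IsRegularLocalRing T] {t : ℕ}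

/-- The residue field has nonzero Tor with itself in degree `dim T`. -/
theorem nontrivial_tor_residue_residue (ht : ringKrullDim T = t) :
    Nontrivial (TorM T t (T ⧸ maximalIdeal T) (T ⧸ maximalIdeal T)) := by
  obtain ⟨rs, hrs, hlen⟩ := exists_list_maximalIdeal T
  have hreg := isRegular_of_ofList_eq_maximalIdeal T rs hrs hlen
  have hlen' : rs.length = t := by
    rw [ht] at hlen
    exact_mod_cast hlen
  have hmem : ∀ z ∈ rs, z ∈ maximalIdeal T := by
    intro z hz
    rw [← hrs]
    exact Ideal.subset_span hz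
  have h0 : Nontrivial (TorM T 0 T (T ⧸ maximalIdeal T)) := by
    have : Nontrivial (T ⧸ maximalIdeal T) := inferInstance
    exact (torZero T (T ⧸ maximalIdeal T) ≪≫ₗ TensorProduct.lid T _).toEquiv.nontrivial
  have h1 := nontrivial_tor_residue_list rs hmem T hreg.toIsWeaklyRegular 0 h0
  have e : (T ⧸ (Ideal.ofList rs • ⊤ : Submodule T T)) ≃ₗ[T] (T ⧸ maximalIdeal T) :=
    Submodule.quotEquivOfEq _ _ (by rw [hrs]; simp)
  rw [zero_add, hlen'] at h1
  exact (torCongrLeft t e _).symm.toEquiv.nontrivial

theorem tor_residue_of_no_socle (ht : ringKrullDim T = t) (X : Type u) [AddCommGroup X]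
    [Module T X] [Module.Finite T X] (h : ∀ x : X, (∀ a ∈ maximalIdeal T, a • x = 0) → x = 0) :
    Subsingleton (TorM T t X (T ⧸ maximalIdeal T)) := by
  obtain ⟨z, hz, hreg⟩ := exists_regular_of_no_socle X h
  obtain ⟨f, g, hf, hi, hs, hex⟩ := quot_ses X z hreg
  obtain ⟨δ, -, h2, -⟩ := exists_torDelta f g hi hs hex (T ⧸ maximalIdeal T)
  have hv := regular_tor_vanish T t ht (QuotSMulTop z X) (T ⧸ maximalIdeal T) (t + 1) le_rfl
  refine subsingleton_of_forall_eq 0 fun x => ?_
  have h3 : torMap t f (T ⧸ maximalIdeal T) x = 0 := by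
    rw [torMap_smul_id t z f hf, smul_tor_residue z hz t X x]
  obtain ⟨y, rfl⟩ := (h2 t x).1 h3
  rw [Subsingleton.elim y 0, map_zero]

theorem no_socle_of_tor_residue (ht : ringKrullDim T = t) (X : Type u) [AddCommGroup X]
    [Module T X] [Module.Finite T X] (h : Subsingleton (TorM T t X (T ⧸ maximalIdeal T)))
    (x : X) (hx : ∀ a ∈ maximalIdeal T, a • x = 0) : x = 0 := by
  by_contra hne
  let f : (T ⧸ maximalIdeal T) →ₗ[T] X :=
    (maximalIdeal T).liftQ (LinearMap.toSpanSingleton T X x) (by
      intro a ha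
      rw [LinearMap.mem_ker, LinearMap.toSpanSingleton_apply]
      exact hx a ha)
  have hf : Injective f := by
    rw [← LinearMap.ker_eq_bot, Submodule.ker_liftQ_eq_bot']
    apply le_antisymm
    · intro a ha
      rw [LinearMap.mem_ker, LinearMap.toSpanSingleton_apply]
      exact hx a ha
    · refine le_maximalIdeal ?_
      intro htop
      apply hne
      have h1 : (1 : T) ∈ LinearMap.ker (LinearMap.toSpanSingleton T X x) := by
        rw [htop]; trivial
      rw [LinearMap.mem_ker, LinearMap.toSpanSingleton_apply, one_smul] at h1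
      exact h1
  have hex : Exact f (LinearMap.range f).mkQ := by
    intro y
    simp
  obtain ⟨δ, -, h2, -⟩ := exists_torDelta f (LinearMap.range f).mkQ hf
    (Submodule.mkQ_surjective _) hex (T ⧸ maximalIdeal T)
  have hv := regular_tor_vanish T t ht (X ⧸ LinearMap.range f) (T ⧸ maximalIdeal T) (t + 1) le_rfl
  apply not_subsingleton_iff_nontrivial.2 (nontrivial_tor_residue_residue ht)
  refine subsingleton_of_forall_eq 0 fun y => ?_
  obtain ⟨w, rfl⟩ := (h2 t y).1 (Subsingleton.elim _ _)
  rw [Subsingleton.elim w 0, map_zero]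

/-- Extension of a regular sequence when the depth is not exhausted. -/
theorem exists_regular_ext (ht : ringKrullDim T = t) (X : Type u) [AddCommGroup X] [Module T X]
    [Module.Finite T X] (zs : List T) (hreg : IsWeaklyRegular X zs) (m : ℕ)
    (hpd : ∀ j, m < j → Subsingleton (TorM T j X (T ⧸ maximalIdeal T))) (hlt : m + zs.length < t) :
    ∃ z ∈ maximalIdeal T, IsWeaklyRegular X (zs ++ [z]) := by
  have h1 := tor_subsingleton_list zs X hreg (T ⧸ maximalIdeal T) (m + 1)
    (fun j hj => hpd j (by omega)) t (by omega)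
  obtain ⟨z, hz, hzr⟩ := exists_regular_of_no_socle
    (X ⧸ (Ideal.ofList zs • ⊤ : Submodule T X)) (fun x hx => no_socle_of_tor_residue ht _ h1 x hx)
  refine ⟨z, hz, ?_⟩
  rw [isWeaklyRegular_append_iff]
  refine ⟨hreg, ?_⟩
  rw [isWeaklyRegular_singleton_iff]
  exact hzr

theorem exists_regular_ext_list (ht : ringKrullDim T = t) (X : Type u) [AddCommGroup X]
    [Module T X]
    [Module.Finite T X] (zs : List T) (hreg : IsWeaklyRegular X zs) (m : ℕ)
    (hpd : ∀ j, m < j → Subsingleton (TorM T j X (T ⧸ maximalIdeal T))) (r : ℕ)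
    (hlt : m + zs.length + r ≤ t) :
    ∃ ws : List T, ws.length = r ∧ (∀ z ∈ ws, z ∈ maximalIdeal T) ∧
      IsWeaklyRegular X (zs ++ ws) := by
  induction r with
  | zero => exact ⟨[], rfl, by simp, by simpa using hreg⟩
  | succ r ih =>
    obtain ⟨ws, hws, hmem, hr⟩ := ih (by omega)
    obtain ⟨z, hz, hzr⟩ := exists_regular_ext ht X (zs ++ ws) hr m hpd (by
      rw [List.length_append, hws]; omega)
    refine ⟨ws ++ [z], by simp [hws], ?_, ?_⟩
    · intro y hy
      rw [List.mem_append, List.mem_singleton] at hy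
      rcases hy with hy | rfl
      · exact hmem y hy
      · exact hz
    · rw [← List.append_assoc]
      exact hzr

theorem tor_symm_subsingleton {R : Type u} [CommRing R] (n : ℕ) (M N : Type u) [AddCommGroup M]
    [Module R M] [AddCommGroup N] [Module R N] (h : Subsingleton (TorM R n M N)) :
    Subsingleton (TorM R n N M) := by
  obtain ⟨e⟩ := tor_symm (R := R) n M N
  exact e.symm.toEquiv.subsingleton

/-- Projective dimension is detected by the residue field. -/
theorem tor_subsingleton_of_residue {T : Type u} [CommRing T] [IsLocalRing T]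
    [IsNoetherianRing T] (X : Type u) [AddCommGroup X]
    [Module T X] [Module.Finite T X] (m : ℕ)
    (hpd : ∀ j, m ≤ j → Subsingleton (TorM T j X (T ⧸ maximalIdeal T)))
    (Y : Type u) [AddCommGroup Y] [Module T Y] [Module.Finite T Y] :
    ∀ j, m ≤ j → Subsingleton (TorM T j X Y) := by
  intro j hj
  have h1 := local_crit (S := T) (B := T) m X (by
    intro j hj
    have h2 := tor_symm_subsingleton j _ _ (hpd j hj)
    exact (torCongrLeft j (TensorProduct.lid T _) X).toEquiv.subsingleton) Y j hj
  have h3 : Subsingleton (TorM T j Y X) :=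
    (torCongrLeft j (TensorProduct.lid T Y) X).symm.toEquiv.subsingleton
  exact tor_symm_subsingleton j _ _ h3

theorem subsingleton_of_injective_smul {T : Type u} [CommRing T] [IsLocalRing T]
    [IsNoetherianRing T] (H : Type u) [AddCommGroup H] [Module T H] [Module.Finite T H]
    (hH : FL ([] : List T) H) (z : T) (hz : z ∈ maximalIdeal T)
    (hinj : ∀ x : H, z • x = 0 → x = 0) : Subsingleton H := by
  unfold FL at hH
  rw [Ideal.ofList_nil, sup_bot_eq] at hH
  obtain ⟨n, hn⟩ := hH hz
  have h1 : ∀ (n : ℕ) (x : H), z ^ n • x = 0 → x = 0 := by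
    intro n
    induction n with
    | zero => intro x hx; simpa using hx
    | succ n ih =>
      intro x hx
      rw [pow_succ', mul_smul] at hx
      exact ih x (hinj _ hx)
  exact subsingleton_of_forall_eq 0 fun x => h1 n x (Module.mem_annihilator.1 hn x)

theorem FL2.mono {T : Type u} [CommRing T] [IsLocalRing T] {zs : List T} {X Y X' Y' : Type u}
    [AddCommGroup X] [Module T X] [AddCommGroup Y] [Module T Y] [AddCommGroup X'] [Module T X']
    [AddCommGroup Y'] [Module T Y'] (h : FL2 zs X Y)
    (hX : Module.annihilator T X ≤ Module.annihilator T X')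
    (hY : Module.annihilator T Y ≤ Module.annihilator T Y') : FL2 zs X' Y' :=
  h.trans (Ideal.radical_mono (sup_le_sup_right (sup_le_sup hX hY) _))

theorem FL2.symm {T : Type u} [CommRing T] [IsLocalRing T] {zs : List T} {X Y : Type u}
    [AddCommGroup X] [Module T X] [AddCommGroup Y] [Module T Y] (h : FL2 zs X Y) :
    FL2 zs Y X := by
  unfold FL2 at h ⊢
  rwa [sup_comm (Module.annihilator T Y)]

/-- Descent of vanishing along a regular sequence. -/
theorem tor_subsingleton_descent {T : Type u} [CommRing T] [IsLocalRing T]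
    [IsNoetherianRing T] (zs : List T) (hzs : ∀ z ∈ zs, z ∈ maximalIdeal T) (X : Type u)
    [AddCommGroup X] [Module T X] [Module.Finite T X] (hreg : IsWeaklyRegular X zs)
    (Y : Type u) [AddCommGroup Y] [Module T Y] [Module.Finite T Y] (hFL : FL2 ([] : List T) X Y)
    (m : ℕ) (h : ∀ j, m + zs.length ≤ j →
      Subsingleton (TorM T j (X ⧸ (Ideal.ofList zs • ⊤ : Submodule T X)) Y)) :
    ∀ j, m ≤ j → Subsingleton (TorM T j X Y) := by
  induction zs generalizing X m with
  | nil =>
    intro j hj
    have := h j (by simpa using hj)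
    have e : (X ⧸ (Ideal.ofList ([] : List T) • ⊤ : Submodule T X)) ≃ₗ[T] X :=
      Submodule.quotEquivOfEqBot _ (by simp)
    exact (torCongrLeft j e _).symm.toEquiv.subsingleton
  | cons z zs ih =>
    rw [isWeaklyRegular_cons_iff] at hreg
    have hFLq : FL2 ([] : List T) (QuotSMulTop z X) Y := hFL.mono
      (LinearMap.annihilator_le_of_surjective _ (Submodule.mkQ_surjective _)) le_rfl
    have h1 := ih (fun y hy => hzs y (List.mem_cons_of_mem _ hy)) (QuotSMulTop z X) hreg.2 hFLq
      (m + 1) (by
        intro j hj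
        have := h j (by rw [List.length_cons]; omega)
        exact (torCongrLeft j
          (Submodule.quotOfListConsSMulTopEquivQuotSMulTopInner X z zs) Y).symm.toEquiv.subsingleton)
    intro j hj
    obtain ⟨f, g, hf, hi, hs, hex⟩ := quot_ses X z hreg.1
    obtain ⟨δ, -, h2, -⟩ := exists_torDelta f g hi hs hex Y
    have := tor_finite (R := T) j X Y
    apply subsingleton_of_injective_smul _ (hFL.tor j) z (hzs z List.mem_cons_self)
    intro x hx
    have h3 : torMap j f Y x = 0 := by
      rw [torMap_smul_id j z f hf, hx]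
    obtain ⟨y, rfl⟩ := (h2 j x).1 h3
    have := h1 (j + 1) (by omega)
    rw [Subsingleton.elim y 0, map_zero]

/-- **Depth lemma.** If `zs` is regular on `X`, `ws` is regular on `Y` and `X ⊗ Y` has finite
length, then `Tor_j(X,Y) = 0` for `j > dim T - |zs| - |ws|`. -/
theorem tor_subsingleton_of_depth (ht : ringKrullDim T = t) (X Y : Type u) [AddCommGroup X]
    [Module T X] [Module.Finite T X] [AddCommGroup Y] [Module T Y] [Module.Finite T Y]
    (hFL : FL2 ([] : List T) X Y)
    (zs ws : List T) (hzs : ∀ z ∈ zs, z ∈ maximalIdeal T) (hws : ∀ z ∈ ws, z ∈ maximalIdeal T)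
    (hX : IsWeaklyRegular X zs) (hY : IsWeaklyRegular Y ws) (j : ℕ)
    (hj : t < j + zs.length + ws.length) : Subsingleton (TorM T j X Y) := by
  have hFLq : FL2 ([] : List T) (X ⧸ (Ideal.ofList zs • ⊤ : Submodule T X)) Y := hFL.mono
      (LinearMap.annihilator_le_of_surjective _ (Submodule.mkQ_surjective _)) le_rfl
  refine tor_subsingleton_descent zs hzs X hX Y hFL j ?_ j le_rfl
  intro i hi
  apply tor_symm_subsingleton
  refine tor_subsingleton_descent ws hws Y hY _ hFLq.symm i ?_ i le_rfl
  intro l hl
  exact regular_tor_vanish T t ht _ _ l (by omega)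

end regular

end Vale.Agent.P177
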