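import Vale.Agent.P177.CPsB
import Vale.Agent.P177.TorComplete

/-!
Descent of Serre's statements along flat local maps with trivial closed fibre.
-/

namespace Vale.Agent.P177

open CategoryTheory TensorProduct Function IsLocalRing RingTheory.Sequence Pointwise

universe u

/-- Serre's statements for all pairs of modules over a ring of dimension `d`. -/
def SerreAll (R : Type u) [CommRing R] (d : ℕ) : Prop :=
  ∀ (M N : Type u) [AddCommGroup M] [Module R M] [Module.Finite R M]
    [AddCommGroup N] [Module R N] [Module.Finite R N],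
    Module.length R (M ⊗[R] N) ≠ ⊤ →
    0 ≤ eulerTor R (d + 1) M N ∧ ∀ m n : ℕ, (m : WithBot ℕ∞) ≤ Module.supportDim R M →
      (n : WithBot ℕ∞) ≤ Module.supportDim R N →
      (m + n ≤ d) ∧ (d ≤ m + n → 0 < eulerTor R (d + 1) M N)

theorem serreAll_essSmooth (a : ℕ) (hLoc : LocPos.{u} a) (A R : Type u) [CommRing A]
    [IsRegularLocalRing A] (hA : ringKrullDim A ≤ a) [CommRing R] [IsLocalRing R] [Algebra A R]
    [Algebra.EssFiniteType A R] [Algebra.FormallySmooth A R] (d : ℕ) (hd : ringKrullDim R = d) :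
    SerreAll R d :=
  fun M N _ _ _ _ _ _ hlen => serre_essSmooth a hLoc A R hA d hd M N hlen

theorem serreAll_powerSeries (a : ℕ) (hLoc : LocPos.{u} a) (A : Type u) [CommRing A]
    [IsRegularLocalRing A] (hA : ringKrullDim A ≤ a) (n : ℕ) (d : ℕ)
    (hd : ringKrullDim (MvPowerSeries (Fin n) A) = d) : SerreAll (MvPowerSeries (Fin n) A) d :=
  fun M N _ _ _ _ _ _ hlen => serre_powerSeries a hLoc A hA n d hd M N hlen

section

variable {R C : Type u} [CommRing R] [CommRing C] [IsLocalRing R] [IsNoetherianRing R]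
  [IsLocalRing C] [IsNoetherianRing C] [Algebra R C] [Module.Flat R C]

theorem SerreAll.descend (hloc : (maximalIdeal R).map (algebraMap R C) = maximalIdeal C) {d : ℕ}
    (h : SerreAll C d) : SerreAll R d := by
  intro M N _ _ _ _ _ _ hlen
  have e : (C ⊗[R] M) ⊗[C] (C ⊗[R] N) ≃ₗ[C] C ⊗[R] (M ⊗[R] N) :=
    (AlgebraTensorModule.distribBaseChange R C M N).symm
  have hlenC : Module.length C ((C ⊗[R] M) ⊗[C] (C ⊗[R] N)) ≠ ⊤ := by
    rw [e.length_eq, length_baseChange' R C hloc]
    exact hlen
  obtain ⟨h1, h2⟩ := h (C ⊗[R] M) (C ⊗[R] N) hlenC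
  have heq : eulerTor C (d + 1) (C ⊗[R] M) (C ⊗[R] N) = eulerTor R (d + 1) M N := by
    unfold eulerTor
    refine Finset.sum_congr rfl fun j _ => ?_
    rw [length_tor_bc₂ (A := R) (C := C) hloc j (TensorProduct.isBaseChange R M C)
      (TensorProduct.isBaseChange R N C)]
  rw [heq] at h1 h2
  exact ⟨h1, fun m n hm hn => h2 m n (hm.trans (supportDim_le_baseChange R C hloc M))
    (hn.trans (supportDim_le_baseChange R C hloc N))⟩

end

theorem ringKrullDim_eq_of_flat {R C : Type u} [CommRing R] [CommRing C] [IsRegularLocalRing R]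
    [IsLocalRing C] [IsNoetherianRing C] [Algebra R C] [Module.Flat R C]
    (hloc : (maximalIdeal R).map (algebraMap R C) = maximalIdeal C) :
    ringKrullDim C = ringKrullDim R := by
  obtain ⟨rs, hrs, hlen⟩ := exists_list_maximalIdeal R
  have hreg := isRegular_of_ofList_eq_maximalIdeal R rs hrs hlen
  have h1 : IsWeaklyRegular C (rs.map (algebraMap R C)) := hreg.toIsWeaklyRegular.of_flat
  have h2 := length_le_height (maximalIdeal C) _ (fun z hz => by
    rw [List.mem_map] at hz
    obtain ⟨y, hy, rfl⟩ := hz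
    rw [← hloc]
    exact Ideal.mem_map_of_mem _ (by rw [← hrs]; exact Ideal.subset_span hy)) h1
  rw [List.length_map] at h2
  have h3 : (rs.length : WithBot ℕ∞) ≤ ringKrullDim C := by
    refine le_trans ?_ (Ideal.height_le_ringKrullDim_of_isPrime (I := maximalIdeal C))
    exact_mod_cast h2
  have h4 := isRegularLocalRing_of_list (B := C) (rs.map (algebraMap R C)) (by
    rw [← Ideal.map_ofList, hrs, hloc]) (by rw [List.length_map]; exact h3)
  rw [h4.2, List.length_map, hlen]

end Vale.Agent.P177
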