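import Vale.Agent.P177.CSum
import Vale.Agent.P177.TorFlatIso
import Vale.Agent.P177.Transfer

/-!
Transfer of Euler characteristics from `T` to the localizations of a `T`-algebra `B`.
-/

namespace Vale.Agent.P177

open CategoryTheory TensorProduct Function IsLocalRing RingTheory.Sequence Pointwise

universe u

variable {R₁ T B₁ B : Type u} [CommRing R₁] [CommRing T] [CommRing B₁] [CommRing B]
  [Algebra R₁ T] [Algebra R₁ B₁] [Algebra T B] [Algebra B₁ B] [Algebra R₁ B]
  [IsScalarTower R₁ B₁ B] [IsScalarTower R₁ T B] [Algebra.IsPushout R₁ T B₁ B]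
  [Module.Flat T B]

/-- Comparison of `Tor` over `T`, over `B` and over the localizations of `B`. -/
theorem exists_tor_transfer (V : Type u) [AddCommGroup V] [Module R₁ V] [Module B₁ V]
    [IsScalarTower R₁ B₁ V] (H : Type u) [AddCommGroup H] [Module T H] (n : ℕ) :
    ∃ (M : Type u) (_ : AddCommGroup M) (_ : Module T M) (_ : Module B M)
      (_ : IsScalarTower T B M), Nonempty (TorM T n H (T ⊗[R₁] V) ≃ₗ[T] M) ∧
      Nonempty (TorM B n (B ⊗[T] H) (B ⊗[B₁] V) ≃ₗ[B] M) ∧
      ∀ m : MaximalSpectrum B, Nonempty (TorM (Localization.AtPrime m.asIdeal) n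
        (Localization.AtPrime m.asIdeal ⊗[B] (B ⊗[T] H))
        (Localization.AtPrime m.asIdeal ⊗[B] (B ⊗[B₁] V)) ≃ₗ[Localization.AtPrime m.asIdeal]
        Localization.AtPrime m.asIdeal ⊗[B] M) := by
  obtain ⟨M, i1, i2, i3, i4, ⟨e1⟩, ⟨e2⟩⟩ := tor_bc_common (S := T) (B := B) n
    (TensorProduct.isBaseChange T H B) (B ⊗[B₁] V)
  have e3 : (B ⊗[B₁] V) ≃ₗ[T] (T ⊗[R₁] V) := Algebra.IsPushout.cancelBaseChange R₁ T B₁ B V
  refine ⟨M, i1, i2, i3, i4, ⟨(torCongrRight n H e3).symm ≪≫ₗ e1⟩, ⟨e2⟩, fun m => ?_⟩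
  obtain ⟨e4⟩ := exists_tor_flat_iso (A := B) (C := Localization.AtPrime m.asIdeal) n
    (TensorProduct.isBaseChange B (B ⊗[T] H) (Localization.AtPrime m.asIdeal))
    (TensorProduct.isBaseChange B (B ⊗[B₁] V) (Localization.AtPrime m.asIdeal))
  exact ⟨e4 ≪≫ₗ e2.baseChange B (Localization.AtPrime m.asIdeal) _ _⟩

/-- The Euler characteristic over `T` as a sum over maximal ideals of `B`. -/
theorem eulerTor_eq_sum (V : Type u) [AddCommGroup V] [Module R₁ V] [Module B₁ V]
    [IsScalarTower R₁ B₁ V] (H : Type u) [AddCommGroup H] [Module T H]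
    (hlen : ∀ n, Module.length T (TorM T n H (T ⊗[R₁] V)) ≠ ⊤) (S : Finset (MaximalSpectrum B))
    (hS : ∀ m : MaximalSpectrum B, m ∉ S → ∀ n, Subsingleton (Localization.AtPrime m.asIdeal ⊗[B]
      TorM B n (B ⊗[T] H) (B ⊗[B₁] V))) (N : ℕ) :
    eulerTor T N H (T ⊗[R₁] V) = ∑ m ∈ S, ((Module.length T (B ⧸ m.asIdeal)).toNat : ℤ) *
      eulerTor (Localization.AtPrime m.asIdeal) N
        (Localization.AtPrime m.asIdeal ⊗[B] (B ⊗[T] H))
        (Localization.AtPrime m.asIdeal ⊗[B] (B ⊗[B₁] V)) := by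
  have key : ∀ n, ((Module.length T (TorM T n H (T ⊗[R₁] V))).toNat : ℤ) =
      ∑ m ∈ S, ((Module.length T (B ⧸ m.asIdeal)).toNat : ℤ) *
        ((Module.length (Localization.AtPrime m.asIdeal) (TorM (Localization.AtPrime m.asIdeal) n
        (Localization.AtPrime m.asIdeal ⊗[B] (B ⊗[T] H))
        (Localization.AtPrime m.asIdeal ⊗[B] (B ⊗[B₁] V)))).toNat : ℤ) := by
    intro n
    obtain ⟨M, _, _, _, _, ⟨e1⟩, ⟨e2⟩, e3⟩ := exists_tor_transfer (R₁ := R₁) (T := T) (B₁ := B₁)
      (B := B) V H n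
    have h1 : Module.length T M ≠ ⊤ := by
      rw [← e1.length_eq]
      exact hlen n
    have h2 : IsFiniteLength B M := by
      have h3 := Module.length_ne_top_iff.1 h1
      rw [isFiniteLength_iff_isNoetherian_isArtinian] at h3 ⊢
      obtain ⟨h4, h5⟩ := h3
      exact ⟨isNoetherian_of_tower T h4, isArtinian_of_tower T h5⟩
    have h3 := length_eq_sum (T := T) S M h2 (fun m hm => by
      have := hS m hm n
      exact (e2.baseChange B (Localization.AtPrime m.asIdeal) _ _).symm.toEquiv.subsingleton)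
    have h4 : ∀ m ∈ S, Module.length T (B ⧸ m.asIdeal) *
        Module.length (Localization.AtPrime m.asIdeal)
          (Localization.AtPrime m.asIdeal ⊗[B] M) ≠ ⊤ := by
      intro m hm htop
      apply h1
      rw [h3, eq_top_iff, ← htop]
      exact Finset.single_le_sum (f := fun m : MaximalSpectrum B =>
        Module.length T (B ⧸ m.asIdeal) * Module.length (Localization.AtPrime m.asIdeal)
          (Localization.AtPrime m.asIdeal ⊗[B] M)) (fun _ _ => bot_le) hm
    rw [e1.length_eq, h3, ENat.toNat_sum h4]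
    push_cast
    refine Finset.sum_congr rfl fun m _ => ?_
    obtain ⟨e4⟩ := e3 m
    rw [ENat.toNat_mul, e4.length_eq]
    push_cast
    rfl
  unfold eulerTor
  rw [Finset.sum_congr rfl fun n _ => by rw [key n, Finset.mul_sum]]
  rw [Finset.sum_comm]
  refine Finset.sum_congr rfl fun m _ => ?_
  rw [Finset.mul_sum]
  refine Finset.sum_congr rfl fun n _ => ?_
  ring

end Vale.Agent.P177
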