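import Vale.Agent.P177.CStrictB
import Vale.Agent.P177.CTransfer

/-!
Decomposition of the Euler characteristic along a filtration, and positivity through the
localizations of a chart.
-/

namespace Vale.Agent.P177

open Function IsLocalRing TensorProduct

universe u

section split

variable {A : Type u} [CommRing A] [IsRegularLocalRing A] {d : ℕ} {M N : Type u}
  [AddCommGroup M] [Module A M] [AddCommGroup N] [Module A N] [Module.Finite A N]
  {F : ℕ → Submodule A M} (X : FRes (maximalIdeal A) F d)

omit [Module.Finite A N] in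
theorem fr_length (i : ℕ) : rl (X.Z N i) (X.B N i) = Module.length A (TorM A i M N) := by
  obtain ⟨e⟩ := X.toFR.tor_eq N i
  exact e.length_eq.symm

omit [Module.Finite A N] in
theorem Zc_eq_Z (i : ℕ) : Zc (fun i => Fin (X.b i) → N) (fun i => act N (X.δ i)) i = X.Z N i := by
  cases i <;> rfl

theorem euler_split (hfin : ∀ i, Module.length A (TorM A i M N) ≠ ⊤) (n : ℕ) :
    (∀ i, rl (X.ZK (fun n => (maximalIdeal A ^ n • ⊤ : Submodule A N)) n i)
      (X.BK (fun n => (maximalIdeal A ^ n • ⊤ : Submodule A N)) n i) ≠ ⊤) ∧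
    eulerTor A (d + 1) M N = ∑ i ∈ Finset.range (d + 1), (-1) ^ i *
      ((rl (X.ZK (fun n => (maximalIdeal A ^ n • ⊤ : Submodule A N)) n i)
        (X.BK (fun n => (maximalIdeal A ^ n • ⊤ : Submodule A N)) n i)).toNat : ℤ) +
        X.psi (lam A N) n := by
  let G : ℕ → Submodule A N := fun n => (maximalIdeal A ^ n • ⊤ : Submodule A N)
  have hG : GoodFil (maximalIdeal A) G := goodFil_pow _ _
  let C : ℕ → Type u := fun i => Fin (X.b i) → N
  let D : ∀ i, C (i + 1) →ₗ[A] C i := fun i => act N (X.δ i)
  have hw : ∀ i, rl ⊤ (wfil G (X.a i) n) ≠ ⊤ ∧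
      lamF (wfil G (X.a i)) n = ∑ j, lamF G (n - X.a i j) := fun i =>
    lamF_wfil G rl_pow_ne_top (X.a i) n
  have hZ : ∀ i, Zc C D i = X.Z N i := Zc_eq_Z X
  have h := rel_euler C D d (by
      refine ⟨fun v w => ?_⟩
      exact (eq_zero_of_fin_zero (X.bound (d + 1) (by omega)) v).trans
        (eq_zero_of_fin_zero (X.bound (d + 1) (by omega)) w).symm)
    (fun i v => X.B_le_Z N (i + 1) ⟨v, rfl⟩) (fun _ => ⊤) (fun i => wfil G (X.a i) n)
    (fun _ => le_top) (fun _ => le_top) (fun i => X.map_wfil_le hG i n) (fun i => (hw i).1)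
    (by
      intro i
      rw [hZ, inf_top_eq, Submodule.map_top]
      change rl (X.Z N i) (X.B N i) ≠ ⊤
      rw [fr_length]
      exact hfin i)
  obtain ⟨h1, h2⟩ := h
  simp only [hZ] at h1 h2
  refine ⟨h1, ?_⟩
  have h3 : ∀ i, rl (X.Z N i ⊓ ⊤) ((⊤ : Submodule A (C (i + 1))).map (D i)) =
      Module.length A (TorM A i M N) := by
    intro i
    rw [inf_top_eq, Submodule.map_top]
    exact fr_length X i
  simp only [h3] at h2
  have h4 : ∀ i, ((rl ⊤ (wfil G (X.a i) n)).toNat : ℤ) = ∑ j, lamF G (n - X.a i j) :=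
    fun i => (hw i).2
  simp only [h4] at h2
  have h5 : eulerTor A (d + 1) M N = ∑ i ∈ Finset.range (d + 1), (-1) ^ i *
      ((Module.length A (TorM A i M N)).toNat : ℤ) := rfl
  rw [h5]
  rw [sub_eq_iff_eq_add] at h2
  rw [h2, add_comm]
  rfl

end split

section local_sum

variable {A S : Type u} [CommRing A] [CommRing S] [Algebra A S]

theorem exists_finset_support (W : Type u) [AddCommGroup W] [Module S W]
    (hfin : IsFiniteLength S W) : ∃ T : Finset (MaximalSpectrum S), ∀ m : MaximalSpectrum S,
      m ∉ T → Subsingleton (Localization.AtPrime m.asIdeal ⊗[S] W) := by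
  classical
  induction hfin with
  | of_subsingleton => exact ⟨∅, fun _ _ => inferInstance⟩
  | of_simple_quotient hN ih =>
    rename_i M _ _ N hsimple
    obtain ⟨T, hT⟩ := ih
    obtain ⟨m', hm', ⟨e⟩⟩ := isSimpleModule_iff_quot_maximal.1 hsimple
    refine ⟨insert ⟨m', hm'⟩ T, fun m hm => ?_⟩
    rw [Finset.mem_insert, not_or] at hm
    have hmm := m.isMaximal
    have h1 := hT m hm.2
    have hne : m.asIdeal ≠ m' := fun h' => hm.1 (MaximalSpectrum.ext h')
    have h2 := subsingleton_localization_quot m.asIdeal m' hne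
    have h3 : Subsingleton (Localization.AtPrime m.asIdeal ⊗[S] (M ⧸ N)) :=
      (e.baseChange S (Localization.AtPrime m.asIdeal) _ _).toEquiv.subsingleton
    have hex : Exact N.subtype N.mkQ := by
      intro x
      rw [Submodule.mkQ_apply, Submodule.Quotient.mk_eq_zero]
      simp
    have h4 := (baseChange_ses (B := Localization.AtPrime m.asIdeal) N.subtype N.mkQ
      (Submodule.injective_subtype _) (Submodule.mkQ_surjective _) hex).2.2
    refine ⟨fun v w => ?_⟩
    have h5 : ∀ v : Localization.AtPrime m.asIdeal ⊗[S] M, v = 0 := by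
      intro v
      obtain ⟨w, rfl⟩ := (h4 v).1 (Subsingleton.elim _ _)
      rw [Subsingleton.elim w 0, map_zero]
    rw [h5 v, h5 w]

theorem sum_nonneg_of_local [IsLocalRing A] [IsNoetherianRing A] (t : ℕ) (W : ℕ → Type u)
    [∀ i, AddCommGroup (W i)]
    [∀ i, Module S (W i)] [∀ i, Module A (W i)] [∀ i, IsScalarTower A S (W i)]
    (hW : ∀ i, i < t → Module.length A (W i) ≠ ⊤)
    (hP : ∀ m : MaximalSpectrum S, (∀ a ∈ maximalIdeal A, algebraMap A S a ∈ m.asIdeal) →
      (∀ i, i < t → Module.length (Localization.AtPrime m.asIdeal)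
        (Localization.AtPrime m.asIdeal ⊗[S] W i) ≠ ⊤) →
      0 ≤ ∑ i ∈ Finset.range t, (-1) ^ i * ((Module.length (Localization.AtPrime m.asIdeal)
        (Localization.AtPrime m.asIdeal ⊗[S] W i)).toNat : ℤ)) :
    0 ≤ ∑ i ∈ Finset.range t, (-1) ^ i * ((Module.length A (W i)).toNat : ℤ) := by
  classical
  have hfin : ∀ i, i < t → IsFiniteLength S (W i) := by
    intro i hi
    have h3 := Module.length_ne_top_iff.1 (hW i hi)
    rw [isFiniteLength_iff_isNoetherian_isArtinian] at h3 ⊢
    obtain ⟨h4, h5⟩ := h3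
    exact ⟨isNoetherian_of_tower A h4, isArtinian_of_tower A h5⟩
  have hex : ∀ i, ∃ T : Finset (MaximalSpectrum S), i < t → ∀ m : MaximalSpectrum S,
      m ∉ T → Subsingleton (Localization.AtPrime m.asIdeal ⊗[S] W i) := by
    intro i
    by_cases hi : i < t
    · obtain ⟨T, hT⟩ := exists_finset_support (W i) (hfin i hi)
      exact ⟨T, fun _ => hT⟩
    · exact ⟨∅, fun h => absurd h hi⟩
  choose T hT using hex
  let U : Finset (MaximalSpectrum S) := (Finset.range t).biUnion T
  have hU : ∀ m : MaximalSpectrum S, m ∉ U → ∀ i, i < t →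
      Subsingleton (Localization.AtPrime m.asIdeal ⊗[S] W i) := by
    intro m hm i hi
    refine hT i hi m fun h => hm ?_
    exact Finset.mem_biUnion.2 ⟨i, Finset.mem_range.2 hi, h⟩
  have hlen : ∀ i, i < t → Module.length A (W i) = ∑ m ∈ U, Module.length A (S ⧸ m.asIdeal) *
      Module.length (Localization.AtPrime m.asIdeal)
        (Localization.AtPrime m.asIdeal ⊗[S] W i) := fun i hi =>
    length_eq_sum (T := A) U (W i) (hfin i hi) (fun m hm => hU m hm i hi)
  have hne : ∀ i, i < t → ∀ m ∈ U, Module.length A (S ⧸ m.asIdeal) *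
      Module.length (Localization.AtPrime m.asIdeal)
        (Localization.AtPrime m.asIdeal ⊗[S] W i) ≠ ⊤ := by
    intro i hi m hm htop
    apply hW i hi
    rw [hlen i hi, eq_top_iff, ← htop]
    exact Finset.single_le_sum (f := fun m : MaximalSpectrum S =>
      Module.length A (S ⧸ m.asIdeal) * Module.length (Localization.AtPrime m.asIdeal)
        (Localization.AtPrime m.asIdeal ⊗[S] W i)) (fun _ _ => bot_le) hm
  have hfinL : ∀ (m : MaximalSpectrum S) (i : ℕ), i < t →
      Module.length (Localization.AtPrime m.asIdeal)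
        (Localization.AtPrime m.asIdeal ⊗[S] W i) ≠ ⊤ := by
    intro m i hi htop
    by_cases hm : m ∈ U
    · have h1 := hne i hi m hm
      rw [htop] at h1
      apply h1
      refine ENat.mul_top ?_
      intro h0
      rw [Module.length_eq_zero_iff, Submodule.Quotient.subsingleton_iff] at h0
      exact m.isMaximal.ne_top h0
    · have := hU m hm i hi
      rw [Module.length_eq_zero] at htop
      exact ENat.zero_ne_top htop
  have hsum : ∑ i ∈ Finset.range t, (-1) ^ i * ((Module.length A (W i)).toNat : ℤ) =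
      ∑ m ∈ U, ((Module.length A (S ⧸ m.asIdeal)).toNat : ℤ) *
        ∑ i ∈ Finset.range t, (-1) ^ i * ((Module.length (Localization.AtPrime m.asIdeal)
          (Localization.AtPrime m.asIdeal ⊗[S] W i)).toNat : ℤ) := by
    have h1 : ∀ i ∈ Finset.range t, (-1) ^ i * ((Module.length A (W i)).toNat : ℤ) =
        ∑ m ∈ U, ((Module.length A (S ⧸ m.asIdeal)).toNat : ℤ) *
          ((-1) ^ i * ((Module.length (Localization.AtPrime m.asIdeal)
          (Localization.AtPrime m.asIdeal ⊗[S] W i)).toNat : ℤ)) := by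
      intro i hi
      rw [Finset.mem_range] at hi
      rw [hlen i hi, ENat.toNat_sum (hne i hi)]
      push_cast
      rw [Finset.mul_sum]
      refine Finset.sum_congr rfl fun m _ => ?_
      rw [ENat.toNat_mul]
      push_cast
      ring
    rw [Finset.sum_congr rfl h1, Finset.sum_comm]
    refine Finset.sum_congr rfl fun m _ => ?_
    rw [Finset.mul_sum]
  rw [hsum]
  refine Finset.sum_nonneg fun m _ => mul_nonneg (Int.natCast_nonneg _) ?_
  by_cases hm : ∀ a ∈ maximalIdeal A, algebraMap A S a ∈ m.asIdeal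
  · exact hP m hm (hfinL m)
  · push Not at hm
    obtain ⟨a, ha, ham⟩ := hm
    refine (Finset.sum_eq_zero fun i hi => ?_).ge
    rw [Finset.mem_range] at hi
    obtain ⟨n, hn⟩ := exists_pow_smul_eq_zero (Module.length_ne_top_iff.1 (hW i hi))
    have hz : ∀ w : W i, algebraMap A S (a ^ n) • w = 0 := fun w => by
      rw [algebraMap_smul]
      exact hn _ (Ideal.pow_mem_pow ha n) w
    have hunit : IsUnit (algebraMap S (Localization.AtPrime m.asIdeal)
        (algebraMap A S (a ^ n))) := by
      refine IsLocalization.map_units (Localization.AtPrime m.asIdeal)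
        (⟨algebraMap A S (a ^ n), ?_⟩ : m.asIdeal.primeCompl)
      rw [map_pow]
      intro h
      exact ham (Ideal.IsPrime.mem_of_pow_mem inferInstance n h)
    have hsub : Subsingleton (Localization.AtPrime m.asIdeal ⊗[S] W i) := by
      refine ⟨fun v w => ?_⟩
      have h5 : ∀ v : Localization.AtPrime m.asIdeal ⊗[S] W i, v = 0 := by
        intro v
        apply hunit.smul_left_cancel.1
        rw [smul_zero]
        induction v with
        | zero => rw [smul_zero]
        | add v w hv hw => rw [smul_add, hv, hw, add_zero]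
        | tmul b w =>
          rw [TensorProduct.smul_tmul', smul_eq_mul, ← Algebra.smul_def, TensorProduct.smul_tmul,
            hz, TensorProduct.tmul_zero]
      rw [h5 v, h5 w]
    rw [Module.length_eq_zero]
    simp

end local_sum

end Vale.Agent.P177
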