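import Vale.Agent.P177.CRees
import Mathlib.RingTheory.Filtration

/-!
Stable filtrations and strict free covers.
-/

namespace Vale.Agent.P177

open IsLocalRing Function Pointwise

universe u

section fil

variable {A : Type*} [CommRing A] (I : Ideal A)

/-- A stable filtration starting with the whole module. -/
structure GoodFil {M : Type*} [AddCommGroup M] [Module A M] (F : ℕ → Submodule A M) : Prop where
  top : F 0 = ⊤
  anti : ∀ n, F (n + 1) ≤ F n
  smul : ∀ n, I • F n ≤ F (n + 1)
  stable : ∃ n₀, ∀ n, n₀ ≤ n → I • F n = F (n + 1)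

variable {I}
variable {M N : Type*} [AddCommGroup M] [Module A M] [AddCommGroup N] [Module A N]
  {F : ℕ → Submodule A M} {G : ℕ → Submodule A N}

theorem GoodFil.antitone (hF : GoodFil I F) : Antitone F := antitone_nat_of_succ_le hF.anti

theorem GoodFil.pow_smul (hF : GoodFil I F) (k n : ℕ) : I ^ k • F n ≤ F (n + k) := by
  induction k with
  | zero => simp
  | succ k ih =>
    rw [pow_succ', mul_smul]
    exact (smul_mono_right I ih).trans (hF.smul _)

theorem GoodFil.smul_mem (hF : GoodFil I F) {k n : ℕ} {c : A} {m : M} (hc : c ∈ I ^ k)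
    (hm : m ∈ F n) : c • m ∈ F (n + k) :=
  hF.pow_smul k n (Submodule.smul_mem_smul hc hm)

/-- The underlying filtration in the sense of Mathlib. -/
def GoodFil.toFiltration (hF : GoodFil I F) : I.Filtration M where
  N := F
  mono := hF.anti
  smul_le := hF.smul

theorem GoodFil.toFiltration_stable (hF : GoodFil I F) : hF.toFiltration.Stable := by
  obtain ⟨n₀, h⟩ := hF.stable
  exact ⟨n₀, fun n hn => h n hn⟩

variable (I M) in
theorem goodFil_pow : GoodFil I (fun n => (I ^ n • ⊤ : Submodule A M)) where
  top := by simp
  anti n := by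
    rw [pow_succ]
    exact Submodule.smul_mono_left Ideal.mul_le_left
  smul n := by rw [pow_succ', mul_smul]
  stable := ⟨0, fun n _ => by rw [pow_succ', mul_smul]⟩

variable (I) in
theorem goodFil_self : GoodFil I (fun n => (I ^ n : Ideal A)) := by
  have := goodFil_pow I A
  simpa using this

/-- The weighted filtration on a power of a module. -/
def wfil (G : ℕ → Submodule A N) {b : ℕ} (a : Fin b → ℕ) (n : ℕ) : Submodule A (Fin b → N) :=
  Submodule.pi Set.univ (fun j => G (n - a j))

theorem mem_wfil {b : ℕ} {a : Fin b → ℕ} {n : ℕ} {f : Fin b → N} :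
    f ∈ wfil G a n ↔ ∀ j, f j ∈ G (n - a j) := by
  simp [wfil, Submodule.mem_pi]

theorem GoodFil.weighted (hG : GoodFil I G) {b : ℕ} (a : Fin b → ℕ) : GoodFil I (wfil G a) where
  top := by
    ext f
    simp [mem_wfil, hG.top]
  anti n := by
    intro f hf
    rw [mem_wfil] at hf ⊢
    exact fun j => hG.antitone (by omega) (hf j)
  smul n := by
    rw [Submodule.smul_le]
    intro c hc f hf
    rw [mem_wfil] at hf ⊢
    intro j
    have h1 := hG.smul_mem (k := 1) (by simpa using hc) (hf j)
    exact hG.antitone (by omega) h1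
  stable := by
    obtain ⟨n₀, hn₀⟩ := hG.stable
    refine ⟨n₀ + ∑ j, a j, fun n hn => ?_⟩
    have haj : ∀ j, a j ≤ ∑ j, a j := fun j =>
      Finset.single_le_sum (f := a) (fun _ _ => Nat.zero_le _) (Finset.mem_univ j)
    refine le_antisymm ?_ ?_
    · rw [Submodule.smul_le]
      intro c hc f hf
      rw [mem_wfil] at hf ⊢
      intro j
      have h1 := hG.smul_mem (k := 1) (by simpa using hc) (hf j)
      exact hG.antitone (by omega) h1
    · intro f hf
      rw [mem_wfil] at hf
      have h1 : f = ∑ j, LinearMap.single A (fun _ => N) j (f j) := by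
        funext i
        simp [Finset.sum_apply, Pi.single_apply]
      rw [h1]
      refine Submodule.sum_mem _ fun j _ => ?_
      have h2 : f j ∈ I • G (n - a j) := by
        have h3 := haj j
        rw [hn₀ _ (by omega)]
        have h4 : n - a j + 1 = n + 1 - a j := by omega
        rw [h4]
        exact hf j
      have h5 : (I • G (n - a j)).map (LinearMap.single A (fun _ : Fin b => N) j) ≤
          I • wfil G a n := by
        rw [Submodule.map_smul'']
        refine smul_mono_right I ?_
        rintro _ ⟨y, hy, rfl⟩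
        rw [mem_wfil]
        intro i
        by_cases hij : i = j
        · subst hij
          simpa using hy
        · simp [Pi.single_eq_of_ne hij]
      exact h5 ⟨_, h2, rfl⟩

/-- Restriction of a stable filtration to a submodule (Artin-Rees). -/
theorem GoodFil.comap_subtype [IsNoetherianRing A] [Module.Finite A M] (hF : GoodFil I F)
    (K : Submodule A M) : GoodFil I (fun n => (F n).comap K.subtype) where
  top := by simp [hF.top]
  anti n := Submodule.comap_mono (hF.anti n)
  smul n := by
    rw [Submodule.smul_le]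
    intro c hc f hf
    exact hF.smul n (Submodule.smul_mem_smul hc hf)
  stable := by
    have h1 := hF.toFiltration_stable.inter_right (I.trivialFiltration K)
    obtain ⟨n₀, h2⟩ := h1
    refine ⟨n₀, fun n hn => ?_⟩
    apply Submodule.map_injective_of_injective K.injective_subtype
    have h3 := h2 n hn
    change I • (F n ⊓ K) = F (n + 1) ⊓ K at h3
    rw [Submodule.map_smul'', Submodule.map_comap_subtype, Submodule.map_comap_subtype,
      inf_comm, h3, inf_comm]

/-- The image of a stable filtration. -/
theorem GoodFil.map (hF : GoodFil I F) (f : M →ₗ[A] N) (hf : Surjective f) :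
    GoodFil I (fun n => (F n).map f) where
  top := by rw [hF.top, Submodule.map_top, LinearMap.range_eq_top.2 hf]
  anti n := Submodule.map_mono (hF.anti n)
  smul n := by
    rw [← Submodule.map_smul'']
    exact Submodule.map_mono (hF.smul n)
  stable := by
    obtain ⟨n₀, h⟩ := hF.stable
    exact ⟨n₀, fun n hn => by rw [← Submodule.map_smul'', h n hn]⟩

/-- The linear map on a free module given by the images of the basis vectors. -/
noncomputable def lc {b : ℕ} (k : Fin b → M) : (Fin b → A) →ₗ[A] M :=
  Fintype.linearCombination A k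

theorem lc_apply {b : ℕ} (k : Fin b → M) (f : Fin b → A) : lc k f = ∑ j, f j • k j :=
  Fintype.linearCombination_apply _ _ _

theorem lc_mem (hF : GoodFil I F) {b : ℕ} {a : Fin b → ℕ} {k : Fin b → M}
    (hk : ∀ j, k j ∈ F (a j)) {n : ℕ} {f : Fin b → A}
    (hf : f ∈ wfil (fun k => (I ^ k : Ideal A)) a n) : lc k f ∈ F n := by
  rw [lc_apply]
  rw [mem_wfil] at hf
  refine Submodule.sum_mem _ fun j _ => ?_
  exact hF.antitone (by omega) (hF.smul_mem (hf j) (hk j))

/-- Existence of strict free covers. -/
theorem exists_strict_cover [IsNoetherianRing A] [Module.Finite A M] (hF : GoodFil I F) :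
    ∃ (b : ℕ) (a : Fin b → ℕ) (φ : (Fin b → A) →ₗ[A] M),
      ∀ n, (wfil (fun k => (I ^ k : Ideal A)) a n).map φ = F n := by
  obtain ⟨n₀, hn₀⟩ := hF.stable
  have hfg : ∀ i : Fin (n₀ + 1), ∃ (m : ℕ) (s : Fin m → M), Submodule.span A (Set.range s) = F i :=
    fun i => (Submodule.fg_iff_exists_fin_generating_family.1
      (IsNoetherian.noetherian (F i)))
  choose m s hs using hfg
  let e := Fintype.equivFin (Σ i : Fin (n₀ + 1), Fin (m i))
  let a : Fin (Fintype.card (Σ i : Fin (n₀ + 1), Fin (m i))) → ℕ := fun j => (e.symm j).1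
  let k : Fin (Fintype.card (Σ i : Fin (n₀ + 1), Fin (m i))) → M :=
    fun j => s (e.symm j).1 (e.symm j).2
  have hk : ∀ j, k j ∈ F (a j) := fun j => by
    rw [← hs]
    exact Submodule.subset_span ⟨_, rfl⟩
  refine ⟨_, a, lc k, fun n => le_antisymm ?_ ?_⟩
  · rintro _ ⟨f, hf, rfl⟩
    exact lc_mem hF hk hf
  · -- first the case `n ≤ n₀`
    have h1 : ∀ n, n ≤ n₀ → F n ≤ (wfil (fun k => (I ^ k : Ideal A)) a n).map (lc k) := by
      intro n hn
      have h2 := hs ⟨n, by omega⟩
      change _ = F n at h2
      rw [← h2, Submodule.span_le]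
      rintro _ ⟨t, rfl⟩
      refine ⟨Pi.single (e ⟨⟨n, by omega⟩, t⟩) 1, ?_, ?_⟩
      · rw [SetLike.mem_coe, mem_wfil]
        intro j
        by_cases hj : j = e ⟨⟨n, by omega⟩, t⟩
        · subst hj
          simp [a]
        · simp [Pi.single_eq_of_ne hj]
      · rw [lc_apply]
        rw [Finset.sum_eq_single (e ⟨⟨n, by omega⟩, t⟩)]
        · rw [Pi.single_eq_same, one_smul]
          change s (e.symm (e _)).1 (e.symm (e _)).2 = _
          rw [Equiv.symm_apply_apply]
        · intro j _ hj
          simp [Pi.single_eq_of_ne hj]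
        · simp
    induction n with
    | zero => exact h1 0 (Nat.zero_le _)
    | succ n ih =>
      by_cases hn : n + 1 ≤ n₀
      · exact h1 _ hn
      · rw [← hn₀ n (by omega)]
        refine (smul_mono_right I ih).trans ?_
        rw [← Submodule.map_smul'']
        exact Submodule.map_mono (((goodFil_self I).weighted a).smul n)

end fil

end Vale.Agent.P177
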