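import Vale.Agent.P177.CFil

/-!
Finite strict free resolutions of filtered modules over regular local rings.
-/

namespace Vale.Agent.P177

open IsLocalRing Function Pointwise

universe u

/-- The filtered module `(M, F)` has a strict free resolution of length at most `r`. -/
def FPD {A : Type u} [CommRing A] (I : Ideal A) : ℕ → ∀ (M : Type u) [AddCommGroup M] [Module A M]
    (_ : ℕ → Submodule A M), Prop
  | 0, M, _, _, F => ∃ (b : ℕ) (a : Fin b → ℕ) (φ : (Fin b → A) →ₗ[A] M),
      (∀ n, (wfil (fun k => (I ^ k : Ideal A)) a n).map φ = F n) ∧ LinearMap.ker φ = ⊥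
  | r + 1, M, _, _, F => ∃ (b : ℕ) (a : Fin b → ℕ) (φ : (Fin b → A) →ₗ[A] M),
      (∀ n, (wfil (fun k => (I ^ k : Ideal A)) a n).map φ = F n) ∧
      FPD I r (LinearMap.ker φ)
        (fun n => (wfil (fun k => (I ^ k : Ideal A)) a n).comap (LinearMap.ker φ).subtype)

section lift

variable {A A' : Type u} [CommRing A] [IsLocalRing A] [IsNoetherianRing A] [CommRing A']
  [Algebra A A'] (hq : Surjective (algebraMap A A')) (x : A)
  (hker : RingHom.ker (algebraMap A A') = Ideal.span {x}) (hxm : x ∈ maximalIdeal A)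
  (I : Ideal A) (hxI : x ∈ I) (hxreg : ∀ c, x * c = 0 → c = 0)
  (hxs : ∀ m c, x * c ∈ I ^ (m + 1) → c ∈ I ^ m)

variable {K K' : Type u} [AddCommGroup K] [Module A K] [Module.Finite A K] [AddCommGroup K']
  [Module A K'] [Module A' K'] [IsScalarTower A A' K'] (p : K →ₗ[A] K')
  (hp : Surjective p) (hpk : ∀ v, p v = 0 → ∃ w, v = x • w)
  (F : ℕ → Submodule A K) (F' : ℕ → Submodule A' K') (hF : GoodFil I F)
  (hK0 : ∀ v : K, x • v = 0 → v = 0) (hKs : ∀ n (v : K), x • v ∈ F (n + 1) → v ∈ F n)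
  (hF' : ∀ n y, y ∈ F' n ↔ ∃ v ∈ F n, p v = y)

omit [IsLocalRing A] [IsNoetherianRing A] in
include hker in
theorem exists_mul_of_map_eq_zero {b : ℕ} (f : Fin b → A) (h : ∀ j, algebraMap A A' (f j) = 0) :
    ∃ g : Fin b → A, f = x • g := by
  have h1 : ∀ j, ∃ c, f j = x * c := by
    intro j
    have : f j ∈ RingHom.ker (algebraMap A A') := h j
    rw [hker, Ideal.mem_span_singleton'] at this
    obtain ⟨c, hc⟩ := this
    exact ⟨c, by rw [← hc, mul_comm]⟩
  choose g hg using h1
  exact ⟨g, funext fun j => hg j⟩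

omit [IsLocalRing A] [IsNoetherianRing A] in
include hq in
theorem exists_lift_wfil {b : ℕ} (a : Fin b → ℕ) (n : ℕ) (f' : Fin b → A')
    (hf' : f' ∈ wfil (fun k => ((I.map (algebraMap A A')) ^ k : Ideal A')) a n) :
    ∃ f ∈ wfil (fun k => (I ^ k : Ideal A)) a n, ∀ j, algebraMap A A' (f j) = f' j := by
  rw [mem_wfil] at hf'
  have h1 : ∀ j, ∃ c ∈ I ^ (n - a j), algebraMap A A' c = f' j := by
    intro j
    have := hf' j
    rw [← Ideal.map_pow, Ideal.mem_map_iff_of_surjective _ hq] at this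
    exact this
  choose f hf hff using h1
  exact ⟨f, mem_wfil.2 hf, hff⟩

include hq hker hxm hxI hp hpk hF hKs hF' in
/-- Lifting a strict cover modulo `x`. -/
theorem lift_cover {b : ℕ} (a : Fin b → ℕ) (φ' : (Fin b → A') →ₗ[A'] K')
    (hφ' : ∀ n, (wfil (fun k => ((I.map (algebraMap A A')) ^ k : Ideal A')) a n).map φ' = F' n) :
    ∃ φ : (Fin b → A) →ₗ[A] K, (∀ n, (wfil (fun k => (I ^ k : Ideal A)) a n).map φ = F n) ∧
      (∀ f, p (φ f) = φ' (fun j => algebraMap A A' (f j))) := by
  have h1 : ∀ j, ∃ k ∈ F (a j), p k = φ' (Pi.single j 1) := by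
    intro j
    rw [← hF', ← hφ']
    refine ⟨Pi.single j 1, ?_, rfl⟩
    rw [SetLike.mem_coe, mem_wfil]
    intro i
    by_cases hij : i = j
    · subst hij
      simp
    · simp [Pi.single_eq_of_ne hij]
  choose k hk hpkj using h1
  have hcomp : ∀ f, p (lc k f) = φ' (fun j => algebraMap A A' (f j)) := by
    intro f
    rw [lc_apply, map_sum, LinearMap.pi_apply_eq_sum_univ φ']
    refine Finset.sum_congr rfl fun j _ => ?_
    rw [map_smul, hpkj, algebraMap_smul]
    congr 2
    funext i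
    rw [Pi.single_apply]
    simp only [eq_comm]
  refine ⟨lc k, ?_, hcomp⟩
  have hstep : ∀ n, ∀ v ∈ F n, ∃ f ∈ wfil (fun k => (I ^ k : Ideal A)) a n, ∃ w,
      v - lc k f = x • w := by
    intro n v hv
    have h2 : p v ∈ F' n := (hF' n _).2 ⟨v, hv, rfl⟩
    rw [← hφ'] at h2
    obtain ⟨f', hf', hf'v⟩ := h2
    obtain ⟨f, hf, hff⟩ := exists_lift_wfil hq I a n f' hf'
    refine ⟨f, hf, hpk _ ?_⟩
    rw [map_sub, hcomp]
    have : (fun j => algebraMap A A' (f j)) = f' := funext hff
    rw [this, hf'v, sub_self]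
  have hle : ∀ n, (wfil (fun k => (I ^ k : Ideal A)) a n).map (lc k) ≤ F n := by
    rintro n _ ⟨f, hf, rfl⟩
    exact lc_mem hF hk hf
  intro n
  refine le_antisymm (hle n) ?_
  induction n with
  | zero =>
    have h2 : F 0 ≤ (wfil (fun k => (I ^ k : Ideal A)) a 0).map (lc k) ⊔
        Ideal.span {x} • F 0 := by
      intro v hv
      obtain ⟨f, hf, w, hw⟩ := hstep 0 v hv
      rw [← sub_add_cancel v (lc k f), add_comm]
      refine Submodule.add_mem_sup ⟨f, hf, rfl⟩ ?_
      rw [hw]
      exact Submodule.smul_mem_smul (Ideal.mem_span_singleton_self x) (by rw [hF.top]; trivial)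
    refine Submodule.le_of_le_smul_of_le_jacobson_bot ?_ ?_ h2
    · exact IsNoetherian.noetherian _
    · rw [IsLocalRing.jacobson_eq_maximalIdeal ⊥ bot_ne_top, Ideal.span_singleton_le_iff_mem]
      exact hxm
  | succ n ih =>
    intro v hv
    obtain ⟨f, hf, w, hw⟩ := hstep (n + 1) v hv
    have hw' : w ∈ F n := by
      apply hKs
      rw [← hw]
      exact sub_mem hv (hle _ ⟨f, hf, rfl⟩)
    obtain ⟨g, hg, rfl⟩ := ih hw'
    refine ⟨f + x • g, add_mem hf ?_, ?_⟩
    · exact ((goodFil_self I).weighted a).smul n (Submodule.smul_mem_smul hxI hg)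
    · rw [map_add, map_smul, ← hw]
      abel

end lift

/-- Finite strict resolutions lift from `A/x` to `A`. -/
theorem FPD.lift {A A' : Type u} [CommRing A] [IsLocalRing A] [IsNoetherianRing A] [CommRing A']
    [Algebra A A'] (hq : Surjective (algebraMap A A')) (x : A)
    (hker : RingHom.ker (algebraMap A A') = Ideal.span {x}) (hxm : x ∈ maximalIdeal A)
    (I : Ideal A) (hxI : x ∈ I) (hxreg : ∀ c, x * c = 0 → c = 0)
    (hxs : ∀ m c, x * c ∈ I ^ (m + 1) → c ∈ I ^ m) (r : ℕ) :
    ∀ {K K' : Type u} [AddCommGroup K] [Module A K] [Module.Finite A K] [AddCommGroup K']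
      [Module A K'] [Module A' K'] [IsScalarTower A A' K'] (p : K →ₗ[A] K')
      (_ : Surjective p) (_ : ∀ v, p v = 0 → ∃ w, v = x • w)
      (F : ℕ → Submodule A K) (F' : ℕ → Submodule A' K') (_ : GoodFil I F)
      (_ : ∀ v : K, x • v = 0 → v = 0) (_ : ∀ n (v : K), x • v ∈ F (n + 1) → v ∈ F n)
      (_ : ∀ n y, y ∈ F' n ↔ ∃ v ∈ F n, p v = y),
      FPD (I.map (algebraMap A A')) r K' F' → FPD I r K F := by
  have hq0 : algebraMap A A' x = 0 := by
    have : x ∈ RingHom.ker (algebraMap A A') := hker ▸ Ideal.mem_span_singleton_self x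
    exact this
  induction r with
  | zero =>
    intro K K' _ _ _ _ _ _ _ p hp hpk F F' hF hK0 hKs hF' h
    obtain ⟨b, a, φ', hφ', hinj⟩ := h
    obtain ⟨φ, hφ, hφφ'⟩ := lift_cover hq x hker hxm I hxI p hp hpk F F' hF hKs hF' a φ' hφ'
    refine ⟨b, a, φ, hφ, ?_⟩
    have h1 : LinearMap.ker φ ≤ Ideal.span {x} • LinearMap.ker φ := by
      intro f hf
      have h2 : φ' (fun j => algebraMap A A' (f j)) = 0 := by
        rw [← hφφ', (LinearMap.mem_ker).1 hf, map_zero]
      have h3 : (fun j => algebraMap A A' (f j)) = 0 := by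
        have : (fun j => algebraMap A A' (f j)) ∈ LinearMap.ker φ' := h2
        rw [hinj] at this
        exact this
      obtain ⟨g, rfl⟩ := exists_mul_of_map_eq_zero x hker f (fun j => congrFun h3 j)
      refine Submodule.smul_mem_smul (Ideal.mem_span_singleton_self x) ?_
      rw [LinearMap.mem_ker, map_smul] at hf
      exact hK0 _ hf
    refine Submodule.eq_bot_of_le_smul_of_le_jacobson_bot (Ideal.span {x}) _ ?_ h1 ?_
    · exact IsNoetherian.noetherian _
    · rw [IsLocalRing.jacobson_eq_maximalIdeal ⊥ bot_ne_top, Ideal.span_singleton_le_iff_mem]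
      exact hxm
  | succ r ih =>
    intro K K' _ _ _ _ _ _ _ p hp hpk F F' hF hK0 hKs hF' h
    obtain ⟨b, a, φ', hφ', hrec⟩ := h
    obtain ⟨φ, hφ, hφφ'⟩ := lift_cover hq x hker hxm I hxI p hp hpk F F' hF hKs hF' a φ' hφ'
    refine ⟨b, a, φ, hφ, ?_⟩
    -- the induced map on kernels
    let ψ : (Fin b → A) →ₗ[A] (Fin b → A') :=
      LinearMap.pi fun j => (Algebra.linearMap A A').comp (LinearMap.proj j)
    have hψ : ∀ f, ψ f = fun j => algebraMap A A' (f j) := fun f => rfl
    let p₁ : LinearMap.ker φ →ₗ[A] LinearMap.ker φ' :=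
      LinearMap.codRestrict ((LinearMap.ker φ').restrictScalars A)
        (ψ.comp (LinearMap.ker φ).subtype) (fun f => by
          change φ' (ψ f.1) = 0
          rw [hψ, ← hφφ', (LinearMap.mem_ker).1 f.2, map_zero])
    have hp₁ : ∀ f : LinearMap.ker φ, (p₁ f : Fin b → A') = fun j => algebraMap A A' (f.1 j) :=
      fun f => rfl
    have hlift : ∀ n, ∀ f' ∈ LinearMap.ker φ',
        f' ∈ wfil (fun k => ((I.map (algebraMap A A')) ^ k : Ideal A')) a n →
        ∃ f ∈ LinearMap.ker φ, f ∈ wfil (fun k => (I ^ k : Ideal A)) a n ∧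
          ∀ j, algebraMap A A' (f j) = f' j := by
      intro n f' hf' hf'n
      obtain ⟨f, hf, hff⟩ := exists_lift_wfil hq I a n f' hf'n
      have h1 : p (φ f) = 0 := by
        rw [hφφ']
        have : (fun j => algebraMap A A' (f j)) = f' := funext hff
        rw [this]
        exact hf'
      obtain ⟨w, hw⟩ := hpk _ h1
      have hfn : φ f ∈ F n := by rw [← hφ]; exact ⟨f, hf, rfl⟩
      -- `w` comes from the appropriate step of the filtration
      have h2 : ∃ g, φ g = w ∧ x • g ∈ wfil (fun k => (I ^ k : Ideal A)) a n := by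
        cases n with
        | zero =>
          have hw0 : w ∈ F 0 := by rw [hF.top]; trivial
          rw [← hφ] at hw0
          obtain ⟨g, -, hg⟩ := hw0
          refine ⟨g, hg, ?_⟩
          rw [((goodFil_self I).weighted a).top]
          trivial
        | succ n =>
          rw [hw] at hfn
          have hw0 := hKs n w hfn
          rw [← hφ] at hw0
          obtain ⟨g, hg, hgw⟩ := hw0
          exact ⟨g, hgw, ((goodFil_self I).weighted a).smul n (Submodule.smul_mem_smul hxI hg)⟩
      obtain ⟨g, hgw, hxg⟩ := h2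
      refine ⟨f - x • g, ?_, sub_mem hf hxg, fun j => ?_⟩
      · rw [LinearMap.mem_ker, map_sub, map_smul, hgw, ← hw, sub_self]
      · rw [← hff j]
        simp [hq0]
    refine ih p₁ ?_ ?_ _ _ ?_ ?_ ?_ ?_ hrec
    · rintro ⟨f', hf'⟩
      obtain ⟨f, hf, -, hff⟩ := hlift 0 f' hf' (by
        rw [((goodFil_self (I.map (algebraMap A A'))).weighted a).top]; trivial)
      exact ⟨⟨f, hf⟩, Subtype.ext (funext hff)⟩
    · rintro ⟨f, hf⟩ h0
      have h1 : ∀ j, algebraMap A A' (f j) = 0 := fun j =>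
        congrFun (congrArg Subtype.val h0) j
      obtain ⟨g, rfl⟩ := exists_mul_of_map_eq_zero x hker f h1
      rw [LinearMap.mem_ker, map_smul] at hf
      exact ⟨⟨g, hK0 _ hf⟩, rfl⟩
    · exact ((goodFil_self I).weighted a).comap_subtype _
    · rintro ⟨f, hf⟩ h0
      have h1 : x • f = 0 := congrArg Subtype.val h0
      apply Subtype.ext
      funext j
      exact hxreg _ (congrFun h1 j)
    · rintro n ⟨f, hf⟩ h0
      have h1 : x • f ∈ wfil (fun k => (I ^ k : Ideal A)) a (n + 1) := h0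
      change f ∈ wfil (fun k => (I ^ k : Ideal A)) a n
      rw [mem_wfil] at h1 ⊢
      intro j
      have h2 := h1 j
      by_cases hj : a j ≤ n
      · have h3 : n + 1 - a j = (n - a j) + 1 := by omega
        rw [h3] at h2
        exact hxs _ _ h2
      · have h3 : n - a j = 0 := by omega
        rw [h3]
        simp
    · rintro n ⟨f', hf'⟩
      constructor
      · intro h
        obtain ⟨f, hf, hfn, hff⟩ := hlift n f' hf' h
        exact ⟨⟨f, hf⟩, hfn, Subtype.ext (funext hff)⟩
      · rintro ⟨⟨f, hf⟩, hfn, hff⟩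
        have h1 : f ∈ wfil (fun k => (I ^ k : Ideal A)) a n := hfn
        change f' ∈ wfil (fun k => ((I.map (algebraMap A A')) ^ k : Ideal A')) a n
        rw [mem_wfil] at h1 ⊢
        intro j
        have h2 : f' j = algebraMap A A' (f j) := (congrFun (congrArg Subtype.val hff) j).symm
        rw [h2, ← Ideal.map_pow]
        exact Ideal.mem_map_of_mem _ (h1 j)

end Vale.Agent.P177
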