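import Vale.Agent.P177.CFilA

/-!
Every stably filtered module over a regular local ring has a finite strict free resolution.
-/

namespace Vale.Agent.P177

open IsLocalRing Function Pointwise

universe u

/-- Adapted bases of filtered vector spaces. -/
theorem exists_adapted_basis {K : Type u} [Field K] (N : ℕ) : ∀ (M : Type u) [AddCommGroup M]
    [Module K M] [Module.Finite K M] (F : ℕ → Submodule K M), F 0 = ⊤ → (∀ n, F (n + 1) ≤ F n) →
    F N = ⊥ → ∃ (ι : Type u) (_ : Fintype ι) (b : Module.Basis ι K M) (a : ι → ℕ),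
      ∀ n, F n = Submodule.span K (b '' {j | n ≤ a j}) := by
  induction N with
  | zero =>
    intro M _ _ _ F h0 hanti hN
    have hM : Subsingleton M := by
      rw [← Submodule.subsingleton_iff K, ← subsingleton_iff_bot_eq_top]
      rw [← hN, h0]
    refine ⟨PEmpty, inferInstance, Module.Basis.empty M, PEmpty.elim, fun n => ?_⟩
    exact Subsingleton.elim _ _
  | succ N ih =>
    intro M _ _ _ F h0 hanti hN
    obtain ⟨ι₁, _, b₁, a₁, h₁⟩ := ih (F 1) (fun n => (F (n + 1)).comap (F 1).subtype)
      (by simp) (fun n => Submodule.comap_mono (hanti _)) (by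
        rw [hN]
        exact Submodule.ker_subtype _)
    obtain ⟨C, hC⟩ := Submodule.exists_isCompl (F 1)
    let bC := Module.finBasis K C
    let b := (b₁.prod bC).map (Submodule.prodEquivOfIsCompl (F 1) C hC)
    let e : (ι₁ ⊕ Fin (Module.finrank K C)) → ι₁ ⊕ ULift.{u} (Fin (Module.finrank K C)) :=
      Sum.map id ULift.up
    let eq : (ι₁ ⊕ Fin (Module.finrank K C)) ≃ ι₁ ⊕ ULift.{u} (Fin (Module.finrank K C)) :=
      Equiv.sumCongr (Equiv.refl _) Equiv.ulift.symm
    refine ⟨ι₁ ⊕ ULift.{u} (Fin (Module.finrank K C)), inferInstance, b.reindex eq,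
      Sum.elim (fun j => a₁ j + 1) (fun _ => 0), fun n => ?_⟩
    cases n with
    | zero =>
      have : {j : ι₁ ⊕ ULift.{u} (Fin (Module.finrank K C)) |
          0 ≤ (Sum.elim (fun j => a₁ j + 1) (fun _ => 0) : _ → ℕ) j} = Set.univ := by
        ext j; simp
      rw [this, Set.image_univ, Module.Basis.span_eq, h0]
    | succ n =>
      have h2 : F (n + 1) = ((F (n + 1)).comap (F 1).subtype).map (F 1).subtype := by
        rw [Submodule.map_comap_subtype]
        refine (inf_eq_right.2 ?_).symm
        exact (antitone_nat_of_succ_le hanti) (by omega)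
      rw [h2, h₁ n, Submodule.map_span]
      congr 1
      ext v
      constructor
      · rintro ⟨_, ⟨j, hj, rfl⟩, rfl⟩
        refine ⟨Sum.inl j, ?_, ?_⟩
        · change n + 1 ≤ a₁ j + 1
          exact Nat.succ_le_succ hj
        · simp [b, eq]
      · rintro ⟨j | j, hj, rfl⟩
        · refine ⟨b₁ j, ⟨j, Nat.le_of_succ_le_succ hj, rfl⟩, ?_⟩
          simp [b, eq]
        · exact absurd hj (by simp)

theorem fpd_field {K : Type u} [Field K] (M : Type u) [AddCommGroup M]
    [Module K M] [Module.Finite K M] (F : ℕ → Submodule K M) (hF : GoodFil (⊥ : Ideal K) F) :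
    FPD (⊥ : Ideal K) 0 M F := by
  obtain ⟨n₀, hn₀⟩ := hF.stable
  have hN : F (n₀ + 1) = ⊥ := by rw [← hn₀ n₀ le_rfl, Submodule.bot_smul]
  obtain ⟨ι, _, b, a, hb⟩ := exists_adapted_basis (n₀ + 1) M F hF.top hF.anti hN
  let e := Fintype.equivFin ι
  let b' := b.reindex e
  refine ⟨Fintype.card ι, a ∘ e.symm, b'.equivFun.symm.toLinearMap, fun n => ?_, ?_⟩
  · rw [hb]
    refine le_antisymm ?_ ?_
    · rintro _ ⟨f, hf, rfl⟩
      rw [SetLike.mem_coe, mem_wfil] at hf
      change b'.equivFun.symm f ∈ _
      rw [Module.Basis.equivFun_symm_apply]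
      refine Submodule.sum_mem _ fun j _ => ?_
      by_cases hj : n ≤ a (e.symm j)
      · refine Submodule.smul_mem _ _ (Submodule.subset_span ⟨e.symm j, hj, ?_⟩)
        simp [b']
      · have h1 := hf j
        have h2 : ∃ k, n - (a ∘ e.symm) j = k + 1 := ⟨n - a (e.symm j) - 1, by
          simp only [Function.comp_apply]
          omega⟩
        obtain ⟨k, hk⟩ := h2
        rw [hk, pow_succ, Ideal.mul_bot] at h1
        rw [(Submodule.mem_bot K).1 h1, zero_smul]
        exact zero_mem _
    · rw [Submodule.span_le]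
      rintro _ ⟨j, hj, rfl⟩
      refine ⟨Pi.single (e j) 1, ?_, ?_⟩
      · rw [SetLike.mem_coe, mem_wfil]
        intro i
        by_cases hi : i = e j
        · subst hi
          have : n - (a ∘ e.symm) (e j) = 0 := by
            simp only [Function.comp_apply, Equiv.symm_apply_apply]
            have : n ≤ a j := hj
            omega
          rw [this]
          simp
        · simp [Pi.single_eq_of_ne hi]
      · change b'.equivFun.symm _ = _
        rw [Module.Basis.equivFun_symm_apply, Finset.sum_eq_single (e j)]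
        · simp [b']
        · intro i _ hi
          simp [Pi.single_eq_of_ne hi]
        · simp
  · exact LinearMap.ker_eq_bot.2 b'.equivFun.symm.injective

theorem fpd_of_maximalIdeal_eq_bot {A : Type u} [CommRing A] [IsLocalRing A]
    (h : maximalIdeal A = ⊥) (M : Type u) [AddCommGroup M] [Module A M] [Module.Finite A M]
    (F : ℕ → Submodule A M) (hF : GoodFil (maximalIdeal A) F) :
    FPD (maximalIdeal A) 0 M F := by
  rw [h] at hF ⊢
  have hf : IsField A := (IsLocalRing.isField_iff_maximalIdeal_eq).2 h
  let _ : Field A := hf.toField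
  exact fpd_field M F hF

theorem exists_notMem_sq {A : Type u} [CommRing A] [IsRegularLocalRing A] {d : ℕ}
    (hd : ringKrullDim A = ((d + 1 : ℕ) : WithBot ℕ∞)) :
    ∃ x ∈ maximalIdeal A, x ∉ maximalIdeal A ^ 2 := by
  by_contra hcon
  push Not at hcon
  have h1 : maximalIdeal A ≤ maximalIdeal A • maximalIdeal A := by
    rw [smul_eq_mul, ← pow_two]
    exact hcon
  have h2 : maximalIdeal A = ⊥ := by
    refine Submodule.eq_bot_of_le_smul_of_le_jacobson_bot (maximalIdeal A) _
      (IsNoetherian.noetherian _) h1 ?_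
    rw [IsLocalRing.jacobson_eq_maximalIdeal ⊥ bot_ne_top]
  have h3 : IsField A := (IsLocalRing.isField_iff_maximalIdeal_eq).2 h2
  rw [ringKrullDim_eq_zero_of_isField h3] at hd
  have : 0 = d + 1 := by exact_mod_cast hd
  omega

/-- Existence of finite strict free resolutions over regular local rings. -/
theorem fpd_of_regular (d : ℕ) : ∀ (A : Type u) [CommRing A] [IsRegularLocalRing A],
    ringKrullDim A = d → ∀ (M : Type u) [AddCommGroup M] [Module A M] [Module.Finite A M]
    (F : ℕ → Submodule A M), GoodFil (maximalIdeal A) F → FPD (maximalIdeal A) d M F := by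
  induction d with
  | zero =>
    intro A _ _ hd M _ _ _ F hF
    refine fpd_of_maximalIdeal_eq_bot ?_ M F hF
    obtain ⟨rs, hrs, hlen⟩ := exists_list_maximalIdeal A
    rw [hd] at hlen
    have : rs.length = 0 := by exact_mod_cast hlen
    rw [List.length_eq_zero_iff] at this
    rw [← hrs, this]
    simp [Ideal.ofList]
  | succ d ih =>
    intro A _ _ hd M _ _ _ F hF
    have hdom : IsDomain A := regular_isDomain A
    obtain ⟨x, hx, hx2⟩ := exists_notMem_sq hd
    obtain ⟨hreg, hdim⟩ := regular_quotient A x hx hx2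
    have hx0 : x ≠ 0 := by
      rintro rfl
      exact hx2 (zero_mem _)
    have hdim' : ringKrullDim (A ⧸ Ideal.span {x}) = d := by
      obtain ⟨e, he⟩ := exists_nat_eq_ringKrullDim (A ⧸ Ideal.span {x})
      rw [hd, he] at hdim
      have h1 : e + 1 = d + 1 := by exact_mod_cast hdim
      rw [he]
      have h2 : e = d := by omega
      rw [h2]
    obtain ⟨b, a, φ, hφ⟩ := exists_strict_cover hF
    refine ⟨b, a, φ, hφ, ?_⟩
    have hmap : (maximalIdeal A).map (algebraMap A (A ⧸ Ideal.span {x})) =
        maximalIdeal (A ⧸ Ideal.span {x}) :=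
      map_maximalIdeal_of_surjective _ Ideal.Quotient.mk_surjective
    -- the module modulo `x`
    let K := LinearMap.ker φ
    let FK : ℕ → Submodule A K :=
      fun n => (wfil (fun k => ((maximalIdeal A) ^ k : Ideal A)) a n).comap K.subtype
    have hFK : GoodFil (maximalIdeal A) FK := ((goodFil_self _).weighted a).comap_subtype K
    let K' := K ⧸ (Ideal.span {x} • ⊤ : Submodule A K)
    let p : K →ₗ[A] K' := Submodule.mkQ _
    have hp : Surjective p := Submodule.mkQ_surjective _
    let F' : ℕ → Submodule (A ⧸ Ideal.span {x}) K' := fun n =>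
      { carrier := p '' (FK n)
        add_mem' := by
          rintro _ _ ⟨v, hv, rfl⟩ ⟨w, hw, rfl⟩
          exact ⟨v + w, add_mem hv hw, map_add _ _ _⟩
        zero_mem' := ⟨0, zero_mem _, map_zero _⟩
        smul_mem' := by
          rintro c _ ⟨v, hv, rfl⟩
          obtain ⟨c, rfl⟩ := Ideal.Quotient.mk_surjective c
          exact ⟨c • v, Submodule.smul_mem _ _ hv, rfl⟩ }
    have hF' : ∀ n y, y ∈ F' n ↔ ∃ v ∈ FK n, p v = y := fun n y => Iff.rfl
    have hgood : GoodFil (maximalIdeal (A ⧸ Ideal.span {x})) F' := by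
      have hsm : ∀ n, maximalIdeal (A ⧸ Ideal.span {x}) • F' n ≤ F' (n + 1) := by
        intro n
        rw [Submodule.smul_le]
        rintro c hc _ ⟨v, hv, rfl⟩
        rw [← hmap] at hc
        obtain ⟨c', hc', rfl⟩ := (Ideal.mem_map_iff_of_surjective (algebraMap A _)
          Ideal.Quotient.mk_surjective).1 hc
        exact ⟨c' • v, hFK.smul n (Submodule.smul_mem_smul hc' hv), rfl⟩
      refine ⟨?_, ?_, hsm, ?_⟩
      · rw [eq_top_iff]
        intro y _
        obtain ⟨v, rfl⟩ := hp y
        exact ⟨v, by rw [hFK.top]; trivial, rfl⟩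
      · rintro n _ ⟨v, hv, rfl⟩
        exact ⟨v, hFK.anti n hv, rfl⟩
      · obtain ⟨n₀, hn₀⟩ := hFK.stable
        refine ⟨n₀, fun n hn => le_antisymm (hsm n) ?_⟩
        rintro _ ⟨v, hv, rfl⟩
        rw [← hn₀ n hn] at hv
        refine Submodule.smul_induction_on hv ?_ ?_
        · intro c hc v hv
          have h1 : p (c • v) = (Ideal.Quotient.mk (Ideal.span {x}) c) • p v := rfl
          rw [h1]
          refine Submodule.smul_mem_smul ?_ ⟨v, hv, rfl⟩
          rw [← hmap]
          exact Ideal.mem_map_of_mem _ hc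
        · intro v w hv hw
          rw [map_add]
          exact add_mem hv hw
    have hfin : Module.Finite (A ⧸ Ideal.span {x}) K' := by
      have : Module.Finite A K' := Module.Finite.of_surjective p hp
      exact Module.Finite.of_restrictScalars_finite A _ _
    have hrec := ih (A ⧸ Ideal.span {x}) hdim' K' F' hgood
    refine FPD.lift (A' := A ⧸ Ideal.span {x}) Ideal.Quotient.mk_surjective x Ideal.mk_ker hx
      (maximalIdeal A) hx (fun c hc => (mul_eq_zero.1 hc).resolve_left hx0)
      (fun m c hc => mem_pow_of_mul_mem hx hx2 hc) d p hp ?_ FK F' hFK ?_ ?_ hF' ?_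
    · intro v hv
      have h1 : v ∈ (Ideal.span {x} • ⊤ : Submodule A K) := by
        rwa [← Submodule.Quotient.mk_eq_zero]
      rw [Submodule.ideal_span_singleton_smul] at h1
      obtain ⟨w, -, hw⟩ := h1
      exact ⟨w, hw.symm⟩
    · rintro ⟨f, hf⟩ h0
      have h1 : x • f = 0 := congrArg Subtype.val h0
      apply Subtype.ext
      funext j
      exact (mul_eq_zero.1 (congrFun h1 j)).resolve_left hx0
    · rintro n ⟨f, hf⟩ h0
      have h1 : x • f ∈ wfil (fun k => ((maximalIdeal A) ^ k : Ideal A)) a (n + 1) := h0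
      change f ∈ wfil (fun k => ((maximalIdeal A) ^ k : Ideal A)) a n
      rw [mem_wfil] at h1 ⊢
      intro j
      have h2 := h1 j
      by_cases hj : a j ≤ n
      · have h3 : n + 1 - a j = (n - a j) + 1 := by omega
        rw [h3] at h2
        exact mem_pow_of_mul_mem hx hx2 h2
      · have h3 : n - a j = 0 := by omega
        rw [h3]
        simp
    · rw [hmap]
      exact hrec

end Vale.Agent.P177
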