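import Mathlib

/-! Evaluation homomorphisms out of power series rings and the structure theorem surjection. -/

namespace Vale.Agent.P177

open IsLocalRing

/-- Evaluation of power series at elements of an ideal for which the target is complete. -/
theorem exists_evalHom {ι R A : Type*} [Finite ι] [CommRing R] [CommRing A] (J : Ideal A)
    [IsAdicComplete J A] (σ : R →+* A) (x : ι → A) (hx : ∀ i, x i ∈ J) :
    ∃ φ : MvPowerSeries ι R →+* A,
      ∀ p : MvPolynomial ι R, φ (p : MvPowerSeries ι R) = MvPolynomial.eval₂Hom σ x p := by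
  have hI : ∀ n, MvPolynomial.idealOfVars ι R ^ n ≤
      (J ^ n).comap (MvPolynomial.eval₂Hom σ x) := by
    intro n
    rw [← Ideal.map_le_iff_le_comap, Ideal.map_pow]
    apply Ideal.pow_right_mono
    rw [MvPolynomial.idealOfVars, Ideal.map_span, Ideal.span_le]
    rintro _ ⟨_, ⟨i, rfl⟩, rfl⟩
    simpa using hx i
  let f : (n : ℕ) → MvPowerSeries ι R →+* A ⧸ J ^ n := fun n =>
    (Ideal.quotientMap (J ^ n) (MvPolynomial.eval₂Hom σ x) (hI n)).comp
      (MvPowerSeries.truncTotalAlgHom ι R n).toRingHom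
  have hf : ∀ {m n : ℕ} (hle : m ≤ n), (Ideal.Quotient.factorPow J hle).comp (f n) = f m := by
    intro m n hle
    ext p
    have h1 := hI m (MvPowerSeries.truncTotal_sub_truncTotal_mem_pow_idealOfVars hle le_rfl p)
    rw [Ideal.mem_comap, map_sub, ← Ideal.Quotient.mk_eq_mk_iff_sub_mem] at h1
    exact h1
  refine ⟨IsAdicComplete.liftRingHom J f hf, fun p => ?_⟩
  rw [← sub_eq_zero]
  apply IsHausdorff.haus (I := J) inferInstance
  intro n
  rw [SModEq.zero, smul_eq_mul, Ideal.mul_top, ← Ideal.Quotient.eq_zero_iff_mem, map_sub,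
    IsAdicComplete.mk_liftRingHom, sub_eq_zero]
  have h2 := (MvPowerSeries.truncTotalAlgHom ι R n).commutes p
  change Ideal.quotientMap (J ^ n) (MvPolynomial.eval₂Hom σ x) (hI n)
    (MvPowerSeries.truncTotalAlgHom ι R n (p : MvPowerSeries ι R)) = _
  erw [h2]
  rfl

theorem exists_powerSeries_surjective' {ι A k : Type*} [Finite ι] [CommRing A] [IsLocalRing A]
    [IsAdicComplete (maximalIdeal A) A] [Field k] (σ : k →+* A)
    (hσ : Function.Surjective (fun x => residue A (σ x))) (x : ι → A)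
    (hx : Ideal.span (Set.range x) = maximalIdeal A) :
    ∃ φ : MvPowerSeries ι k →+* A, Function.Surjective φ ∧
      (∀ p : MvPolynomial ι k, φ (p : MvPowerSeries ι k) = MvPolynomial.eval₂Hom σ x p) := by
  obtain ⟨φ, hφ⟩ := exists_evalHom (maximalIdeal A) σ x
    (fun i => hx ▸ Ideal.subset_span ⟨i, rfl⟩)
  refine ⟨φ, ?_, hφ⟩
  have hX : ∀ i, φ (MvPowerSeries.X i) = x i := by
    intro i
    rw [← MvPolynomial.coe_X, hφ]
    simp
  have hmap : (Ideal.span (Set.range MvPowerSeries.X) : Ideal (MvPowerSeries ι k)).map φ =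
      maximalIdeal A := by
    rw [Ideal.map_span, ← Set.range_comp, ← hx]
    congr 2
    ext i
    exact hX i
  have hH : IsHausdorff ((Ideal.span (Set.range MvPowerSeries.X) :
      Ideal (MvPowerSeries ι k)).map φ) A := by
    rw [hmap]
    infer_instance
  apply surjective_of_mk_map_comp_surjective (I := Ideal.span (Set.range MvPowerSeries.X)) φ
  intro y
  obtain ⟨a, rfl⟩ := Ideal.Quotient.mk_surjective y
  obtain ⟨c, hc⟩ := hσ (residue A a)
  refine ⟨MvPowerSeries.C c, ?_⟩
  rw [← MvPolynomial.coe_C, RingHom.comp_apply, hφ]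
  simp only [MvPolynomial.coe_eval₂Hom, MvPolynomial.eval₂_C]
  rw [Ideal.Quotient.mk_eq_mk_iff_sub_mem, hmap]
  rw [← Ideal.Quotient.mk_eq_mk_iff_sub_mem]
  exact hc

theorem exists_powerSeries_surjective (A : Type*) [CommRing A] [IsLocalRing A]
    [IsAdicComplete (maximalIdeal A) A] (k : Type*) [Field k] (σ : k →+* A)
    (hσ : Function.Surjective (fun x => residue A (σ x))) (d : ℕ) (x : Fin d → A)
    (hx : Ideal.span (Set.range x) = maximalIdeal A) :
    ∃ φ : MvPowerSeries (Fin d) k →+* A, Function.Surjective φ := by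
  obtain ⟨φ, hφ, _⟩ := exists_powerSeries_surjective' σ hσ x hx
  exact ⟨φ, hφ⟩

end Vale.Agent.P177
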