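import Vale.Agent.P177.CBase
import Vale.Agent.P177.CohenSurj

/-!
The local criterion of flatness for a local map of noetherian local rings, and completions of
regular local rings.
-/

namespace Vale.Agent.P177

open CategoryTheory TensorProduct Function IsLocalRing RingTheory.Sequence Pointwise

universe u

section crit

variable {R C : Type u} [CommRing R] [IsLocalRing R] [IsNoetherianRing R] [CommRing C]
  [IsLocalRing C] [IsNoetherianRing C] [Algebra R C] [IsLocalHom (algebraMap R C)]

/-- Nakayama for the first Tor with a local algebra. -/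
theorem tor_one_subsingleton_of_smul (M : Type u) [AddCommGroup M] [Module R M]
    [Module.Finite R M] (x : R) (hx : x ∈ maximalIdeal R)
    (h : ∀ t : TorM R 1 M C, ∃ t', t = x • t') : Subsingleton (TorM R 1 M C) := by
  obtain ⟨n, g, hg⟩ := Module.Finite.exists_fin' R M
  have hex : Exact (LinearMap.ker g).subtype g := by
    intro y
    simp
  obtain ⟨e1⟩ := tor_one (LinearMap.ker g).subtype g (Submodule.injective_subtype _) hg hex C
  obtain ⟨e2⟩ := ker_comm (N := C) (LinearMap.ker g).subtype
  let θ : C ⊗[R] LinearMap.ker g →ₗ[C] C ⊗[R] (Fin n → R) :=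
    (LinearMap.ker g).subtype.baseChange C
  have hθ : ∀ y, y ∈ LinearMap.ker θ ↔
      y ∈ LinearMap.ker ((LinearMap.ker g).subtype.lTensor C) := fun y => Iff.rfl
  let e := e1 ≪≫ₗ e2
  have hsub : Subsingleton (LinearMap.ker θ) := by
    apply subsingleton_of_smul_surjective (B := C) (LinearMap.ker θ) (algebraMap R C x)
      (algebraMap_mem_maximalIdeal hx)
    rintro ⟨y, hy⟩
    obtain ⟨t', ht'⟩ := h (e.symm ⟨y, hy⟩)
    refine ⟨⟨(e t').1, (e t').2⟩, Subtype.ext ?_⟩
    have h1 : (⟨y, hy⟩ : LinearMap.ker ((LinearMap.ker g).subtype.lTensor C)) = x • e t' := by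
      rw [← map_smul, ← ht', LinearEquiv.apply_symm_apply]
    have h2 := congrArg Subtype.val h1
    change y = algebraMap R C x • (e t').1
    rw [algebraMap_smul]
    exact h2
  refine subsingleton_of_forall_eq 0 fun t => ?_
  apply e.injective
  apply Subtype.ext
  have h1 : (⟨(e t).1, (e t).2⟩ : LinearMap.ker θ) = 0 := Subsingleton.elim _ _
  rw [map_zero]
  exact congrArg Subtype.val h1

theorem tor_one_subsingleton_of_residue
    (h : Subsingleton (TorM R 1 (R ⧸ maximalIdeal R) C)) (M : Type u) [AddCommGroup M]
    [Module R M] [Module.Finite R M] : Subsingleton (TorM R 1 M C) := by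
  suffices H : ∀ I : Ideal R, ∀ (M : Type u) [AddCommGroup M] [Module R M] [Module.Finite R M],
      I ≤ Module.annihilator R M → Subsingleton (TorM R 1 M C) from H ⊥ M bot_le
  intro I
  induction I using IsNoetherian.induction with
  | hgt I ih =>
  intro M _ _ hM hI
  induction hM using IsNoetherianRing.induction_on_isQuotientEquivQuotientPrime R with
  | subsingleton N =>
    have h1 := tor_smul_eq_zero_left (R := R) (M := N) 1 (fun m => Subsingleton.elim _ _) 1 C
    exact ⟨fun x y => by rw [← one_smul R x, ← one_smul R y, h1, h1]⟩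
  | quotient N P e =>
    have hIP : I ≤ P.1 := by
      intro a ha
      have h1 := Module.mem_annihilator.1 (hI ha) (e.symm (Ideal.Quotient.mk P.1 1))
      rw [← map_smul, LinearEquiv.map_eq_zero_iff] at h1
      rw [← Ideal.Quotient.eq_zero_iff_mem, ← h1, Algebra.smul_def, map_one, mul_one]
      rfl
    by_cases hP : P.1 = maximalIdeal R
    · have e1 : N ≃ₗ[R] (R ⧸ maximalIdeal R) := e ≪≫ₗ Submodule.quotEquivOfEq _ _ hP
      exact (torCongrLeft 1 e1 C).toEquiv.subsingleton
    · have hlt : P.1 < maximalIdeal R := lt_of_le_of_ne (le_maximalIdeal P.2.ne_top) hP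
      obtain ⟨x, hxm, hxP⟩ := SetLike.exists_of_lt hlt
      let f : (R ⧸ P.1) →ₗ[R] (R ⧸ P.1) := LinearMap.lsmul R (R ⧸ P.1) x
      let g : (R ⧸ P.1) →ₗ[R] QuotSMulTop x (R ⧸ P.1) := Submodule.mkQ _
      have hfi : Injective f := by
        rw [injective_iff_map_eq_zero]
        intro a ha
        obtain ⟨a, rfl⟩ := Ideal.Quotient.mk_surjective a
        have h1 : Ideal.Quotient.mk P.1 (x * a) = 0 := ha
        rw [Ideal.Quotient.eq_zero_iff_mem] at h1 ⊢
        exact (P.2.mem_or_mem h1).resolve_left hxP
      have hgs : Surjective g := Submodule.mkQ_surjective _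
      have hex : Exact f g := by
        intro y
        rw [Submodule.mkQ_apply, Submodule.Quotient.mk_eq_zero]
        rw [Submodule.mem_smul_pointwise_iff_exists]
        simp [f]
      have hann : I < I ⊔ Ideal.span {x} := by
        refine lt_of_le_of_ne le_sup_left ?_
        intro h
        apply hxP
        apply hIP
        rw [h]
        exact Ideal.mem_sup_right (Ideal.mem_span_singleton_self x)
      have hq : Subsingleton (TorM R 1 (QuotSMulTop x (R ⧸ P.1)) C) := by
        apply ih _ hann
        rw [sup_le_iff]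
        constructor
        · intro a ha
          rw [Module.mem_annihilator]
          intro m
          obtain ⟨m, rfl⟩ := hgs m
          obtain ⟨m, rfl⟩ := Ideal.Quotient.mk_surjective m
          rw [← map_smul, Algebra.smul_def]
          have : (algebraMap R (R ⧸ P.1)) a = 0 := Ideal.Quotient.eq_zero_iff_mem.2 (hIP ha)
          rw [this, zero_mul, map_zero]
        · rw [Ideal.span_singleton_le_iff_mem, Module.mem_annihilator]
          intro m
          obtain ⟨m, rfl⟩ := hgs m
          rw [← map_smul]
          exact (hex _).2 ⟨m, rfl⟩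
      have h5 : Subsingleton (TorM R 1 (R ⧸ P.1) C) := by
        obtain ⟨δ, -, -, h3⟩ := exists_torDelta f g hfi hgs hex C
        apply tor_one_subsingleton_of_smul (R ⧸ P.1) x hxm
        intro t
        obtain ⟨y, rfl⟩ := (h3 1 t).1 (Subsingleton.elim _ _)
        exact ⟨y, torMap_smul_id 1 x f (fun m => rfl) y⟩
      exact (torCongrLeft 1 e C).toEquiv.subsingleton
  | exact N₁ N₂ N₃ f g hf hg h ih1 ih3 =>
    exact tor_subsingleton_mid f g hf hg h C 1
      (ih1 (hI.trans (LinearMap.annihilator_le_of_injective f hf)))
      (ih3 (hI.trans (LinearMap.annihilator_le_of_surjective g hg)))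

/-- The local criterion of flatness. -/
theorem flat_of_tor_residue (h : Subsingleton (TorM R 1 (R ⧸ maximalIdeal R) C)) :
    Module.Flat R C :=
  flat_of_tor_one C fun I => tor_one_subsingleton_of_residue h (R ⧸ I)

end crit

end Vale.Agent.P177
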