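import Vale.Agent.P177.COne

/-!
The local positivity statement for `dim R₁ + dim R₂ - dim T ≤ 4`.
-/

namespace Vale.Agent.P177

open TensorProduct IsLocalRing

universe u

/-- The local positivity statement for `b ≤ 4`. -/
theorem locPos_four : LocPos.{u} 4 := by
  intro R₁ R₂ T _ _ _ _ _ _ _ _ _ _ _ _ r₁ r₂ t b h1 h2 ht hb hb4 E G _ _ _ _ _ _ hFP
  have H := hOne_all (R₁ := R₁) (R₂ := R₂) (T := T) h1 h2 ht hb
  have H' := hOne_all (R₁ := R₂) (R₂ := R₁) (T := T) h2 h1 ht (by omega : r₂ + r₁ = t + b)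
  have hpos := pos_of_hOne h1 h2 ht hb hb4 H H' E G hFP
  exact ⟨hpos.dim_le, hpos.nonneg, hpos.pos⟩

end Vale.Agent.P177
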