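import Vale.Agent.P177.CTheta
import Vale.Agent.P177.CLocFour

/-!
Regular local rings with a flat map with trivial closed fibre to a power series ring over a regular
local ring of small dimension, and hypersurface versions.
-/

namespace Vale.Agent.P177

open CategoryTheory TensorProduct Function IsLocalRing RingTheory.Sequence Pointwise

universe u

theorem mvPowerSeries_regular_fin (A : Type u) [CommRing A] [IsRegularLocalRing A] (n : ℕ) :
    IsRegularLocalRing (MvPowerSeries (Fin n) A) := by
  obtain ⟨a', ha'⟩ : ∃ a' : ℕ, ringKrullDim A = a' := by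
    obtain ⟨rs, -, hlen⟩ := exists_list_maximalIdeal A
    exact ⟨_, hlen.symm⟩
  exact (mvPowerSeries_regular n (Equiv.refl (Fin n)) ha').1

/-- Serre's statements for a regular local ring `R` with a flat map with trivial closed fibre to
`A[[x₁, …, xₙ]]`, where `A` is regular local of dimension at most `a`. -/
theorem serreAll_formal (a : ℕ) (hLoc : LocPos.{u} a) (A : Type u) [CommRing A]
    [IsRegularLocalRing A] (hA : ringKrullDim A ≤ a) (n : ℕ)
    (R : Type u) [CommRing R] [IsRegularLocalRing R] [Algebra R (MvPowerSeries (Fin n) A)]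
    [Module.Flat R (MvPowerSeries (Fin n) A)]
    (hloc : (maximalIdeal R).map (algebraMap R (MvPowerSeries (Fin n) A)) =
      maximalIdeal (MvPowerSeries (Fin n) A)) (d : ℕ) (hd : ringKrullDim R = d) :
    SerreAll R d := by
  have hreg := mvPowerSeries_regular_fin A n
  refine SerreAll.descend hloc (serreAll_powerSeries a hLoc A hA n d ?_)
  rw [ringKrullDim_eq_of_flat hloc, hd]

/-- Serre's statements for a regular local ring whose completion is isomorphic to
`A[[x₁, …, xₙ]]`, where `A` is regular local of dimension at most `a`. -/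
theorem serreAll_completion (a : ℕ) (hLoc : LocPos.{u} a) (A : Type u) [CommRing A]
    [IsRegularLocalRing A] (hA : ringKrullDim A ≤ a) (n : ℕ)
    (R : Type u) [CommRing R] [IsRegularLocalRing R]
    (e : AdicCompletion (maximalIdeal R) R ≃+* MvPowerSeries (Fin n) A)
    (d : ℕ) (hd : ringKrullDim R = d) : SerreAll R d := by
  let _ : Algebra R (MvPowerSeries (Fin n) A) :=
    (e.toRingHom.comp (algebraMap R (AdicCompletion (maximalIdeal R) R))).toAlgebra
  let eA : AdicCompletion (maximalIdeal R) R ≃ₐ[R] MvPowerSeries (Fin n) A :=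
    AlgEquiv.ofRingEquiv (f := e) fun _ => rfl
  have hfl : Module.Flat R (AdicCompletion (maximalIdeal R) R) :=
    AdicCompletion.flat_of_isNoetherian _
  have hfl' : Module.Flat R (MvPowerSeries (Fin n) A) :=
    Module.Flat.of_linearEquiv eA.symm.toLinearEquiv
  refine serreAll_formal a hLoc A hA n R ?_ d hd
  have hm : (maximalIdeal R).map (algebraMap R (AdicCompletion (maximalIdeal R) R)) =
      maximalIdeal (AdicCompletion (maximalIdeal R) R) :=
    AdicCompletion.maximalIdeal_eq_map.symm
  change (maximalIdeal R).map (e.toRingHom.comp (algebraMap R _)) = _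
  rw [← Ideal.map_map, hm]
  exact map_maximalIdeal_of_surjective _ e.surjective

/-- Pairs of `f`-power torsion modules, where `R/f` has a flat map with trivial closed fibre to a
hypersurface in `A[[x₁, …, xₙ]]`. -/
theorem good_formal_hypersurface (a : ℕ) (hLoc : LocPos.{u} a) (A : Type u) [CommRing A]
    [IsRegularLocalRing A] (hA : ringKrullDim A ≤ a) (n : ℕ)
    (g : MvPowerSeries (Fin n) A) (hg0 : g ≠ 0) (hgm : g ∈ maximalIdeal (MvPowerSeries (Fin n) A))
    (R : Type u) [CommRing R] [IsRegularLocalRing R] (d : ℕ) (hd : ringKrullDim R = d)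
    (hdS : ringKrullDim (MvPowerSeries (Fin n) A) = d)
    (f : R) (hf0 : f ≠ 0) (hfm : f ∈ maximalIdeal R)
    [Algebra (R ⧸ Ideal.span {f}) (MvPowerSeries (Fin n) A ⧸ Ideal.span {g})]
    [Module.Flat (R ⧸ Ideal.span {f}) (MvPowerSeries (Fin n) A ⧸ Ideal.span {g})]
    (hloc : ((maximalIdeal R).map (Ideal.Quotient.mk (Ideal.span {f}))).map
      (algebraMap (R ⧸ Ideal.span {f}) (MvPowerSeries (Fin n) A ⧸ Ideal.span {g})) =
      (maximalIdeal (MvPowerSeries (Fin n) A)).map (Ideal.Quotient.mk (Ideal.span {g})))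
    (M N : Type u) [AddCommGroup M] [Module R M] [Module.Finite R M]
    [AddCommGroup N] [Module R N] [Module.Finite R N] (s t : ℕ)
    (hM : ∀ x : M, f ^ s • x = 0) (hN : ∀ x : N, f ^ t • x = 0)
    (hlen : Module.length R (M ⊗[R] N) ≠ ⊤) : Good R d M N := by
  have hreg := mvPowerSeries_regular_fin A n
  have hne : Ideal.span {g} ≠ ⊤ := by
    rw [Ne, Ideal.span_singleton_eq_top]
    exact hgm
  have hnt : Nontrivial (MvPowerSeries (Fin n) A ⧸ Ideal.span {g}) :=
    Ideal.Quotient.nontrivial_iff.2 hne
  have hlA : IsLocalRing (MvPowerSeries (Fin n) A ⧸ Ideal.span {g}) :=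
    IsLocalRing.of_surjective' (Ideal.Quotient.mk _) Ideal.Quotient.mk_surjective
  have hmA : (maximalIdeal (MvPowerSeries (Fin n) A)).map (Ideal.Quotient.mk (Ideal.span {g})) =
      maximalIdeal (MvPowerSeries (Fin n) A ⧸ Ideal.span {g}) :=
    map_maximalIdeal_of_surjective _ Ideal.Quotient.mk_surjective
  exact good_power_torsion R d hd f hf0 (MvPowerSeries (Fin n) A) hdS
    (serreAll_powerSeries a hLoc A hA n d hdS) g hg0
    (MvPowerSeries (Fin n) A ⧸ Ideal.span {g}) (hloc.trans hmA)
    Ideal.Quotient.mk_surjective Ideal.mk_ker hfm M N s t hM hN hlen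

end Vale.Agent.P177
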