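import Vale.Agent.P177.CFilB

/-!
Relative lengths and Euler characteristics of filtered complexes.
-/

namespace Vale.Agent.P177

open Function

section rl

variable {A : Type*} [CommRing A] {C C' : Type*} [AddCommGroup C] [Module A C] [AddCommGroup C']
  [Module A C']

/-- Length of `X / (X ⊓ Y)`. -/
noncomputable def rl (X Y : Submodule A C) : ℕ∞ := Module.length A (X ⧸ Y.submoduleOf X)

theorem rl_add {X Y Z : Submodule A C} (h1 : Z ≤ Y) (h2 : Y ≤ X) : rl X Z = rl X Y + rl Y Z := by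
  unfold rl
  let f : (Y ⧸ Z.submoduleOf Y) →ₗ[A] (X ⧸ Z.submoduleOf X) :=
    Submodule.mapQ _ _ (Submodule.inclusion h2) (fun v hv => hv)
  let g : (X ⧸ Z.submoduleOf X) →ₗ[A] (X ⧸ Y.submoduleOf X) :=
    Submodule.factor (fun v hv => h1 hv)
  have hf : Injective f := by
    rw [injective_iff_map_eq_zero]
    intro v hv
    obtain ⟨v, rfl⟩ := Submodule.mkQ_surjective _ v
    have h3 : (Submodule.Quotient.mk (Submodule.inclusion h2 v) : X ⧸ Z.submoduleOf X) = 0 := hv
    rw [Submodule.Quotient.mk_eq_zero] at h3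
    exact (Submodule.Quotient.mk_eq_zero _).2 h3
  have hg : Surjective g := by
    intro v
    obtain ⟨v, rfl⟩ := Submodule.mkQ_surjective _ v
    exact ⟨Submodule.Quotient.mk v, rfl⟩
  have hfg : Exact f g := by
    intro v
    obtain ⟨v, rfl⟩ := Submodule.mkQ_surjective _ v
    constructor
    · intro h3
      have h4 : (Submodule.Quotient.mk v : X ⧸ Y.submoduleOf X) = 0 := h3
      rw [Submodule.Quotient.mk_eq_zero] at h4
      exact ⟨Submodule.Quotient.mk ⟨v.1, h4⟩, rfl⟩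
    · rintro ⟨w, hw⟩
      obtain ⟨w, rfl⟩ := Submodule.mkQ_surjective _ w
      rw [← hw]
      change (Submodule.Quotient.mk (Submodule.inclusion h2 w) : X ⧸ Y.submoduleOf X) = 0
      rw [Submodule.Quotient.mk_eq_zero]
      exact w.2
  rw [Module.length_eq_add_of_exact f g hf hg hfg, add_comm]

theorem rl_map (f : C →ₗ[A] C') {X Y : Submodule A C} (h : Y ≤ X) :
    rl X Y = rl (LinearMap.ker f ⊓ X) (LinearMap.ker f ⊓ Y) + rl (X.map f) (Y.map f) := by
  unfold rl
  let u : ((LinearMap.ker f ⊓ X : Submodule A C) ⧸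
      (LinearMap.ker f ⊓ Y).submoduleOf (LinearMap.ker f ⊓ X)) →ₗ[A] (X ⧸ Y.submoduleOf X) :=
    Submodule.mapQ _ _ (Submodule.inclusion inf_le_right) (fun v hv => hv.2)
  let g₀ : X →ₗ[A] X.map f := f.submoduleMap X
  let g : (X ⧸ Y.submoduleOf X) →ₗ[A] (X.map f ⧸ (Y.map f).submoduleOf (X.map f)) :=
    Submodule.mapQ _ _ g₀ (fun v hv => ⟨v.1, hv, rfl⟩)
  have hu : Injective u := by
    rw [injective_iff_map_eq_zero]
    intro v hv
    obtain ⟨v, rfl⟩ := Submodule.mkQ_surjective _ v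
    have h3 : (Submodule.Quotient.mk (Submodule.inclusion inf_le_right v) :
      X ⧸ Y.submoduleOf X) = 0 := hv
    rw [Submodule.Quotient.mk_eq_zero] at h3
    exact (Submodule.Quotient.mk_eq_zero _).2 ⟨v.2.1, h3⟩
  have hg : Surjective g := by
    intro v
    obtain ⟨⟨_, v, hv, rfl⟩, rfl⟩ := Submodule.mkQ_surjective _ v
    exact ⟨Submodule.Quotient.mk ⟨v, hv⟩, rfl⟩
  have hug : Exact u g := by
    intro v
    obtain ⟨v, rfl⟩ := Submodule.mkQ_surjective _ v
    constructor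
    · intro h3
      have h4 : (Submodule.Quotient.mk (g₀ v) : X.map f ⧸ (Y.map f).submoduleOf (X.map f)) = 0 := h3
      rw [Submodule.Quotient.mk_eq_zero] at h4
      obtain ⟨y, hy, hyv⟩ := h4
      have hyv' : f y = f v.1 := hyv
      refine ⟨Submodule.Quotient.mk ⟨v.1 - y, ?_, sub_mem v.2 (h hy)⟩, ?_⟩
      · change f (v.1 - y) = 0
        rw [map_sub, hyv', sub_self]
      · change (Submodule.Quotient.mk (⟨v.1 - y, sub_mem v.2 (h hy)⟩ : X) : X ⧸ Y.submoduleOf X) =
          Submodule.Quotient.mk v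
        rw [Submodule.Quotient.eq]
        change (v.1 - y) - v.1 ∈ Y
        rw [sub_sub_cancel_left]
        exact neg_mem hy
    · rintro ⟨w, hw⟩
      obtain ⟨w, rfl⟩ := Submodule.mkQ_surjective _ w
      rw [← hw]
      change (Submodule.Quotient.mk (g₀ (Submodule.inclusion inf_le_right w)) :
        X.map f ⧸ (Y.map f).submoduleOf (X.map f)) = 0
      rw [Submodule.Quotient.mk_eq_zero]
      change f w.1 ∈ Y.map f
      have : f w.1 = 0 := w.2.1
      rw [this]
      exact zero_mem _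
  exact Module.length_eq_add_of_exact u g hu hg hug

theorem rl_eq_zero {X Y : Submodule A C} (h : X ≤ Y) : rl X Y = 0 := by
  unfold rl
  have : Subsingleton (X ⧸ Y.submoduleOf X) := by
    rw [subsingleton_iff_forall_eq 0]
    intro v
    obtain ⟨v, rfl⟩ := Submodule.mkQ_surjective _ v
    exact (Submodule.Quotient.mk_eq_zero _).2 (h v.2)
  exact Module.length_eq_zero

end rl

section complex

variable {A : Type*} [CommRing A] (C : ℕ → Type*) [∀ i, AddCommGroup (C i)] [∀ i, Module A (C i)]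
  (D : ∀ i, C (i + 1) →ₗ[A] C i)

/-- The cycles of a complex. -/
def Zc : ∀ i, Submodule A (C i)
  | 0 => ⊤
  | i + 1 => LinearMap.ker (D i)

theorem numeric_euler (r : ℕ) (a z β h h' : ℕ → ℤ) (h0 : a 0 = z 0)
    (h1 : ∀ i, a (i + 1) = z (i + 1) + β i) (h2 : ∀ i, h i + β i = z i + h' i) (h3 : β r = 0) :
    ∑ i ∈ Finset.range (r + 1), (-1) ^ i * h i - ∑ i ∈ Finset.range (r + 1), (-1) ^ i * h' i =
      ∑ i ∈ Finset.range (r + 1), (-1) ^ i * a i := by
  have key : ∀ n, ∑ i ∈ Finset.range (n + 1), (-1) ^ i * a i =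
      ∑ i ∈ Finset.range (n + 1), (-1) ^ i * h i - ∑ i ∈ Finset.range (n + 1), (-1) ^ i * h' i +
        (-1) ^ n * β n := by
    intro n
    induction n with
    | zero =>
      have := h2 0
      simp
      linarith
    | succ n ih =>
      rw [Finset.sum_range_succ, ih, Finset.sum_range_succ _ (n + 1),
        Finset.sum_range_succ (fun i => (-1) ^ i * h' i) (n + 1), h1 n, pow_succ]
      have := h2 (n + 1)
      have e : z (n + 1) = h (n + 1) + β (n + 1) - h' (n + 1) := by linarith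
      rw [e]
      ring
  rw [key r, h3]
  ring

/-- Comparison of the Euler characteristics of a complex and a subcomplex of finite colength. -/
theorem rel_euler (r : ℕ) (hr : Subsingleton (C (r + 1))) (hD : ∀ i v, D i (D (i + 1) v) = 0)
    (K K' : ∀ i, Submodule A (C i)) (hle : ∀ i, K' i ≤ K i)
    (hK : ∀ i, (K (i + 1)).map (D i) ≤ K i) (hK' : ∀ i, (K' (i + 1)).map (D i) ≤ K' i)
    (hfin : ∀ i, rl (K i) (K' i) ≠ ⊤)
    (hH : ∀ i, rl (Zc C D i ⊓ K i) ((K (i + 1)).map (D i)) ≠ ⊤) :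
    (∀ i, rl (Zc C D i ⊓ K' i) ((K' (i + 1)).map (D i)) ≠ ⊤) ∧
    ∑ i ∈ Finset.range (r + 1), (-1) ^ i *
        ((rl (Zc C D i ⊓ K i) ((K (i + 1)).map (D i))).toNat : ℤ) -
      ∑ i ∈ Finset.range (r + 1), (-1) ^ i *
        ((rl (Zc C D i ⊓ K' i) ((K' (i + 1)).map (D i))).toNat : ℤ) =
      ∑ i ∈ Finset.range (r + 1), (-1) ^ i * ((rl (K i) (K' i)).toNat : ℤ) := by
  have hB : ∀ i, LinearMap.range (D i) ≤ Zc C D i := by
    intro i
    cases i with
    | zero => exact le_top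
    | succ i =>
      rintro _ ⟨v, rfl⟩
      exact hD i v
  have hBK : ∀ i, (K (i + 1)).map (D i) ≤ Zc C D i ⊓ K i := fun i =>
    le_inf (LinearMap.map_le_range.trans (hB i)) (hK i)
  have hBK' : ∀ i, (K' (i + 1)).map (D i) ≤ Zc C D i ⊓ K' i := fun i =>
    le_inf (LinearMap.map_le_range.trans (hB i)) (hK' i)
  have e0 : rl (K 0) (K' 0) = rl (Zc C D 0 ⊓ K 0) (Zc C D 0 ⊓ K' 0) := by
    change _ = rl (⊤ ⊓ K 0) (⊤ ⊓ K' 0)
    rw [top_inf_eq, top_inf_eq]
  have e1 : ∀ i, rl (K (i + 1)) (K' (i + 1)) = rl (Zc C D (i + 1) ⊓ K (i + 1))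
      (Zc C D (i + 1) ⊓ K' (i + 1)) + rl ((K (i + 1)).map (D i)) ((K' (i + 1)).map (D i)) :=
    fun i => rl_map (D i) (hle (i + 1))
  have e2 : ∀ i, rl (Zc C D i ⊓ K i) ((K (i + 1)).map (D i)) +
      rl ((K (i + 1)).map (D i)) ((K' (i + 1)).map (D i)) =
      rl (Zc C D i ⊓ K i) (Zc C D i ⊓ K' i) + rl (Zc C D i ⊓ K' i) ((K' (i + 1)).map (D i)) := by
    intro i
    rw [← rl_add (Submodule.map_mono (hle (i + 1))) (hBK i),
      ← rl_add (hBK' i) (inf_le_inf_left _ (hle i))]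
  have hβ : ∀ i, rl ((K (i + 1)).map (D i)) ((K' (i + 1)).map (D i)) ≠ ⊤ := by
    intro i h
    apply hfin (i + 1)
    rw [e1, h, add_top]
  have hz : ∀ i, rl (Zc C D i ⊓ K i) (Zc C D i ⊓ K' i) ≠ ⊤ := by
    intro i h
    cases i with
    | zero => exact hfin 0 (by rw [e0, h])
    | succ i => exact hfin (i + 1) (by rw [e1, h, top_add])
  have hH' : ∀ i, rl (Zc C D i ⊓ K' i) ((K' (i + 1)).map (D i)) ≠ ⊤ := by
    intro i h
    have := e2 i
    rw [h, add_top] at this
    exact (WithTop.add_ne_top.2 ⟨hH i, hβ i⟩) this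
  refine ⟨hH', ?_⟩
  refine numeric_euler r _
    (fun i => ((rl (Zc C D i ⊓ K i) (Zc C D i ⊓ K' i)).toNat : ℤ))
    (fun i => ((rl ((K (i + 1)).map (D i)) ((K' (i + 1)).map (D i))).toNat : ℤ)) _ _ ?_ ?_ ?_ ?_
  · rw [e0]
  · intro i
    rw [e1, ENat.toNat_add (hz _) (hβ i)]
    push_cast
    rfl
  · intro i
    have := congrArg ENat.toNat (e2 i)
    rw [ENat.toNat_add (hH i) (hβ i), ENat.toNat_add (hz i) (hH' i)] at this
    exact_mod_cast this
  · have h0 : rl ((K (r + 1)).map (D r)) ((K' (r + 1)).map (D r)) = 0 := by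
      apply rl_eq_zero
      rintro _ ⟨v, -, rfl⟩
      rw [Subsingleton.elim v 0, map_zero]
      exact zero_mem _
    rw [h0]
    rfl

end complex

end Vale.Agent.P177
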