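import Vale.Agent.P177.CTorRes
import Vale.Agent.P177.CRel

/-!
Strict free resolutions of filtered modules, indexed by the natural numbers.
-/

namespace Vale.Agent.P177

open Function IsLocalRing

universe u

/-- A strict resolution of a filtered module by finite free filtered modules, of length `r`. -/
structure FRes {A : Type u} [CommRing A] (I : Ideal A) {M : Type u} [AddCommGroup M] [Module A M]
    (F : ℕ → Submodule A M) (r : ℕ) extends FR A M where
  /-- weights -/
  a : ∀ i, Fin (b i) → ℕ
  strict_ε : ∀ n, (wfil (fun k => (I ^ k : Ideal A)) (a 0) n).map ε = F n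
  strict_zero : ∀ n, (wfil (fun k => (I ^ k : Ideal A)) (a 1) n).map (δ 0) =
    LinearMap.ker ε ⊓ wfil (fun k => (I ^ k : Ideal A)) (a 0) n
  strict_succ : ∀ i n, (wfil (fun k => (I ^ k : Ideal A)) (a (i + 2)) n).map (δ (i + 1)) =
    LinearMap.ker (δ i) ⊓ wfil (fun k => (I ^ k : Ideal A)) (a (i + 1)) n
  bound : ∀ i, r < i → b i = 0

variable {A : Type u} [CommRing A] {I : Ideal A}

theorem eq_zero_of_fin_zero {N : Type*} [AddCommGroup N] {n : ℕ} (h : n = 0) (v : Fin n → N) :
    v = 0 := by
  subst h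
  exact Subsingleton.elim _ _

theorem exists_fres_zero {M : Type u} [AddCommGroup M] [Module A M] {F : ℕ → Submodule A M}
    (hF : F 0 = ⊤) (b : ℕ) (a : Fin b → ℕ) (φ : (Fin b → A) →ₗ[A] M)
    (hφ : ∀ n, (wfil (fun k => (I ^ k : Ideal A)) a n).map φ = F n) (hker : LinearMap.ker φ = ⊥) :
    Nonempty (FRes I F 0) := by
  have hsurj : Surjective φ := by
    rw [← LinearMap.range_eq_top, eq_top_iff, ← hF, ← hφ]
    exact LinearMap.map_le_range
  refine ⟨{
    b := fun
      | 0 => b
      | _ + 1 => 0
    ε := φ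
    δ := fun _ => 0
    surj := hsurj
    exact_zero := ?_
    exact_succ := ?_
    a := fun
      | 0 => a
      | _ + 1 => fun _ => 0
    strict_ε := hφ
    strict_zero := ?_
    strict_succ := ?_
    bound := ?_ }⟩
  · intro v
    constructor
    · intro hv
      have : v ∈ LinearMap.ker φ := hv
      rw [hker] at this
      exact ⟨0, by rw [LinearMap.zero_apply]; exact ((Submodule.mem_bot A).1 this).symm⟩
    · rintro ⟨w, rfl⟩
      rw [LinearMap.zero_apply, map_zero]
  · intro i v
    constructor
    · intro _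
      exact ⟨0, (eq_zero_of_fin_zero rfl v).symm ▸ rfl⟩
    · intro _
      rw [LinearMap.zero_apply]
  · intro n
    rw [hker, bot_inf_eq, Submodule.map_zero]
  · intro i n
    rw [Submodule.map_zero]
    refine (eq_bot_iff.2 ?_).symm
    rintro v -
    exact (Submodule.mem_bot A).2 (eq_zero_of_fin_zero rfl v)
  · intro i hi
    obtain ⟨j, rfl⟩ : ∃ j, i = j + 1 := ⟨i - 1, by omega⟩
    rfl

theorem exists_fres_succ {M : Type u} [AddCommGroup M] [Module A M] {F : ℕ → Submodule A M}
    (hF : F 0 = ⊤) (b : ℕ) (a : Fin b → ℕ) (φ : (Fin b → A) →ₗ[A] M)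
    (hφ : ∀ n, (wfil (fun k => (I ^ k : Ideal A)) a n).map φ = F n) (r : ℕ)
    (Y : FRes I (fun n => (wfil (fun k => (I ^ k : Ideal A)) a n).comap
      (LinearMap.ker φ).subtype) r) :
    Nonempty (FRes I F (r + 1)) := by
  have hsurj : Surjective φ := by
    rw [← LinearMap.range_eq_top, eq_top_iff, ← hF, ← hφ]
    exact LinearMap.map_le_range
  refine ⟨{
    b := fun
      | 0 => b
      | i + 1 => Y.b i
    ε := φ
    δ := fun
      | 0 => (LinearMap.ker φ).subtype ∘ₗ Y.ε
      | i + 1 => Y.δ i
    surj := hsurj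
    exact_zero := ?_
    exact_succ := ?_
    a := fun
      | 0 => a
      | i + 1 => Y.a i
    strict_ε := hφ
    strict_zero := ?_
    strict_succ := ?_
    bound := ?_ }⟩
  · intro v
    constructor
    · intro hv
      obtain ⟨w, hw⟩ := Y.surj ⟨v, hv⟩
      exact ⟨w, congrArg Subtype.val hw⟩
    · rintro ⟨w, rfl⟩
      exact (Y.ε w).2
  · intro i
    cases i with
    | zero =>
      intro v
      rw [← Y.exact_zero v]
      exact ⟨fun h => Subtype.ext h, fun h => congrArg Subtype.val h⟩
    | succ i => exact Y.exact_succ i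
  · intro n
    change (wfil (fun k => (I ^ k : Ideal A)) (Y.a 0) n).map ((LinearMap.ker φ).subtype ∘ₗ Y.ε) = _
    rw [Submodule.map_comp, Y.strict_ε, Submodule.map_comap_subtype]
  · intro i n
    cases i with
    | zero =>
      change (wfil (fun k => (I ^ k : Ideal A)) (Y.a 1) n).map (Y.δ 0) =
        LinearMap.ker ((LinearMap.ker φ).subtype ∘ₗ Y.ε) ⊓ wfil (fun k => (I ^ k : Ideal A)) (Y.a 0) n
      rw [LinearMap.ker_comp_of_ker_eq_bot _ (Submodule.ker_subtype _), Y.strict_zero]
    | succ i => exact Y.strict_succ i n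
  · intro i hi
    obtain ⟨j, rfl⟩ : ∃ j, i = j + 1 := ⟨i - 1, by omega⟩
    exact Y.bound j (by omega)

theorem exists_fres (r : ℕ) : ∀ {M : Type u} [AddCommGroup M] [Module A M]
    {F : ℕ → Submodule A M}, F 0 = ⊤ → FPD I r M F → Nonempty (FRes I F r) := by
  induction r with
  | zero =>
    intro M _ _ F hF h
    obtain ⟨b, a, φ, hφ, hk⟩ := h
    exact exists_fres_zero hF b a φ hφ hk
  | succ r ih =>
    intro M _ _ F hF h
    obtain ⟨b, a, φ, hφ, hrec⟩ := h
    obtain ⟨Y⟩ := ih (by
      rw [((goodFil_self I).weighted a).top]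
      exact Submodule.comap_top _) hrec
    exact exists_fres_succ hF b a φ hφ r Y

/-- Strict free resolutions over regular local rings. -/
theorem exists_fres_of_regular {A : Type u} [CommRing A] [IsRegularLocalRing A] {d : ℕ}
    (hd : ringKrullDim A = d) {M : Type u} [AddCommGroup M] [Module A M] [Module.Finite A M]
    {F : ℕ → Submodule A M} (hF : GoodFil (maximalIdeal A) F) :
    Nonempty (FRes (maximalIdeal A) F d) :=
  exists_fres d hF.top (fpd_of_regular d A hd M F hF)

end Vale.Agent.P177
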