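import Mathlib.RingTheory.PowerSeries.NoZeroDivisors
import Mathlib.Algebra.Polynomial.RingDivision
import Mathlib.Order.Filter.AtTopBot.Archimedean
import Mathlib.Tactic

/-!
Integer sequences of Hilbert polynomial type.
-/

namespace Vale.Agent.P177

open PowerSeries

/-- The sequence `f` grows like a polynomial of degree `D` with positive leading coefficient. -/
def HP (f : ℕ → ℤ) (D : ℕ) : Prop :=
  ∃ P : Polynomial ℤ, 0 < P.eval 1 ∧ (1 - X) ^ (D + 1) * mk f = (P : ℤ⟦X⟧)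

theorem one_sub_X_ne_zero : (1 - X : ℤ⟦X⟧) ≠ 0 := by
  intro h
  have := congrArg (coeff 0) h
  simp at this

/-- The sequence of differences. -/
def dif (f : ℕ → ℤ) : ℕ → ℤ
  | 0 => f 0
  | n + 1 => f (n + 1) - f n

theorem one_sub_X_mul_mk (f : ℕ → ℤ) : (1 - X) * mk f = mk (dif f) := by
  ext n
  cases n with
  | zero => simp [dif]
  | succ n =>
    rw [sub_mul, one_mul, map_sub, coeff_succ_X_mul, coeff_mk, coeff_mk, coeff_mk]
    rfl

theorem sum_dif (f : ℕ → ℤ) (n : ℕ) : ∑ i ∈ Finset.range (n + 1), dif f i = f n := by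
  induction n with
  | zero => simp [dif]
  | succ n ih =>
    rw [Finset.sum_range_succ, ih]
    simp [dif]

theorem HP.dif {f : ℕ → ℤ} {D : ℕ} (h : HP f (D + 1)) : HP (dif f) D := by
  obtain ⟨P, hP, he⟩ := h
  refine ⟨P, hP, ?_⟩
  rw [← one_sub_X_mul_mk, ← mul_assoc, ← pow_succ]
  exact he

theorem HP.eventually_zero {f : ℕ → ℤ} (P : Polynomial ℤ)
    (he : (1 - X) ^ (0 + 1) * mk f = (P : ℤ⟦X⟧)) (n : ℕ) (hn : P.natDegree ≤ n) :
    f n = P.eval 1 := by
  rw [zero_add, pow_one, one_sub_X_mul_mk] at he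
  rw [← sum_dif f n, Polynomial.eval_eq_sum_range' (Nat.lt_succ_of_le hn)]
  refine Finset.sum_congr rfl fun i _ => ?_
  have := congrArg (coeff i) he
  rw [coeff_mk, Polynomial.coeff_coe] at this
  rw [this, one_pow, mul_one]

theorem tendsto_of_dif {f : ℕ → ℤ} (n₀ : ℕ) (h : ∀ n, n₀ ≤ n → 1 ≤ dif f n) :
    Filter.Tendsto f Filter.atTop Filter.atTop := by
  have key : ∀ k : ℕ, f n₀ + k ≤ f (n₀ + k) := by
    intro k
    induction k with
    | zero => simp
    | succ k ih =>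
      have := h (n₀ + k + 1) (by omega)
      change 1 ≤ f (n₀ + k + 1) - f (n₀ + k) at this
      have e : n₀ + (k + 1) = n₀ + k + 1 := by omega
      rw [e]
      push_cast
      linarith
  rw [Filter.tendsto_atTop_atTop]
  intro b
  refine ⟨n₀ + (b - f n₀).toNat, fun n hn => ?_⟩
  obtain ⟨k, rfl⟩ := Nat.exists_eq_add_of_le (show n₀ ≤ n by omega)
  have h1 := key k
  have h2 : b - f n₀ ≤ (b - f n₀).toNat := Int.self_le_toNat _
  have h3 : (((b - f n₀).toNat : ℕ) : ℤ) ≤ k := by exact_mod_cast (by omega : (b - f n₀).toNat ≤ k)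
  linarith

theorem HP.eventually_pos {f : ℕ → ℤ} {D : ℕ} (h : HP f D) : ∃ n₀, ∀ n, n₀ ≤ n → 1 ≤ f n := by
  induction D generalizing f with
  | zero =>
    obtain ⟨P, hP, he⟩ := h
    exact ⟨P.natDegree, fun n hn => by rw [HP.eventually_zero P he n hn]; omega⟩
  | succ D ih =>
    obtain ⟨n₀, hn₀⟩ := ih h.dif
    have := (Filter.tendsto_atTop_atTop.1 (tendsto_of_dif n₀ hn₀)) 1
    exact this

theorem HP.tendsto {f : ℕ → ℤ} {D : ℕ} (h : HP f (D + 1)) :
    Filter.Tendsto f Filter.atTop Filter.atTop := by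
  obtain ⟨n₀, hn₀⟩ := h.dif.eventually_pos
  exact tendsto_of_dif n₀ hn₀

/-- Comparison of growth. -/
theorem HP.le_of_le {f g : ℕ → ℤ} {D E : ℕ} (hf : HP f D) (hg : HP g E) (n₀ : ℕ)
    (h : ∀ n, n₀ ≤ n → f n ≤ g n) : D ≤ E := by
  by_contra hcon
  rw [not_le] at hcon
  obtain ⟨P, hP, he⟩ := hf
  obtain ⟨Q, hQ, he'⟩ := hg
  obtain ⟨k, rfl⟩ := Nat.exists_eq_add_of_lt hcon
  have h1 : HP (fun n => f n - g n) (E + k + 1) := by
    refine ⟨P - Q * (1 - Polynomial.X) ^ (k + 1), by simp [hP], ?_⟩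
    have e1 : (mk fun n => f n - g n) = mk f - mk g := by
      ext n
      simp
    rw [e1, mul_sub, he]
    have e2 : (1 - X : ℤ⟦X⟧) ^ (E + k + 1 + 1) = (1 - X) ^ (k + 1) * (1 - X) ^ (E + 1) := by
      rw [← pow_add]
      congr 1
      omega
    rw [e2, mul_assoc, he']
    push_cast
    ring
  have h2 := (Filter.tendsto_atTop_atTop.1 h1.tendsto) 1
  obtain ⟨n₁, hn₁⟩ := h2
  have h3 := hn₁ (max n₀ n₁) (le_max_right _ _)
  have h4 := h (max n₀ n₁) (le_max_left _ _)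
  linarith

/-- Classification of nonnegative sequences with rational generating function. -/
theorem exists_HP {f : ℕ → ℤ} {k : ℕ} {P : Polynomial ℤ} (he : (1 - X) ^ k * mk f = (P : ℤ⟦X⟧))
    (n₀ : ℕ) (hf : ∀ n, n₀ ≤ n → 1 ≤ f n) : ∃ D, D < k ∧ HP f D := by
  have hP0 : P ≠ 0 := by
    rintro rfl
    have h1 : mk f = 0 := by
      rw [Polynomial.coe_zero] at he
      exact (mul_eq_zero.1 he).resolve_left (pow_ne_zero _ one_sub_X_ne_zero)
    have h2 := congrArg (coeff n₀) h1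
    rw [coeff_mk, map_zero] at h2
    have := hf n₀ le_rfl
    omega
  obtain ⟨Q, hQ, hdvd⟩ := Polynomial.exists_eq_pow_rootMultiplicity_mul_and_not_dvd P hP0 1
  set u := P.rootMultiplicity 1 with hu
  rw [Polynomial.dvd_iff_isRoot, Polynomial.IsRoot.def] at hdvd
  -- pass to powers of `1 - X`
  let Q' : Polynomial ℤ := (-1) ^ u * Q
  have hQ' : P = (1 - Polynomial.X) ^ u * Q' := by
    rw [hQ]
    have : (Polynomial.X - Polynomial.C 1 : Polynomial ℤ) = (-1) * (1 - Polynomial.X) := by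
      simp
    rw [this, mul_pow]
    ring
  have hQ'1 : Q'.eval 1 ≠ 0 := by
    simp only [Q', Polynomial.eval_mul, Polynomial.eval_pow, Polynomial.eval_neg,
      Polynomial.eval_one]
    exact mul_ne_zero (pow_ne_zero _ (by norm_num)) hdvd
  have hPc : (P : ℤ⟦X⟧) = (1 - X) ^ u * (Q' : ℤ⟦X⟧) := by
    rw [hQ']
    push_cast
    ring
  rw [hPc] at he
  by_cases huk : k ≤ u
  · exfalso
    obtain ⟨v, hv⟩ := Nat.exists_eq_add_of_le huk
    have h1 : mk f = ((((1 - Polynomial.X) ^ v * Q' : Polynomial ℤ)) : ℤ⟦X⟧) := by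
      apply mul_left_cancel₀ (pow_ne_zero k one_sub_X_ne_zero)
      rw [he, hv, pow_add]
      push_cast
      ring
    have h2 := congrArg (coeff (max n₀ (((1 - Polynomial.X) ^ v * Q' : Polynomial ℤ).natDegree + 1)))
      h1
    rw [coeff_mk, Polynomial.coeff_coe, Polynomial.coeff_eq_zero_of_natDegree_lt
      (lt_of_lt_of_le (Nat.lt_succ_self _) (le_max_right _ _))] at h2
    have := hf _ (le_max_left n₀ (((1 - Polynomial.X) ^ v * Q' : Polynomial ℤ).natDegree + 1))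
    omega
  · rw [not_le] at huk
    obtain ⟨D, rfl⟩ := Nat.exists_eq_add_of_lt huk
    have h1 : (1 - X) ^ (D + 1) * mk f = (Q' : ℤ⟦X⟧) := by
      apply mul_left_cancel₀ (pow_ne_zero u one_sub_X_ne_zero)
      rw [← he, ← mul_assoc, ← pow_add]
      congr 2
    refine ⟨D, by omega, Q', ?_, h1⟩
    by_contra hneg
    have h2 : HP (fun n => - f n) D := by
      refine ⟨-Q', ?_, ?_⟩
      · rw [Polynomial.eval_neg]
        omega
      · have e1 : (mk fun n => - f n) = - mk f := by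
          ext n
          simp
        rw [e1, mul_neg, h1]
        push_cast
        rfl
    obtain ⟨n₁, hn₁⟩ := h2.eventually_pos
    have h3 := hn₁ (max n₀ n₁) (le_max_right _ _)
    have h4 := hf (max n₀ n₁) (le_max_left _ _)
    omega

/-- The shifted sequence. -/
def shiftSeq (f : ℕ → ℤ) : ℕ → ℤ
  | 0 => 0
  | n + 1 => f n

theorem X_mul_mk (f : ℕ → ℤ) : X * mk f = mk (shiftSeq f) := by
  ext n
  cases n with
  | zero => simp [shiftSeq]
  | succ n =>
    rw [coeff_succ_X_mul, coeff_mk, coeff_mk]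
    rfl

/-- The three cases for the intersection function. -/
theorem prod_cases {f g ψ : ℕ → ℤ} {d D E : ℕ} (hf : HP f D) (hg : HP g E)
    (h : X * mk ψ = (1 - X) ^ (d + 1) * (mk f * mk g)) :
    (D + E < d → ∃ n₀, ∀ n, n₀ ≤ n → ψ n = 0) ∧
    (D + E = d → ∃ n₀, ∀ n, n₀ ≤ n → 1 ≤ ψ n) ∧
    (d < D + E → Filter.Tendsto ψ Filter.atTop Filter.atTop) := by
  obtain ⟨P, hP, he⟩ := hf
  obtain ⟨Q, hQ, he'⟩ := hg
  have key : (1 - X) ^ (D + 1) * (1 - X) ^ (E + 1) * mk (shiftSeq ψ) =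
      (1 - X) ^ (d + 1) * ((P * Q : Polynomial ℤ) : ℤ⟦X⟧) := by
    rw [← X_mul_mk, h]
    push_cast
    rw [← he, ← he']
    ring
  have hpos : ∀ j, D + E = d + j → HP (shiftSeq ψ) j := by
    intro j hj
    refine ⟨P * Q, by rw [Polynomial.eval_mul]; exact mul_pos hP hQ, ?_⟩
    apply mul_left_cancel₀ (pow_ne_zero (d + 1) one_sub_X_ne_zero)
    rw [← key, ← pow_add, ← mul_assoc, ← pow_add]
    congr 2
    omega
  refine ⟨?_, ?_, ?_⟩
  · intro hlt
    obtain ⟨j, rfl⟩ := Nat.exists_eq_add_of_lt hlt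
    have h1 : mk (shiftSeq ψ) = (((1 - Polynomial.X) ^ j * (P * Q) : Polynomial ℤ) : ℤ⟦X⟧) := by
      apply mul_left_cancel₀ (pow_ne_zero (D + E + 2) one_sub_X_ne_zero)
      have e1 : (1 - X : ℤ⟦X⟧) ^ (D + E + 2) = (1 - X) ^ (D + 1) * (1 - X) ^ (E + 1) := by
        rw [← pow_add]
        congr 1
        omega
      rw [e1, key]
      have e2 : (1 - X : ℤ⟦X⟧) ^ (D + E + j + 1 + 1) =
          (1 - X) ^ (D + 1) * (1 - X) ^ (E + 1) * (1 - X) ^ j := by
        rw [← pow_add, ← pow_add]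
        congr 1
        omega
      rw [e2]
      push_cast
      ring
    refine ⟨((1 - Polynomial.X) ^ j * (P * Q) : Polynomial ℤ).natDegree, fun n hn => ?_⟩
    have h2 := congrArg (coeff (n + 1)) h1
    rw [coeff_mk, Polynomial.coeff_coe, Polynomial.coeff_eq_zero_of_natDegree_lt (by omega)] at h2
    exact h2
  · intro heq
    obtain ⟨n₀, hn₀⟩ := (hpos 0 (by omega)).eventually_pos
    exact ⟨n₀, fun n hn => hn₀ (n + 1) (by omega)⟩
  · intro hlt
    obtain ⟨j, hj⟩ := Nat.exists_eq_add_of_lt hlt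
    have h1 := (hpos (j + 1) (by omega)).tendsto
    have h2 : ψ = fun n => shiftSeq ψ (n + 1) := rfl
    rw [h2]
    exact h1.comp (Filter.tendsto_add_atTop_nat 1)

end Vale.Agent.P177
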