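import Mathlib

/-!
Regular local rings: they are domains, quotients by an element of m not in m^2 are regular,
and a generating list of m of length dim R is a regular sequence.
-/

namespace Vale.Agent.P177

open IsLocalRing RingTheory.Sequence Pointwise

universe u

lemma exists_nat_eq_ringKrullDim (R : Type*) [CommRing R] [FiniteRingKrullDim R] :
    ∃ n : ℕ, ringKrullDim R = n := by
  obtain ⟨a, ha⟩ := WithBot.ne_bot_iff_exists.mp (ringKrullDim_ne_bot (R := R))
  have htop : a ≠ ⊤ := fun h => ringKrullDim_ne_top (R := R) (by rw [← ha, h]; rfl)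
  obtain ⟨n, hn⟩ := ENat.ne_top_iff_exists.mp htop
  exact ⟨n, by rw [← ha, ← hn]; rfl⟩

section exchange

variable {R : Type u} [CommRing R] [IsLocalRing R]

/-- Exchange lemma. -/
lemma exists_insert_erase_span [DecidableEq R] (s : Finset R)
    (hs : Ideal.span (s : Set R) = maximalIdeal R)
    {y : R} (hy : y ∈ maximalIdeal R) (hy2 : y ∉ maximalIdeal R ^ 2) :
    ∃ r ∈ s, Ideal.span (insert y (s.erase r : Finset R) : Set R) = maximalIdeal R := by
  have hmem : y ∈ Ideal.span (s : Set R) := hs ▸ hy
  obtain ⟨f, -, hf⟩ := Submodule.mem_span_finset.mp hmem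
  have hex : ∃ r ∈ s, f r ∉ maximalIdeal R := by
    by_contra hcon
    push Not at hcon
    apply hy2
    rw [← hf, pow_two]
    refine Submodule.sum_mem _ fun r hr => ?_
    exact Ideal.mul_mem_mul (hcon r hr) (hs ▸ Ideal.subset_span hr)
  obtain ⟨r, hr, hfr⟩ := hex
  refine ⟨r, hr, ?_⟩
  have hu : IsUnit (f r) := by
    by_contra h
    exact hfr ((mem_maximalIdeal _).mpr h)
  obtain ⟨u, hu⟩ := hu
  apply le_antisymm
  · rw [Ideal.span_le]
    intro z hz
    rcases hz with rfl | hz
    · exact hy
    · exact hs ▸ Ideal.subset_span (Finset.mem_of_mem_erase hz)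
  · rw [← hs, Ideal.span_le]
    intro z hz
    by_cases hzr : z = r
    · subst hzr
      have h1 : f z * z = y - ∑ a ∈ s.erase z, f a • a := by
        rw [← hf, ← Finset.add_sum_erase s _ hr]
        simp
      have h2 : z = (↑u⁻¹ : R) * (y - ∑ a ∈ s.erase z, f a • a) := by
        rw [← h1, ← hu, Units.inv_mul_cancel_left]
      have h3 : (↑u⁻¹ : R) * (y - ∑ a ∈ s.erase z, f a • a) ∈
          Ideal.span (insert y (s.erase z : Finset R) : Set R) := by
        apply Ideal.mul_mem_left
        apply Ideal.sub_mem
        · exact Ideal.subset_span (Set.mem_insert _ _)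
        · refine Submodule.sum_mem _ fun a ha => ?_
          exact Ideal.mul_mem_left _ _ (Ideal.subset_span (Set.mem_insert_of_mem _ ha))
      rwa [← h2] at h3
    · exact Ideal.subset_span (Set.mem_insert_of_mem _ (Finset.mem_erase.mpr ⟨hzr, hz⟩))

end exchange

section TaskA
variable (R : Type u) [CommRing R] [IsRegularLocalRing R]

lemma exists_nat_ringKrullDim :
    ringKrullDim R = ((maximalIdeal R).spanFinrank : WithBot ℕ∞) :=
  ((isRegularLocalRing_iff R).mp inferInstance).symm

theorem regular_quotient (y : R) (hy : y ∈ maximalIdeal R) (hy2 : y ∉ maximalIdeal R ^ 2) :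
    IsRegularLocalRing (R ⧸ Ideal.span {y}) ∧
      ringKrullDim (R ⧸ Ideal.span {y}) + 1 = ringKrullDim R := by
  classical
  have hne : Ideal.span {y} ≠ ⊤ := fun h => by
    rw [Ideal.span_singleton_eq_top] at h
    exact (mem_maximalIdeal _).mp hy h
  have : Nontrivial (R ⧸ Ideal.span {y}) := Ideal.Quotient.nontrivial_iff.mpr hne
  have : IsLocalRing (R ⧸ Ideal.span {y}) :=
    .of_surjective' (Ideal.Quotient.mk (Ideal.span {y})) Ideal.Quotient.mk_surjective
  obtain ⟨s, hcard, hs⟩ := Submodule.FG.exists_span_finset_card_eq_spanFinrank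
    ((maximalIdeal R).fg_of_isNoetherianRing)
  change Ideal.span (s : Set R) = maximalIdeal R at hs
  obtain ⟨r, hr, hspan⟩ := exists_insert_erase_span s hs hy hy2
  have hmax : maximalIdeal (R ⧸ Ideal.span {y}) =
      Ideal.span ((s.erase r).image (Ideal.Quotient.mk (Ideal.span {y})) : Set _) := by
    have h1 : (maximalIdeal R).map (Ideal.Quotient.mk (Ideal.span {y})) =
        maximalIdeal (R ⧸ Ideal.span {y}) :=
      map_maximalIdeal_of_surjective _ Ideal.Quotient.mk_surjective
    rw [← h1, ← hspan, Ideal.map_span, Set.image_insert_eq, Ideal.Quotient.mk_singleton_self,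
      Finset.coe_image]
    exact Submodule.span_insert_zero
  have hrank : (maximalIdeal (R ⧸ Ideal.span {y})).spanFinrank + 1 ≤
      (maximalIdeal R).spanFinrank := by
    rw [← hcard, ← Finset.card_erase_add_one hr]
    gcongr
    rw [hmax]
    refine (Submodule.spanFinrank_span_le_ncard_of_finite (Finset.finite_toSet _)).trans ?_
    rw [Set.ncard_coe_finset]
    exact Finset.card_image_le
  have hd := exists_nat_ringKrullDim R
  have h1 := ringKrullDim_le_spanFinrank_maximalIdeal (R ⧸ Ideal.span {y})
  have h2 : ringKrullDim R ≤ ringKrullDim (R ⧸ Ideal.span {y}) + 1 := by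
    have := ringKrullDim_le_ringKrullDim_quotSMulTop_succ hy
    have e : y • (⊤ : Ideal R) = Ideal.span {y} := by
      rw [← Submodule.ideal_span_singleton_smul, smul_eq_mul, Ideal.mul_top]
    rwa [e] at this
  obtain ⟨n, hn⟩ := exists_nat_eq_ringKrullDim (R ⧸ Ideal.span {y})
  rw [hn] at h1 h2
  rw [hd] at h2
  rw [isRegularLocalRing_iff, hn, hd]
  norm_cast at h1 h2 ⊢
  omega

theorem regular_isDomain : IsDomain R := by
  classical
  obtain ⟨n, hn⟩ := exists_nat_eq_ringKrullDim R
  induction n generalizing R with
  | zero =>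
    have h0 : (maximalIdeal R).spanFinrank = 0 := by
      have := exists_nat_ringKrullDim R
      rw [hn] at this
      exact_mod_cast this.symm
    rw [Submodule.spanFinrank_eq_zero_iff_eq_bot ((maximalIdeal R).fg_of_isNoetherianRing)] at h0
    exact (isField_iff_maximalIdeal_eq.mpr h0).isDomain
  | succ n ih =>
    have hfin := minimalPrimes.finite_of_isNoetherianRing R
    -- prime avoidance
    obtain ⟨y, hy, hy2, hymin⟩ : ∃ y ∈ maximalIdeal R, y ∉ maximalIdeal R ^ 2 ∧
        ∀ P ∈ minimalPrimes R, y ∉ P := by
      by_contra hcon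
      push Not at hcon
      have hsub : (maximalIdeal R : Set R) ⊆
          ⋃ i ∈ (↑(insert (maximalIdeal R ^ 2) hfin.toFinset) : Set (Ideal R)),
            ((id i : Ideal R) : Set R) := by
        intro z hz
        by_cases hz2 : z ∈ maximalIdeal R ^ 2
        · exact Set.mem_biUnion (Finset.mem_coe.mpr (Finset.mem_insert_self _ _)) hz2
        · obtain ⟨P, hP, hzP⟩ := hcon z hz hz2
          exact Set.mem_biUnion (Finset.mem_coe.mpr (Finset.mem_insert_of_mem
            (hfin.mem_toFinset.mpr hP))) hzP
      rw [Ideal.subset_union_prime (f := id) (maximalIdeal R ^ 2) (maximalIdeal R ^ 2)] at hsub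
      · obtain ⟨P, hP, hle⟩ := hsub
        rcases Finset.mem_insert.mp hP with rfl | hP
        · have hbot : maximalIdeal R = ⊥ := by
            apply Submodule.eq_bot_of_le_smul_of_le_jacobson_bot (maximalIdeal R) _
              ((maximalIdeal R).fg_of_isNoetherianRing)
            · rw [smul_eq_mul, ← pow_two]; exact hle
            · rw [IsLocalRing.jacobson_eq_maximalIdeal _ bot_ne_top]
          have h1 := exists_nat_ringKrullDim R
          rw [hbot, Submodule.spanFinrank_bot, hn] at h1
          norm_cast at h1
        · have hPmin := hfin.mem_toFinset.mp hP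
          have hPp : P.IsPrime := hPmin.1.1
          have hPeq : P = maximalIdeal R := le_antisymm (le_maximalIdeal hPp.ne_top) hle
          have h1 : (maximalIdeal R).height = 0 := by
            rw [← hPeq]
            exact Ideal.height_eq_zero_iff.mpr hPmin
          have h2 := maximalIdeal_height_eq_ringKrullDim (R := R)
          rw [h1, hn] at h2
          norm_cast at h2
      · intro P hP h1 _
        rcases Finset.mem_insert.mp hP with rfl | hP
        · exact absurd rfl h1
        · exact (hfin.mem_toFinset.mp hP).1.1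
    obtain ⟨hreg, hdim⟩ := regular_quotient R y hy hy2
    have hdom : IsDomain (R ⧸ Ideal.span {y}) := by
      apply ih
      obtain ⟨k, hk⟩ := exists_nat_eq_ringKrullDim (R ⧸ Ideal.span {y})
      rw [hk, hn] at hdim
      rw [hk]
      norm_cast at hdim ⊢
      omega
    have hprime : (Ideal.span {y}).IsPrime := (Ideal.Quotient.isDomain_iff_prime _).mp hdom
    obtain ⟨P, hP, hPle⟩ := Ideal.exists_minimalPrimes_le (I := ⊥) (J := Ideal.span {y}) bot_le
    have hPp : P.IsPrime := hP.1.1
    have hyP : y ∉ P := hymin P hP
    have hPbot : P = ⊥ := by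
      apply Submodule.eq_bot_of_le_smul_of_le_jacobson_bot (maximalIdeal R) P
        P.fg_of_isNoetherianRing
      · intro a ha
        obtain ⟨b, rfl⟩ := Ideal.mem_span_singleton'.mp (hPle ha)
        have hb : b ∈ P := (hPp.mem_or_mem ha).resolve_right hyP
        rw [mul_comm]
        exact Submodule.smul_mem_smul hy hb
      · rw [IsLocalRing.jacobson_eq_maximalIdeal _ bot_ne_top]
    rw [hPbot] at hPp
    exact IsDomain.of_bot_isPrime R

theorem exists_list_maximalIdeal :
    ∃ rs : List R, Ideal.ofList rs = maximalIdeal R ∧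
      (rs.length : WithBot ℕ∞) = ringKrullDim R := by
  obtain ⟨s, hcard, hs⟩ := Submodule.FG.exists_span_finset_card_eq_spanFinrank
    ((maximalIdeal R).fg_of_isNoetherianRing)
  refine ⟨s.toList, ?_, ?_⟩
  · rw [← hs]
    simp [Ideal.ofList, Ideal.span]
  · rw [Finset.length_toList, hcard, exists_nat_ringKrullDim R]

theorem isRegular_of_ofList_eq_maximalIdeal (rs : List R)
    (h : Ideal.ofList rs = maximalIdeal R) (hlen : (rs.length : WithBot ℕ∞) = ringKrullDim R) :
    IsRegular R rs := by
  obtain ⟨n, hn⟩ : ∃ n, rs.length = n := ⟨_, rfl⟩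
  induction n generalizing R with
  | zero =>
    rw [List.length_eq_zero_iff] at hn
    subst hn
    exact IsRegular.nil R R
  | succ n ih =>
    obtain ⟨r, rs, rfl⟩ := List.exists_cons_of_length_eq_add_one hn
    simp only [List.length_cons, Nat.add_right_cancel_iff] at hn
    have : IsDomain R := regular_isDomain R
    have hr : r ∈ maximalIdeal R := by
      rw [← h, Ideal.ofList_cons]
      exact Ideal.mem_sup_left (Ideal.mem_span_singleton_self r)
    have hr2 : r ∉ maximalIdeal R ^ 2 := by
      intro hcon
      have h1 : Ideal.ofList rs = maximalIdeal R := by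
        apply le_antisymm
        · rw [← h, Ideal.ofList_cons]; exact le_sup_right
        · apply Submodule.le_of_le_smul_of_le_jacobson_bot (I := maximalIdeal R)
            ((maximalIdeal R).fg_of_isNoetherianRing)
          · rw [IsLocalRing.jacobson_eq_maximalIdeal _ bot_ne_top]
          · rw [smul_eq_mul, ← pow_two]
            nth_rewrite 1 [← h]
            rw [Ideal.ofList_cons]
            apply sup_le
            · rw [Ideal.span_singleton_le_iff_mem]
              exact Ideal.mem_sup_right hcon
            · exact le_sup_left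
      have h2 : (maximalIdeal R).spanFinrank ≤ rs.length := by
        classical
        rw [← h1]
        have : Ideal.ofList rs = Submodule.span R (rs.toFinset : Set R) := by
          simp [Ideal.ofList, Ideal.span]
        rw [this]
        refine (Submodule.spanFinrank_span_le_ncard_of_finite (Finset.finite_toSet _)).trans ?_
        rw [Set.ncard_coe_finset]
        exact List.toFinset_card_le rs
      have h3 := exists_nat_ringKrullDim R
      rw [← hlen] at h3
      norm_cast at h3
      simp only [List.length_cons] at h3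
      omega
    have hr0 : r ≠ 0 := fun h0 => hr2 (h0 ▸ zero_mem _)
    obtain ⟨hreg, hdim⟩ := regular_quotient R r hr hr2
    rw [isRegular_cons_iff']
    refine ⟨(IsRegular.of_ne_zero hr0).left.isSMulRegular, ?_⟩
    have hQ := ih (R ⧸ Ideal.span {r}) (rs.map (Ideal.Quotient.mk (Ideal.span {r}))) ?_ ?_
      (by simpa using hn)
    · have heq : (Ideal.span {r} : Submodule R R) = r • ⊤ := by
        rw [← Submodule.ideal_span_singleton_smul, smul_eq_mul, Ideal.mul_top]
      refine (AddEquiv.isRegular_congr
        (e := (Submodule.quotEquivOfEq _ _ heq).toAddEquiv) ?_).mp hQ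
      refine List.forall₂_same.mpr fun t _ x => ?_
      obtain ⟨a, rfl⟩ := Ideal.Quotient.mk_surjective t
      change Submodule.quotEquivOfEq _ _ heq (algebraMap R (R ⧸ Ideal.span {r}) a • x) =
        algebraMap R (R ⧸ Ideal.span {r}) a • Submodule.quotEquivOfEq _ _ heq x
      rw [algebraMap_smul, algebraMap_smul, map_smul]
    · rw [← Ideal.map_ofList, ← map_maximalIdeal_of_surjective _ Ideal.Quotient.mk_surjective,
        ← h, Ideal.ofList_cons, Ideal.map_sup, Ideal.map_span]
      simp
    · obtain ⟨k, hk⟩ := exists_nat_eq_ringKrullDim (R ⧸ Ideal.span {r})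
      rw [hk, ← hlen] at hdim
      rw [hk]
      norm_cast at hdim ⊢
      simp only [List.length_cons, List.length_map] at hdim ⊢
      omega

end TaskA

end Vale.Agent.P177
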