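import Mathlib
import Vale.Agent.P177.Regular

/-!
The kernel of a surjection from a regular local ring onto a flat extension of a hypersurface
of the same embedding codimension is principal.
-/

namespace Vale.Agent.P177

open IsLocalRing RingTheory.Sequence Pointwise TensorProduct

universe u

lemma maximalIdeal_ne_sq (R : Type u) [CommRing R] [IsRegularLocalRing R] {n : ℕ}
    (hn : ringKrullDim R = (n + 1 : ℕ)) : ¬ maximalIdeal R ≤ maximalIdeal R ^ 2 := by
  intro hle
  have hbot : maximalIdeal R = ⊥ := by
    apply Submodule.eq_bot_of_le_smul_of_le_jacobson_bot (maximalIdeal R) _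
      ((maximalIdeal R).fg_of_isNoetherianRing)
    · rw [smul_eq_mul, ← pow_two]; exact hle
    · rw [IsLocalRing.jacobson_eq_maximalIdeal _ bot_ne_top]
  have h1 := exists_nat_ringKrullDim R
  rw [hbot, Submodule.spanFinrank_bot, hn] at h1
  norm_cast at h1

lemma isPrime_span_singleton (R : Type u) [CommRing R] [IsRegularLocalRing R] {y : R}
    (hy : y ∈ maximalIdeal R) (hy2 : y ∉ maximalIdeal R ^ 2) : (Ideal.span {y}).IsPrime := by
  have := (regular_quotient R y hy hy2).1
  have := regular_isDomain (R ⧸ Ideal.span {y})
  exact (Ideal.Quotient.isDomain_iff_prime _).mp this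

theorem exists_prime_not_dvd (R : Type u) [CommRing R] [IsRegularLocalRing R] (a : R) (ha : a ≠ 0)
    (hd : 2 ≤ ringKrullDim R) :
    ∃ y ∈ maximalIdeal R, y ∉ maximalIdeal R ^ 2 ∧ a ∉ Ideal.span {y} := by
  classical
  have : IsDomain R := regular_isDomain R
  by_contra hcon
  push Not at hcon
  have hfin := Ideal.finite_minimalPrimes_of_isNoetherianRing R (Ideal.span {a})
  have hsub : (maximalIdeal R : Set R) ⊆
      ⋃ i ∈ (↑(insert (maximalIdeal R ^ 2) hfin.toFinset) : Set (Ideal R)),
        ((id i : Ideal R) : Set R) := by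
    intro z hz
    by_cases hz2 : z ∈ maximalIdeal R ^ 2
    · exact Set.mem_biUnion (Finset.mem_coe.mpr (Finset.mem_insert_self _ _)) hz2
    · have hza := hcon z hz hz2
      have hzp := isPrime_span_singleton R hz hz2
      obtain ⟨P, hP, hPle⟩ := Ideal.exists_minimalPrimes_le (I := Ideal.span {a})
        (J := Ideal.span {z}) (by rwa [Ideal.span_singleton_le_iff_mem])
      have hPp : P.IsPrime := hP.1.1
      have haP : a ∈ P := hP.1.2 (Ideal.mem_span_singleton_self a)
      have hzP : z ∈ P := by
        by_contra hzP
        have hPbot : P = ⊥ := by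
          apply Submodule.eq_bot_of_le_smul_of_le_jacobson_bot (maximalIdeal R) P
            P.fg_of_isNoetherianRing
          · intro c hc
            obtain ⟨b, rfl⟩ := Ideal.mem_span_singleton'.mp (hPle hc)
            have hb : b ∈ P := (hPp.mem_or_mem hc).resolve_right hzP
            rw [mul_comm]
            exact Submodule.smul_mem_smul hz hb
          · rw [IsLocalRing.jacobson_eq_maximalIdeal _ bot_ne_top]
        rw [hPbot] at haP
        exact ha haP
      exact Set.mem_biUnion (Finset.mem_coe.mpr (Finset.mem_insert_of_mem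
        (hfin.mem_toFinset.mpr hP))) hzP
  obtain ⟨n, hn⟩ := exists_nat_eq_ringKrullDim R
  rw [Ideal.subset_union_prime (f := id) (maximalIdeal R ^ 2) (maximalIdeal R ^ 2)] at hsub
  · obtain ⟨P, hP, hle⟩ := hsub
    rcases Finset.mem_insert.mp hP with rfl | hP
    · obtain ⟨m, rfl⟩ : ∃ m, n = m + 1 := by
        rw [hn] at hd
        norm_cast at hd
        exact ⟨n - 1, by omega⟩
      exact maximalIdeal_ne_sq R hn hle
    · have hPmin := hfin.mem_toFinset.mp hP
      have hPp : P.IsPrime := hPmin.1.1
      have hPeq : P = maximalIdeal R := le_antisymm (le_maximalIdeal hPp.ne_top) hle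
      have h1 : P.height ≤ 1 := by
        have : (Ideal.span {a}).IsPrincipal := ⟨a, rfl⟩
        exact Ideal.height_le_one_of_isPrincipal_of_mem_minimalPrimes _ _ hPmin
      have h2 := maximalIdeal_height_eq_ringKrullDim (R := R)
      rw [← hPeq] at h2
      rw [← h2] at hd
      have h3 : (2 : WithBot ℕ∞) ≤ ((1 : ℕ∞) : WithBot ℕ∞) := hd.trans (by exact_mod_cast h1)
      norm_cast at h3
  · intro P hP h1 _
    rcases Finset.mem_insert.mp hP with rfl | hP
    · exact absurd rfl h1
    · exact (hfin.mem_toFinset.mp hP).1.1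

lemma isPrincipalIdealRing_of_dim_one (S : Type u) [CommRing S] [IsRegularLocalRing S]
    (hS : ringKrullDim S = 1) : IsPrincipalIdealRing S := by
  have : IsDomain S := regular_isDomain S
  have h1 := exists_nat_ringKrullDim S
  rw [hS] at h1
  have h2 : (maximalIdeal S).spanFinrank = 1 := by
    exact_mod_cast h1.symm
  have h3 : (maximalIdeal S).IsPrincipal := ((Submodule.spanFinrank_eq_one_iff _).mp h2).1
  exact ((tfae_of_isNoetherianRing_of_isLocalRing_of_isDomain S).out 4 0).mp h3

lemma exists_pow_le_span (R : Type u) [CommRing R] [IsRegularLocalRing R]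
    (hR : ringKrullDim R = 1) (a : R) (ha : a ≠ 0) :
    ∃ N : ℕ, maximalIdeal R ^ N ≤ Ideal.span {a} := by
  have : IsDomain R := regular_isDomain R
  have := isPrincipalIdealRing_of_dim_one R hR
  by_cases hu : IsUnit a
  · exact ⟨0, by simp [Ideal.span_singleton_eq_top.mpr hu]⟩
  have h := ((tfae_of_isNoetherianRing_of_isLocalRing_of_isDomain R).out 0 6).mp
    ‹IsPrincipalIdealRing R›
  obtain ⟨N, hN⟩ := h (Ideal.span {a}) (by simpa using ha)
  exact ⟨N, hN.ge⟩

lemma flat_quotient_map (A C : Type u) [CommRing A] [CommRing C] [Algebra A C] [Module.Flat A C]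
    (I : Ideal A) : Module.Flat (A ⧸ I) (C ⧸ I.map (algebraMap A C)) := by
  let e₁ : (C ⧸ I.map (algebraMap A C)) ≃ₗ[A] (A ⧸ I) ⊗[A] C :=
    ((Algebra.TensorProduct.quotIdealMapEquivTensorQuot C I).toLinearEquiv.restrictScalars A).trans
      (TensorProduct.comm A C (A ⧸ I))
  let e₂ : (C ⧸ I.map (algebraMap A C)) ≃ₗ[A ⧸ I] (A ⧸ I) ⊗[A] C :=
    e₁.extendScalarsOfSurjective Ideal.Quotient.mk_surjective
  exact Module.Flat.of_linearEquiv e₂

theorem ker_principal_aux (n : ℕ) : ∀ {R S C A : Type u} [CommRing R] [IsRegularLocalRing R]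
    [CommRing S] [IsRegularLocalRing S] [CommRing A] [CommRing C] [IsLocalRing C]
    [Algebra A C] [Module.Flat A C] (ψ : R →+* A) (_ : Function.Surjective ψ) (a : R)
    (_ : RingHom.ker ψ = Ideal.span {a}) (_ : a ∈ maximalIdeal R ^ 2) (_ : a ≠ 0)
    (_ : ((maximalIdeal R).map ψ).map (algebraMap A C) = maximalIdeal C)
    (φ : S →+* C) (_ : Function.Surjective φ)
    (_ : ringKrullDim R = n) (_ : ringKrullDim S = n),
    ∃ g : S, g ≠ 0 ∧ RingHom.ker φ = Ideal.span {g} := by
  induction n with
  | zero =>
    intro R S C A _ _ _ _ _ _ _ _ _ ψ hψ a hker ha ha0 hloc φ hφ hR hS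
    exfalso
    have h1 := exists_nat_ringKrullDim R
    rw [hR] at h1
    have h2 : (maximalIdeal R).spanFinrank = 0 := by exact_mod_cast h1.symm
    rw [Submodule.spanFinrank_eq_zero_iff_eq_bot ((maximalIdeal R).fg_of_isNoetherianRing)] at h2
    rw [h2] at ha
    apply ha0
    simpa [pow_two] using ha
  | succ n ih =>
    intro R S C A _ _ _ _ _ _ _ _ _ ψ hψ a hker ha ha0 hloc φ hφ hR hS
    have hRd : IsDomain R := regular_isDomain R
    have hSd : IsDomain S := regular_isDomain S
    have hloc' : (maximalIdeal R).map ((algebraMap A C).comp ψ) = maximalIdeal C := by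
      rw [← hloc, Ideal.map_map]
    have hA : Nontrivial A := by
      by_contra hcon
      rw [not_nontrivial_iff_subsingleton] at hcon
      have : (1 : C) = 0 := by
        rw [← map_one (algebraMap A C), Subsingleton.elim (1 : A) 0, map_zero]
      exact one_ne_zero this
    have hAl : IsLocalRing A := .of_surjective' ψ hψ
    have hmA : (maximalIdeal R).map ψ = maximalIdeal A :=
      map_maximalIdeal_of_surjective _ hψ
    have hlh : IsLocalHom (algebraMap A C) := by
      apply ((local_hom_TFAE (algebraMap A C)).out 0 2).mpr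
      rw [← hmA, hloc]
    have hff : Module.FaithfullyFlat A C := Module.FaithfullyFlat.of_flat_of_isLocalHom
    rcases n with _ | n
    · -- dimension one
      have hSp := isPrincipalIdealRing_of_dim_one S (by simpa using hS)
      obtain ⟨N, hN⟩ := exists_pow_le_span R (by simpa using hR) a ha0
      obtain ⟨g, hg⟩ := (IsPrincipalIdealRing.principal (RingHom.ker φ)).principal
      refine ⟨g, ?_, hg⟩
      rintro rfl
      have hinj : Function.Injective φ := by
        rw [RingHom.injective_iff_ker_eq_bot, hg]
        simp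
      have hnil : maximalIdeal C ^ N = ⊥ := by
        rw [← hloc', ← Ideal.map_pow, eq_bot_iff]
        refine (Ideal.map_mono hN).trans ?_
        rw [Ideal.map_span, Set.image_singleton, Ideal.span_singleton_le_iff_mem, Ideal.mem_bot,
          RingHom.comp_apply]
        have : ψ a = 0 := by
          rw [← RingHom.mem_ker, hker]; exact Ideal.mem_span_singleton_self a
        rw [this, map_zero]
      have hbot : maximalIdeal S = ⊥ := by
        rw [eq_bot_iff]
        intro s hs
        have h1 : φ s ∈ maximalIdeal C := by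
          rw [← map_maximalIdeal_of_surjective φ hφ]
          exact Ideal.mem_map_of_mem _ hs
        have h2 : φ (s ^ N) = 0 := by
          have := Ideal.pow_mem_pow h1 N
          rw [hnil] at this
          rw [map_pow]; exact this
        have h3 : s ^ N = 0 := hinj (by rw [h2, map_zero])
        exact eq_zero_of_pow_eq_zero h3
      have h4 := exists_nat_ringKrullDim S
      rw [hbot, Submodule.spanFinrank_bot, hS] at h4
      norm_cast at h4
    · -- dimension at least two
      obtain ⟨y, hy, hy2, hay⟩ := exists_prime_not_dvd R a ha0 (by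
        rw [hR]; exact_mod_cast (by omega : 2 ≤ n + 1 + 1))
      obtain ⟨Y, hY⟩ := hφ (algebraMap A C (ψ y))
      have hyC : algebraMap A C (ψ y) ∈ maximalIdeal C := by
        rw [← hloc]
        exact Ideal.mem_map_of_mem _ (Ideal.mem_map_of_mem _ hy)
      have hYm : Y ∈ maximalIdeal S := by
        rw [mem_maximalIdeal]
        intro hu
        have := hu.map φ
        rw [hY] at this
        exact (mem_maximalIdeal _).mp hyC this
      have hYm2 : Y ∉ maximalIdeal S ^ 2 := by
        intro hcon
        have h1 : algebraMap A C (ψ y) ∈ maximalIdeal C ^ 2 := by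
          rw [← hY, ← map_maximalIdeal_of_surjective φ hφ, ← Ideal.map_pow]
          exact Ideal.mem_map_of_mem _ hcon
        have h2 : ψ y ∈ maximalIdeal A ^ 2 := by
          rw [← Ideal.comap_map_eq_self_of_faithfullyFlat (B := C) (maximalIdeal A ^ 2),
            Ideal.mem_comap, Ideal.map_pow, ← hmA, hloc]
          exact h1
        rw [← hmA, ← Ideal.map_pow] at h2
        obtain ⟨y', hy', hyy⟩ := (Ideal.mem_map_iff_of_surjective ψ hψ).mp h2
        have h3 : y - y' ∈ RingHom.ker ψ := by
          rw [RingHom.mem_ker, map_sub, hyy, sub_self]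
        rw [hker] at h3
        have h4 : y - y' ∈ maximalIdeal R ^ 2 :=
          (Ideal.span_singleton_le_iff_mem _).mpr ha h3
        exact hy2 (by simpa using add_mem h4 hy')
      obtain ⟨hregR, hdimR⟩ := regular_quotient R y hy hy2
      obtain ⟨hregS, hdimS⟩ := regular_quotient S Y hYm hYm2
      -- the quotient data
      let I : Ideal A := Ideal.span {ψ y}
      have hImap : I.map (algebraMap A C) = Ideal.span {algebraMap A C (ψ y)} := by
        rw [Ideal.map_span, Set.image_singleton]
      have hflat : Module.Flat (A ⧸ I) (C ⧸ I.map (algebraMap A C)) := flat_quotient_map A C I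
      have hne : I.map (algebraMap A C) ≠ ⊤ := by
        rw [hImap]
        intro h
        rw [Ideal.span_singleton_eq_top] at h
        exact (mem_maximalIdeal _).mp hyC h
      have hnt : Nontrivial (C ⧸ I.map (algebraMap A C)) := Ideal.Quotient.nontrivial_iff.mpr hne
      have hCl : IsLocalRing (C ⧸ I.map (algebraMap A C)) :=
        .of_surjective' (Ideal.Quotient.mk _) Ideal.Quotient.mk_surjective
      let ψ' : R ⧸ Ideal.span {y} →+* A ⧸ I :=
        Ideal.quotientMap I ψ (by
          rw [Ideal.span_singleton_le_iff_mem, Ideal.mem_comap]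
          exact Ideal.mem_span_singleton_self _)
      have hψ' : Function.Surjective ψ' := Ideal.quotientMap_surjective hψ
      let φ' : S ⧸ Ideal.span {Y} →+* C ⧸ I.map (algebraMap A C) :=
        Ideal.quotientMap _ φ (by
          rw [Ideal.span_singleton_le_iff_mem, Ideal.mem_comap, hImap, hY]
          exact Ideal.mem_span_singleton_self _)
      have hφ' : Function.Surjective φ' := Ideal.quotientMap_surjective hφ
      have hker' : RingHom.ker ψ' = Ideal.span {Ideal.Quotient.mk (Ideal.span {y}) a} := by
        apply le_antisymm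
        · intro r hr
          obtain ⟨r, rfl⟩ := Ideal.Quotient.mk_surjective r
          rw [RingHom.mem_ker, Ideal.quotientMap_mk, Ideal.Quotient.eq_zero_iff_mem] at hr
          obtain ⟨c, hc⟩ := Ideal.mem_span_singleton'.mp hr
          obtain ⟨c, rfl⟩ := hψ c
          have h3 : r - c * y ∈ RingHom.ker ψ := by
            rw [RingHom.mem_ker, map_sub, map_mul, hc, sub_self]
          rw [hker] at h3
          obtain ⟨b, hb⟩ := Ideal.mem_span_singleton'.mp h3
          rw [Ideal.mem_span_singleton']
          refine ⟨Ideal.Quotient.mk _ b, ?_⟩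
          rw [← map_mul, hb, Ideal.Quotient.mk_eq_mk_iff_sub_mem]
          have : r - c * y - r = -(c * y) := by ring
          rw [this, neg_mem_iff]
          exact Ideal.mul_mem_left _ _ (Ideal.mem_span_singleton_self _)
        · rw [Ideal.span_singleton_le_iff_mem, RingHom.mem_ker, Ideal.quotientMap_mk]
          have : ψ a = 0 := by
            rw [← RingHom.mem_ker, hker]; exact Ideal.mem_span_singleton_self a
          rw [this, map_zero]
      have hmR : (maximalIdeal R).map (Ideal.Quotient.mk (Ideal.span {y})) =
          maximalIdeal (R ⧸ Ideal.span {y}) :=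
        map_maximalIdeal_of_surjective _ Ideal.Quotient.mk_surjective
      have ha' : Ideal.Quotient.mk (Ideal.span {y}) a ∈ maximalIdeal (R ⧸ Ideal.span {y}) ^ 2 := by
        rw [← hmR, ← Ideal.map_pow]
        exact Ideal.mem_map_of_mem _ ha
      have ha0' : Ideal.Quotient.mk (Ideal.span {y}) a ≠ 0 := by
        rw [Ne, Ideal.Quotient.eq_zero_iff_mem]
        exact hay
      have hloc'' : ((maximalIdeal (R ⧸ Ideal.span {y})).map ψ').map
          (algebraMap (A ⧸ I) (C ⧸ I.map (algebraMap A C))) =
          maximalIdeal (C ⧸ I.map (algebraMap A C)) := by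
        rw [← hmR, ← map_maximalIdeal_of_surjective (Ideal.Quotient.mk (I.map (algebraMap A C)))
          Ideal.Quotient.mk_surjective, ← hloc, Ideal.map_map, Ideal.map_map, Ideal.map_map,
          Ideal.map_map]
        rfl
      have hdR : ringKrullDim (R ⧸ Ideal.span {y}) = (n + 1 : ℕ) := by
        obtain ⟨k, hk⟩ := exists_nat_eq_ringKrullDim (R ⧸ Ideal.span {y})
        rw [hk, hR] at hdimR
        rw [hk]
        norm_cast at hdimR ⊢
        omega
      have hdS : ringKrullDim (S ⧸ Ideal.span {Y}) = (n + 1 : ℕ) := by
        obtain ⟨k, hk⟩ := exists_nat_eq_ringKrullDim (S ⧸ Ideal.span {Y})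
        rw [hk, hS] at hdimS
        rw [hk]
        norm_cast at hdimS ⊢
        omega
      obtain ⟨g', hg'0, hg'⟩ := ih ψ' hψ' _ hker' ha' ha0' hloc'' φ' hφ' hdR hdS
      obtain ⟨G, hG⟩ := Ideal.Quotient.mk_surjective g'
      have hGk : φ' (Ideal.Quotient.mk _ G) = 0 := by
        rw [← RingHom.mem_ker, hg', hG]; exact Ideal.mem_span_singleton_self _
      rw [Ideal.quotientMap_mk, Ideal.Quotient.eq_zero_iff_mem, hImap] at hGk
      obtain ⟨c, hc⟩ := Ideal.mem_span_singleton'.mp hGk
      obtain ⟨t, rfl⟩ := hφ c
      have hgk : φ (G - t * Y) = 0 := by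
        rw [map_sub, map_mul, hY, hc, sub_self]
      have hgm : Ideal.Quotient.mk (Ideal.span {Y}) (G - t * Y) = g' := by
        rw [map_sub, hG, sub_eq_self, Ideal.Quotient.eq_zero_iff_mem]
        exact Ideal.mul_mem_left _ _ (Ideal.mem_span_singleton_self _)
      refine ⟨G - t * Y, ?_, ?_⟩
      · intro h0
        rw [h0, map_zero] at hgm
        exact hg'0 hgm.symm
      · have hreg : ∀ c : C, algebraMap A C (ψ y) * c = 0 → c = 0 := by
          have hyA : IsSMulRegular A (ψ y) := by
            rw [isSMulRegular_iff_right_eq_zero_of_smul]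
            intro r hr
            obtain ⟨r, rfl⟩ := hψ r
            rw [smul_eq_mul, ← map_mul, ← RingHom.mem_ker, hker] at hr
            obtain ⟨s, hs⟩ := Ideal.mem_span_singleton'.mp hr
            have hyp := isPrime_span_singleton R hy hy2
            have h5 : s * a ∈ Ideal.span {y} := by
              rw [hs]; exact Ideal.mul_mem_right _ _ (Ideal.mem_span_singleton_self _)
            obtain ⟨s', hs'⟩ := Ideal.mem_span_singleton'.mp ((hyp.mem_or_mem h5).resolve_right hay)
            have hy0 : y ≠ 0 := fun h => hy2 (h ▸ zero_mem _)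
            have h6 : s' * a = r := by
              apply mul_left_cancel₀ hy0
              rw [← hs, ← hs']; ring
            rw [← RingHom.mem_ker, hker, ← h6]
            exact Ideal.mul_mem_left _ _ (Ideal.mem_span_singleton_self _)
          have hyC' : IsSMulRegular C (algebraMap A C (ψ y)) := hyA.of_flat
          intro c hc'
          exact isSMulRegular_iff_right_eq_zero_of_smul.mp hyC' c hc'
        apply le_antisymm
        · apply Submodule.le_of_le_smul_of_le_jacobson_bot (I := maximalIdeal S)
            ((RingHom.ker φ).fg_of_isNoetherianRing)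
          · rw [IsLocalRing.jacobson_eq_maximalIdeal _ bot_ne_top]
          · intro κ hκ
            have h7 : Ideal.Quotient.mk (Ideal.span {Y}) κ ∈ RingHom.ker φ' := by
              rw [RingHom.mem_ker, Ideal.quotientMap_mk, hκ, map_zero]
            rw [hg', ← hgm] at h7
            obtain ⟨α, hα⟩ := Ideal.mem_span_singleton'.mp h7
            obtain ⟨α, rfl⟩ := Ideal.Quotient.mk_surjective α
            rw [← map_mul, eq_comm, Ideal.Quotient.mk_eq_mk_iff_sub_mem] at hα
            obtain ⟨β, hβ⟩ := Ideal.mem_span_singleton'.mp hα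
            have h8 : κ = α * (G - t * Y) + β * Y := by rw [hβ]; ring
            have h9 : φ β = 0 := by
              apply hreg
              have := congrArg φ h8
              rw [map_add, map_mul, map_mul, hgk, (RingHom.mem_ker).mp hκ, mul_zero, zero_add,
                hY] at this
              rw [mul_comm]; exact this.symm
            rw [h8]
            apply add_mem
            · exact Ideal.mem_sup_left (Ideal.mul_mem_left _ _ (Ideal.mem_span_singleton_self _))
            · apply Ideal.mem_sup_right
              rw [mul_comm]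
              exact Submodule.smul_mem_smul hYm ((RingHom.mem_ker).mpr h9)
        · rw [Ideal.span_singleton_le_iff_mem, RingHom.mem_ker, hgk]

theorem ker_isPrincipal {R S C : Type u} [CommRing R] [IsRegularLocalRing R]
    [CommRing S] [IsRegularLocalRing S] (hdim : ringKrullDim R = ringKrullDim S)
    [CommRing C] [IsLocalRing C] (a : R) (ha : a ∈ maximalIdeal R ^ 2) (ha0 : a ≠ 0)
    [Algebra (R ⧸ Ideal.span {a}) C] [Module.Flat (R ⧸ Ideal.span {a}) C]
    (hloc : ((maximalIdeal R).map (Ideal.Quotient.mk (Ideal.span {a}))).map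
      (algebraMap (R ⧸ Ideal.span {a}) C) = maximalIdeal C)
    (φ : S →+* C) (hφ : Function.Surjective φ) :
    ∃ g : S, g ≠ 0 ∧ RingHom.ker φ = Ideal.span {g} := by
  obtain ⟨n, hn⟩ := exists_nat_eq_ringKrullDim R
  exact ker_principal_aux n (Ideal.Quotient.mk (Ideal.span {a})) Ideal.Quotient.mk_surjective a
    Ideal.mk_ker ha ha0 hloc φ hφ hn (hdim ▸ hn)

end Vale.Agent.P177
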