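import Vale.Agent.P177.Regular
import Vale.Agent.P177.PrincipalKernel

/-!
The kernel of a surjection from a regular local ring onto a discrete valuation ring is generated
by a regular sequence.
-/

namespace Vale.Agent.P177

open CategoryTheory TensorProduct Function IsLocalRing RingTheory.Sequence Pointwise

universe u v

theorem exists_regular_ker (V : Type v) [CommRing V] [IsDomain V] [IsDiscreteValuationRing V]
    (r : ℕ) : ∀ (R : Type u) [CommRing R] [IsRegularLocalRing R] (φ : R →+* V),
    Surjective φ → ringKrullDim R = r →
    ∃ zs : List R, (∀ z ∈ zs, z ∈ maximalIdeal R) ∧ IsWeaklyRegular R zs ∧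
      Ideal.ofList zs = RingHom.ker φ := by
  induction r with
  | zero =>
    intro R _ _ φ hφ hr
    have hD : IsDomain R := regular_isDomain R
    have hker : RingHom.ker φ ≤ maximalIdeal R := le_maximalIdeal (RingHom.ker_ne_top φ)
    have h0 : (maximalIdeal R).spanFinrank = 0 := by
      have := exists_nat_ringKrullDim R
      rw [hr] at this
      exact_mod_cast this.symm
    have h1 : maximalIdeal R = ⊥ := by
      rwa [Submodule.spanFinrank_eq_zero_iff_eq_bot ((maximalIdeal R).fg_of_isNoetherianRing)]
        at h0
    refine ⟨[], by simp, IsWeaklyRegular.nil _ _, ?_⟩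
    rw [Ideal.ofList_nil]
    exact (le_bot_iff.1 (h1 ▸ hker)).symm
  | succ r ih =>
    intro R _ _ φ hφ hr
    have hD : IsDomain R := regular_isDomain R
    have hker : RingHom.ker φ ≤ maximalIdeal R := le_maximalIdeal (RingHom.ker_ne_top φ)
    have hkp : (RingHom.ker φ).IsPrime := RingHom.ker_isPrime φ
    by_cases hle : RingHom.ker φ ≤ maximalIdeal R ^ 2
    · -- the maximal ideal is principal and the kernel vanishes
      obtain ⟨ϖ, hϖ⟩ := IsDiscreteValuationRing.exists_irreducible V
      obtain ⟨π, rfl⟩ := hφ ϖ
      have hmV : maximalIdeal V = Ideal.span {φ π} := hϖ.maximalIdeal_eq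
      have hmap : (maximalIdeal R).map φ = maximalIdeal V := map_maximalIdeal_of_surjective _ hφ
      have hle2 : maximalIdeal R ≤ Ideal.span {π} ⊔ maximalIdeal R • maximalIdeal R := by
        intro x hx
        have h1 : φ x ∈ maximalIdeal V := hmap ▸ Ideal.mem_map_of_mem φ hx
        rw [hmV, Ideal.mem_span_singleton'] at h1
        obtain ⟨c, hc⟩ := h1
        obtain ⟨c, rfl⟩ := hφ c
        have h2 : x - c * π ∈ RingHom.ker φ := by
          rw [RingHom.mem_ker, map_sub, map_mul, hc, sub_self]
        have h3 : x = c * π + (x - c * π) := by ring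
        rw [h3]
        refine Submodule.add_mem_sup (Ideal.mul_mem_left _ _ (Ideal.mem_span_singleton_self π)) ?_
        rw [smul_eq_mul, ← pow_two]
        exact hle h2
      have hπm : π ∈ maximalIdeal R := by
        by_contra hcon
        rw [mem_maximalIdeal, mem_nonunits_iff, not_not] at hcon
        exact hϖ.not_isUnit (hcon.map φ)
      have h4 : maximalIdeal R ≤ Ideal.span {π} := by
        apply Submodule.le_of_le_smul_of_le_jacobson_bot (I := maximalIdeal R)
          ((maximalIdeal R).fg_of_isNoetherianRing)
        · rw [IsLocalRing.jacobson_eq_maximalIdeal _ bot_ne_top]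
        · exact hle2
      have hπk : π ∉ RingHom.ker φ := by
        rw [RingHom.mem_ker]
        exact hϖ.ne_zero
      have h5 : RingHom.ker φ = ⊥ := by
        apply Submodule.eq_bot_of_le_smul_of_le_jacobson_bot (maximalIdeal R) _
          ((RingHom.ker φ).fg_of_isNoetherianRing)
        · intro x hx
          have h6 := h4 (hker hx)
          rw [Ideal.mem_span_singleton'] at h6
          obtain ⟨c, rfl⟩ := h6
          have h7 : c ∈ RingHom.ker φ := (hkp.mem_or_mem hx).resolve_right hπk
          rw [mul_comm]
          exact Submodule.smul_mem_smul hπm h7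
        · rw [IsLocalRing.jacobson_eq_maximalIdeal _ bot_ne_top]
      refine ⟨[], by simp, IsWeaklyRegular.nil _ _, ?_⟩
      rw [Ideal.ofList_nil, h5]
    · rw [SetLike.not_le_iff_exists] at hle
      obtain ⟨f, hf, hf2⟩ := hle
      have hfm : f ∈ maximalIdeal R := hker hf
      have hf0 : f ≠ 0 := fun h0 => hf2 (h0 ▸ zero_mem _)
      obtain ⟨hreg, hdim⟩ := regular_quotient R f hfm hf2
      let φ' : R ⧸ Ideal.span {f} →+* V := Ideal.Quotient.lift _ φ (by
        intro x hx
        rw [Ideal.mem_span_singleton'] at hx
        obtain ⟨c, rfl⟩ := hx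
        rw [map_mul, (RingHom.mem_ker).1 hf, mul_zero])
      have hφ' : Surjective φ' := by
        intro x
        obtain ⟨y, rfl⟩ := hφ x
        exact ⟨Ideal.Quotient.mk _ y, Ideal.Quotient.lift_mk _ _ _⟩
      have hd : ringKrullDim (R ⧸ Ideal.span {f}) = r := by
        obtain ⟨k, hk⟩ := exists_nat_eq_ringKrullDim (R ⧸ Ideal.span {f})
        rw [hk, hr] at hdim
        rw [hk]
        norm_cast at hdim ⊢
        omega
      obtain ⟨zs, hzs, hzreg, hzk⟩ := ih (R ⧸ Ideal.span {f}) φ' hφ' hd
      obtain ⟨ws, rfl⟩ : ∃ ws : List R, ws.map (Ideal.Quotient.mk (Ideal.span {f})) = zs := by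
        clear hzs hzreg hzk
        induction zs with
        | nil => exact ⟨[], rfl⟩
        | cons z zs ih =>
          obtain ⟨ws, rfl⟩ := ih
          obtain ⟨w, rfl⟩ := Ideal.Quotient.mk_surjective z
          exact ⟨w :: ws, rfl⟩
      have hker' : Ideal.ofList (f :: ws) = RingHom.ker φ := by
        have h1 : (Ideal.ofList ws).map (Ideal.Quotient.mk (Ideal.span {f})) =
            RingHom.ker φ' := by
          rw [Ideal.map_ofList]
          exact hzk
        apply le_antisymm
        · rw [Ideal.ofList_cons]
          apply sup_le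
          · rw [Ideal.span_singleton_le_iff_mem]
            exact hf
          · intro x hx
            have h2 : Ideal.Quotient.mk (Ideal.span {f}) x ∈ RingHom.ker φ' :=
              h1 ▸ Ideal.mem_map_of_mem _ hx
            rw [RingHom.mem_ker] at h2 ⊢
            rw [← h2]
            exact (Ideal.Quotient.lift_mk _ _ _).symm
        · intro x hx
          have h2 : Ideal.Quotient.mk (Ideal.span {f}) x ∈ RingHom.ker φ' := by
            rw [RingHom.mem_ker]
            exact (Ideal.Quotient.lift_mk _ _ _).trans hx
          rw [← h1, Ideal.mem_map_iff_of_surjective _ Ideal.Quotient.mk_surjective] at h2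
          obtain ⟨y, hy, hxy⟩ := h2
          rw [Ideal.Quotient.eq] at hxy
          have h3 : x = -(y - x) + y := by ring
          rw [h3, Ideal.ofList_cons]
          exact Submodule.add_mem_sup (neg_mem hxy) hy
      refine ⟨f :: ws, ?_, ?_, hker'⟩
      · intro z hz
        apply hker
        rw [← hker']
        exact Ideal.subset_span hz
      · rw [isWeaklyRegular_cons_iff']
        refine ⟨(IsRegular.of_ne_zero hf0).left.isSMulRegular, ?_⟩
        have heq : (Ideal.span {f} : Submodule R R) = f • ⊤ := by
          rw [← Submodule.ideal_span_singleton_smul, smul_eq_mul, Ideal.mul_top]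
        refine (AddEquiv.isWeaklyRegular_congr
          (e := (Submodule.quotEquivOfEq _ _ heq).toAddEquiv) ?_).mp hzreg
        refine List.forall₂_same.mpr fun t _ x => ?_
        obtain ⟨a, rfl⟩ := Ideal.Quotient.mk_surjective t
        change Submodule.quotEquivOfEq _ _ heq (algebraMap R (R ⧸ Ideal.span {f}) a • x) =
          algebraMap R (R ⧸ Ideal.span {f}) a • Submodule.quotEquivOfEq _ _ heq x
        rw [algebraMap_smul, algebraMap_smul, map_smul]

end Vale.Agent.P177
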