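import Vale.Agent.P177.CFres
import Vale.Agent.P177.CHilb

/-!
Hilbert functions of filtered modules over regular local rings.
-/

namespace Vale.Agent.P177

open Function IsLocalRing PowerSeries

universe u

section basic

variable {A : Type*} [CommRing A] {C : Type*} [AddCommGroup C] [Module A C]

theorem rl_top_eq (Y : Submodule A C) : rl ⊤ Y = Module.length A (C ⧸ Y) := by
  unfold rl
  refine LinearEquiv.length_eq (Submodule.Quotient.equiv _ _ Submodule.topEquiv ?_)
  ext v
  constructor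
  · rintro ⟨w, hw, rfl⟩
    exact hw
  · intro hv
    exact ⟨⟨v, trivial⟩, hv, rfl⟩

theorem rl_top_anti {Y Z : Submodule A C} (h : Y ≤ Z) : rl ⊤ Z ≤ rl ⊤ Y := by
  rw [rl_top_eq, rl_top_eq]
  exact Module.length_le_of_surjective (Submodule.factor h) (Submodule.factor_surjective h)

/-- The Hilbert function of a filtration. -/
noncomputable def lamF (G : ℕ → Submodule A C) (n : ℕ) : ℤ := ((rl ⊤ (G n)).toNat : ℤ)

theorem rl_pi {b : ℕ} (G : Fin b → Submodule A C) :
    rl ⊤ (Submodule.pi Set.univ G : Submodule A (Fin b → C)) = ∑ j, rl ⊤ (G j) := by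
  rw [rl_top_eq, LinearEquiv.length_eq (Submodule.quotientPi G), Module.length_pi_of_fintype]
  exact Finset.sum_congr rfl fun j _ => (rl_top_eq _).symm

theorem lamF_wfil (G : ℕ → Submodule A C) (hG : ∀ n, rl ⊤ (G n) ≠ ⊤) {b : ℕ} (a : Fin b → ℕ)
    (n : ℕ) : rl ⊤ (wfil G a n) ≠ ⊤ ∧ lamF (wfil G a) n = ∑ j, lamF G (n - a j) := by
  unfold lamF
  have h1 : rl ⊤ (wfil G a n) = ∑ j, rl ⊤ (G (n - a j)) := rl_pi _
  have h2 : ∀ j, rl ⊤ (G (n - a j)) = (((rl ⊤ (G (n - a j))).toNat : ℕ) : ℕ∞) := fun j =>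
    (ENat.natCast_toNat (hG _)).symm
  have h3 : rl ⊤ (wfil G a n) = ((∑ j, (rl ⊤ (G (n - a j))).toNat : ℕ) : ℕ∞) := by
    rw [h1, Nat.cast_sum]
    exact Finset.sum_congr rfl fun j _ => h2 j
  rw [h3]
  refine ⟨ENat.natCast_ne_top _, ?_⟩
  rw [ENat.toNat_natCast]
  push_cast
  rfl

end basic

section fin

variable {A : Type u} [CommRing A] [IsLocalRing A] [IsNoetherianRing A]
  {M : Type u} [AddCommGroup M] [Module A M] [Module.Finite A M]

theorem rl_pow_ne_top (n : ℕ) : rl ⊤ (maximalIdeal A ^ n • ⊤ : Submodule A M) ≠ ⊤ := by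
  rw [rl_top_eq, Module.length_ne_top_iff]
  refine isFiniteLength_of_pow_smul_eq_zero n ?_
  intro a ha x
  obtain ⟨x, rfl⟩ := Submodule.mkQ_surjective _ x
  rw [← map_smul]
  exact (Submodule.Quotient.mk_eq_zero _).2 (Submodule.smul_mem_smul ha trivial)

theorem GoodFil.rl_ne_top {F : ℕ → Submodule A M} (hF : GoodFil (maximalIdeal A) F) (n : ℕ) :
    rl ⊤ (F n) ≠ ⊤ := by
  have h1 : (maximalIdeal A ^ n • ⊤ : Submodule A M) ≤ F n := by
    have := hF.pow_smul n 0
    rwa [hF.top, zero_add] at this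
  intro h
  have h2 := rl_top_anti h1
  rw [h, top_le_iff] at h2
  exact rl_pow_ne_top n h2

theorem rl_self_ne_top (n : ℕ) : rl ⊤ (maximalIdeal A ^ n : Ideal A) ≠ ⊤ :=
  (goodFil_self (maximalIdeal A)).rl_ne_top n

variable (A M) in
/-- The Hilbert function of a module. -/
noncomputable def lam : ℕ → ℤ := lamF (fun n => (maximalIdeal A ^ n • ⊤ : Submodule A M))

variable (A) in
/-- The Hilbert function of the ring. -/
noncomputable def lamR : ℕ → ℤ := lamF (fun n => (maximalIdeal A ^ n : Ideal A))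

omit [IsLocalRing A] [IsNoetherianRing A] [Module.Finite A M] in
theorem lamF_zero {F : ℕ → Submodule A M} (hF : F 0 = ⊤) : lamF F 0 = 0 := by
  unfold lamF
  rw [hF, rl_eq_zero le_rfl]
  rfl

omit [IsLocalRing A] [IsNoetherianRing A] [Module.Finite A M] in
theorem lamF_mono {F G : ℕ → Submodule A M} {n k : ℕ} (h : F n ≤ G k) (hF : rl ⊤ (F n) ≠ ⊤) :
    lamF G k ≤ lamF F n := by
  unfold lamF
  exact_mod_cast ENat.toNat_le_toNat (rl_top_anti h) hF

end fin

section regular

theorem rl_restrictScalars {A B : Type*} [CommRing A] [CommRing B] [Algebra A B] {C : Type*}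
    [AddCommGroup C] [Module B C] [Module A C] [IsScalarTower A B C]
    (h : Surjective (algebraMap A B)) (Y : Submodule B C) :
    rl ⊤ (Y.restrictScalars A) = rl ⊤ Y := by
  rw [rl_top_eq, rl_top_eq, LinearEquiv.length_eq (Submodule.Quotient.restrictScalarsEquiv A Y)]
  exact Module.length_eq_of_surjective h

theorem lamR_succ {A : Type u} [CommRing A] [IsRegularLocalRing A] {x : A}
    (hx : x ∈ maximalIdeal A) (hx2 : x ∉ maximalIdeal A ^ 2)
    [IsLocalRing (A ⧸ Ideal.span {x})] (n : ℕ) :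
    rl ⊤ (maximalIdeal A ^ (n + 1) : Ideal A) = rl ⊤ (maximalIdeal A ^ n : Ideal A) +
      rl ⊤ (maximalIdeal (A ⧸ Ideal.span {x}) ^ (n + 1) : Ideal (A ⧸ Ideal.span {x})) := by
  have hdom : IsDomain A := regular_isDomain A
  have hx0 : x ≠ 0 := by
    rintro rfl
    exact hx2 (zero_mem _)
  have hmap : (maximalIdeal A).map (algebraMap A (A ⧸ Ideal.span {x})) =
      maximalIdeal (A ⧸ Ideal.span {x}) :=
    map_maximalIdeal_of_surjective _ Ideal.Quotient.mk_surjective
  let f : A →ₗ[A] (A ⧸ Ideal.span {x}) := Algebra.linearMap A _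
  let g : A →ₗ[A] A := LinearMap.mulLeft A x
  have hg : LinearMap.ker g = ⊥ := by
    rw [LinearMap.ker_eq_bot]
    exact mul_right_injective₀ hx0
  have h1 := rl_map f (X := ⊤) (Y := (maximalIdeal A ^ (n + 1) : Ideal A)) le_top
  have h2 := rl_map g (X := ⊤) (Y := (maximalIdeal A ^ n : Ideal A)) le_top
  rw [hg, bot_inf_eq, bot_inf_eq, rl_eq_zero le_rfl, zero_add] at h2
  have h3 : LinearMap.ker f ⊓ ⊤ = (⊤ : Submodule A A).map g := by
    rw [inf_top_eq]
    ext v
    constructor
    · intro hv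
      have hv' : (Ideal.Quotient.mk (Ideal.span {x})) v = 0 := hv
      rw [Ideal.Quotient.eq_zero_iff_mem, Ideal.mem_span_singleton'] at hv'
      obtain ⟨c, hc⟩ := hv'
      exact ⟨c, trivial, by change x * c = v; rw [← hc, mul_comm]⟩
    · rintro ⟨c, -, rfl⟩
      change (Ideal.Quotient.mk (Ideal.span {x})) (x * c) = 0
      rw [Ideal.Quotient.eq_zero_iff_mem]
      exact Ideal.mul_mem_right _ _ (Ideal.mem_span_singleton_self x)
  have h4 : LinearMap.ker f ⊓ (maximalIdeal A ^ (n + 1) : Ideal A) =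
      Submodule.map g (maximalIdeal A ^ n : Ideal A) := by
    ext v
    constructor
    · rintro ⟨hv, hv2⟩
      have hv' : (Ideal.Quotient.mk (Ideal.span {x})) v = 0 := hv
      rw [Ideal.Quotient.eq_zero_iff_mem, Ideal.mem_span_singleton'] at hv'
      obtain ⟨c, hc⟩ := hv'
      refine ⟨c, mem_pow_of_mul_mem hx hx2 ?_, by change x * c = v; rw [← hc, mul_comm]⟩
      rw [mul_comm, hc]
      exact hv2
    · rintro ⟨c, hc, rfl⟩
      refine ⟨?_, ?_⟩
      · change (Ideal.Quotient.mk (Ideal.span {x})) (x * c) = 0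
        rw [Ideal.Quotient.eq_zero_iff_mem]
        exact Ideal.mul_mem_right _ _ (Ideal.mem_span_singleton_self x)
      · change x * c ∈ maximalIdeal A ^ (n + 1)
        rw [pow_succ']
        exact Ideal.mul_mem_mul hx hc
  rw [h3, h4, ← h2] at h1
  rw [h1]
  congr 1
  have h5 : (⊤ : Submodule A A).map f = ⊤ := by
    rw [Submodule.map_top, LinearMap.range_eq_top]
    exact Ideal.Quotient.mk_surjective
  have h6 : Submodule.map f (maximalIdeal A ^ (n + 1) : Ideal A) =
      (maximalIdeal (A ⧸ Ideal.span {x}) ^ (n + 1) :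
        Ideal (A ⧸ Ideal.span {x})).restrictScalars A := by
    rw [← hmap, ← Ideal.map_pow]
    ext v
    constructor
    · rintro ⟨c, hc, rfl⟩
      exact Ideal.mem_map_of_mem _ hc
    · intro hv
      obtain ⟨c, hc, rfl⟩ := (Ideal.mem_map_iff_of_surjective (algebraMap A _)
        Ideal.Quotient.mk_surjective).1 hv
      exact ⟨c, hc, rfl⟩
  rw [h5, h6]
  exact rl_restrictScalars Ideal.Quotient.mk_surjective _

theorem mk_lamR (d : ℕ) : ∀ (A : Type u) [CommRing A] [IsRegularLocalRing A],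
    ringKrullDim A = d → (1 - X) ^ (d + 1) * PowerSeries.mk (lamR A) = (X : ℤ⟦X⟧) := by
  induction d with
  | zero =>
    intro A _ _ hd
    have hbot : maximalIdeal A = ⊥ := by
      obtain ⟨rs, hrs, hlen⟩ := exists_list_maximalIdeal A
      rw [hd] at hlen
      have : rs.length = 0 := by exact_mod_cast hlen
      rw [List.length_eq_zero_iff] at this
      rw [← hrs, this]
      simp [Ideal.ofList]
    have h0 : lamR A 0 = 0 := by
      unfold lamR
      exact lamF_zero (by simp)
    have h1 : ∀ n, lamR A (n + 1) = 1 := by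
      intro n
      have h2 : rl ⊤ (maximalIdeal A ^ (n + 1) : Ideal A) = 1 := by
        rw [hbot, Ideal.bot_pow (by omega), rl_top_eq]
        have e : (A ⧸ (⊥ : Ideal A)) ≃ₗ[A] (A ⧸ maximalIdeal A) :=
          Submodule.quotEquivOfEq _ _ hbot.symm
        have hs : IsSimpleModule A (A ⧸ maximalIdeal A) :=
          isSimpleModule_iff_isCoatom.2 (Ideal.IsMaximal.out (I := maximalIdeal A))
        exact e.length_eq.trans (Module.length_eq_one _ _)
      change ((rl ⊤ (maximalIdeal A ^ (n + 1) : Ideal A)).toNat : ℤ) = 1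
      rw [h2]
      rfl
    rw [zero_add, pow_one, one_sub_X_mul_mk]
    ext n
    rw [coeff_mk, coeff_X]
    match n with
    | 0 => exact h0
    | 1 =>
      change lamR A (0 + 1) - lamR A 0 = _
      rw [h0, h1]
      simp
    | n + 2 =>
      change lamR A (n + 1 + 1) - lamR A (n + 1) = _
      rw [h1, h1]
      simp
  | succ d ih =>
    intro A _ _ hd
    obtain ⟨x, hx, hx2⟩ := exists_notMem_sq hd
    obtain ⟨hreg, hdim⟩ := regular_quotient A x hx hx2
    have hdim' : ringKrullDim (A ⧸ Ideal.span {x}) = d := by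
      obtain ⟨e, he⟩ := exists_nat_eq_ringKrullDim (A ⧸ Ideal.span {x})
      rw [hd, he] at hdim
      have h1 : e + 1 = d + 1 := by exact_mod_cast hdim
      rw [he]
      have h2 : e = d := by omega
      rw [h2]
    have h1 : dif (lamR A) = lamR (A ⧸ Ideal.span {x}) := by
      funext n
      cases n with
      | zero =>
        change lamR A 0 = _
        unfold lamR
        rw [lamF_zero (by simp), lamF_zero (by simp)]
      | succ n =>
        change lamR A (n + 1) - lamR A n = _
        unfold lamR lamF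
        rw [lamR_succ hx hx2 n, ENat.toNat_add (rl_self_ne_top n) (rl_self_ne_top (n + 1))]
        push_cast
        ring
    rw [pow_succ, mul_assoc, one_sub_X_mul_mk, h1]
    exact ih (A ⧸ Ideal.span {x}) hdim'

end regular

end Vale.Agent.P177
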