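import Vale.Agent.P177.CLocDef

/-!
One sided lemmas for a flat local map of regular local rings.
-/

namespace Vale.Agent.P177

open CategoryTheory TensorProduct Function IsLocalRing RingTheory.Sequence Pointwise

universe u

section eulzero

variable {B : Type u} [CommRing B] [IsLocalRing B] [IsNoetherianRing B]

theorem eul_eq_zero_of_dim (zs : List B) (hzs : ∀ z ∈ zs, z ∈ maximalIdeal B) (X : Type u)
    [AddCommGroup X] [Module B X] [Module.Finite B X] (hX : FL zs X)
    (hd : ¬ ((zs.length : WithBot ℕ∞) ≤ Module.supportDim B X)) : eul zs X = 0 := by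
  induction zs generalizing X with
  | nil =>
    unfold eul
    have hs : Subsingleton X := by
      by_contra hns
      rw [not_subsingleton_iff_nontrivial] at hns
      apply hd
      rw [List.length_nil, Nat.cast_zero]
      unfold Module.supportDim
      have := (Module.nonempty_support_of_nontrivial (R := B) (M := X)).to_subtype
      exact Order.krullDim_nonneg
    rw [Module.length_eq_zero]
    rfl
  | cons z zs ih =>
    obtain ⟨n, Γ, hΓ, hreg⟩ := exists_torsion_pow X z
    have hzs' : ∀ y ∈ zs, y ∈ maximalIdeal B := fun y hy => hzs y (List.mem_cons_of_mem _ hy)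
    have hex : Exact Γ.subtype Γ.mkQ := by
      intro x
      simp
    have hadd := eul_add (z :: zs) Γ.subtype Γ.mkQ (Submodule.injective_subtype _)
      (Submodule.mkQ_surjective _) hex hX
    have hFLΓ : FL (z :: zs) Γ := hX.of_injective Γ.subtype (Submodule.injective_subtype _)
    have hFLΓ' : FL zs Γ := hFLΓ.of_pow n hΓ
    have hFLQ : FL (z :: zs) (X ⧸ Γ) := hX.of_surjective Γ.mkQ (Submodule.mkQ_surjective _)
    rw [eul_cons_eq_zero z zs Γ hFLΓ', zero_add] at hadd
    have htors : Subsingleton (Submodule.torsionBy B (X ⧸ Γ) z) := by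
      refine subsingleton_of_forall_eq 0 ?_
      rintro ⟨x, hx⟩
      apply Subtype.ext
      rw [isSMulRegular_iff_right_eq_zero_of_smul] at hreg
      exact hreg x hx
    have h2 : eul (z :: zs) (X ⧸ Γ) = eul zs (QuotSMulTop z (X ⧸ Γ)) := by
      change eul zs (QuotSMulTop z (X ⧸ Γ)) - eul zs (Submodule.torsionBy B (X ⧸ Γ) z) = _
      rw [eul_subsingleton zs (Submodule.torsionBy B (X ⧸ Γ) z), sub_zero]
    rw [hadd, h2]
    apply ih hzs' (QuotSMulTop z (X ⧸ Γ)) hFLQ.quot
    intro hle
    apply hd
    have h3 := Module.supportDim_quotSMulTop_succ_eq_supportDim hreg (hzs z List.mem_cons_self)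
    refine le_trans ?_ (Module.supportDim_le_of_surjective Γ.mkQ (Submodule.mkQ_surjective _))
    rw [← h3, List.length_cons]
    push_cast
    gcongr

end eulzero

section onesided

variable {R T : Type u} [CommRing R] [IsRegularLocalRing R] [CommRing T] [IsRegularLocalRing T]
  [Algebra R T] [Module.Flat R T] [IsLocalHom (algebraMap R T)] {r t : ℕ}

omit [IsRegularLocalRing R] [IsRegularLocalRing T] [Module.Flat R T]
  [IsLocalHom (algebraMap R T)] in
theorem algebraMap_mem_maximalIdeal [IsLocalRing R] [IsLocalRing T] [IsLocalHom (algebraMap R T)]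
    {z : R} (hz : z ∈ maximalIdeal R) : algebraMap R T z ∈ maximalIdeal T := by
  by_contra h
  have h1 : IsUnit (algebraMap R T z) := by
    by_contra h2
    exact h ((IsLocalRing.mem_maximalIdeal _).2 h2)
  exact (IsLocalRing.mem_maximalIdeal _).1 hz (isUnit_of_map_unit (algebraMap R T) z h1)

omit [IsRegularLocalRing R] [IsRegularLocalRing T] [Module.Flat R T]
  [IsLocalHom (algebraMap R T)] in
theorem map_mem_maximalIdeal [IsLocalRing R] [IsLocalRing T] [IsLocalHom (algebraMap R T)]
    {zs : List R} (hzs : ∀ z ∈ zs, z ∈ maximalIdeal R) :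
    ∀ z ∈ zs.map (algebraMap R T), z ∈ maximalIdeal T := by
  intro z hz
  rw [List.mem_map] at hz
  obtain ⟨y, hy, rfl⟩ := hz
  exact algebraMap_mem_maximalIdeal (hzs y hy)

/-- A regular system of parameters. -/
theorem exists_rsp (R : Type u) [CommRing R] [IsRegularLocalRing R] {r : ℕ}
    (hr : ringKrullDim R = r) :
    ∃ rs : List R, Ideal.ofList rs = maximalIdeal R ∧ rs.length = r ∧ IsWeaklyRegular R rs := by
  obtain ⟨rs, hrs, hlen⟩ := exists_list_maximalIdeal R
  have hreg := isRegular_of_ofList_eq_maximalIdeal R rs hrs hlen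
  refine ⟨rs, hrs, ?_, hreg.toIsWeaklyRegular⟩
  rw [hr] at hlen
  exact_mod_cast hlen

theorem length_le_dim (ht : ringKrullDim T = t) (zs : List T)
    (hzs : ∀ z ∈ zs, z ∈ maximalIdeal T) (hreg : IsWeaklyRegular T zs) : zs.length ≤ t := by
  have h1 := length_le_height (maximalIdeal T) zs hzs hreg
  have h2 : ((maximalIdeal T).height : WithBot ℕ∞) ≤ t :=
    ht ▸ Ideal.height_le_ringKrullDim_of_isPrime
  have h3 : ((zs.length : ℕ) : WithBot ℕ∞) ≤ t := le_trans (by exact_mod_cast h1) h2
  exact_mod_cast h3

theorem dim_le_dim (hr : ringKrullDim R = r) (ht : ringKrullDim T = t) : r ≤ t := by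
  obtain ⟨rs, hrs, hlen, hreg⟩ := exists_rsp R hr
  have h1 : IsWeaklyRegular T (rs.map (algebraMap R T)) := hreg.of_flat
  have h2 := length_le_dim ht _ (map_mem_maximalIdeal (fun z hz => by
    rw [← hrs]; exact Ideal.subset_span hz)) h1
  rw [List.length_map] at h2
  omega

theorem supportDim_quot_of_weaklyRegular (ht : ringKrullDim T = t) (zs : List T)
    (hzs : ∀ z ∈ zs, z ∈ maximalIdeal T) (hreg : IsWeaklyRegular T zs) :
    Module.supportDim T (T ⧸ (Ideal.ofList zs • ⊤ : Submodule T T)) =
      ((t - zs.length : ℕ) : WithBot ℕ∞) := by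
  have h1 : IsRegular T zs := by
    refine ⟨hreg, fun htop => ?_⟩
    have h2 : Ideal.ofList zs ≤ maximalIdeal T := Ideal.span_le.2 hzs
    have h3 : (1 : T) ∈ (Ideal.ofList zs • ⊤ : Submodule T T) := htop ▸ trivial
    have h4 : (1 : T) ∈ maximalIdeal T := by
      rw [smul_eq_mul, Ideal.mul_top] at h3
      exact h2 h3
    exact (maximalIdeal.isMaximal T).ne_top (Ideal.eq_top_of_isUnit_mem _ h4 isUnit_one)
  have h2 := Module.supportDim_add_length_eq_supportDim_of_isRegular zs h1
  rw [Module.supportDim_self_eq_ringKrullDim, ht] at h2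
  have h3 := length_le_dim ht zs hzs hreg
  generalize Module.supportDim T (T ⧸ (Ideal.ofList zs • ⊤ : Submodule T T)) = a at h2 ⊢
  induction a using WithBot.recBotCoe with
  | bot => simp at h2
  | coe a =>
    have h4 : a + (zs.length : ℕ∞) = t := by exact_mod_cast h2
    have h5 : a ≠ ⊤ := by
      rintro rfl
      rw [top_add] at h4
      exact absurd h4.symm (ENat.natCast_ne_top t)
    obtain ⟨a, rfl⟩ := ENat.ne_top_iff_exists.mp h5
    have h6 : a + zs.length = t := by exact_mod_cast h4
    have h7 : a = t - zs.length := by omega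
    rw [h7]
    rfl

/-- Upper bound for the dimension of a base change. -/
theorem supportDim_baseChange_le (hr : ringKrullDim R = r) (ht : ringKrullDim T = t)
    (E : Type u) [AddCommGroup E] [Module R E] [hE : Module.Finite R E] (n : ℕ)
    (hn : (n : WithBot ℕ∞) ≤ Module.supportDim T (T ⊗[R] E)) :
    ∃ e : ℕ, (e : WithBot ℕ∞) ≤ Module.supportDim R E ∧ n ≤ e + (t - r) := by
  have hrt := dim_le_dim (R := R) (T := T) hr ht
  induction hE using IsNoetherianRing.induction_on_isQuotientEquivQuotientPrime R with
  | subsingleton N =>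
    have : Subsingleton (T ⊗[R] N) := inferInstance
    rw [Module.supportDim_eq_bot_of_subsingleton] at hn
    simp at hn
  | quotient N P e =>
    have hP := P.2
    obtain ⟨zs, hmem, hreg, hlt, hh, hdim, hass⟩ := exists_ci hr P.1
    refine ⟨r - zs.length, ?_, ?_⟩
    · rw [Module.supportDim_eq_of_equiv e, hdim]
    · have h1 : IsWeaklyRegular T (zs.map (algebraMap R T)) := hreg.of_flat
      have h2 := supportDim_quot_of_weaklyRegular ht _ (map_mem_maximalIdeal (fun z hz =>
        le_maximalIdeal hP.ne_top (hmem z hz))) h1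
      -- surjection from `T/(zs)` to `T ⊗ N`
      let g0 : T →ₗ[T] T ⊗[R] N :=
        (LinearMap.toSpanSingleton T _ ((1 : T) ⊗ₜ[R] e.symm (Ideal.Quotient.mk _ 1)))
      have hg0 : Surjective g0 := by
        intro y
        induction y using TensorProduct.induction_on with
        | zero => exact ⟨0, map_zero _⟩
        | tmul a x =>
          obtain ⟨c, hc⟩ := Ideal.Quotient.mk_surjective (e x)
          refine ⟨a * algebraMap R T c, ?_⟩
          change (a * algebraMap R T c) • ((1 : T) ⊗ₜ[R] e.symm (Ideal.Quotient.mk _ 1)) = _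
          rw [TensorProduct.smul_tmul', smul_eq_mul, mul_one, mul_comm, ← Algebra.smul_def,
            TensorProduct.smul_tmul, ← map_smul]
          congr 1
          rw [LinearEquiv.symm_apply_eq, ← hc, Algebra.smul_def, map_one, mul_one]
          rfl
        | add x y hx hy =>
          obtain ⟨a, rfl⟩ := hx
          obtain ⟨b, rfl⟩ := hy
          exact ⟨a + b, map_add _ _ _⟩
      have hker : (Ideal.ofList (zs.map (algebraMap R T)) • ⊤ : Submodule T T) ≤
          LinearMap.ker g0 := by
        rw [smul_eq_mul, Ideal.mul_top, Ideal.ofList, Ideal.span_le]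
        intro y hy
        have hy' : y ∈ zs.map (algebraMap R T) := hy
        rw [List.mem_map] at hy'
        obtain ⟨c, hc, rfl⟩ := hy'
        change (algebraMap R T c) • ((1 : T) ⊗ₜ[R] e.symm (Ideal.Quotient.mk _ 1)) = 0
        rw [algebraMap_smul, TensorProduct.smul_tmul', TensorProduct.smul_tmul, ← map_smul]
        have : c • (Ideal.Quotient.mk P.1 1) = 0 := by
          rw [Algebra.smul_def, map_one, mul_one]
          exact Ideal.Quotient.eq_zero_iff_mem.2 (hmem c hc)
        rw [this, map_zero, TensorProduct.tmul_zero]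
      have h3 := Module.supportDim_le_of_surjective (Submodule.liftQ _ g0 hker) (by
        intro y
        obtain ⟨a, rfl⟩ := hg0 y
        exact ⟨Submodule.Quotient.mk a, rfl⟩)
      rw [h2, List.length_map] at h3
      have h4 : n ≤ t - zs.length := by exact_mod_cast hn.trans h3
      omega
  | exact N₁ N₂ N₃ f g hf hg h ih1 ih3 =>
    obtain ⟨k1, k2, k3⟩ := baseChange_ses (B := T) f g hf hg h
    rcases le_supportDim_of_exact _ _ k1 k2 k3 n hn with h1 | h1
    · obtain ⟨e, he, hne⟩ := ih1 h1
      exact ⟨e, he.trans (Module.supportDim_le_of_injective f hf), hne⟩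
    · obtain ⟨e, he, hne⟩ := ih3 h1
      exact ⟨e, he.trans (Module.supportDim_le_of_surjective g hg), hne⟩

end onesided

end Vale.Agent.P177
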