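import Vale.Agent.P177.CBase

/-!
The two sided situation `R₁ → T ← R₂`: additivity, symmetry, and the case where one of the
modules has dimension zero.
-/

namespace Vale.Agent.P177

open CategoryTheory TensorProduct Function IsLocalRing RingTheory.Sequence Pointwise

universe u

/-- Euler characteristic of a pair of modules over two rings mapping to `T`. -/
noncomputable def chi (R₁ R₂ T : Type u) [CommRing R₁] [CommRing R₂] [CommRing T]
    [Algebra R₁ T] [Algebra R₂ T] (t : ℕ) (E G : Type u) [AddCommGroup E] [Module R₁ E]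
    [AddCommGroup G] [Module R₂ G] : ℤ :=
  eulerTor T (t + 1) (T ⊗[R₁] E) (T ⊗[R₂] G)

/-- Serre's statements for a pair of modules. -/
structure Pos (R₁ R₂ T : Type u) [CommRing R₁] [CommRing R₂] [CommRing T]
    [Algebra R₁ T] [Algebra R₂ T] (t b : ℕ) (E G : Type u) [AddCommGroup E] [Module R₁ E]
    [AddCommGroup G] [Module R₂ G] : Prop where
  dim_le : ∀ e g : ℕ, (e : WithBot ℕ∞) ≤ Module.supportDim R₁ E →
    (g : WithBot ℕ∞) ≤ Module.supportDim R₂ G → e + g ≤ b
  nonneg : 0 ≤ chi R₁ R₂ T t E G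
  pos : ∀ e g : ℕ, (e : WithBot ℕ∞) ≤ Module.supportDim R₁ E →
    (g : WithBot ℕ∞) ≤ Module.supportDim R₂ G → b ≤ e + g → 0 < chi R₁ R₂ T t E G
  zero : (∀ e g : ℕ, (e : WithBot ℕ∞) ≤ Module.supportDim R₁ E →
    (g : WithBot ℕ∞) ≤ Module.supportDim R₂ G → e + g < b) → chi R₁ R₂ T t E G = 0

section algebraic

variable {R₁ R₂ T : Type u} [CommRing R₁] [CommRing R₂] [CommRing T] [IsLocalRing T]
  [Algebra R₁ T] [Algebra R₂ T] {t b : ℕ}

theorem FP.mono {E G E' G' : Type u} [AddCommGroup E] [Module R₁ E]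
    [AddCommGroup G] [Module R₂ G] [AddCommGroup E'] [Module R₁ E']
    [AddCommGroup G'] [Module R₂ G'] (h : FP R₁ R₂ T E G)
    (h1 : Module.annihilator R₁ E ≤ Module.annihilator R₁ E')
    (h2 : Module.annihilator R₂ G ≤ Module.annihilator R₂ G') : FP R₁ R₂ T E' G' :=
  h.trans (Ideal.radical_mono (sup_le_sup (Ideal.map_mono h1) (Ideal.map_mono h2)))

theorem FP.symm {E G : Type u} [AddCommGroup E] [Module R₁ E]
    [AddCommGroup G] [Module R₂ G] (h : FP R₁ R₂ T E G) : FP R₂ R₁ T G E := by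
  unfold FP at h ⊢
  rwa [sup_comm]

omit [IsLocalRing T] in
theorem map_ann_le_tensor (E : Type u) [AddCommGroup E] [Module R₁ E] :
    (Module.annihilator R₁ E).map (algebraMap R₁ T) ≤ Module.annihilator T (T ⊗[R₁] E) := by
  rw [Ideal.map_le_iff_le_comap]
  intro a ha
  rw [Ideal.mem_comap, Module.mem_annihilator]
  intro x
  induction x using TensorProduct.induction_on with
  | zero => exact smul_zero _
  | tmul s m =>
    rw [algebraMap_smul, TensorProduct.smul_tmul', TensorProduct.smul_tmul,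
      Module.mem_annihilator.1 ha, TensorProduct.tmul_zero]
  | add x y hx hy => rw [smul_add, hx, hy, add_zero]

theorem FP.fl2 {E G : Type u} [AddCommGroup E] [Module R₁ E]
    [AddCommGroup G] [Module R₂ G] (h : FP R₁ R₂ T E G) :
    FL2 ([] : List T) (T ⊗[R₁] E) (T ⊗[R₂] G) := by
  refine h.trans (Ideal.radical_mono ?_)
  exact (sup_le_sup (map_ann_le_tensor E) (map_ann_le_tensor G)).trans le_sup_left

omit [IsLocalRing T] in
theorem chi_symm (E G : Type u) [AddCommGroup E] [Module R₁ E]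
    [AddCommGroup G] [Module R₂ G] : chi R₁ R₂ T t E G = chi R₂ R₁ T t G E :=
  eulerTor_symm _ _ _

omit [IsLocalRing T] in
theorem chi_congr {E G E' G' : Type u} [AddCommGroup E] [Module R₁ E]
    [AddCommGroup G] [Module R₂ G] [AddCommGroup E'] [Module R₁ E']
    [AddCommGroup G'] [Module R₂ G'] (e : E ≃ₗ[R₁] E') (e' : G ≃ₗ[R₂] G') :
    chi R₁ R₂ T t E G = chi R₁ R₂ T t E' G' :=
  eulerTor_congr (AlgebraTensorModule.congr (LinearEquiv.refl T T) e)
    (AlgebraTensorModule.congr (LinearEquiv.refl T T) e') _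

omit [IsLocalRing T] in
theorem Pos.congr {E G E' G' : Type u} [AddCommGroup E] [Module R₁ E]
    [AddCommGroup G] [Module R₂ G] [AddCommGroup E'] [Module R₁ E']
    [AddCommGroup G'] [Module R₂ G'] (e : E ≃ₗ[R₁] E') (e' : G ≃ₗ[R₂] G')
    (h : Pos R₁ R₂ T t b E G) : Pos R₁ R₂ T t b E' G' := by
  have h1 := Module.supportDim_eq_of_equiv e
  have h2 := Module.supportDim_eq_of_equiv e'
  have h3 := chi_congr (T := T) (t := t) e e'
  refine ⟨?_, ?_, ?_, ?_⟩
  · rw [← h1, ← h2]; exact h.dim_le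
  · rw [← h3]; exact h.nonneg
  · rw [← h1, ← h2, ← h3]; exact h.pos
  · rw [← h1, ← h2, ← h3]; exact h.zero

omit [IsLocalRing T] in
theorem Pos.symm {E G : Type u} [AddCommGroup E] [Module R₁ E]
    [AddCommGroup G] [Module R₂ G] (h : Pos R₁ R₂ T t b E G) : Pos R₂ R₁ T t b G E := by
  refine ⟨?_, ?_, ?_, ?_⟩
  · intro e g he hg
    rw [add_comm]
    exact h.dim_le g e hg he
  · rw [chi_symm]; exact h.nonneg
  · intro e g he hg hb
    rw [chi_symm]
    exact h.pos g e hg he (by omega)
  · intro hh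
    rw [chi_symm]
    exact h.zero fun e g he hg => by
      rw [add_comm]
      exact hh g e hg he

end algebraic

section additive

variable {R₁ R₂ T : Type u} [CommRing R₁] [CommRing R₂] [CommRing T]
  [IsNoetherianRing R₁] [IsNoetherianRing R₂] [IsRegularLocalRing T]
  [Algebra R₁ T] [Algebra R₂ T] [Module.Flat R₁ T] [Module.Flat R₂ T] {t b : ℕ}

omit [IsNoetherianRing R₁] [IsNoetherianRing R₂] [Module.Flat R₁ T] [Module.Flat R₂ T] in
theorem FP.length_ne_top {E G : Type u} [AddCommGroup E] [Module R₁ E] [Module.Finite R₁ E]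
    [AddCommGroup G] [Module R₂ G] [Module.Finite R₂ G] (h : FP R₁ R₂ T E G) (j : ℕ) :
    Module.length T (TorM T j (T ⊗[R₁] E) (T ⊗[R₂] G)) ≠ ⊤ := by
  have := tor_finite (R := T) j (T ⊗[R₁] E) (T ⊗[R₂] G)
  exact (h.fl2.tor j).length_ne_top

omit [IsNoetherianRing R₁] [IsNoetherianRing R₂] [Module.Flat R₂ T] in
theorem chi_add (ht : ringKrullDim T = t) {E' E E'' : Type u} [AddCommGroup E'] [Module R₁ E']
    [AddCommGroup E] [Module R₁ E] [AddCommGroup E''] [Module R₁ E''] [Module.Finite R₁ E']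
    [Module.Finite R₁ E] [Module.Finite R₁ E'']
    (f : E' →ₗ[R₁] E) (g : E →ₗ[R₁] E'') (hf : Injective f) (hg : Surjective g)
    (hex : Exact f g) (G : Type u) [AddCommGroup G] [Module R₂ G] [Module.Finite R₂ G]
    (h : FP R₁ R₂ T E G) :
    chi R₁ R₂ T t E G = chi R₁ R₂ T t E' G + chi R₁ R₂ T t E'' G := by
  have h' : FP R₁ R₂ T E' G := h.mono (LinearMap.annihilator_le_of_injective f hf) le_rfl
  have h'' : FP R₁ R₂ T E'' G := h.mono (LinearMap.annihilator_le_of_surjective g hg) le_rfl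
  obtain ⟨k1, k2, k3⟩ := baseChange_ses (B := T) f g hf hg hex
  exact eulerTor_add _ _ k1 k2 k3 _ t (fun j => h'.length_ne_top j) (fun j => h.length_ne_top j)
    (fun j => h''.length_ne_top j) (regular_tor_vanish T t ht _ _ (t + 1) le_rfl)

omit [IsNoetherianRing R₁] [IsNoetherianRing R₂] [Module.Flat R₁ T] in
theorem chi_add_right (ht : ringKrullDim T = t) {G' G G'' : Type u} [AddCommGroup G']
    [Module R₂ G'] [AddCommGroup G] [Module R₂ G] [AddCommGroup G''] [Module R₂ G'']
    [Module.Finite R₂ G'] [Module.Finite R₂ G] [Module.Finite R₂ G'']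
    (f : G' →ₗ[R₂] G) (g : G →ₗ[R₂] G'') (hf : Injective f) (hg : Surjective g)
    (hex : Exact f g) (E : Type u) [AddCommGroup E] [Module R₁ E] [Module.Finite R₁ E]
    (h : FP R₁ R₂ T E G) :
    chi R₁ R₂ T t E G = chi R₁ R₂ T t E G' + chi R₁ R₂ T t E G'' := by
  rw [chi_symm E G, chi_symm E G', chi_symm E G'']
  exact chi_add ht f g hf hg hex E h.symm

omit [IsNoetherianRing R₁] [IsNoetherianRing R₂] [Module.Flat R₂ T] in
theorem Pos.ext (ht : ringKrullDim T = t) {E' E E'' : Type u} [AddCommGroup E'] [Module R₁ E']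
    [AddCommGroup E] [Module R₁ E] [AddCommGroup E''] [Module R₁ E''] [Module.Finite R₁ E']
    [Module.Finite R₁ E] [Module.Finite R₁ E'']
    (f : E' →ₗ[R₁] E) (g : E →ₗ[R₁] E'') (hf : Injective f) (hg : Surjective g)
    (hex : Exact f g) (G : Type u) [AddCommGroup G] [Module R₂ G] [Module.Finite R₂ G]
    (h : FP R₁ R₂ T E G) (h1 : Pos R₁ R₂ T t b E' G) (h2 : Pos R₁ R₂ T t b E'' G) :
    Pos R₁ R₂ T t b E G := by
  have hadd := chi_add ht f g hf hg hex G h
  refine ⟨?_, ?_, ?_, ?_⟩
  · intro e g' he hg'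
    rcases le_supportDim_of_exact f g hf hg hex e he with h3 | h3
    · exact h1.dim_le e g' h3 hg'
    · exact h2.dim_le e g' h3 hg'
  · rw [hadd]; exact add_nonneg h1.nonneg h2.nonneg
  · intro e g' he hg' hb
    rw [hadd]
    rcases le_supportDim_of_exact f g hf hg hex e he with h3 | h3
    · exact add_pos_of_pos_of_nonneg (h1.pos e g' h3 hg' hb) h2.nonneg
    · exact add_pos_of_nonneg_of_pos h1.nonneg (h2.pos e g' h3 hg' hb)
  · intro hh
    rw [hadd, h1.zero, h2.zero, add_zero]
    · intro e g' he hg'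
      exact hh e g' (he.trans (Module.supportDim_le_of_surjective g hg)) hg'
    · intro e g' he hg'
      exact hh e g' (he.trans (Module.supportDim_le_of_injective f hf)) hg'

omit [IsNoetherianRing R₁] [IsNoetherianRing R₂] [IsRegularLocalRing T]
  [Module.Flat R₁ T] [Module.Flat R₂ T] in
theorem Pos.of_subsingleton_left (E : Type u) [AddCommGroup E] [Module R₁ E]
    [Subsingleton E] (G : Type u) [AddCommGroup G] [Module R₂ G] :
    Pos R₁ R₂ T t b E G := by
  have hdim : ∀ e : ℕ, ¬ ((e : WithBot ℕ∞) ≤ Module.supportDim R₁ E) := by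
    intro e he
    rw [Module.supportDim_eq_bot_of_subsingleton] at he
    simp at he
  have h0 : chi R₁ R₂ T t E G = 0 := by
    have : Subsingleton (T ⊗[R₁] E) := inferInstance
    unfold chi eulerTor
    refine Finset.sum_eq_zero fun j _ => ?_
    have h1 : Module.length T (TorM T j (T ⊗[R₁] E) (T ⊗[R₂] G)) = 0 := by
      rw [Module.length_eq_zero_iff]
      refine subsingleton_of_forall_eq 0 fun x => ?_
      have h2 := tor_smul_eq_zero_left (R := T) (1 : T)
        (fun m : T ⊗[R₁] E => Subsingleton.elim _ _) j (T ⊗[R₂] G) x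
      rwa [one_smul] at h2
    rw [h1]
    simp
  exact ⟨fun e _ he _ => absurd he (hdim e), h0.ge, fun e _ he _ => absurd he (hdim e),
    fun _ => h0⟩

omit [IsNoetherianRing R₂] [Module.Flat R₂ T] in
/-- Reduction to quotients by primes in the first variable. The class of modules considered is
given by a bound on the dimension. -/
theorem pos_of_primes (ht : ringKrullDim T = t) (n : WithBot ℕ∞) (G : Type u) [AddCommGroup G]
    [Module R₂ G] [Module.Finite R₂ G]
    (hP : ∀ P : Ideal R₁, P.IsPrime → Module.supportDim R₁ (R₁ ⧸ P) ≤ n →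
      FP R₁ R₂ T (R₁ ⧸ P) G → Pos R₁ R₂ T t b (R₁ ⧸ P) G)
    (E : Type u) [AddCommGroup E] [Module R₁ E] [hE : Module.Finite R₁ E]
    (hn : Module.supportDim R₁ E ≤ n) (h : FP R₁ R₂ T E G) : Pos R₁ R₂ T t b E G := by
  induction hE using IsNoetherianRing.induction_on_isQuotientEquivQuotientPrime R₁ with
  | subsingleton N => exact Pos.of_subsingleton_left N G
  | quotient N P e =>
    have h1 : FP R₁ R₂ T (R₁ ⧸ P.1) G := h.mono (LinearEquiv.annihilator_eq e).le le_rfl
    exact (hP P.1 P.2 (by rwa [← Module.supportDim_eq_of_equiv e]) h1).congr e.symm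
      (LinearEquiv.refl _ _)
  | exact N₁ N₂ N₃ f g hf hg hex ih1 ih3 =>
    exact Pos.ext ht f g hf hg hex G h
      (ih1 ((Module.supportDim_le_of_injective f hf).trans hn)
        (h.mono (LinearMap.annihilator_le_of_injective f hf) le_rfl))
      (ih3 ((Module.supportDim_le_of_surjective g hg).trans hn)
        (h.mono (LinearMap.annihilator_le_of_surjective g hg) le_rfl))

end additive

end Vale.Agent.P177
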