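import Vale.Agent.P177.CAdd

/-!
Statement of the local positivity theorem for a pair of flat local maps of regular local rings.
-/

namespace Vale.Agent.P177

open TensorProduct IsLocalRing

universe u

/-- Finiteness condition for a pair of modules over two rings with maps to `T`. -/
def FP (R₁ R₂ T : Type u) [CommRing R₁] [CommRing R₂] [CommRing T] [IsLocalRing T]
    [Algebra R₁ T] [Algebra R₂ T]
    (E G : Type u) [AddCommGroup E] [Module R₁ E] [AddCommGroup G] [Module R₂ G] : Prop :=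
  maximalIdeal T ≤ ((Module.annihilator R₁ E).map (algebraMap R₁ T) ⊔
    (Module.annihilator R₂ G).map (algebraMap R₂ T)).radical

/-- The local positivity statement, for all triples `R₁ → T ← R₂` with
`dim R₁ + dim R₂ - dim T ≤ a`. -/
def LocPos (a : ℕ) : Prop :=
  ∀ (R₁ R₂ T : Type u) [CommRing R₁] [CommRing R₂] [CommRing T]
    [IsRegularLocalRing R₁] [IsRegularLocalRing R₂] [IsRegularLocalRing T]
    [Algebra R₁ T] [Algebra R₂ T] [Module.Flat R₁ T] [Module.Flat R₂ T]
    [IsLocalHom (algebraMap R₁ T)] [IsLocalHom (algebraMap R₂ T)]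
    (r₁ r₂ t b : ℕ), ringKrullDim R₁ = r₁ → ringKrullDim R₂ = r₂ → ringKrullDim T = t →
    r₁ + r₂ = t + b → b ≤ a →
    ∀ (E G : Type u) [AddCommGroup E] [Module R₁ E] [Module.Finite R₁ E]
    [AddCommGroup G] [Module R₂ G] [Module.Finite R₂ G],
    FP R₁ R₂ T E G →
    (∀ e g : ℕ, (e : WithBot ℕ∞) ≤ Module.supportDim R₁ E →
      (g : WithBot ℕ∞) ≤ Module.supportDim R₂ G → e + g ≤ b) ∧
    0 ≤ eulerTor T (t + 1) (T ⊗[R₁] E) (T ⊗[R₂] G) ∧
    (∀ e g : ℕ, (e : WithBot ℕ∞) ≤ Module.supportDim R₁ E →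
      (g : WithBot ℕ∞) ≤ Module.supportDim R₂ G → b ≤ e + g →
      0 < eulerTor T (t + 1) (T ⊗[R₁] E) (T ⊗[R₂] G))

end Vale.Agent.P177
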