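import Vale.Agent.P177.LocalAt

/-!
The local contributions.
-/

namespace Vale.Agent.P177

open CategoryTheory TensorProduct Function IsLocalRing RingTheory.Sequence Pointwise

universe u

section

theorem ringKrullDim_le_add_of_radical (L₁ L₂ U : Type u) [CommRing L₁] [CommRing L₂] [CommRing U]
    [IsRegularLocalRing L₁] [IsRegularLocalRing L₂] [IsLocalRing U] [IsNoetherianRing U]
    [Algebra L₁ U]
    [Algebra L₂ U] [IsLocalHom (algebraMap L₁ U)] [IsLocalHom (algebraMap L₂ U)] (r₁ r₂ : ℕ)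
    (h₁ : ringKrullDim L₁ = r₁) (h₂ : ringKrullDim L₂ = r₂)
    (h : maximalIdeal U ≤ ((maximalIdeal L₁).map (algebraMap L₁ U) ⊔
      (maximalIdeal L₂).map (algebraMap L₂ U)).radical) :
    ringKrullDim U ≤ ((r₁ + r₂ : ℕ) : WithBot ℕ∞) := by
  obtain ⟨s₁, hs₁, hl₁⟩ := exists_list_maximalIdeal L₁
  obtain ⟨s₂, hs₂, hl₂⟩ := exists_list_maximalIdeal L₂
  have e₁ : s₁.length = r₁ := by rw [h₁] at hl₁; exact_mod_cast hl₁
  have e₂ : s₂.length = r₂ := by rw [h₂] at hl₂; exact_mod_cast hl₂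
  have k₁ : (maximalIdeal L₁).map (algebraMap L₁ U) ≤ maximalIdeal U :=
    ((IsLocalRing.local_hom_TFAE (algebraMap L₁ U)).out 0 2).mp ‹_›
  have k₂ : (maximalIdeal L₂).map (algebraMap L₂ U) ≤ maximalIdeal U :=
    ((IsLocalRing.local_hom_TFAE (algebraMap L₂ U)).out 0 2).mp ‹_›
  have hof : Ideal.ofList (s₁.map (algebraMap L₁ U) ++ s₂.map (algebraMap L₂ U)) =
      (maximalIdeal L₁).map (algebraMap L₁ U) ⊔ (maximalIdeal L₂).map (algebraMap L₂ U) := by
    rw [Ideal.ofList_append, ← hs₁, ← hs₂, Ideal.map_ofList, Ideal.map_ofList]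
  have hmem : ∀ z ∈ s₁.map (algebraMap L₁ U) ++ s₂.map (algebraMap L₂ U),
      z ∈ maximalIdeal U := by
    intro z hz
    have h1 : z ∈ Ideal.ofList (s₁.map (algebraMap L₁ U) ++ s₂.map (algebraMap L₂ U)) :=
      Ideal.subset_span hz
    rw [hof] at h1
    exact (sup_le k₁ k₂) h1
  have hFL : FL (s₁.map (algebraMap L₁ U) ++ s₂.map (algebraMap L₂ U)) U := by
    unfold FL
    rw [hof]
    exact h.trans (Ideal.radical_mono le_sup_right)
  have h5 := supportDim_le_length _ hmem U hFL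
  rw [Module.supportDim_self_eq_ringKrullDim, List.length_append, List.length_map,
    List.length_map, e₁, e₂] at h5
  exact h5

theorem maximalIdeal_le_radical_of_minimal {T : Type u} [CommRing T] (I Q : Ideal T) [hQp : Q.IsPrime]
    (hQ : Q ∈ I.minimalPrimes) :
    maximalIdeal (Localization.AtPrime Q) ≤
      (I.map (algebraMap T (Localization.AtPrime Q))).radical := by
  rw [Ideal.radical_eq_sInf]
  refine le_sInf ?_
  rintro q ⟨hq, hqp⟩
  have h1 : I ≤ q.comap (algebraMap T (Localization.AtPrime Q)) := Ideal.map_le_iff_le_comap.1 hq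
  have h2 : q ≤ maximalIdeal (Localization.AtPrime Q) := le_maximalIdeal hqp.ne_top
  have h3 : q.comap (algebraMap T (Localization.AtPrime Q)) ≤ Q := by
    have h4 := Ideal.comap_mono (f := algebraMap T (Localization.AtPrime Q)) h2
    have h5 : (maximalIdeal (Localization.AtPrime Q)).comap
        (algebraMap T (Localization.AtPrime Q)) = Q :=
      IsLocalization.AtPrime.comap_maximalIdeal (Localization.AtPrime Q) Q
    rwa [h5] at h4
  have hqc : (q.comap (algebraMap T (Localization.AtPrime Q))).IsPrime :=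
    Ideal.IsPrime.comap _
  have h6 : Q ≤ q.comap (algebraMap T (Localization.AtPrime Q)) := hQ.2 ⟨hqc, h1⟩ h3
  rw [← IsLocalization.AtPrime.map_eq_maximalIdeal Q (Localization.AtPrime Q),
    Ideal.map_le_iff_le_comap]
  exact h6

end

section

variable {R₁ R₂ T : Type u} [CommRing R₁] [CommRing R₂] [CommRing T]
    [IsRegularLocalRing R₁] [IsRegularLocalRing R₂] [IsRegularLocalRing T]
    [Algebra R₁ T] [Algebra R₂ T] [Module.Flat R₁ T] [Module.Flat R₂ T]

/-- The local Euler characteristic. -/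
noncomputable def locEul (Q : Ideal T) [Q.IsPrime] (n : ℕ) (X Y : Type u) [AddCommGroup X]
    [Module T X] [AddCommGroup Y] [Module T Y] : ℤ :=
  ∑ j ∈ Finset.range n, (-1 : ℤ) ^ j * ((locLen Q (TorM T j X Y)).toNat : ℤ)

omit [IsRegularLocalRing T] in
theorem locEul_eq (Q : Ideal T) [Q.IsPrime] (n : ℕ) (X Y : Type u) [AddCommGroup X]
    [Module T X] [AddCommGroup Y] [Module T Y] :
    locEul Q n X Y = eulerTor (Localization.AtPrime Q) n (Localization.AtPrime Q ⊗[T] X)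
      (Localization.AtPrime Q ⊗[T] Y) := by
  have hflat : Module.Flat T (Localization.AtPrime Q) := IsLocalization.flat _ Q.primeCompl
  unfold locEul eulerTor
  refine Finset.sum_congr rfl fun j _ => ?_
  obtain ⟨e⟩ := exists_tor_flat_iso (C := Localization.AtPrime Q) j
    (TensorProduct.isBaseChange T X (Localization.AtPrime Q))
    (TensorProduct.isBaseChange T Y (Localization.AtPrime Q))
  rw [e.length_eq]
  rfl

theorem local_value (a : ℕ) (hLoc : LocPos.{u} a) (N M : Type u) [AddCommGroup N] [Module R₁ N]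
    [Module.Finite R₁ N] [AddCommGroup M] [Module R₂ M] [Module.Finite R₂ M]
    (Q : Ideal T) [hQp : Q.IsPrime]
    (hQ : Q ∈ ((Module.annihilator R₁ N).map (algebraMap R₁ T) ⊔
      (Module.annihilator R₂ M).map (algebraMap R₂ T)).minimalPrimes)
    (r₁ r₂ q : ℕ) (h₁ : (Q.comap (algebraMap R₁ T)).height = r₁)
    (h₂ : (Q.comap (algebraMap R₂ T)).height = r₂) (hq : Q.height = q)
    (hb : r₁ + r₂ ≤ q + a) (n : ℕ) (hn : q + 1 ≤ n) :
    ∃ b : ℕ, r₁ + r₂ = q + b ∧ 0 ≤ locEul Q n (T ⊗[R₁] N) (T ⊗[R₂] M) ∧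
      ∀ (P₁ P₂ : ℕ) (p₁ : PrimeSpectrum R₁) (p₂ : PrimeSpectrum R₂), p₁ ∈ Module.support R₁ N →
        p₂ ∈ Module.support R₂ M → p₁.asIdeal ≤ Q.comap (algebraMap R₁ T) →
        p₂.asIdeal ≤ Q.comap (algebraMap R₂ T) → p₁.asIdeal.height = P₁ →
        p₂.asIdeal.height = P₂ →
        (r₁ - P₁) + (r₂ - P₂) ≤ b ∧ (b ≤ (r₁ - P₁) + (r₂ - P₂) →
          0 < locEul Q n (T ⊗[R₁] N) (T ⊗[R₂] M)) := by
  have hUreg : IsRegularLocalRing (Localization.AtPrime Q) :=
    isRegularLocalRing_localization T Q (Localization.AtPrime Q)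
  obtain ⟨L₁, _, _, _, D₁⟩ := exists_locData R₁ T Q
  obtain ⟨L₂, _, _, _, D₂⟩ := exists_locData R₂ T Q
  have i1 := D₁.reg
  have i2 := D₂.reg
  have i3 := D₁.flat
  have i4 := D₂.flat
  have i5 := D₁.loc
  have i6 := D₂.loc
  have i7 := D₁.isloc
  have i8 := D₂.isloc
  have i9 := D₁.tower
  have i10 := D₂.tower
  have d₁ : ringKrullDim L₁ = r₁ := by rw [D₁.dim, h₁]; rfl
  have d₂ : ringKrullDim L₂ = r₂ := by rw [D₂.dim, h₂]; rfl
  have dU : ringKrullDim (Localization.AtPrime Q) = q := by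
    rw [IsLocalization.AtPrime.ringKrullDim_eq_height Q, hq]; rfl
  -- the radical condition
  have hrad := maximalIdeal_le_radical_of_minimal _ Q hQ
  have hmap₁ : ∀ I : Ideal R₁, (I.map (algebraMap R₁ T)).map
      (algebraMap T (Localization.AtPrime Q)) =
      (I.map (algebraMap R₁ L₁)).map (algebraMap L₁ (Localization.AtPrime Q)) := by
    intro I
    rw [Ideal.map_map, Ideal.map_map, ← IsScalarTower.algebraMap_eq,
      ← IsScalarTower.algebraMap_eq]
  have hmap₂ : ∀ I : Ideal R₂, (I.map (algebraMap R₂ T)).map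
      (algebraMap T (Localization.AtPrime Q)) =
      (I.map (algebraMap R₂ L₂)).map (algebraMap L₂ (Localization.AtPrime Q)) := by
    intro I
    rw [Ideal.map_map, Ideal.map_map, ← IsScalarTower.algebraMap_eq,
      ← IsScalarTower.algebraMap_eq]
  rw [Ideal.map_sup, hmap₁, hmap₂] at hrad
  have hFP : FP L₁ L₂ (Localization.AtPrime Q) (L₁ ⊗[R₁] N) (L₂ ⊗[R₂] M) := by
    unfold FP
    refine hrad.trans (Ideal.radical_mono (sup_le_sup ?_ ?_))
    · exact Ideal.map_mono (map_annihilator_le N)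
    · exact Ideal.map_mono (map_annihilator_le M)
  -- dimension bound
  have hle₁ : (Module.annihilator R₁ N).map (algebraMap R₁ L₁) ≤ maximalIdeal L₁ := by
    rw [← IsLocalization.AtPrime.map_eq_maximalIdeal (Q.comap (algebraMap R₁ T)) L₁]
    apply Ideal.map_mono
    rw [← Ideal.map_le_iff_le_comap]
    exact le_sup_left.trans hQ.1.2
  have hle₂ : (Module.annihilator R₂ M).map (algebraMap R₂ L₂) ≤ maximalIdeal L₂ := by
    rw [← IsLocalization.AtPrime.map_eq_maximalIdeal (Q.comap (algebraMap R₂ T)) L₂]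
    apply Ideal.map_mono
    rw [← Ideal.map_le_iff_le_comap]
    exact le_sup_right.trans hQ.1.2
  have hdim := ringKrullDim_le_add_of_radical L₁ L₂ (Localization.AtPrime Q) r₁ r₂ d₁ d₂
    (hrad.trans (Ideal.radical_mono (sup_le_sup (Ideal.map_mono hle₁) (Ideal.map_mono hle₂))))
  rw [dU] at hdim
  have hqle : q ≤ r₁ + r₂ := by exact_mod_cast hdim
  obtain ⟨b, hbq⟩ := Nat.exists_eq_add_of_le hqle
  have hba : b ≤ a := by omega
  obtain ⟨c1, c2, c3⟩ := hLoc L₁ L₂ (Localization.AtPrime Q) r₁ r₂ q b d₁ d₂ dU hbq hba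
    (L₁ ⊗[R₁] N) (L₂ ⊗[R₂] M) hFP
  -- comparison
  obtain ⟨e₁⟩ := exists_cancel_loc (R := R₁) (T := T) Q L₁ N
  obtain ⟨e₂⟩ := exists_cancel_loc (R := R₂) (T := T) Q L₂ M
  have hval : locEul Q n (T ⊗[R₁] N) (T ⊗[R₂] M) =
      eulerTor (Localization.AtPrime Q) (q + 1) (Localization.AtPrime Q ⊗[L₁] (L₁ ⊗[R₁] N))
        (Localization.AtPrime Q ⊗[L₂] (L₂ ⊗[R₂] M)) := by
    rw [locEul_eq, eulerTor_congr e₁ e₂]
    apply eulerTor_shrink _ _ _ _ hn
    intro j hj
    exact regular_tor_vanish _ q dU _ _ j hj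
  rw [hval]
  refine ⟨b, hbq, c2, ?_⟩
  intro P₁ P₂ p₁ p₂ hp₁ hp₂ hp₁Q hp₂Q hP₁ hP₂
  have k₁ := le_supportDim_localization R₁ (Q.comap (algebraMap R₁ T)) p₁.asIdeal hp₁Q L₁ N hp₁
    r₁ P₁ h₁ hP₁
  have k₂ := le_supportDim_localization R₂ (Q.comap (algebraMap R₂ T)) p₂.asIdeal hp₂Q L₂ M hp₂
    r₂ P₂ h₂ hP₂
  exact ⟨c1 _ _ k₁ k₂, c3 _ _ k₁ k₂⟩

end

end Vale.Agent.P177
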