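import Vale.Agent.P177.CPack
import Vale.Agent.P177.CBc
import Vale.Agent.P177.CComp
import Vale.Agent.P177.CLocFour
import Vale.Agent.P177.LocalValue

/-!
Nonnegativity at the points of a chart.
-/

namespace Vale.Agent.P177

open IsLocalRing Function TensorProduct

universe u

section pair

variable {R₁ R₂ T : Type u} [CommRing R₁] [CommRing R₂] [CommRing T]
    [IsRegularLocalRing R₁] [IsRegularLocalRing R₂] [IsRegularLocalRing T]
    [Algebra R₁ T] [Algebra R₂ T] [Module.Flat R₁ T] [Module.Flat R₂ T]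
    [IsLocalHom (algebraMap R₁ T)] [IsLocalHom (algebraMap R₂ T)]

omit [IsRegularLocalRing R₁] [IsRegularLocalRing R₂] [IsRegularLocalRing T]
  [IsLocalHom (algebraMap R₁ T)] [IsLocalHom (algebraMap R₂ T)]
  [Module.Flat R₂ T] [Algebra R₂ T] in
theorem mem_support_of_map_le (E : Type u) [AddCommGroup E] [Module R₁ E] [Module.Finite R₁ E]
    (P : Ideal T) (hPp : P.IsPrime)
    (hP : (Module.annihilator R₁ E).map (algebraMap R₁ T) ≤ P) :
    (⟨P, hPp⟩ : PrimeSpectrum T) ∈ Module.support T (T ⊗[R₁] E) := by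
  apply mem_support_baseChange
  rw [Module.support_eq_zeroLocus, PrimeSpectrum.mem_zeroLocus]
  intro a ha
  exact hP (Ideal.mem_map_of_mem _ ha)

omit [IsRegularLocalRing T] in
theorem maximalIdeal_le_of_length [IsLocalRing T] (X Y : Type u) [AddCommGroup X] [Module T X]
    [Module.Finite T X] [AddCommGroup Y] [Module T Y] [Module.Finite T Y]
    (h : IsFiniteLength T (X ⊗[T] Y)) (P : Ideal T) (hPp : P.IsPrime)
    (h1 : (⟨P, hPp⟩ : PrimeSpectrum T) ∈ Module.support T X)
    (h2 : (⟨P, hPp⟩ : PrimeSpectrum T) ∈ Module.support T Y) : maximalIdeal T ≤ P := by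
  obtain ⟨k, hk⟩ := exists_pow_smul_eq_zero h
  have h3 := mem_support_tensorProduct _ h1 h2
  have h4 : Module.annihilator T (X ⊗[T] Y) ≤ P := Module.annihilator_le_of_mem_support h3
  have h5 : maximalIdeal T ^ k ≤ P := fun a ha => h4 (Module.mem_annihilator.2 (hk a ha))
  exact hPp.le_of_pow_le h5

omit [IsRegularLocalRing R₁] [IsRegularLocalRing R₂] [IsLocalHom (algebraMap R₁ T)]
  [IsLocalHom (algebraMap R₂ T)] in
theorem fp_of_length (E G : Type u) [AddCommGroup E] [Module R₁ E] [Module.Finite R₁ E]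
    [AddCommGroup G] [Module R₂ G] [Module.Finite R₂ G]
    (h : IsFiniteLength T ((T ⊗[R₁] E) ⊗[T] (T ⊗[R₂] G))) : FP R₁ R₂ T E G := by
  unfold FP
  rw [Ideal.radical_eq_sInf]
  refine le_sInf ?_
  rintro P ⟨hP, hPp⟩
  exact maximalIdeal_le_of_length (T ⊗[R₁] E) (T ⊗[R₂] G) h P hPp
    (mem_support_of_map_le (T := T) E P hPp (le_sup_left.trans hP))
    (mem_support_of_map_le (T := T) G P hPp (le_sup_right.trans hP))

omit [IsRegularLocalRing T] in
theorem tor_subsingleton_left (i : ℕ) (X Y : Type u) [AddCommGroup X] [Module T X]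
    [AddCommGroup Y] [Module T Y] [Subsingleton X] : Subsingleton (TorM T i X Y) := by
  cases i with
  | zero => exact (torZero X Y).toEquiv.subsingleton
  | succ i =>
    have : Module.Flat T X := inferInstance
    exact tor_subsingleton_of_flat i

/-- Nonnegativity for pairs with small excess. -/
theorem pair_nonneg {r₁ r₂ t : ℕ} (h1 : ringKrullDim R₁ = r₁) (h2 : ringKrullDim R₂ = r₂)
    (ht : ringKrullDim T = t) (hb : r₁ + r₂ ≤ t + 4) (n : ℕ) (hn : t + 1 ≤ n)
    (E G : Type u) [AddCommGroup E] [Module R₁ E] [Module.Finite R₁ E]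
    [AddCommGroup G] [Module R₂ G] [Module.Finite R₂ G]
    (h : IsFiniteLength T ((T ⊗[R₁] E) ⊗[T] (T ⊗[R₂] G))) :
    0 ≤ eulerTor T n (T ⊗[R₁] E) (T ⊗[R₂] G) := by
  have hFP := fp_of_length (R₁ := R₁) (R₂ := R₂) (T := T) E G h
  rw [eulerTor_of_vanish (T ⊗[R₁] E) (T ⊗[R₂] G) (t + 1) n hn
    (fun j hj => regular_tor_vanish T t ht _ _ j hj)]
  by_cases hE : Nontrivial E
  · by_cases hG : Nontrivial G
    · have hle₁ : Module.annihilator R₁ E ≤ maximalIdeal R₁ := by
        refine le_maximalIdeal fun htop => ?_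
        rw [Module.annihilator_eq_top_iff] at htop
        exact not_subsingleton E htop
      have hle₂ : Module.annihilator R₂ G ≤ maximalIdeal R₂ := by
        refine le_maximalIdeal fun htop => ?_
        rw [Module.annihilator_eq_top_iff] at htop
        exact not_subsingleton G htop
      have hdim := ringKrullDim_le_add_of_radical R₁ R₂ T r₁ r₂ h1 h2
        (hFP.trans (Ideal.radical_mono (sup_le_sup (Ideal.map_mono hle₁) (Ideal.map_mono hle₂))))
      rw [ht] at hdim
      have hle : t ≤ r₁ + r₂ := by exact_mod_cast hdim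
      obtain ⟨b, hb'⟩ := Nat.exists_eq_add_of_le hle
      exact (locPos_four R₁ R₂ T r₁ r₂ t b h1 h2 ht hb' (by omega) E G hFP).2.1
    · rw [not_nontrivial_iff_subsingleton] at hG
      have h0 : ∀ i, Subsingleton (TorM T i (T ⊗[R₁] E) (T ⊗[R₂] G)) := fun i => by
        obtain ⟨e⟩ := tor_symm (R := T) i (T ⊗[R₁] E) (T ⊗[R₂] G)
        have : Subsingleton (T ⊗[R₂] G) := inferInstance
        have h3 := tor_subsingleton_left (T := T) i (T ⊗[R₂] G) (T ⊗[R₁] E)
        exact e.toEquiv.subsingleton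
      rw [eulerTor_of_vanish _ _ 0 (t + 1) (by omega) (fun j _ => h0 j)]
      simp [eulerTor]
  · rw [not_nontrivial_iff_subsingleton] at hE
    have h0 : ∀ i, Subsingleton (TorM T i (T ⊗[R₁] E) (T ⊗[R₂] G)) := fun i => by
      have : Subsingleton (T ⊗[R₁] E) := inferInstance
      exact tor_subsingleton_left (T := T) i (T ⊗[R₁] E) (T ⊗[R₂] G)
    rw [eulerTor_of_vanish _ _ 0 (t + 1) (by omega) (fun j _ => h0 j)]
    simp [eulerTor]

end pair

end Vale.Agent.P177
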