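import Vale.Agent.P177.CLocPosA

/-!
The local positivity theorem for a pair of flat local maps with transversality of tangent cones.
-/

namespace Vale.Agent.P177

open IsLocalRing Function TensorProduct

universe u

theorem map_smul_eq_zero {R A : Type u} [CommRing R] [CommRing A] [Algebra R A] (M : Type u)
    [AddCommGroup M] [Module R M] (c : A)
    (hc : c ∈ (Module.annihilator R M).map (algebraMap R A)) (v : A ⊗[R] M) : c • v = 0 := by
  have h1 : (Module.annihilator R M).map (algebraMap R A) ≤ Module.annihilator A (A ⊗[R] M) := by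
    rw [Ideal.map_le_iff_le_comap]
    intro r hr
    change algebraMap R A r ∈ Module.annihilator A (A ⊗[R] M)
    rw [Module.mem_annihilator]
    intro w
    induction w with
    | zero => rw [smul_zero]
    | add y z hy hz => rw [smul_add, hy, hz, add_zero]
    | tmul s m =>
      rw [algebraMap_smul, ← TensorProduct.tmul_smul, Module.mem_annihilator.1 hr,
        TensorProduct.tmul_zero]
  exact Module.mem_annihilator.1 (h1 hc) v

section pos

variable {R₁ R₂ A : Type u} [CommRing R₁] [CommRing R₂] [CommRing A]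
  [IsRegularLocalRing R₁] [IsRegularLocalRing R₂] [IsRegularLocalRing A]
  [Algebra R₁ A] [Algebra R₂ A] [Module.Flat R₁ A] [Module.Flat R₂ A]
  [IsLocalHom (algebraMap R₁ A)] [IsLocalHom (algebraMap R₂ A)] {d : ℕ}

/-- The local positivity theorem, with general changes of parameters. -/
theorem loc_pos_aux [Infinite (ResidueField A)] (hd₁ : ringKrullDim R₁ = d)
    (hd₂ : ringKrullDim R₂ = d) (hd : ringKrullDim A = d) {x₁ : Fin d → R₁} {x₂ : Fin d → R₂}
    {x : Fin d → A} (hx₁ : Ideal.span (Set.range x₁) = maximalIdeal R₁)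
    (hx₂ : Ideal.span (Set.range x₂) = maximalIdeal R₂)
    (hx : Ideal.span (Set.range x) = maximalIdeal A)
    (hxA : (maximalIdeal R₁).map (algebraMap R₁ A) = maximalIdeal A)
    (hyA : (maximalIdeal R₂).map (algebraMap R₂ A) = maximalIdeal A)
    (θ₁ θ₂ : Fin d → Fin d → A)
    (hθ₁ : ∀ i, algebraMap R₁ A (x₁ i) = ∑ l, θ₁ i l * x l)
    (hθ₂ : ∀ i, algebraMap R₂ A (x₂ i) = ∑ l, θ₂ i l * x l)
    (hf₁ : (eMap θ₁ hθ₁).Flat) (hf₂ : (eMap θ₂ hθ₂).Flat)
    (M N : Type u) [AddCommGroup M] [Module R₁ M] [Module.Finite R₁ M]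
    [AddCommGroup N] [Module R₂ N] [Module.Finite R₂ N]
    (hK : ∀ (z : Ideal (MvPolynomial (Fin d) (ResidueField A))) [z.IsPrime],
      (∀ f ∈ z, ∀ n, MvPolynomial.homogeneousComponent n f ∈ z) →
      (∃ i, MvPolynomial.X i ∉ z) →
      InForm x₁ (Module.annihilator R₁ M) (z.comap (jMap R₁ θ₁)) →
      InForm x₂ (Module.annihilator R₂ N) (z.comap (jMap R₂ θ₂)) →
      (z.comap (jMap R₁ θ₁)).height + (z.comap (jMap R₂ θ₂)).height ≤ z.height + 1)
    (hFP : FP R₁ R₂ A M N)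
    (hdim : ∀ e g : ℕ, (e : WithBot ℕ∞) ≤ Module.supportDim R₁ M →
      (g : WithBot ℕ∞) ≤ Module.supportDim R₂ N → e + g ≤ d) :
    0 ≤ eulerTor A (d + 1) (A ⊗[R₁] M) (A ⊗[R₂] N) ∧
    (∀ e g : ℕ, (e : WithBot ℕ∞) ≤ Module.supportDim R₁ M →
      (g : WithBot ℕ∞) ≤ Module.supportDim R₂ N → d ≤ e + g →
      0 < eulerTor A (d + 1) (A ⊗[R₁] M) (A ⊗[R₂] N)) := by
  rcases subsingleton_or_nontrivial M with hM | hM
  · have hM' : Subsingleton (A ⊗[R₁] M) := inferInstance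
    refine ⟨(eulerTor_left_zero _ _ _ hM').ge, fun e g he _ _ => ?_⟩
    rw [Module.supportDim_eq_bot_of_subsingleton] at he
    exact absurd (le_bot_iff.1 he) (WithBot.coe_ne_bot)
  rcases subsingleton_or_nontrivial N with hN | hN
  · have hN' : Subsingleton (A ⊗[R₂] N) := inferInstance
    refine ⟨(eulerTor_right_zero _ _ _ hN').ge, fun e g _ hg _ => ?_⟩
    rw [Module.supportDim_eq_bot_of_subsingleton] at hg
    exact absurd (le_bot_iff.1 hg) (WithBot.coe_ne_bot)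
  have hff₁ : Module.FaithfullyFlat R₁ A := Module.FaithfullyFlat.of_flat_of_isLocalHom
  have hff₂ : Module.FaithfullyFlat R₂ A := Module.FaithfullyFlat.of_flat_of_isLocalHom
  have hM' : Nontrivial (A ⊗[R₁] M) := inferInstance
  have hN' : Nontrivial (A ⊗[R₂] N) := inferInstance
  obtain ⟨c, n₀, hc⟩ := exists_chart hd₁ hd₂ hx₁ hx₂ hx θ₁ θ₂ hθ₁ hθ₂
    (Module.annihilator R₁ M) (Module.annihilator R₂ N) hK
    (fun P₁ hP₁ hI P₂ hP₂ hJ => height_ge_of_supportDim hd₁ hd₂ M N hdim P₁ hP₁ hI P₂ hP₂ hJ)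
  have hS := chart_isStrict hd hx c
  have hx0 := x0_mem hx c
  obtain ⟨f, hf⟩ := exists_chart_away x c (Localization.Away (x0 x c))
      (IsLocalization.Away.algebraMap_isUnit (x0 x c))
  obtain ⟨p₁, p₂⟩ := pos_of_chart (A := A) (S := Chart x c) hd (M := A ⊗[R₁] M)
    (N := A ⊗[R₂] N) (fun i => hFP.length_ne_top i) hx0 (n₀ := n₀)
    (I₁ := (Module.annihilator R₁ M).map (algebraMap R₁ A))
    (J₁ := (Module.annihilator R₂ N).map (algebraMap R₂ A))
    (map_smul_eq_zero M) (map_smul_eq_zero N) hc hS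
    (stMap_isStrict (M := A ⊗[R₁] M) hS hx0 f hf)
    (stMap_isStrict (M := A ⊗[R₂] N) hS hx0 f hf)
    (fun m hm hlen => chart_local_nonneg hd₁ hd₂ hd hx₁ hx₂ hx θ₁ θ₂ hθ₁ hθ₂ hf₁ hf₂ c
      m.asIdeal hm M N hK (hlen 0 (Nat.succ_pos d)))
  refine ⟨p₁, fun e g he hg hle => p₂ e g ?_ ?_ hle⟩
  · exact he.trans (supportDim_le_baseChange R₁ A hxA M)
  · exact hg.trans (supportDim_le_baseChange R₂ A hyA N)

/-- The local positivity theorem for a pair of flat local maps. -/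
theorem loc_pos [Infinite (ResidueField A)] (hd₁ : ringKrullDim R₁ = d)
    (hd₂ : ringKrullDim R₂ = d) (hd : ringKrullDim A = d) {x₁ : Fin d → R₁} {x₂ : Fin d → R₂}
    (hx₁ : Ideal.span (Set.range x₁) = maximalIdeal R₁)
    (hx₂ : Ideal.span (Set.range x₂) = maximalIdeal R₂)
    (hxA : (maximalIdeal R₁).map (algebraMap R₁ A) = maximalIdeal A)
    (hyA : (maximalIdeal R₂).map (algebraMap R₂ A) = maximalIdeal A)
    (θ : Fin d → Fin d → A)
    (hθ : ∀ i, algebraMap R₂ A (x₂ i) = ∑ l, θ i l * algebraMap R₁ A (x₁ l))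
    (M N : Type u) [AddCommGroup M] [Module R₁ M] [Module.Finite R₁ M]
    [AddCommGroup N] [Module R₂ N] [Module.Finite R₂ N]
    (hK : ∀ (z : Ideal (MvPolynomial (Fin d) (ResidueField A))) [z.IsPrime],
      (∀ f ∈ z, ∀ n, MvPolynomial.homogeneousComponent n f ∈ z) →
      (∃ i, MvPolynomial.X i ∉ z) →
      InForm x₁ (Module.annihilator R₁ M)
        (z.comap (MvPolynomial.map (ResidueField.map (algebraMap R₁ A)))) →
      InForm x₂ (Module.annihilator R₂ N) (z.comap (jMap R₂ θ)) →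
      (z.comap (MvPolynomial.map (ResidueField.map (algebraMap R₁ A)))).height +
        (z.comap (jMap R₂ θ)).height ≤ z.height + 1)
    (hFP : FP R₁ R₂ A M N)
    (hdim : ∀ e g : ℕ, (e : WithBot ℕ∞) ≤ Module.supportDim R₁ M →
      (g : WithBot ℕ∞) ≤ Module.supportDim R₂ N → e + g ≤ d) :
    0 ≤ eulerTor A (d + 1) (A ⊗[R₁] M) (A ⊗[R₂] N) ∧
    (∀ e g : ℕ, (e : WithBot ℕ∞) ≤ Module.supportDim R₁ M →
      (g : WithBot ℕ∞) ≤ Module.supportDim R₂ N → d ≤ e + g →
      0 < eulerTor A (d + 1) (A ⊗[R₁] M) (A ⊗[R₂] N)) := by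
  have hx : Ideal.span (Set.range fun l => algebraMap R₁ A (x₁ l)) = maximalIdeal A := by
    rw [← hxA, ← hx₁, Ideal.map_span, ← Set.range_comp]
    rfl
  have hy : Ideal.span (Set.range fun l => algebraMap R₂ A (x₂ l)) = maximalIdeal A := by
    rw [← hyA, ← hx₂, Ideal.map_span, ← Set.range_comp]
    rfl
  let θ₁ : Fin d → Fin d → A := fun i l => if i = l then 1 else 0
  have hθ₁ : ∀ i, algebraMap R₁ A (x₁ i) = ∑ l, θ₁ i l * algebraMap R₁ A (x₁ l) := fun i =>
    (sum_ite_mul i fun l => algebraMap R₁ A (x₁ l)).symm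
  have hone : ∀ i l, ∑ m, θ₁ i m * θ₁ m l = if i = l then 1 else 0 := fun i l =>
    sum_ite_mul i fun m => θ₁ m l
  have hf₁ : (eMap (x' := x₁) (x := fun l => algebraMap R₁ A (x₁ l)) θ₁ hθ₁).Flat :=
    eMap_flat θ₁ hθ₁ θ₁ hθ₁ hone hone
  obtain ⟨θ', h1, h2, h3⟩ := exists_inverse hd hx hy θ hθ
  have hf₂ : (eMap (x' := x₂) (x := fun l => algebraMap R₁ A (x₁ l)) θ hθ).Flat :=
    eMap_flat θ hθ θ' h1 h2 h3
  refine loc_pos_aux hd₁ hd₂ hd hx₁ hx₂ hx hxA hyA θ₁ θ hθ₁ hθ hf₁ hf₂ M N ?_ hFP hdim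
  have hj : jMap R₁ θ₁ = MvPolynomial.map (ResidueField.map (algebraMap R₁ A)) := jMap_one
  rw [hj]
  exact hK

end pos

end Vale.Agent.P177
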