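import Vale.Agent.P177.CEulK

/-!
Nonnegativity and positivity of the Euler characteristic from a chart of the blow-up.
-/

namespace Vale.Agent.P177

open Function IsLocalRing TensorProduct

universe u

/-- Nonnegativity (and positivity) of the Euler characteristic, given a chart of the blow-up on
which the local Euler characteristics of the strict transforms are nonnegative. -/
theorem pos_of_chart {A S : Type u} [CommRing A] [IsRegularLocalRing A] [CommRing S]
    [Algebra A S] {d : ℕ} (hd : ringKrullDim A = d) {M N : Type u}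
    [AddCommGroup M] [Module A M] [Module.Finite A M] [AddCommGroup N] [Module A N]
    [Module.Finite A N] [Nontrivial M] [Nontrivial N]
    (hfin : ∀ i, Module.length A (TorM A i M N) ≠ ⊤)
    {x : A} (hx : x ∈ maximalIdeal A) {n₀ : ℕ} {I₁ J₁ : Ideal A}
    (hI : ∀ c ∈ I₁, ∀ v : M, c • v = 0) (hJ : ∀ c ∈ J₁, ∀ v : N, c • v = 0)
    (hC : maximalIdeal A ^ (n₀ + 1) ≤ (I₁ ⊓ maximalIdeal A ^ (n₀ + 1)) ⊔
      (J₁ ⊓ maximalIdeal A ^ (n₀ + 1)) ⊔ Ideal.span {x} * maximalIdeal A ^ n₀)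
    (hS : IsStrict x (fun k => (maximalIdeal A ^ k : Ideal A)) (Algebra.linearMap A S))
    {M₁ N₁ : Type u} [AddCommGroup M₁] [Module A M₁] [Module S M₁] [IsScalarTower A S M₁]
    [AddCommGroup N₁] [Module A N₁] [Module S N₁] [IsScalarTower A S N₁]
    {ι : M →ₗ[A] M₁} {κ : N →ₗ[A] N₁}
    (hM : IsStrict x (fun n => (maximalIdeal A ^ n • ⊤ : Submodule A M)) ι)
    (hN : IsStrict x (fun n => (maximalIdeal A ^ n • ⊤ : Submodule A N)) κ)
    (hloc : ∀ m : MaximalSpectrum S, (∀ a ∈ maximalIdeal A, algebraMap A S a ∈ m.asIdeal) →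
      (∀ i, i < d + 1 → Module.length (Localization.AtPrime m.asIdeal)
        (TorM (Localization.AtPrime m.asIdeal) i (Localization.AtPrime m.asIdeal ⊗[S] M₁)
          (Localization.AtPrime m.asIdeal ⊗[S] N₁)) ≠ ⊤) →
      0 ≤ eulerTor (Localization.AtPrime m.asIdeal) (d + 1)
        (Localization.AtPrime m.asIdeal ⊗[S] M₁) (Localization.AtPrime m.asIdeal ⊗[S] N₁)) :
    0 ≤ eulerTor A (d + 1) M N ∧
    (∀ k l : ℕ, (k : WithBot ℕ∞) ≤ Module.supportDim A M → (l : WithBot ℕ∞) ≤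
      Module.supportDim A N → d ≤ k + l → 0 < eulerTor A (d + 1) M N) := by
  let F : ℕ → Submodule A M := fun n => (maximalIdeal A ^ n • ⊤ : Submodule A M)
  let G : ℕ → Submodule A N := fun n => (maximalIdeal A ^ n • ⊤ : Submodule A N)
  have hF : GoodFil (maximalIdeal A) F := goodFil_pow _ _
  have hG : GoodFil (maximalIdeal A) G := goodFil_pow _ _
  obtain ⟨X⟩ := exists_fres_of_regular hd hF
  have hfinK : ∀ i n, rl (X.ZK G n i) (X.BK G n i) ≠ ⊤ := fun i n => (euler_split X hfin n).1 i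
  obtain ⟨k₁, hk₁⟩ := X.exists_stab hG hx hI hJ hC hfinK (d + 1)
  let X₁ : FR S M₁ := strictFR X hS hx hM hF
  -- nonnegativity of the contribution of the chart
  have hh : ∀ k, k₁ ≤ k → 0 ≤ ∑ i ∈ Finset.range (d + 1), (-1) ^ i *
      ((rl (X.ZK G k i) (X.BK G k i)).toNat : ℤ) := by
    intro k hk
    have hlen : ∀ i, i < d + 1 → rl (X.ZK G k i) (X.BK G k i) = Module.length A
        (X₁.Z N₁ i ⧸ (X₁.B N₁ i).submoduleOf (X₁.Z N₁ i)) := fun i hi =>
      strict_length X hS hx hM hF hN hG i k fun k' hk' => hk₁ i hi k' (hk.trans hk')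
    have e : ∑ i ∈ Finset.range (d + 1), (-1) ^ i *
        ((rl (X.ZK G k i) (X.BK G k i)).toNat : ℤ) = ∑ i ∈ Finset.range (d + 1), (-1) ^ i *
        ((Module.length A (X₁.Z N₁ i ⧸ (X₁.B N₁ i).submoduleOf (X₁.Z N₁ i))).toNat : ℤ) :=
      Finset.sum_congr rfl fun i hi => by rw [hlen i (Finset.mem_range.1 hi)]
    rw [e]
    refine sum_nonneg_of_local (S := S) (d + 1)
      (fun i => X₁.Z N₁ i ⧸ (X₁.B N₁ i).submoduleOf (X₁.Z N₁ i)) ?_ ?_
    · intro i hi
      rw [← hlen i hi]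
      exact hfinK i k
    · intro m hm hfinm
      have hT : ∀ i, Module.length (Localization.AtPrime m.asIdeal)
          (TorM (Localization.AtPrime m.asIdeal) i (Localization.AtPrime m.asIdeal ⊗[S] M₁)
            (Localization.AtPrime m.asIdeal ⊗[S] N₁)) =
          Module.length (Localization.AtPrime m.asIdeal) (Localization.AtPrime m.asIdeal ⊗[S]
            (X₁.Z N₁ i ⧸ (X₁.B N₁ i).submoduleOf (X₁.Z N₁ i))) := by
        intro i
        obtain ⟨e1⟩ := exists_tor_flat_iso (A := S) (C := Localization.AtPrime m.asIdeal) i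
          (TensorProduct.isBaseChange S M₁ (Localization.AtPrime m.asIdeal))
          (TensorProduct.isBaseChange S N₁ (Localization.AtPrime m.asIdeal))
        obtain ⟨e2⟩ := X₁.tor_eq N₁ i
        exact (e1 ≪≫ₗ e2.baseChange S (Localization.AtPrime m.asIdeal) _ _).length_eq
      have h1 := hloc m hm (fun i hi => by rw [hT]; exact hfinm i hi)
      unfold eulerTor at h1
      simp only [hT] at h1
      exact h1
  obtain ⟨⟨n₁, hn₁⟩, hpos⟩ := psi_cases hd (N := N) X
  refine ⟨?_, ?_⟩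
  · have h1 := (euler_split X hfin (max k₁ n₁)).2
    rw [h1]
    exact add_nonneg (hh _ (le_max_left _ _)) (hn₁ _ (le_max_right _ _))
  · intro k l hk hl hkl
    obtain ⟨n₂, hn₂⟩ := hpos k l hk hl hkl
    have h1 := (euler_split X hfin (max k₁ n₂)).2
    rw [h1]
    have h2 := hh _ (le_max_left k₁ n₂)
    have h3 := hn₂ _ (le_max_right k₁ n₂)
    change 0 < ∑ i ∈ Finset.range (d + 1), (-1) ^ i *
        ((rl (X.ZK G (max k₁ n₂) i) (X.BK G (max k₁ n₂) i)).toNat : ℤ) + _
    linarith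

end Vale.Agent.P177
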