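import Vale.Agent.P177.LocalValue

/-!
From local positivity to global positivity via reduction to the diagonal.
-/

namespace Vale.Agent.P177

open CategoryTheory TensorProduct Function IsLocalRing RingTheory.Sequence Pointwise

universe u

section

theorem exists_prime_of_le_supportDim {R : Type u} [CommRing R] [IsRegularLocalRing R] {d : ℕ}
    (hd : ringKrullDim R = d) (M : Type u) [AddCommGroup M] [Module R M] (m : ℕ)
    (hm : (m : WithBot ℕ∞) ≤ Module.supportDim R M) :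
    ∃ (p : PrimeSpectrum R) (P : ℕ), p ∈ Module.support R M ∧ p.asIdeal.height = P ∧
      P + m ≤ d := by
  unfold Module.supportDim at hm
  obtain ⟨l, hl⟩ := Order.le_krullDim_iff.1 hm
  have h1 : (m : WithBot ℕ∞) ≤ Module.supportDim R (R ⧸ l.head.1.asIdeal) := by
    unfold Module.supportDim
    rw [Order.le_krullDim_iff]
    exact ⟨{ length := l.length
             toFun := fun i => ⟨(l i).1, (support_quotient_prime _ _).2 (l.head_le i)⟩
             step := fun i => l.step i }, hl⟩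
  obtain ⟨zs, -, -, hz, h2, h3, -⟩ := exists_ci hd l.head.1.asIdeal
  rw [h3] at h1
  have h4 : m ≤ d - zs.length := by exact_mod_cast h1
  exact ⟨l.head.1, zs.length, l.head.2, h2, by omega⟩

theorem supportDim_prime_eq {R : Type u} [CommRing R] [IsRegularLocalRing R] {d : ℕ}
    (hd : ringKrullDim R = d) (P : Ideal R) [P.IsPrime] :
    ∃ h : ℕ, P.height = h ∧ h ≤ d ∧ Module.supportDim R (R ⧸ P) = ((d - h : ℕ) : WithBot ℕ∞) := by
  obtain ⟨zs, -, -, hz, h2, h3, -⟩ := exists_ci hd P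
  exact ⟨zs.length, h2, hz, h3⟩

end

theorem global_pos {R₁ R₂ T : Type u} [CommRing R₁] [CommRing R₂] [CommRing T]
    [IsRegularLocalRing R₁] [IsRegularLocalRing R₂] [IsRegularLocalRing T]
    [Algebra R₁ T] [Algebra R₂ T] [Module.Flat R₁ T] [Module.Flat R₂ T]
    (a : ℕ) (hLoc : LocPos.{u} a)
    (μ : T →+* R₁) (hμ : ∀ s, μ (algebraMap R₁ T s) = s) (z : List T)
    (hkerμ : RingHom.ker μ = Ideal.ofList z) (hz : IsWeaklyRegular T z)
    (θ : R₂ ≃+* R₁) (hθ : ∀ s, μ (algebraMap R₂ T s) = θ s)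
    (d : ℕ) (hd : ringKrullDim R₁ = d)
    (hb : ∀ (Q : Ideal T) [Q.IsPrime] (r₁ r₂ q : ℕ), (Q.comap (algebraMap R₁ T)).height = r₁ →
      (Q.comap (algebraMap R₂ T)).height = r₂ → Q.height = q → r₁ + r₂ ≤ q + a)
    (M N : Type u) [AddCommGroup M] [Module R₂ M] [Module.Finite R₂ M]
    [AddCommGroup N] [Module R₁ N] [Module R₂ N] [Module.Finite R₁ N]
    (hN : ∀ (s : R₂) (t : N), s • t = θ s • t)
    (hlen : Module.length R₂ (M ⊗[R₂] N) ≠ ⊤) :
    0 ≤ eulerTor R₂ (d + 1) M N ∧ ∀ m n : ℕ, (m : WithBot ℕ∞) ≤ Module.supportDim R₂ M →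
      (n : WithBot ℕ∞) ≤ Module.supportDim R₁ N →
      (m + n ≤ d) ∧ (d ≤ m + n → 0 < eulerTor R₂ (d + 1) M N) := by
  classical
  -- basic facts
  have hμs : Surjective μ := fun s => ⟨algebraMap R₁ T s, hμ s⟩
  have hμloc : IsLocalHom μ := IsLocalHom.of_surjective μ hμs
  have hl₁ : IsLocalHom (algebraMap R₁ T) := ⟨fun s hs => by
    have := hs.map μ
    rwa [hμ] at this⟩
  have hl₂ : IsLocalHom (algebraMap R₂ T) := ⟨fun s hs => by
    have h1 := (hs.map μ).map θ.symm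
    rwa [hθ, RingEquiv.symm_apply_apply] at h1⟩
  have hzm : ∀ y ∈ z, y ∈ maximalIdeal T := by
    intro y hy
    have h1 : y ∈ RingHom.ker μ := by
      rw [hkerμ]
      exact Ideal.subset_span hy
    rw [mem_maximalIdeal, mem_nonunits_iff]
    intro hu
    have h2 := hu.map μ
    rw [(RingHom.mem_ker).1 h1] at h2
    exact not_isUnit_zero h2
  have hd₂ : ringKrullDim R₂ = d := by rw [ringKrullDim_eq_of_ringEquiv θ, hd]
  have ht : ringKrullDim T = ((d + z.length : ℕ) : WithBot ℕ∞) := by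
    have hreg : IsRegular T z := by
      refine ⟨hz, ?_⟩
      intro h
      have h1 : (Ideal.ofList z • ⊤ : Ideal T) ≤ maximalIdeal T := by
        rw [smul_eq_mul, Ideal.mul_top]
        exact Ideal.span_le.2 hzm
      rw [← h] at h1
      exact (maximalIdeal.isMaximal T).ne_top (top_le_iff.1 h1)
    have h2 := ringKrullDim_add_length_eq_ringKrullDim_of_isRegular _ hreg
    rw [← h2]
    have e : (T ⧸ Ideal.ofList z) ≃+* R₁ :=
      (Ideal.quotEquivOfEq hkerμ.symm).trans (RingHom.quotientKerEquivOfSurjective hμs)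
    rw [ringKrullDim_eq_of_ringEquiv e, hd]
    push_cast
    rfl
  -- the ideal
  let I : Ideal T := (Module.annihilator R₁ N).map (algebraMap R₁ T) ⊔
    (Module.annihilator R₂ M).map (algebraMap R₂ T)
  -- Fact A
  have hann : ∀ v ∈ Module.annihilator R₂ N, θ v ∈ Module.annihilator R₁ N := by
    intro v hv
    rw [Module.mem_annihilator] at hv ⊢
    intro t
    rw [← hN, hv]
  have : Module.Finite R₂ N := by
    let _ : Algebra R₂ R₁ := (θ : R₂ →+* R₁).toAlgebra
    have : IsScalarTower R₂ R₁ N := IsScalarTower.of_algebraMap_smul fun s t => (hN s t).symm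
    have : Module.Finite R₂ R₁ := Module.Finite.of_surjective (Algebra.linearMap R₂ R₁)
      θ.surjective
    exact Module.Finite.trans R₁ N
  have hA : maximalIdeal T ≤ (I ⊔ Ideal.ofList z).radical := by
    obtain ⟨k, hk⟩ := exists_pow_le_sup_annihilator (R := R₂) M N hlen
    intro x hx
    refine ⟨k, ?_⟩
    have h1 : θ.symm (μ x) ∈ maximalIdeal R₂ := by
      rw [mem_maximalIdeal, mem_nonunits_iff] at hx ⊢
      intro hu
      apply hx
      have h2 := hu.map θ
      rw [RingEquiv.apply_symm_apply] at h2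
      exact isUnit_of_map_unit μ x h2
    obtain ⟨u, hu, v, hv, huv⟩ := Submodule.mem_sup.1 (hk (Ideal.pow_mem_pow h1 k))
    have h3 : x ^ k - algebraMap R₂ T u - algebraMap R₁ T (θ v) ∈ Ideal.ofList z := by
      rw [← hkerμ, RingHom.mem_ker, map_sub, map_sub, hθ, hμ, map_pow, sub_sub, ← map_add, huv,
        map_pow, RingEquiv.apply_symm_apply, sub_self]
    have h4 : x ^ k = (algebraMap R₁ T (θ v) + algebraMap R₂ T u) +
        (x ^ k - algebraMap R₂ T u - algebraMap R₁ T (θ v)) := by ring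
    rw [h4]
    exact Submodule.add_mem_sup (Submodule.add_mem_sup (Ideal.mem_map_of_mem _ (hann v hv))
      (Ideal.mem_map_of_mem _ hu)) h3
  -- Fact C
  have hC : ∀ Q : Ideal T, I ≤ Q → Module.supportDim T (T ⧸ Q) ≤ (z.length : WithBot ℕ∞) := by
    intro Q hQ
    apply supportDim_le_length z hzm
    unfold FL
    rw [Ideal.annihilator_quotient]
    exact hA.trans (Ideal.radical_mono (sup_le_sup_right hQ _))
  have hmin : ∀ Q : PrimeSpectrum T, I ≤ Q.asIdeal → (z.length : WithBot ℕ∞) ≤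
      Module.supportDim T (T ⧸ Q.asIdeal) → Q.asIdeal ∈ I.minimalPrimes := by
    intro Q hQ hQd
    refine ⟨⟨Q.isPrime, hQ⟩, ?_⟩
    rintro Q' ⟨hQ'p, hQ'⟩ hle
    by_contra hcon
    have hlt : Q' < Q.asIdeal := lt_of_le_not_ge hle hcon
    have h1 := (supportDim_quotient_strict hlt z.length hQd).trans (hC Q' hQ')
    have h2 : z.length + 1 ≤ z.length := by exact_mod_cast h1
    omega
  have hWfin : {Q : PrimeSpectrum T | I ≤ Q.asIdeal ∧ (z.length : WithBot ℕ∞) ≤
      Module.supportDim T (T ⧸ Q.asIdeal)}.Finite := by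
    refine Set.Finite.of_finite_image (f := PrimeSpectrum.asIdeal) ?_ ?_
    · refine (Ideal.finite_minimalPrimes_of_isNoetherianRing T I).subset ?_
      rintro _ ⟨Q, hQ, rfl⟩
      exact hmin Q hQ.1 hQ.2
    · intro Q _ Q' _ h
      exact PrimeSpectrum.ext h
  let W : Finset (PrimeSpectrum T) := hWfin.toFinset
  have hWmem : ∀ Q, Q ∈ W ↔ I ≤ Q.asIdeal ∧ (z.length : WithBot ℕ∞) ≤
      Module.supportDim T (T ⧸ Q.asIdeal) := fun Q => by
    rw [Set.Finite.mem_toFinset]; rfl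
  have hWdim : ∀ Q ∈ W, Module.supportDim T (T ⧸ Q.asIdeal) = (z.length : WithBot ℕ∞) := by
    intro Q hQ
    rw [hWmem] at hQ
    exact le_antisymm (hC _ hQ.1) hQ.2
  -- the main identity
  have hfin : ∀ j, Module.Finite T (TorM T j (T ⊗[R₁] N) (T ⊗[R₂] M)) := fun j =>
    tor_finite (R := T) j _ _
  have hIann : ∀ j, I ≤ Module.annihilator T (TorM T j (T ⊗[R₁] N) (T ⊗[R₂] M)) := by
    intro j
    refine sup_le ?_ ?_
    · refine (map_annihilator_le N).trans ?_
      intro x hx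
      rw [Module.mem_annihilator]
      exact tor_smul_eq_zero_left x (fun m => Module.mem_annihilator.1 hx m) j _
    · refine (map_annihilator_le M).trans ?_
      intro x hx
      rw [Module.mem_annihilator]
      exact tor_smul_eq_zero_right x (fun m => Module.mem_annihilator.1 hx m) j _
  have hv : ∀ j, d + z.length + 1 ≤ j →
      Subsingleton (TorM T j (T ⊗[R₁] N) (T ⊗[R₂] M)) := fun j hj =>
    regular_tor_vanish T _ ht _ _ j hj
  let n : ℕ := d + z.length + 1 + z.length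
  obtain ⟨heq, hFL⟩ : eulerTor R₂ n M N = ∑ j ∈ Finset.range n,
        (-1 : ℤ) ^ j * eul z (TorM T j (T ⊗[R₁] N) (T ⊗[R₂] M)) ∧
      FL2 z (T ⊗[R₁] N) (T ⊗[R₂] M) := by
    let _ : Module T N := Module.compHom N μ
    have hsN : ∀ (b : T) (t : N), b • t = μ b • t := fun b t => rfl
    have : IsScalarTower R₁ T N := ⟨fun s b t => by
      rw [hsN, hsN, Algebra.smul_def, map_mul, hμ, mul_smul]⟩
    have : IsScalarTower R₂ T N := ⟨fun s b t => by
      rw [hsN, hsN, Algebra.smul_def, map_mul, hθ, mul_smul, hN]⟩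
    have hres : ∀ b : T, ∃ s : R₁, b - algebraMap R₁ T s ∈ Ideal.ofList z := by
      intro b
      refine ⟨μ b, ?_⟩
      rw [← hkerμ, RingHom.mem_ker, map_sub, hμ, sub_self]
    have hkill : ∀ y ∈ Ideal.ofList z, ∀ t : N, y • t = 0 := by
      intro y hy t
      rw [← hkerμ, RingHom.mem_ker] at hy
      rw [hsN, hy, zero_smul]
    have hN2 : ∀ b : T, ∃ s : R₂, ∀ t : N, b • t = s • t := by
      intro b
      refine ⟨θ.symm (μ b), fun t => ?_⟩
      rw [hN, RingEquiv.apply_symm_apply, hsN]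
    let _ : Module T R₁ := Module.compHom R₁ μ
    have hsm : ∀ (b : T) (t : R₁), b • t = μ b * t := fun b t => rfl
    have : IsScalarTower R₁ T R₁ := ⟨fun s b t => by
      rw [hsm, hsm, Algebra.smul_def, map_mul, hμ, smul_eq_mul, mul_assoc]⟩
    let μl : T →ₗ[T] R₁ :=
      { toFun := μ
        map_add' := map_add μ
        map_smul' := fun b c => by
          rw [smul_eq_mul, map_mul, RingHom.id_apply, hsm] }
    have hker : LinearMap.ker μl = (Ideal.ofList z • ⊤ : Submodule T T) := by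
      rw [smul_eq_mul, Ideal.mul_top, ← hkerμ]
      rfl
    have e : (T ⧸ (Ideal.ofList z • ⊤ : Submodule T T)) ≃ₗ[T] R₁ :=
      Submodule.quotEquivOfEq _ _ hker.symm ≪≫ₗ μl.quotKerEquivOfSurjective hμs
    exact eulerTor_eq_sum_eul z hzm hz hres R₁ e N hkill hN2 M (d + z.length + 1) hv hlen n le_rfl
  have hassoc : ∀ j, eul z (TorM T j (T ⊗[R₁] N) (T ⊗[R₂] M)) =
      ∑ Q ∈ W, ((locLen Q.asIdeal (TorM T j (T ⊗[R₁] N) (T ⊗[R₂] M))).toNat : ℤ) *
        eul z (T ⧸ Q.asIdeal) := by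
    intro j
    have := hfin j
    refine (assoc_formula z hzm W hWdim _ (hFL.tor j) ?_).2
    intro Q hQ hQd
    rw [hWmem]
    refine ⟨?_, hQd⟩
    rw [Module.support_eq_zeroLocus] at hQ
    exact (hIann j).trans hQ
  have hsum : eulerTor R₂ n M N = ∑ Q ∈ W,
      locEul Q.asIdeal n (T ⊗[R₁] N) (T ⊗[R₂] M) * eul z (T ⧸ Q.asIdeal) := by
    rw [heq]
    simp only [hassoc, Finset.mul_sum]
    rw [Finset.sum_comm]
    refine Finset.sum_congr rfl fun Q _ => ?_
    unfold locEul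
    rw [Finset.sum_mul]
    refine Finset.sum_congr rfl fun j _ => ?_
    ring
  have hshrink : eulerTor R₂ n M N = eulerTor R₂ (d + 1) M N := by
    have : Module.Finite R₂ N := ‹_›
    exact eulerTor_shrink M N (d + 1) n (by omega) fun j hj =>
      regular_tor_vanish R₂ d hd₂ M N j hj
  rw [← hshrink, hsum]
  -- positivity of the second factor
  have heul : ∀ Q : Ideal T, I ≤ Q → 0 ≤ eul z (T ⧸ Q) ∧
      ((z.length : WithBot ℕ∞) ≤ Module.supportDim T (T ⧸ Q) → 0 < eul z (T ⧸ Q)) := by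
    intro Q hQ
    apply eul_nonneg_pos z hzm
    unfold FL
    rw [Ideal.annihilator_quotient]
    exact hA.trans (Ideal.radical_mono (sup_le_sup_right hQ _))
  -- heights
  have hht : ∀ Q : Ideal T, Q.IsPrime → ∃ r₁ r₂ q : ℕ, (Q.comap (algebraMap R₁ T)).height = r₁ ∧
      (Q.comap (algebraMap R₂ T)).height = r₂ ∧ Q.height = q ∧ r₁ + r₂ ≤ q + a ∧
      q ≤ d + z.length ∧ Module.supportDim T (T ⧸ Q) = ((d + z.length - q : ℕ) : WithBot ℕ∞) := by
    intro Q hQ
    have h1 : (Q.comap (algebraMap R₁ T)).IsPrime := Ideal.IsPrime.comap _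
    have h2 : (Q.comap (algebraMap R₂ T)).IsPrime := Ideal.IsPrime.comap _
    obtain ⟨r₁, hr₁, -, -⟩ := supportDim_prime_eq hd (Q.comap (algebraMap R₁ T))
    obtain ⟨r₂, hr₂, -, -⟩ := supportDim_prime_eq hd₂ (Q.comap (algebraMap R₂ T))
    obtain ⟨q, hq, hq', hq''⟩ := supportDim_prime_eq ht Q
    exact ⟨r₁, r₂, q, hr₁, hr₂, hq, hb Q r₁ r₂ q hr₁ hr₂ hq, hq', hq''⟩
  have hterm : ∀ Q ∈ W, 0 ≤ locEul Q.asIdeal n (T ⊗[R₁] N) (T ⊗[R₂] M) *
      eul z (T ⧸ Q.asIdeal) := by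
    intro Q hQ
    have hQ' := (hWmem Q).1 hQ
    have hQp := Q.isPrime
    obtain ⟨r₁, r₂, q, hr₁, hr₂, hq, hbb, hqt, -⟩ := hht Q.asIdeal Q.isPrime
    obtain ⟨b, -, h1, -⟩ := local_value a hLoc N M Q.asIdeal (hmin Q hQ'.1 hQ'.2) r₁ r₂ q hr₁
      hr₂ hq hbb n (by omega)
    exact mul_nonneg h1 (heul _ hQ'.1).1
  refine ⟨Finset.sum_nonneg hterm, ?_⟩
  intro m k hm hk
  obtain ⟨p₂, P₂, hp₂, hP₂, hm'⟩ := exists_prime_of_le_supportDim hd₂ M m hm
  obtain ⟨p₁, P₁, hp₁, hP₁, hk'⟩ := exists_prime_of_le_supportDim hd N k hk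
  -- the minimal prime
  let J : Ideal T := p₁.asIdeal.map (algebraMap R₁ T) ⊔ p₂.asIdeal.map (algebraMap R₂ T)
  have hJ : J ≤ maximalIdeal T := by
    refine sup_le ?_ ?_
    · exact (Ideal.map_mono (le_maximalIdeal p₁.isPrime.ne_top)).trans
        (((IsLocalRing.local_hom_TFAE (algebraMap R₁ T)).out 0 2).mp hl₁)
    · exact (Ideal.map_mono (le_maximalIdeal p₂.isPrime.ne_top)).trans
        (((IsLocalRing.local_hom_TFAE (algebraMap R₂ T)).out 0 2).mp hl₂)
  obtain ⟨Q, hQ, -⟩ := Ideal.exists_minimalPrimes_le hJ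
  have hQp : Q.IsPrime := hQ.1.1
  have hIJ : I ≤ J := by
    rw [Module.support_eq_zeroLocus] at hp₁ hp₂
    exact sup_le_sup (Ideal.map_mono hp₁) (Ideal.map_mono hp₂)
  have hIQ : I ≤ Q := hIJ.trans hQ.1.2
  obtain ⟨r₁, r₂, q, hr₁, hr₂, hq, hbb, hqt, hQd⟩ := hht Q hQp
  have hle₁ : p₁.asIdeal ≤ Q.comap (algebraMap R₁ T) := by
    rw [← Ideal.map_le_iff_le_comap]
    exact le_sup_left.trans hQ.1.2
  have hle₂ : p₂.asIdeal ≤ Q.comap (algebraMap R₂ T) := by
    rw [← Ideal.map_le_iff_le_comap]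
    exact le_sup_right.trans hQ.1.2
  have hP₁r : P₁ ≤ r₁ := by
    have := Ideal.height_mono hle₁
    rw [hP₁, hr₁] at this
    exact_mod_cast this
  have hP₂r : P₂ ≤ r₂ := by
    have := Ideal.height_mono hle₂
    rw [hP₂, hr₂] at this
    exact_mod_cast this
  have hqP : q ≤ P₁ + P₂ := by
    have hQ2 : Q ∈ ((Module.annihilator R₁ (R₁ ⧸ p₁.asIdeal)).map (algebraMap R₁ T) ⊔
        (Module.annihilator R₂ (R₂ ⧸ p₂.asIdeal)).map (algebraMap R₂ T)).minimalPrimes := by
      rw [Ideal.annihilator_quotient, Ideal.annihilator_quotient]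
      exact hQ
    obtain ⟨b, hb1, -, hb2⟩ := local_value a hLoc (R₁ ⧸ p₁.asIdeal) (R₂ ⧸ p₂.asIdeal) Q hQ2
      r₁ r₂ q hr₁ hr₂ hq hbb n (by omega)
    have h5 := (hb2 P₁ P₂ p₁ p₂ ((support_quotient_prime _ _).2 le_rfl)
      ((support_quotient_prime _ _).2 le_rfl) hle₁ hle₂ hP₁ hP₂).1
    omega
  have hCQ := hC Q hIQ
  rw [hQd] at hCQ
  have hCQ' : d + z.length - q ≤ z.length := by exact_mod_cast hCQ
  constructor
  · omega
  · intro hdm
    have hqd : q = d := by omega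
    have hPP : P₁ + P₂ = d := by omega
    have hQz : (z.length : WithBot ℕ∞) ≤ Module.supportDim T (T ⧸ Q) := by
      rw [hQd]
      have : z.length ≤ d + z.length - q := by omega
      exact_mod_cast this
    have hQW : (⟨Q, hQp⟩ : PrimeSpectrum T) ∈ W := (hWmem _).2 ⟨hIQ, hQz⟩
    obtain ⟨b, hb1, -, hb2⟩ := local_value a hLoc N M Q (hmin ⟨Q, hQp⟩ hIQ hQz)
      r₁ r₂ q hr₁ hr₂ hq hbb n (by omega)
    have h6 := (hb2 P₁ P₂ p₁ p₂ hp₁ hp₂ hle₁ hle₂ hP₁ hP₂).2 (by omega)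
    exact Finset.sum_pos' hterm ⟨_, hQW, mul_pos h6 ((heul Q hIQ).2 hQz)⟩

end Vale.Agent.P177
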