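import Vale.Agent.P177.CCond
import Vale.Agent.P177.CThmB
import Vale.Agent.P177.GlobalPos

/-!
Change of systems of parameters, and heights from dimensions.
-/

namespace Vale.Agent.P177

open IsLocalRing Function TensorProduct

universe u

section inv

variable {A : Type u} [CommRing A] [IsRegularLocalRing A] {d : ℕ} (hd : ringKrullDim A = d)
  {x : Fin d → A} (hx : Ideal.span (Set.range x) = maximalIdeal A)

include hd hx in
theorem coeff_mem_of_sum_eq_zero (a : Fin d → A) (h : ∑ i, a i * x i = 0) (i : Fin d) :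
    residue A (a i) = 0 := by
  have h1 := map_residue_eq_zero hd hx (∑ i, MvPolynomial.C (a i) * MvPolynomial.X i) 1 (by
    refine MvPolynomial.IsHomogeneous.sum _ _ _ fun l _ => ?_
    exact MvPolynomial.IsHomogeneous.C_mul (MvPolynomial.isHomogeneous_X _ _) _) (by
    rw [map_sum]
    have h2 : ∀ i, MvPolynomial.eval x (MvPolynomial.C (a i) * MvPolynomial.X i) = a i * x i := by
      intro i
      rw [map_mul, MvPolynomial.eval_C, MvPolynomial.eval_X]
    rw [Finset.sum_congr rfl fun i _ => h2 i, h]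
    exact zero_mem _)
  have h2 := congrArg (MvPolynomial.eval (Pi.single i 1 : Fin d → ResidueField A)) h1
  rw [map_sum, map_sum, map_zero, Finset.sum_eq_single i] at h2
  · simpa using h2
  · intro j _ hj
    rw [map_mul, map_mul, MvPolynomial.map_X, MvPolynomial.eval_X, Pi.single_eq_of_ne hj, mul_zero]
  · intro h
    exact absurd (Finset.mem_univ i) h

include hd hx in
/-- Two systems of parameters differ by an invertible matrix. -/
theorem exists_inverse {y : Fin d → A} (hy : Ideal.span (Set.range y) = maximalIdeal A)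
    (θ : Fin d → Fin d → A) (hθ : ∀ i, y i = ∑ l, θ i l * x l) :
    ∃ θ' : Fin d → Fin d → A, (∀ l, x l = ∑ i, θ' l i * y i) ∧
      (∀ i l, ∑ m, θ i m * θ' m l = if i = l then 1 else 0) ∧
      (∀ i l, ∑ m, θ' i m * θ m l = if i = l then 1 else 0) := by
  have h0 : ∀ l, ∃ φ : Fin d → A, ∑ i, φ i * y i = x l := by
    intro l
    rw [← Ideal.mem_span_range_iff_exists_fun, hy, ← hx]
    exact Ideal.subset_span ⟨l, rfl⟩
  choose φ hφ using h0
  let Θ : Matrix (Fin d) (Fin d) A := Matrix.of θ
  let Φ : Matrix (Fin d) (Fin d) A := Matrix.of φ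
  have hres : (residue A).mapMatrix (Φ * Θ) = 1 := by
    ext l m
    have h1 : ∑ m, ((Φ * Θ) l m - (1 : Matrix (Fin d) (Fin d) A) l m) * x m = 0 := by
      simp only [sub_mul, Finset.sum_sub_distrib, Matrix.one_apply, sum_ite_mul]
      rw [sub_eq_zero]
      simp only [Matrix.mul_apply, Finset.sum_mul]
      rw [Finset.sum_comm, ← hφ l]
      refine Finset.sum_congr rfl fun i _ => ?_
      rw [hθ i, Finset.mul_sum]
      refine Finset.sum_congr rfl fun m _ => ?_
      change φ l i * θ i m * x m = φ l i * (θ i m * x m)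
      ring
    have h2 := coeff_mem_of_sum_eq_zero hd hx _ h1 m
    rw [map_sub, sub_eq_zero] at h2
    rw [RingHom.mapMatrix_apply, Matrix.map_apply, h2, Matrix.one_apply, Matrix.one_apply]
    split_ifs
    · rw [map_one]
    · rw [map_zero]
  have hdet : IsUnit (Φ * Θ).det := by
    rw [← residue_ne_zero_iff_isUnit, RingHom.map_det, hres, Matrix.det_one]
    exact one_ne_zero
  have hdetΘ : IsUnit Θ.det := by
    rw [Matrix.det_mul] at hdet
    exact isUnit_of_mul_isUnit_right hdet
  refine ⟨fun i m => Θ⁻¹ i m, ?_, ?_, ?_⟩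
  · intro l
    have h1 : Matrix.mulVec Θ⁻¹ y = x := by
      have h2 : y = Matrix.mulVec Θ x := by
        funext i
        rw [hθ i]
        rfl
      rw [h2, Matrix.mulVec_mulVec, Matrix.nonsing_inv_mul _ hdetΘ, Matrix.one_mulVec]
    conv_lhs => rw [← h1]
    rfl
  · intro i l
    have h1 := congrFun (congrFun (Matrix.mul_nonsing_inv Θ hdetΘ) i) l
    rw [Matrix.mul_apply, Matrix.one_apply] at h1
    exact h1
  · intro i l
    have h1 := congrFun (congrFun (Matrix.nonsing_inv_mul Θ hdetΘ) i) l
    rw [Matrix.mul_apply, Matrix.one_apply] at h1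
    exact h1

end inv

section idm

variable {R A : Type u} [CommRing R] [CommRing A] [IsLocalRing R] [IsLocalRing A]
    [Algebra R A] [IsLocalHom (algebraMap R A)] {d : ℕ}

/-- The change of coordinates given by the identity matrix. -/
theorem jMap_one : jMap R (fun i l : Fin d => if i = l then (1 : A) else 0) =
    MvPolynomial.map (ResidueField.map (algebraMap R A)) := by
  refine MvPolynomial.ringHom_ext (fun a => ?_) (fun i => ?_)
  · rw [jMap_C, MvPolynomial.map_C]
  · rw [jMap_X, MvPolynomial.map_X, Finset.sum_eq_single i]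
    · simp
    · intro j _ hj
      rw [if_neg (Ne.symm hj), map_zero, map_zero, zero_mul]
    · intro h
      exact absurd (Finset.mem_univ i) h

end idm

section hts

theorem supportDim_quotient_le {R : Type u} [CommRing R] (M : Type u) [AddCommGroup M]
    [Module R M] [Module.Finite R M] (P : Ideal R) (hP : Module.annihilator R M ≤ P) :
    Module.supportDim R (R ⧸ P) ≤ Module.supportDim R M := by
  rw [Module.supportDim_quotient_eq_ringKrullDim,
    Module.supportDim_eq_ringKrullDim_quotient_annihilator]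
  exact ringKrullDim_le_of_surjective (Ideal.Quotient.factor hP)
    (Ideal.Quotient.factor_surjective hP)

/-- Heights of primes in the supports, from the dimension hypothesis. -/
theorem height_ge_of_supportDim {R₁ R₂ : Type u} [CommRing R₁] [CommRing R₂]
    [IsRegularLocalRing R₁] [IsRegularLocalRing R₂] {d : ℕ} (hd₁ : ringKrullDim R₁ = d)
    (hd₂ : ringKrullDim R₂ = d) (M N : Type u) [AddCommGroup M] [Module R₁ M]
    [Module.Finite R₁ M] [AddCommGroup N] [Module R₂ N] [Module.Finite R₂ N]
    (hdim : ∀ e g : ℕ, (e : WithBot ℕ∞) ≤ Module.supportDim R₁ M →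
      (g : WithBot ℕ∞) ≤ Module.supportDim R₂ N → e + g ≤ d)
    (P₁ : Ideal R₁) (hP₁ : P₁.IsPrime) (hI : Module.annihilator R₁ M ≤ P₁)
    (P₂ : Ideal R₂) (hP₂ : P₂.IsPrime) (hJ : Module.annihilator R₂ N ≤ P₂) :
    (d : ℕ∞) ≤ P₁.height + P₂.height := by
  obtain ⟨h₁, e₁, l₁, s₁⟩ := supportDim_prime_eq hd₁ P₁
  obtain ⟨h₂, e₂, l₂, s₂⟩ := supportDim_prime_eq hd₂ P₂
  have h := hdim (d - h₁) (d - h₂) (s₁ ▸ supportDim_quotient_le M P₁ hI)
    (s₂ ▸ supportDim_quotient_le N P₂ hJ)
  rw [e₁, e₂]
  have h3 : d ≤ h₁ + h₂ := by omega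
  exact_mod_cast h3

end hts

end Vale.Agent.P177
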