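import Vale.Agent.P177.CLocZero

/-!
Saturation with respect to the maximal ideal and modules of depth two.
-/

namespace Vale.Agent.P177

open CategoryTheory TensorProduct Function IsLocalRing RingTheory.Sequence Pointwise

universe u

section onering

variable {R : Type u} [CommRing R] [IsRegularLocalRing R] {r : ℕ}

omit [IsRegularLocalRing R] in
theorem supportDim_le_zero_of_pow [IsLocalRing R] [IsNoetherianRing R] (V : Type u)
    [AddCommGroup V] [Module R V] [Module.Finite R V] (n : ℕ)
    (h : ∀ a ∈ maximalIdeal R ^ n, ∀ v : V, a • v = 0) : Module.supportDim R V ≤ 0 := by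
  have h1 : FL ([] : List R) V := by
    unfold FL
    refine fun a ha => ⟨n, ?_⟩
    refine le_sup_left (α := Ideal R) ?_
    rw [Module.mem_annihilator]
    exact h _ (Ideal.pow_mem_pow ha n)
  exact supportDim_le_length [] (by simp) V h1

theorem exists_sat (hr : ringKrullDim R = r) (h2 : 2 ≤ r) (C : Type u) [AddCommGroup C]
    [Module R C] [Module.Finite R C]
    (hC : ∀ j, r ≤ j + 1 → Subsingleton (TorM R j C (R ⧸ maximalIdeal R)))
    (N : Submodule R C) : ∃ S : Submodule R C, N ≤ S ∧
      (∃ n, ∀ a ∈ maximalIdeal R ^ n, ∀ s ∈ S, a • s ∈ N) ∧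
      ∃ ws : List R, ws.length = 2 ∧ (∀ z ∈ ws, z ∈ maximalIdeal R) ∧ IsWeaklyRegular S ws := by
  let f : ℕ →o Submodule R C :=
    { toFun := fun n =>
        { carrier := {c | ∀ a ∈ maximalIdeal R ^ n, a • c ∈ N}
          add_mem' := fun {x y} hx hy a ha => by
            rw [smul_add]
            exact N.add_mem (hx a ha) (hy a ha)
          zero_mem' := fun a _ => by rw [smul_zero]; exact N.zero_mem
          smul_mem' := fun c x hx a ha => by
            rw [smul_comm]
            exact N.smul_mem _ (hx a ha) }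
      monotone' := fun m n hmn x hx a ha => hx a (Ideal.pow_le_pow_right hmn ha) }
  have hf : ∀ n c, c ∈ f n ↔ ∀ a ∈ maximalIdeal R ^ n, a • c ∈ N := fun n c => Iff.rfl
  obtain ⟨n, hn⟩ := monotone_stabilizes_iff_noetherian.2 (inferInstance : IsNoetherian R C) f
  refine ⟨f n, ?_, ⟨n, fun a ha s hs => hs a ha⟩, ?_⟩
  · intro x hx
    rw [hf]
    exact fun a _ => N.smul_mem a hx
  · have hsoc : ∀ x : C ⧸ f n, (∀ a ∈ maximalIdeal R, a • x = 0) → x = 0 := by
      intro x hx
      obtain ⟨c, rfl⟩ := Submodule.mkQ_surjective _ x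
      rw [Submodule.mkQ_apply, Submodule.Quotient.mk_eq_zero, hn (n + 1) (by omega), hf]
      have h3 : ∀ a ∈ maximalIdeal R, a • c ∈ f n := by
        intro a ha
        have := hx a ha
        rwa [← map_smul, Submodule.mkQ_apply, Submodule.Quotient.mk_eq_zero] at this
      intro a ha
      rw [pow_succ] at ha
      induction ha using Submodule.mul_induction_on' with
      | mem_mul_mem a ha b hb =>
        rw [mul_smul]
        exact h3 b hb a ha
      | add x _ y _ hx hy =>
        rw [add_smul]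
        exact N.add_mem hx hy
    have h4 : ∀ j, r ≤ j → Subsingleton (TorM R j (C ⧸ f n) (R ⧸ maximalIdeal R)) := by
      intro j hj
      rcases hj.eq_or_lt with h5 | h5
      · rw [← h5]
        exact tor_residue_of_no_socle hr _ hsoc
      · exact regular_tor_vanish R r hr _ _ j h5
    have hex : Exact (f n).subtype (f n).mkQ := by
      intro x
      rw [Submodule.mkQ_apply, Submodule.Quotient.mk_eq_zero]
      simp
    obtain ⟨δ, -, h6, -⟩ := exists_torDelta (f n).subtype (f n).mkQ
      (Submodule.injective_subtype _) (Submodule.mkQ_surjective _) hex (R ⧸ maximalIdeal R)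
    obtain ⟨ws, hw1, hw2, hw3⟩ := exists_regular_ext_list hr (f n) [] (IsWeaklyRegular.nil _ _)
      (r - 2) (fun j hj => by
        have h7 := hC j (by omega)
        have h8 := h4 (j + 1) (by omega)
        refine subsingleton_of_forall_eq 0 fun x => ?_
        obtain ⟨y, rfl⟩ := (h6 j x).1 (Subsingleton.elim _ _)
        rw [Subsingleton.elim y 0, map_zero]) 2 (by rw [List.length_nil]; omega)
    exact ⟨ws, hw1, hw2, by simpa using hw3⟩

omit [IsRegularLocalRing R] in
theorem tor_ci_residue [IsLocalRing R] (zs : List R) (hreg : IsWeaklyRegular R zs)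
    (hl : zs.length + 2 ≤ r) (j : ℕ) (hj : r ≤ j + 1) :
    Subsingleton (TorM R j (R ⧸ (Ideal.ofList zs • ⊤ : Submodule R R)) (R ⧸ maximalIdeal R)) := by
  refine tor_subsingleton_list zs R hreg (R ⧸ maximalIdeal R) 1 (fun j hj => ?_) j (by omega)
  obtain ⟨j, rfl⟩ : ∃ k, j = k + 1 := ⟨j - 1, by omega⟩
  exact tor_subsingleton_of_flat j

theorem eq_zero_of_pow_of_no_socle {R : Type u} [CommRing R] [IsLocalRing R] (C : Type u)
    [AddCommGroup C] [Module R C] (h : ∀ x : C, (∀ a ∈ maximalIdeal R, a • x = 0) → x = 0) (n : ℕ)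
    (x : C) (hx : ∀ a ∈ maximalIdeal R ^ n, a • x = 0) : x = 0 := by
  induction n generalizing x with
  | zero => simpa using hx 1 (by simp)
  | succ n ih =>
    apply h
    intro a ha
    apply ih
    intro c hc
    rw [← mul_smul]
    exact hx _ (by rw [pow_succ]; exact Ideal.mul_mem_mul hc ha)

/-- For a prime of coheight at least two, the domain embeds in a module of depth two supported on
it with cokernel of finite length. -/
theorem exists_depth_two (hr : ringKrullDim R = r) (P : Ideal R) [P.IsPrime]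
    (hd : ((2 : ℕ) : WithBot ℕ∞) ≤ Module.supportDim R (R ⧸ P)) :
    ∃ (S : Type u) (_ : AddCommGroup S) (_ : Module R S) (_ : Module.Finite R S)
      (f : (R ⧸ P) →ₗ[R] S), Injective f ∧ P ≤ Module.annihilator R S ∧
      Module.supportDim R (S ⧸ LinearMap.range f) ≤ 0 ∧
      ∃ ws : List R, ws.length = 2 ∧ (∀ z ∈ ws, z ∈ maximalIdeal R) ∧ IsWeaklyRegular S ws := by
  obtain ⟨zs, hmem, hreg, hlt, hh, hdim, hass⟩ := exists_ci hr P
  rw [hdim] at hd
  have hd' : 2 ≤ r - zs.length := by exact_mod_cast hd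
  obtain ⟨f, hf⟩ := ((isAssociatedPrime_iff_exists_injective_linearMap _ _).1 hass).2
  obtain ⟨S, hNS, ⟨n, hn⟩, ws, hw1, hw2, hw3⟩ := exists_sat hr (by omega)
    (R ⧸ (Ideal.ofList zs • ⊤ : Submodule R R))
    (fun j hj => tor_ci_residue zs hreg (by omega) j hj) (LinearMap.range f)
  have hsoc := no_socle_of_tor_residue hr (R ⧸ (Ideal.ofList zs • ⊤ : Submodule R R))
    (tor_ci_residue (r := r) zs hreg (by omega) r (by omega))
  refine ⟨S, inferInstance, inferInstance, inferInstance,
    f.codRestrict S (fun x => hNS ⟨x, rfl⟩), ?_, ?_, ?_, ws, hw1, hw2, hw3⟩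
  · intro x y hxy
    exact hf (congrArg Subtype.val hxy)
  · intro p hp
    rw [Module.mem_annihilator]
    rintro ⟨s, hs⟩
    apply Subtype.ext
    change p • s = 0
    apply eq_zero_of_pow_of_no_socle _ hsoc n
    intro a ha
    obtain ⟨y, hy⟩ := hn a ha s hs
    rw [smul_comm, ← hy, ← map_smul]
    have : p • y = 0 := by
      obtain ⟨y, rfl⟩ := Ideal.Quotient.mk_surjective y
      change Ideal.Quotient.mk P (p * y) = 0
      rw [Ideal.Quotient.eq_zero_iff_mem]
      exact Ideal.mul_mem_right _ _ hp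
    rw [this, map_zero]
  · apply supportDim_le_zero_of_pow _ n
    intro a ha v
    obtain ⟨⟨s, hs⟩, rfl⟩ := Submodule.mkQ_surjective _ v
    rw [← map_smul, Submodule.mkQ_apply, Submodule.Quotient.mk_eq_zero]
    obtain ⟨y, hy⟩ := hn a ha s hs
    exact ⟨y, Subtype.ext hy⟩

end onering

section twosided

variable {R₁ R₂ T : Type u} [CommRing R₁] [CommRing R₂] [CommRing T]
  [IsRegularLocalRing R₁] [IsRegularLocalRing R₂] [IsRegularLocalRing T]
  [Algebra R₁ T] [Algebra R₂ T] [Module.Flat R₁ T] [Module.Flat R₂ T]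
  [IsLocalHom (algebraMap R₁ T)] [IsLocalHom (algebraMap R₂ T)] {r₁ r₂ t b : ℕ}

theorem eq_maximalIdeal_of_supportDim {R : Type u} [CommRing R] [IsLocalRing R]
    (P : Ideal R) [hP : P.IsPrime] (h : Module.supportDim R (R ⧸ P) ≤ 0) :
    P = maximalIdeal R := by
  by_contra hne
  have hlt : P < maximalIdeal R := lt_of_le_of_ne (le_maximalIdeal hP.ne_top) hne
  have h1 : ((0 : ℕ) : WithBot ℕ∞) ≤ Module.supportDim R (R ⧸ maximalIdeal R) := by
    unfold Module.supportDim
    have := (Module.nonempty_support_of_nontrivial (R := R)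
      (M := R ⧸ maximalIdeal R)).to_subtype
    exact Order.krullDim_nonneg
  have h2 := (supportDim_quotient_strict hlt 0 h1).trans h
  have h3 : (1 : ℕ) ≤ 0 := by exact_mod_cast h2
  omega

/-- The case where the first module has dimension at most zero. -/
theorem pos_dim_zero (h1 : ringKrullDim R₁ = r₁) (h2 : ringKrullDim R₂ = r₂)
    (ht : ringKrullDim T = t) (hb : r₁ + r₂ = t + b) (G : Type u) [AddCommGroup G] [Module R₂ G]
    [Module.Finite R₂ G] (E : Type u) [AddCommGroup E] [Module R₁ E] [Module.Finite R₁ E]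
    (hE : Module.supportDim R₁ E ≤ 0) (h : FP R₁ R₂ T E G) : Pos R₁ R₂ T t b E G := by
  refine pos_of_primes ht 0 G (fun P hP hdim hFP => ?_) E hE h
  have hPm := eq_maximalIdeal_of_supportDim P hdim
  subst hPm
  exact pos_residue h1 h2 ht hb G hFP

/-- Replacing a domain by a module of depth two does not change the Euler characteristic. -/
theorem exists_replace (h1 : ringKrullDim R₁ = r₁) (h2 : ringKrullDim R₂ = r₂)
    (ht : ringKrullDim T = t) (hb : r₁ + r₂ = t + b) (P : Ideal R₁) [hP : P.IsPrime]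
    (hd : ((2 : ℕ) : WithBot ℕ∞) ≤ Module.supportDim R₁ (R₁ ⧸ P)) :
    ∃ (S : Type u) (_ : AddCommGroup S) (_ : Module R₁ S) (_ : Module.Finite R₁ S),
      Nontrivial S ∧ P ≤ Module.annihilator R₁ S ∧
      (∃ ws : List R₁, ws.length = 2 ∧ (∀ z ∈ ws, z ∈ maximalIdeal R₁) ∧ IsWeaklyRegular S ws) ∧
      ∀ (G : Type u) [AddCommGroup G] [Module R₂ G] [Module.Finite R₂ G],
        (∀ g : ℕ, (g : WithBot ℕ∞) ≤ Module.supportDim R₂ G → g < b) →
        FP R₁ R₂ T (R₁ ⧸ P) G → FP R₁ R₂ T S G ∧
          chi R₁ R₂ T t (R₁ ⧸ P) G = chi R₁ R₂ T t S G := by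
  obtain ⟨S, _, _, _, f, hf, hPS, hdim, ws, hw1, hw2, hw3⟩ := exists_depth_two h1 P hd
  have hnt : Nontrivial (R₁ ⧸ P) := Ideal.Quotient.nontrivial_iff.2 hP.ne_top
  refine ⟨S, inferInstance, inferInstance, inferInstance, hf.nontrivial, hPS,
    ⟨ws, hw1, hw2, hw3⟩, ?_⟩
  intro G _ _ _ hG hFP
  have hFPS : FP R₁ R₂ T S G := hFP.mono (by rwa [Ideal.annihilator_quotient]) le_rfl
  refine ⟨hFPS, ?_⟩
  have hex : Exact f (LinearMap.range f).mkQ := by
    intro x
    rw [Submodule.mkQ_apply, Submodule.Quotient.mk_eq_zero]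
    rfl
  have hadd := chi_add ht f (LinearMap.range f).mkQ hf (Submodule.mkQ_surjective _) hex G hFPS
  have hq := pos_dim_zero h1 h2 ht hb G (S ⧸ LinearMap.range f) hdim (hFPS.mono
    (LinearMap.annihilator_le_of_surjective _ (Submodule.mkQ_surjective _)) le_rfl)
  rw [hadd, hq.zero, add_zero]
  intro e g he hg
  have h3 : (e : WithBot ℕ∞) ≤ 0 := he.trans hdim
  have h4 : e ≤ 0 := by exact_mod_cast h3
  have := hG g hg
  omega

end twosided

end Vale.Agent.P177
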