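import Vale.Agent.P177.CLocVan

/-!
The local positivity statement for `dim R₁ + dim R₂ - dim T ≤ 3`.
-/

namespace Vale.Agent.P177

open CategoryTheory TensorProduct Function IsLocalRing RingTheory.Sequence Pointwise

universe u

section prelim

variable {R : Type u} [CommRing R] [IsLocalRing R]

theorem exists_mem_notMem_of_supportDim (P : Ideal R) [hP : P.IsPrime]
    (h : ((1 : ℕ) : WithBot ℕ∞) ≤ Module.supportDim R (R ⧸ P)) : ∃ x ∈ maximalIdeal R, x ∉ P := by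
  by_contra hcon
  push Not at hcon
  have hPm : P = maximalIdeal R := le_antisymm (le_maximalIdeal hP.ne_top) hcon
  obtain ⟨q, hq1, hq2, -⟩ := exists_gt_prime P 0 h
  rw [hPm] at hq2
  exact absurd (le_maximalIdeal hq1.ne_top) (not_le_of_gt hq2)

omit [IsLocalRing R] in
theorem isSMulRegular_quot_prime (P : Ideal R) [hP : P.IsPrime] (x : R) (hx : x ∉ P) :
    IsSMulRegular (R ⧸ P) x := by
  rw [isSMulRegular_iff_right_eq_zero_of_smul]
  intro y hy
  obtain ⟨y, rfl⟩ := Ideal.Quotient.mk_surjective y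
  have h1 : Ideal.Quotient.mk P (x * y) = 0 := hy
  rw [Ideal.Quotient.eq_zero_iff_mem] at h1 ⊢
  exact (hP.mem_or_mem h1).resolve_left hx

theorem supportDim_quotSMulTop_prime_le [IsNoetherianRing R] (P : Ideal R) [hP : P.IsPrime]
    (x : R) (hx : x ∈ maximalIdeal R) (hxP : x ∉ P) (n : ℕ)
    (h : Module.supportDim R (R ⧸ P) ≤ ((n + 1 : ℕ) : WithBot ℕ∞)) :
    Module.supportDim R (QuotSMulTop x (R ⧸ P)) ≤ (n : WithBot ℕ∞) := by
  by_contra hcon
  rw [not_le] at hcon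
  have h3 := succ_le_of_lt_withBot hcon
  have h4 := Module.supportDim_quotSMulTop_succ_eq_supportDim (isSMulRegular_quot_prime P x hxP) hx
  have h5 : ((n + 1 : ℕ) : WithBot ℕ∞) + 1 ≤ ((n + 1 : ℕ) : WithBot ℕ∞) := by
    refine le_trans ?_ h
    rw [← h4]
    gcongr
  have h6 : n + 1 + 1 ≤ n + 1 := by exact_mod_cast h5
  omega

omit [IsLocalRing R] in
theorem supportDim_le_of_le_annihilator [IsNoetherianRing R] (P : Ideal R) (S : Type u)
    [AddCommGroup S] [Module R S] [Module.Finite R S] (h : P ≤ Module.annihilator R S) :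
    Module.supportDim R S ≤ Module.supportDim R (R ⧸ P) := by
  have h4 : Module.supportDim R (R ⧸ Module.annihilator R S) = Module.supportDim R S := by
    unfold Module.supportDim
    rw [Module.support_eq_zeroLocus, Module.support_eq_zeroLocus, Ideal.annihilator_quotient]
  rw [← h4]
  exact supportDim_quotient_mono h

end prelim

variable {R₁ R₂ T : Type u} [CommRing R₁] [CommRing R₂] [CommRing T]
  [IsRegularLocalRing R₁] [IsRegularLocalRing R₂] [IsRegularLocalRing T]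
  [Algebra R₁ T] [Algebra R₂ T] [Module.Flat R₁ T] [Module.Flat R₂ T]
  [IsLocalHom (algebraMap R₁ T)] [IsLocalHom (algebraMap R₂ T)] {r₁ r₂ t b : ℕ}

/-- Serre's statements for primes of coheight one in the first ring. -/
def HOne (R₁ R₂ T : Type u) [CommRing R₁] [CommRing R₂] [CommRing T] [IsLocalRing T]
    [Algebra R₁ T] [Algebra R₂ T] (t b : ℕ) : Prop :=
  ∀ P : Ideal R₁, P.IsPrime → Module.supportDim R₁ (R₁ ⧸ P) = (1 : ℕ) →
    ∀ (G : Type u) [AddCommGroup G] [Module R₂ G] [Module.Finite R₂ G],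
      FP R₁ R₂ T (R₁ ⧸ P) G → Pos R₁ R₂ T t b (R₁ ⧸ P) G

theorem pos_dim_one (h1 : ringKrullDim R₁ = r₁) (h2 : ringKrullDim R₂ = r₂)
    (ht : ringKrullDim T = t) (hb : r₁ + r₂ = t + b) (H : HOne R₁ R₂ T t b) (G : Type u)
    [AddCommGroup G] [Module R₂ G]
    [Module.Finite R₂ G] (E : Type u) [AddCommGroup E] [Module R₁ E] [Module.Finite R₁ E]
    (hE : Module.supportDim R₁ E ≤ ((1 : ℕ) : WithBot ℕ∞)) (h : FP R₁ R₂ T E G) :
    Pos R₁ R₂ T t b E G := by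
  refine pos_of_primes ht ((1 : ℕ) : WithBot ℕ∞) G (fun P hP hdim hFP => ?_) E hE h
  by_cases h0 : Module.supportDim R₁ (R₁ ⧸ P) ≤ 0
  · exact pos_dim_zero h1 h2 ht hb G _ h0 hFP
  · rw [not_le] at h0
    exact H P hP (le_antisymm hdim (succ_le_of_lt_withBot (n := 0) h0)) G hFP

/-- The case of two primes of coheight two. -/
theorem pos_two_two (h1 : ringKrullDim R₁ = r₁) (h2 : ringKrullDim R₂ = r₂)
    (ht : ringKrullDim T = t) (hb : r₁ + r₂ = t + b) (hb4 : b ≤ 4) (H : HOne R₁ R₂ T t b)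
    (P : Ideal R₁) [hP : P.IsPrime] (Q : Ideal R₂) [hQ : Q.IsPrime]
    (hPd : Module.supportDim R₁ (R₁ ⧸ P) = (2 : ℕ)) (hQd : Module.supportDim R₂ (R₂ ⧸ Q) = (2 : ℕ))
    (hFP : FP R₁ R₂ T (R₁ ⧸ P) (R₂ ⧸ Q)) : Pos R₁ R₂ T t b (R₁ ⧸ P) (R₂ ⧸ Q) := by
  obtain ⟨x, hx, hxP⟩ := exists_mem_notMem_of_supportDim P (by rw [hPd]; exact_mod_cast one_le_two)
  have hd := supportDim_quotSMulTop_prime_le P x hx hxP 1 hPd.le
  have hpos := pos_dim_one h1 h2 ht hb H (R₂ ⧸ Q) (QuotSMulTop x (R₁ ⧸ P)) hd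
    (hFP.mono (LinearMap.annihilator_le_of_surjective _ (Submodule.mkQ_surjective _)) le_rfl)
  have hcut := cut ht P x hx hxP (R₂ ⧸ Q) hFP hpos 1 2 hPd.ge hQd.ge
  have hb' : b = 4 := by omega
  subst hb'
  have hr1 : 2 ≤ r₁ := by
    have := dim_le_dim (R := R₂) (T := T) h2 ht
    omega
  have hr2 : 2 ≤ r₂ := by
    have := dim_le_dim (R := R₁) (T := T) h1 ht
    omega
  obtain ⟨S, _, _, _, hS, hPS, ⟨zs, hz1, hz2, hz3⟩, hSG⟩ :=
    exists_replace (R₂ := R₂) (T := T) h1 h2 ht hb P hPd.ge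
  obtain ⟨hFPS, hchiS⟩ := hSG (R₂ ⧸ Q) (by
    intro g hg
    rw [hQd] at hg
    have : g ≤ 2 := by exact_mod_cast hg
    omega) hFP
  obtain ⟨S', _, _, _, hS', hQS', ⟨ws, hw1, hw2, hw3⟩, hSG'⟩ :=
    exists_replace (R₁ := R₂) (R₂ := R₁) (T := T) h2 h1 ht (by omega : r₂ + r₁ = t + 4) Q hQd.ge
  obtain ⟨hFPS', hchiS'⟩ := hSG' S (by
    intro g hg
    have h3 := hg.trans (supportDim_le_of_le_annihilator P S hPS)
    rw [hPd] at h3
    have : g ≤ 2 := by exact_mod_cast h3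
    omega) hFPS.symm
  have hpos := (chi_pos_of_depth h2 h1 ht (by omega : r₂ + r₁ = t + 4) S' S hFPS' ws zs hw2 hz2 hw3
    hz3 (by omega) (by omega) (by omega)).2 hS' hS
  rw [← hchiS', ← chi_symm, ← hchiS] at hpos
  refine ⟨?_, hpos.le, fun _ _ _ _ _ => hpos, ?_⟩
  · intro e g he hg
    rw [hPd] at he
    rw [hQd] at hg
    have h3 : e ≤ 2 := by exact_mod_cast he
    have h4 : g ≤ 2 := by exact_mod_cast hg
    omega
  · intro hh
    have := hh 2 2 hPd.ge hQd.ge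
    omega

theorem pos_two_two' (h1 : ringKrullDim R₁ = r₁) (h2 : ringKrullDim R₂ = r₂)
    (ht : ringKrullDim T = t) (hb : r₁ + r₂ = t + b) (hb4 : b ≤ 4) (H : HOne R₁ R₂ T t b)
    (Q : Ideal R₂) [hQ : Q.IsPrime] (hQd : Module.supportDim R₂ (R₂ ⧸ Q) = (2 : ℕ))
    (E : Type u) [AddCommGroup E] [Module R₁ E] [Module.Finite R₁ E]
    (hE : Module.supportDim R₁ E ≤ ((2 : ℕ) : WithBot ℕ∞))
    (hFP : FP R₁ R₂ T E (R₂ ⧸ Q)) : Pos R₁ R₂ T t b E (R₂ ⧸ Q) := by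
  refine pos_of_primes ht ((2 : ℕ) : WithBot ℕ∞) _ (fun P hP hdim hFP => ?_) E hE hFP
  by_cases h0 : Module.supportDim R₁ (R₁ ⧸ P) ≤ ((1 : ℕ) : WithBot ℕ∞)
  · exact pos_dim_one h1 h2 ht hb H _ _ h0 hFP
  · rw [not_le] at h0
    exact pos_two_two h1 h2 ht hb hb4 H P Q (le_antisymm hdim (succ_le_of_lt_withBot h0)) hQd hFP

/-- No finiteness is possible for coheights at least three and at least two. -/
theorem not_fp_three_two (h1 : ringKrullDim R₁ = r₁) (h2 : ringKrullDim R₂ = r₂)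
    (ht : ringKrullDim T = t) (hb : r₁ + r₂ = t + b) (hb4 : b ≤ 4) (H : HOne R₁ R₂ T t b)
    (P : Ideal R₁) [hP : P.IsPrime] (Q : Ideal R₂) [hQ : Q.IsPrime]
    (hPd : ((3 : ℕ) : WithBot ℕ∞) ≤ Module.supportDim R₁ (R₁ ⧸ P))
    (hQd : ((2 : ℕ) : WithBot ℕ∞) ≤ Module.supportDim R₂ (R₂ ⧸ Q))
    (hFP : FP R₁ R₂ T (R₁ ⧸ P) (R₂ ⧸ Q)) : False := by
  obtain ⟨P', hP', hPP', hPd'⟩ := exists_prime_exact P 3 hPd
  obtain ⟨Q', hQ', hQQ', hQd'⟩ := exists_prime_exact Q 2 hQd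
  have hFP' : FP R₁ R₂ T (R₁ ⧸ P') (R₂ ⧸ Q') := hFP.mono
    (by rwa [Ideal.annihilator_quotient, Ideal.annihilator_quotient])
    (by rwa [Ideal.annihilator_quotient, Ideal.annihilator_quotient])
  obtain ⟨x, hx, hxP⟩ := exists_mem_notMem_of_supportDim P' (by
    rw [hPd']
    exact_mod_cast (by omega : 1 ≤ 3))
  have hd := supportDim_quotSMulTop_prime_le P' x hx hxP 2 hPd'.le
  have hpos := pos_two_two' h1 h2 ht hb hb4 H Q' hQd' (QuotSMulTop x (R₁ ⧸ P')) hd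
    (hFP'.mono (LinearMap.annihilator_le_of_surjective _ (Submodule.mkQ_surjective _)) le_rfl)
  have hcut := cut ht P' x hx hxP (R₂ ⧸ Q') hFP' hpos 2 2 hPd'.ge hQd'.ge
  omega

/-- Assembly: Serre's statements for `b ≤ 4` follow from the case of coheight one. -/
theorem pos_of_hOne (h1 : ringKrullDim R₁ = r₁) (h2 : ringKrullDim R₂ = r₂)
    (ht : ringKrullDim T = t) (hb : r₁ + r₂ = t + b) (hb4 : b ≤ 4) (H : HOne R₁ R₂ T t b)
    (H' : HOne R₂ R₁ T t b) (E G : Type u) [AddCommGroup E] [Module R₁ E] [Module.Finite R₁ E]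
    [AddCommGroup G] [Module R₂ G] [Module.Finite R₂ G] (hFP : FP R₁ R₂ T E G) :
    Pos R₁ R₂ T t b E G := by
  refine pos_of_primes ht ⊤ G (fun P hP _ hFP => ?_) E le_top hFP
  refine (pos_of_primes ht ⊤ (R₁ ⧸ P) (fun Q hQ _ hFP => ?_) G le_top hFP.symm).symm
  refine Pos.symm ?_
  have hFP := hFP.symm
  by_cases hP1 : Module.supportDim R₁ (R₁ ⧸ P) ≤ ((1 : ℕ) : WithBot ℕ∞)
  · exact pos_dim_one h1 h2 ht hb H _ _ hP1 hFP
  by_cases hQ1 : Module.supportDim R₂ (R₂ ⧸ Q) ≤ ((1 : ℕ) : WithBot ℕ∞)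
  · exact (pos_dim_one h2 h1 ht (by omega : r₂ + r₁ = t + b) H' _ _ hQ1 hFP.symm).symm
  rw [not_le] at hP1 hQ1
  have hP2 := succ_le_of_lt_withBot hP1
  have hQ2 := succ_le_of_lt_withBot hQ1
  by_cases hP3 : Module.supportDim R₁ (R₁ ⧸ P) ≤ ((2 : ℕ) : WithBot ℕ∞)
  · by_cases hQ3 : Module.supportDim R₂ (R₂ ⧸ Q) ≤ ((2 : ℕ) : WithBot ℕ∞)
    · exact pos_two_two h1 h2 ht hb hb4 H P Q (le_antisymm hP3 hP2) (le_antisymm hQ3 hQ2) hFP
    · rw [not_le] at hQ3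
      exact (not_fp_three_two h2 h1 ht (by omega : r₂ + r₁ = t + b) hb4 H' Q P
        (succ_le_of_lt_withBot hQ3) hP2 hFP.symm).elim
  · rw [not_le] at hP3
    exact (not_fp_three_two h1 h2 ht hb hb4 H P Q (succ_le_of_lt_withBot hP3) hQ2 hFP).elim

/-- The coheight one case for `b ≤ 3`. -/
theorem hOne_three (h1 : ringKrullDim R₁ = r₁) (h2 : ringKrullDim R₂ = r₂)
    (ht : ringKrullDim T = t) (hb : r₁ + r₂ = t + b) (hb3 : b ≤ 3) : HOne R₁ R₂ T t b := by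
  intro P hP hPd G _ _ _ hFP
  have hb' : r₂ + r₁ = t + b := by omega
  have hr1 := dim_le_dim (R := R₁) (T := T) h1 ht
  have hr2 := dim_le_dim (R := R₂) (T := T) h2 ht
  obtain ⟨x, hx, hxP⟩ := exists_mem_notMem_of_supportDim P hPd.ge
  have hxreg := isSMulRegular_quot_prime P x hxP
  have hxw : IsWeaklyRegular (R₁ ⧸ P) [x] := (isWeaklyRegular_singleton_iff _ _).2 hxreg
  have hd := supportDim_quotSMulTop_prime_le P x hx hxP 0 hPd.le
  have hntP : Nontrivial (R₁ ⧸ P) := Ideal.Quotient.nontrivial_iff.2 hP.ne_top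
  refine (pos_of_primes ht ⊤ (R₁ ⧸ P) (fun Q hQ _ hFP => ?_) G le_top hFP.symm).symm
  have hFP' := hFP.symm
  have hntQ : Nontrivial (R₂ ⧸ Q) := Ideal.Quotient.nontrivial_iff.2 hQ.ne_top
  by_cases hQ0 : Module.supportDim R₂ (R₂ ⧸ Q) ≤ 0
  · exact pos_dim_zero h2 h1 ht hb' _ _ hQ0 hFP
  rw [not_le] at hQ0
  have hQ1 : ((1 : ℕ) : WithBot ℕ∞) ≤ Module.supportDim R₂ (R₂ ⧸ Q) :=
    succ_le_of_lt_withBot (n := 0) hQ0
  have hpos := pos_dim_zero h1 h2 ht hb (R₂ ⧸ Q) (QuotSMulTop x (R₁ ⧸ P)) hd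
    (hFP'.mono (LinearMap.annihilator_le_of_surjective _ (Submodule.mkQ_surjective _)) le_rfl)
  have hcut := fun g => cut ht P x hx hxP (R₂ ⧸ Q) hFP' hpos 0 g hPd.ge
  obtain ⟨y, hy, hyQ⟩ := exists_mem_notMem_of_supportDim Q hQ1
  have hyw : IsWeaklyRegular (R₂ ⧸ Q) [y] :=
    (isWeaklyRegular_singleton_iff _ _).2 (isSMulRegular_quot_prime Q y hyQ)
  have hc1 := hcut 1 hQ1
  by_cases hQ1' : Module.supportDim R₂ (R₂ ⧸ Q) ≤ ((1 : ℕ) : WithBot ℕ∞)
  · by_cases hb2 : b = 2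
    · subst hb2
      have hp := (chi_pos_of_depth h2 h1 ht hb' (R₂ ⧸ Q) (R₁ ⧸ P) hFP [y] [x] (by simpa using hy)
        (by simpa using hx) hyw hxw (by simp; omega) (by simp; omega) (by simp)).2 hntQ hntP
      refine ⟨?_, hp.le, fun _ _ _ _ _ => hp, ?_⟩
      · intro e g he hg
        have h3 : e ≤ 1 := by exact_mod_cast he.trans hQ1'
        have h4 : g ≤ 1 := by exact_mod_cast hg.trans hPd.le
        omega
      · intro hh
        have := hh 1 1 hQ1 hPd.ge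
        omega
    · have hb3 : b = 3 := by omega
      subst hb3
      have hz := chi_prime_eq_zero h1 h2 ht hb (R₂ ⧸ Q) [y] (by simpa using hy) hyw (by simp)
        (by simp; omega) (by
          intro g hg
          have h3 : g ≤ 1 := by exact_mod_cast hg.trans hQ1'
          omega) P hPd hFP'
      rw [chi_symm] at hz
      refine ⟨?_, hz.ge, ?_, fun _ => hz⟩
      · intro e g he hg
        have h3 : e ≤ 1 := by exact_mod_cast he.trans hQ1'
        have h4 : g ≤ 1 := by exact_mod_cast hg.trans hPd.le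
        omega
      · intro e g he hg hbe
        have h3 : e ≤ 1 := by exact_mod_cast he.trans hQ1'
        have h4 : g ≤ 1 := by exact_mod_cast hg.trans hPd.le
        omega
  · rw [not_le] at hQ1'
    have hQ2 := succ_le_of_lt_withBot hQ1'
    have hc2 := hcut 2 hQ2
    have hb3 : b = 3 := by omega
    subst hb3
    have hQ2' : Module.supportDim R₂ (R₂ ⧸ Q) ≤ ((2 : ℕ) : WithBot ℕ∞) := by
      by_contra hcon
      rw [not_le] at hcon
      have := hcut 3 (succ_le_of_lt_withBot hcon)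
      omega
    obtain ⟨S', _, _, _, hS', hQS', ⟨ws, hw1, hw2, hw3⟩, hSG'⟩ :=
      exists_replace (R₁ := R₂) (R₂ := R₁) (T := T) h2 h1 ht hb' Q hQ2
    obtain ⟨hFPS', hchiS'⟩ := hSG' (R₁ ⧸ P) (by
      intro g hg
      have h4 : g ≤ 1 := by exact_mod_cast hg.trans hPd.le
      omega) hFP
    have hp := (chi_pos_of_depth h2 h1 ht hb' S' (R₁ ⧸ P) hFPS' ws [x] hw2
      (by simpa using hx) hw3 hxw (by omega) (by simp; omega) (by simp; omega)).2 hS' hntP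
    rw [← hchiS'] at hp
    refine ⟨?_, hp.le, fun _ _ _ _ _ => hp, ?_⟩
    · intro e g he hg
      have h3 : e ≤ 2 := by exact_mod_cast he.trans hQ2'
      have h4 : g ≤ 1 := by exact_mod_cast hg.trans hPd.le
      omega
    · intro hh
      have := hh 2 1 hQ2 hPd.ge
      omega

/-- The local positivity statement for `b ≤ 3`. -/
theorem locPos_three : LocPos.{u} 3 := by
  intro R₁ R₂ T _ _ _ _ _ _ _ _ _ _ _ _ r₁ r₂ t b h1 h2 ht hb hb3 E G _ _ _ _ _ _ hFP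
  have H := hOne_three (R₁ := R₁) (R₂ := R₂) (T := T) h1 h2 ht hb hb3
  have H' := hOne_three (R₁ := R₂) (R₂ := R₁) (T := T) h2 h1 ht (by omega : r₂ + r₁ = t + b) hb3
  have hpos := pos_of_hOne h1 h2 ht hb (by omega) H H' E G hFP
  exact ⟨hpos.dim_le, hpos.nonneg, hpos.pos⟩

end Vale.Agent.P177
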