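import Vale.Agent.P177.CPrime

/-!
Vanishing of the Euler characteristic for one dimensional modules against Cohen-Macaulay modules
of codimension two.
-/

namespace Vale.Agent.P177

open CategoryTheory TensorProduct Function IsLocalRing RingTheory.Sequence Pointwise

universe u

section onering

variable {R : Type u} [CommRing R] [IsRegularLocalRing R] {r : ℕ}

/-- Unmixedness of complete intersections. -/
theorem not_le_of_isAssociatedPrime_ci (hr : ringKrullDim R = r) (zs : List R)
    (hreg : IsWeaklyRegular R zs) (n : ℕ) (hn : zs.length + n < r) (P : Ideal R)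
    (hP : Module.supportDim R (R ⧸ P) ≤ (n : WithBot ℕ∞)) (q : Ideal R)
    (hq : IsAssociatedPrime q (R ⧸ (Ideal.ofList zs • ⊤ : Submodule R R))) : ¬ (P ≤ q) := by
  intro hle
  obtain ⟨ws, hws, hwm, hwr⟩ := exists_regular_ext_list hr R zs hreg 0
    (tor_self_residue_subsingleton R) (r - zs.length) (by omega)
  have hwr' := ((isWeaklyRegular_append_iff _ _ _).1 hwr).2
  have h5 := length_le_supportDim_of_isAssociatedPrime ws hwm _ hwr' q hq
  rw [hws] at h5
  have h6 := (h5.trans (supportDim_quotient_mono hle)).trans hP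
  have h7 : r - zs.length ≤ n := by exact_mod_cast h6
  omega

omit [IsRegularLocalRing R] in
theorem isSMulRegular_of_forall_associatedPrimes [IsNoetherianRing R] (C : Type u)
    [AddCommGroup C] [Module R C] (z : R) (h : ∀ q ∈ associatedPrimes R C, z ∉ q) :
    IsSMulRegular C z := by
  by_contra hcon
  have h1 : z ∈ ⋃ I ∈ associatedPrimes R C, (I : Set R) := by
    rw [biUnion_associatedPrimes_eq_compl_regular]
    exact hcon
  simp only [Set.mem_iUnion] at h1
  obtain ⟨q, hq, hz⟩ := h1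
  exact h q hq hz

/-- Elements of a prime regular on a complete intersection. -/
theorem exists_regular_mem (hr : ringKrullDim R = r) (zs : List R)
    (hreg : IsWeaklyRegular R zs) (n : ℕ) (hn : zs.length + n < r) (P : Ideal R)
    (hP : Module.supportDim R (R ⧸ P) ≤ (n : WithBot ℕ∞)) :
    ∃ y ∈ P, IsSMulRegular (R ⧸ (Ideal.ofList zs • ⊤ : Submodule R R)) y := by
  have hfin := associatedPrimes.finite R (R ⧸ (Ideal.ofList zs • ⊤ : Submodule R R))
  have hnot : ¬ ((P : Set R) ⊆ ⋃ I ∈ associatedPrimes R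
      (R ⧸ (Ideal.ofList zs • ⊤ : Submodule R R)), (I : Set R)) := by
    intro hsub
    obtain ⟨q, hq, hle⟩ := (Ideal.subset_union_prime_finite hfin (f := id) ⊥ ⊥ (by
      intro I hI _ _
      exact hI.isPrime)).1 hsub
    exact not_le_of_isAssociatedPrime_ci hr zs hreg n hn P hP q hq hle
  rw [Set.not_subset] at hnot
  obtain ⟨y, hy, hyn⟩ := hnot
  rw [biUnion_associatedPrimes_eq_compl_regular, Set.notMem_compl_iff] at hyn
  exact ⟨y, hy, hyn⟩

end onering

section avoid

variable {R T : Type u} [CommRing R] [IsRegularLocalRing R] [CommRing T] [IsNoetherianRing T]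
  [IsLocalRing T] [Algebra R T] {r : ℕ}

/-- Regular sequences inside an ideal which cut down the dimension of a quotient of `T`. -/
theorem exists_regular_cut (hr : ringKrullDim R = r) (P : Ideal R) (n : ℕ)
    (hP : Module.supportDim R (R ⧸ P) ≤ (n : WithBot ℕ∞)) (J : Ideal T) (s : ℕ)
    (hs : s + n ≤ r) (hJ : Module.supportDim T (T ⧸ J) ≤ (s : WithBot ℕ∞))
    (hrad : maximalIdeal T ≤ (J ⊔ P.map (algebraMap R T)).radical) (k : ℕ) (hk : k ≤ s) :
    ∃ zs : List R, zs.length = k ∧ (∀ z ∈ zs, z ∈ P) ∧ IsWeaklyRegular R zs ∧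
      Module.supportDim T (T ⧸ (J ⊔ (Ideal.ofList zs).map (algebraMap R T))) ≤
        ((s - k : ℕ) : WithBot ℕ∞) := by
  induction k with
  | zero =>
    refine ⟨[], rfl, by simp, IsWeaklyRegular.nil _ _, ?_⟩
    rw [Ideal.ofList_nil, Ideal.map_bot, sup_bot_eq]
    exact hJ
  | succ k ih =>
    obtain ⟨zs, hlen, hmem, hreg, hdim⟩ := ih (by omega)
    obtain ⟨z, hz, hzF, hzd⟩ := exists_cut P
      (associatedPrimes R (R ⧸ (Ideal.ofList zs • ⊤ : Submodule R R)))
      (associatedPrimes.finite R _)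
      (fun q hq => ⟨hq.isPrime, not_le_of_isAssociatedPrime_ci hr zs hreg n (by omega) P hP q hq⟩)
      (J ⊔ (Ideal.ofList zs).map (algebraMap R T)) (s - (k + 1))
      (by rwa [show s - (k + 1) + 1 = s - k by omega])
      (hrad.trans (Ideal.radical_mono (sup_le_sup_right le_sup_left _)))
    refine ⟨zs ++ [z], by simp [hlen], ?_, ?_, ?_⟩
    · intro y hy
      rw [List.mem_append, List.mem_singleton] at hy
      rcases hy with hy | rfl
      · exact hmem y hy
      · exact hz
    · rw [isWeaklyRegular_append_iff]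
      exact ⟨hreg, (isWeaklyRegular_singleton_iff _ _).2
        (isSMulRegular_of_forall_associatedPrimes _ z hzF)⟩
    · have hI : (Ideal.ofList (zs ++ [z])).map (algebraMap R T) =
          (Ideal.ofList zs).map (algebraMap R T) ⊔ Ideal.span {algebraMap R T z} := by
        rw [Ideal.ofList_append, Ideal.map_sup, Ideal.ofList_singleton]
        congr 1
        rw [Ideal.map_span, Set.image_singleton]
      rw [hI, ← sup_assoc]
      exact hzd

end avoid

section vanish

variable {R₁ R₂ T : Type u} [CommRing R₁] [CommRing R₂] [CommRing T]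
  [IsRegularLocalRing R₁] [IsRegularLocalRing R₂] [IsRegularLocalRing T]
  [Algebra R₁ T] [Algebra R₂ T] [Module.Flat R₁ T] [Module.Flat R₂ T]
  [IsLocalHom (algebraMap R₁ T)] [IsLocalHom (algebraMap R₂ T)] {r₁ r₂ t b : ℕ}

/-- Modules embedded in a complete intersection of dimension two. -/
theorem chi_nonneg_of_embedding (h1 : ringKrullDim R₁ = r₁) (h2 : ringKrullDim R₂ = r₂)
    (ht : ringKrullDim T = t) (hb : r₁ + r₂ = t + b) (G : Type u) [AddCommGroup G] [Module R₂ G]
    [Module.Finite R₂ G] (ws : List R₂) (hws : ∀ z ∈ ws, z ∈ maximalIdeal R₂)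
    (hwreg : IsWeaklyRegular G ws) (hwl : ws.length + 2 = b) (hwr : ws.length ≤ r₂)
    (hG : ∀ g : ℕ, (g : WithBot ℕ∞) ≤ Module.supportDim R₂ G → g + 2 ≤ b)
    (zs : List R₁) (hreg : IsWeaklyRegular R₁ zs) (hzl : zs.length + 2 = r₁)
    (hFP : FP R₁ R₂ T (R₁ ⧸ (Ideal.ofList zs • ⊤ : Submodule R₁ R₁)) G)
    (N : Type u) [AddCommGroup N] [Module R₁ N] [Module.Finite R₁ N]
    (f : N →ₗ[R₁] (R₁ ⧸ (Ideal.ofList zs • ⊤ : Submodule R₁ R₁))) (hf : Injective f) :
    0 ≤ chi R₁ R₂ T t N G := by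
  obtain ⟨S, hNS, ⟨n, hn⟩, us, hu1, hu2, hu3⟩ := exists_sat h1 (by omega)
    (R₁ ⧸ (Ideal.ofList zs • ⊤ : Submodule R₁ R₁))
    (fun j hj => tor_ci_residue zs hreg (by omega) j hj) (LinearMap.range f)
  have hFPS : FP R₁ R₂ T S G := hFP.mono
    (LinearMap.annihilator_le_of_injective S.subtype (Submodule.injective_subtype _)) le_rfl
  have hS := (chi_pos_of_depth h1 h2 ht hb S G hFPS us ws hu2 hws hu3 hwreg (by omega) hwr
    (by omega)).1
  let f' : N →ₗ[R₁] S := f.codRestrict S (fun x => hNS ⟨x, rfl⟩)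
  have hf' : Injective f' := fun x y hxy => hf (congrArg Subtype.val hxy)
  have hex : Exact f' (LinearMap.range f').mkQ := by
    intro x
    rw [Submodule.mkQ_apply, Submodule.Quotient.mk_eq_zero]
    rfl
  have hadd := chi_add ht f' (LinearMap.range f').mkQ hf' (Submodule.mkQ_surjective _) hex G hFPS
  have hdim : Module.supportDim R₁ (S ⧸ LinearMap.range f') ≤ 0 := by
    apply supportDim_le_zero_of_pow _ n
    intro a ha v
    obtain ⟨⟨s, hs⟩, rfl⟩ := Submodule.mkQ_surjective _ v
    rw [← map_smul, Submodule.mkQ_apply, Submodule.Quotient.mk_eq_zero]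
    obtain ⟨y, hy⟩ := hn a ha s hs
    exact ⟨y, Subtype.ext hy⟩
  have hq := pos_dim_zero h1 h2 ht hb G (S ⧸ LinearMap.range f') hdim (hFPS.mono
    (LinearMap.annihilator_le_of_surjective _ (Submodule.mkQ_surjective _)) le_rfl)
  rw [hq.zero, add_zero] at hadd
  · rwa [← hadd]
  · intro e g he hg
    have h3 : (e : WithBot ℕ∞) ≤ 0 := he.trans hdim
    have h4 : e ≤ 0 := by exact_mod_cast h3
    have := hG g hg
    omega

/-- Euler characteristics of modules killed by a prime of coheight one. -/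
theorem exists_chi_eq_mul (h1 : ringKrullDim R₁ = r₁) (h2 : ringKrullDim R₂ = r₂)
    (ht : ringKrullDim T = t) (hb : r₁ + r₂ = t + b) (G : Type u) [AddCommGroup G] [Module R₂ G]
    [Module.Finite R₂ G]
    (hG : ∀ g : ℕ, (g : WithBot ℕ∞) ≤ Module.supportDim R₂ G → g + 2 ≤ b)
    (P : Ideal R₁) [hP : P.IsPrime] (hPd : Module.supportDim R₁ (R₁ ⧸ P) = (1 : ℕ))
    (hFP : FP R₁ R₂ T (R₁ ⧸ P) G) (V : Type u) [AddCommGroup V] [Module R₁ V]
    [hV : Module.Finite R₁ V] (hPV : P ≤ Module.annihilator R₁ V) :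
    ∃ n : ℕ, chi R₁ R₂ T t V G = n * chi R₁ R₂ T t (R₁ ⧸ P) G ∧
      (⟨P, hP⟩ ∈ Module.support R₁ V → 1 ≤ n) := by
  have hzero : ∀ (V : Type u) [AddCommGroup V] [Module R₁ V] [Module.Finite R₁ V],
      P ≤ Module.annihilator R₁ V → Module.supportDim R₁ V ≤ 0 → chi R₁ R₂ T t V G = 0 := by
    intro V _ _ _ hPV hdim
    apply (pos_dim_zero h1 h2 ht hb G V hdim
      (hFP.mono (by rwa [Ideal.annihilator_quotient]) le_rfl)).zero
    intro e g he hg
    have h3 : (e : WithBot ℕ∞) ≤ 0 := he.trans hdim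
    have h4 : e ≤ 0 := by exact_mod_cast h3
    have := hG g hg
    omega
  induction hV using IsNoetherianRing.induction_on_isQuotientEquivQuotientPrime R₁ with
  | subsingleton N =>
    refine ⟨0, ?_, ?_⟩
    · rw [hzero N hPV (by rw [Module.supportDim_eq_bot_of_subsingleton]; exact bot_le)]
      simp
    · intro h
      rw [Module.support_eq_empty] at h
      exact absurd h (Set.notMem_empty _)
  | quotient N q e =>
    have hq := q.2
    have hPq : P ≤ q.1 := by
      rwa [e.annihilator_eq, Ideal.annihilator_quotient] at hPV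
    rcases hPq.eq_or_lt with heq | hlt
    · refine ⟨1, ?_, fun _ => le_rfl⟩
      subst heq
      rw [chi_congr e (LinearEquiv.refl R₂ G), Nat.cast_one, one_mul]
    · refine ⟨0, ?_, ?_⟩
      · rw [hzero N hPV, Nat.cast_zero, zero_mul]
        rw [Module.supportDim_eq_of_equiv e]
        by_contra hcon
        rw [not_le] at hcon
        have h3 := supportDim_quotient_strict hlt 1 (succ_le_of_lt_withBot (n := 0) hcon)
        rw [hPd] at h3
        have h4 : 1 + 1 ≤ 1 := by exact_mod_cast h3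
        omega
      · intro h
        rw [e.support_eq, support_quotient_prime] at h
        exact absurd h (not_le_of_gt hlt)
  | exact N₁ N₂ N₃ f g hf hg hex ih1 ih3 =>
    obtain ⟨n1, hn1, hs1⟩ := ih1 (hPV.trans (LinearMap.annihilator_le_of_injective f hf))
    obtain ⟨n3, hn3, hs3⟩ := ih3 (hPV.trans (LinearMap.annihilator_le_of_surjective g hg))
    refine ⟨n1 + n3, ?_, ?_⟩
    · rw [chi_add ht f g hf hg hex G (hFP.mono (by rwa [Ideal.annihilator_quotient]) le_rfl),
        hn1, hn3]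
      push_cast
      ring
    · intro h
      rw [Module.support_of_exact hex hf hg] at h
      rcases h with h | h
      · have := hs1 h; omega
      · have := hs3 h; omega

/-- Nonpositivity for primes of coheight one containing a suitable complete intersection. -/
theorem chi_prime_nonpos (h1 : ringKrullDim R₁ = r₁) (h2 : ringKrullDim R₂ = r₂)
    (ht : ringKrullDim T = t) (hb : r₁ + r₂ = t + b) (G : Type u) [AddCommGroup G] [Module R₂ G]
    [Module.Finite R₂ G] (ws : List R₂) (hws : ∀ z ∈ ws, z ∈ maximalIdeal R₂)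
    (hwreg : IsWeaklyRegular G ws) (hwl : ws.length + 2 = b) (hwr : ws.length ≤ r₂)
    (hG : ∀ g : ℕ, (g : WithBot ℕ∞) ≤ Module.supportDim R₂ G → g + 2 ≤ b)
    (zs : List R₁) (hreg : IsWeaklyRegular R₁ zs) (hzl : zs.length + 2 = r₁)
    (hFP : FP R₁ R₂ T (R₁ ⧸ (Ideal.ofList zs • ⊤ : Submodule R₁ R₁)) G)
    (P : Ideal R₁) [hP : P.IsPrime] (hPd : Module.supportDim R₁ (R₁ ⧸ P) = (1 : ℕ))
    (hzP : Ideal.ofList zs ≤ P) : chi R₁ R₂ T t (R₁ ⧸ P) G ≤ 0 := by
  obtain ⟨y, hy, hyreg⟩ := exists_regular_mem h1 zs hreg 1 (by omega) P hPd.le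
  have hFPP : FP R₁ R₂ T (R₁ ⧸ P) G := hFP.mono
    (by rwa [annihilator_quot_list, Ideal.annihilator_quotient]) le_rfl
  by_contra hcon
  rw [not_le] at hcon
  have key : ∀ (m : ℕ) (N : Type u) [AddCommGroup N] [Module R₁ N] [Module.Finite R₁ N]
      (f : N →ₗ[R₁] (R₁ ⧸ (Ideal.ofList zs • ⊤ : Submodule R₁ R₁))), Injective f →
      ⟨P, hP⟩ ∈ Module.support R₁ N → (m : ℤ) ≤ chi R₁ R₂ T t N G := by
    intro m
    induction m with
    | zero =>
      intro N _ _ _ f hf _
      exact chi_nonneg_of_embedding h1 h2 ht hb G ws hws hwreg hwl hwr hG zs hreg hzl hFP N f hf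
    | succ m ih =>
      intro N _ _ _ f hf hPN
      have hFPN : FP R₁ R₂ T N G := hFP.mono (LinearMap.annihilator_le_of_injective f hf) le_rfl
      have hyN : IsSMulRegular N y := hyreg.of_injective f hf
      -- the submodule `P N`
      have h3 : ⟨P, hP⟩ ∈ Module.support R₁ (P • ⊤ : Submodule R₁ N) := by
        let φ : N →ₗ[R₁] (P • ⊤ : Submodule R₁ N) :=
          (LinearMap.lsmul R₁ N y).codRestrict _ (fun x => Submodule.smul_mem_smul hy trivial)
        have hφ : Injective φ := fun a b hab => hyN (congrArg Subtype.val hab)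
        exact Module.support_subset_of_injective φ hφ hPN
      have h4 := ih (P • ⊤ : Submodule R₁ N) (f ∘ₗ Submodule.subtype _)
        (hf.comp (Submodule.injective_subtype _)) h3
      have hex : Exact (P • ⊤ : Submodule R₁ N).subtype (P • ⊤ : Submodule R₁ N).mkQ := by
        intro x
        rw [Submodule.mkQ_apply, Submodule.Quotient.mk_eq_zero]
        simp
      have hadd := chi_add ht (P • ⊤ : Submodule R₁ N).subtype (P • ⊤ : Submodule R₁ N).mkQ
        (Submodule.injective_subtype _) (Submodule.mkQ_surjective _) hex G hFPN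
      have hPV : P ≤ Module.annihilator R₁ (N ⧸ (P • ⊤ : Submodule R₁ N)) := by
        intro p hp
        rw [Module.mem_annihilator]
        intro v
        obtain ⟨v, rfl⟩ := Submodule.mkQ_surjective _ v
        rw [← map_smul, Submodule.mkQ_apply, Submodule.Quotient.mk_eq_zero]
        exact Submodule.smul_mem_smul hp trivial
      obtain ⟨n, hn, hn1⟩ := exists_chi_eq_mul h1 h2 ht hb G hG P hPd hFPP
        (N ⧸ (P • ⊤ : Submodule R₁ N)) hPV
      have h5 : 1 ≤ n := by
        apply hn1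
        rw [Module.support_quotient]
        exact ⟨hPN, fun x hx => hx⟩
      have h6 : (1 : ℤ) ≤ chi R₁ R₂ T t (N ⧸ (P • ⊤ : Submodule R₁ N)) G := by
        rw [hn]
        have h7 : (1 : ℤ) ≤ n := by exact_mod_cast h5
        nlinarith
      push_cast
      omega
  have hmem : ⟨P, hP⟩ ∈ Module.support R₁ (R₁ ⧸ (Ideal.ofList zs • ⊤ : Submodule R₁ R₁)) := by
    rw [Module.mem_support_iff_of_finite, annihilator_quot_list]
    exact hzP
  have h8 := key ((chi R₁ R₂ T t (R₁ ⧸ (Ideal.ofList zs • ⊤ : Submodule R₁ R₁)) G).toNat + 1) _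
    LinearMap.id injective_id hmem
  push_cast at h8
  omega

/-- Nonpositivity for all modules of dimension at most one over a suitable complete
intersection. -/
theorem chi_nonpos (h1 : ringKrullDim R₁ = r₁) (h2 : ringKrullDim R₂ = r₂)
    (ht : ringKrullDim T = t) (hb : r₁ + r₂ = t + b) (G : Type u) [AddCommGroup G] [Module R₂ G]
    [Module.Finite R₂ G] (ws : List R₂) (hws : ∀ z ∈ ws, z ∈ maximalIdeal R₂)
    (hwreg : IsWeaklyRegular G ws) (hwl : ws.length + 2 = b) (hwr : ws.length ≤ r₂)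
    (hG : ∀ g : ℕ, (g : WithBot ℕ∞) ≤ Module.supportDim R₂ G → g + 2 ≤ b)
    (zs : List R₁) (hreg : IsWeaklyRegular R₁ zs) (hzl : zs.length + 2 = r₁)
    (hFP : FP R₁ R₂ T (R₁ ⧸ (Ideal.ofList zs • ⊤ : Submodule R₁ R₁)) G)
    (V : Type u) [AddCommGroup V] [Module R₁ V] [hV : Module.Finite R₁ V]
    (hzV : Ideal.ofList zs ≤ Module.annihilator R₁ V)
    (hdim : Module.supportDim R₁ V ≤ ((1 : ℕ) : WithBot ℕ∞)) :
    chi R₁ R₂ T t V G ≤ 0 := by
  have hzero : ∀ (V : Type u) [AddCommGroup V] [Module R₁ V] [Module.Finite R₁ V],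
      Ideal.ofList zs ≤ Module.annihilator R₁ V → Module.supportDim R₁ V ≤ 0 →
      chi R₁ R₂ T t V G = 0 := by
    intro V _ _ _ hPV hdim
    apply (pos_dim_zero h1 h2 ht hb G V hdim
      (hFP.mono (by rwa [annihilator_quot_list]) le_rfl)).zero
    intro e g he hg
    have h3 : (e : WithBot ℕ∞) ≤ 0 := he.trans hdim
    have h4 : e ≤ 0 := by exact_mod_cast h3
    have := hG g hg
    omega
  induction hV using IsNoetherianRing.induction_on_isQuotientEquivQuotientPrime R₁ with
  | subsingleton N =>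
    rw [hzero N hzV (by rw [Module.supportDim_eq_bot_of_subsingleton]; exact bot_le)]
  | quotient N q e =>
    have hq := q.2
    have hPq : Ideal.ofList zs ≤ q.1 := by
      rwa [e.annihilator_eq, Ideal.annihilator_quotient] at hzV
    by_cases h0 : Module.supportDim R₁ N ≤ 0
    · rw [hzero N hzV h0]
    · rw [not_le] at h0
      have h3 : Module.supportDim R₁ N = (1 : ℕ) :=
        le_antisymm hdim (succ_le_of_lt_withBot (n := 0) h0)
      rw [Module.supportDim_eq_of_equiv e] at h3
      rw [chi_congr e (LinearEquiv.refl R₂ G)]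
      exact chi_prime_nonpos h1 h2 ht hb G ws hws hwreg hwl hwr hG zs hreg hzl hFP q.1 h3 hPq
  | exact N₁ N₂ N₃ f g hf hg hex ih1 ih3 =>
    rw [chi_add ht f g hf hg hex G (hFP.mono (by rwa [annihilator_quot_list]) le_rfl)]
    have h3 := ih1 (hzV.trans (LinearMap.annihilator_le_of_injective f hf))
      ((Module.supportDim_le_of_injective f hf).trans hdim)
    have h4 := ih3 (hzV.trans (LinearMap.annihilator_le_of_surjective g hg))
      ((Module.supportDim_le_of_surjective g hg).trans hdim)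
    omega

/-- Vanishing for a prime of coheight one against a Cohen-Macaulay module. -/
theorem chi_prime_eq_zero (h1 : ringKrullDim R₁ = r₁) (h2 : ringKrullDim R₂ = r₂)
    (ht : ringKrullDim T = t) (hb : r₁ + r₂ = t + b) (G : Type u) [AddCommGroup G] [Module R₂ G]
    [Module.Finite R₂ G] (ws : List R₂) (hws : ∀ z ∈ ws, z ∈ maximalIdeal R₂)
    (hwreg : IsWeaklyRegular G ws) (hwl : ws.length + 2 = b) (hwr : ws.length ≤ r₂)
    (hG : ∀ g : ℕ, (g : WithBot ℕ∞) ≤ Module.supportDim R₂ G → g + 2 ≤ b)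
    (P : Ideal R₁) [hP : P.IsPrime] (hPd : Module.supportDim R₁ (R₁ ⧸ P) = (1 : ℕ))
    (hFP : FP R₁ R₂ T (R₁ ⧸ P) G) : chi R₁ R₂ T t (R₁ ⧸ P) G = 0 := by
  have hr1 := dim_le_dim (R := R₁) (T := T) h1 ht
  have hr2 := dim_le_dim (R := R₂) (T := T) h2 ht
  have hlow : 2 ≤ r₁ := by omega
  -- the ideal defining `T ⊗ G` up to radical
  let J : Ideal T := (Module.annihilator R₂ G).map (algebraMap R₂ T)
  have hJ : Module.supportDim T (T ⧸ J) ≤ ((r₁ - 2 : ℕ) : WithBot ℕ∞) := by
    by_contra hcon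
    rw [not_le] at hcon
    have h3 := succ_le_of_lt_withBot hcon
    rw [Module.supportDim_eq_of_equiv (Algebra.TensorProduct.quotIdealMapEquivTensorQuot T
      (Module.annihilator R₂ G)).toLinearEquiv] at h3
    obtain ⟨g, hg, hgl⟩ := supportDim_baseChange_le (T := T) h2 ht _ _ h3
    have h4 : Module.supportDim R₂ (R₂ ⧸ Module.annihilator R₂ G) = Module.supportDim R₂ G := by
      unfold Module.supportDim
      rw [Module.support_eq_zeroLocus, Module.support_eq_zeroLocus, Ideal.annihilator_quotient]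
    rw [h4] at hg
    have := hG g hg
    omega
  have hrad : maximalIdeal T ≤ (J ⊔ P.map (algebraMap R₁ T)).radical := by
    have h3 := hFP.symm
    unfold FP at h3
    rwa [Ideal.annihilator_quotient] at h3
  obtain ⟨zs, hlen, hmem, hreg, hdim⟩ := exists_regular_cut h1 P 1 hPd.le J (r₁ - 2) (by omega)
    hJ hrad (r₁ - 2) le_rfl
  rw [Nat.sub_self] at hdim
  have hFPC : FP R₁ R₂ T (R₁ ⧸ (Ideal.ofList zs • ⊤ : Submodule R₁ R₁)) G := by
    unfold FP
    rw [annihilator_quot_list, sup_comm]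
    exact maximalIdeal_le_radical_of_supportDim _ hdim
  have hzP : Ideal.ofList zs ≤ P := Ideal.span_le.2 hmem
  obtain ⟨y, hy, hyreg⟩ := exists_regular_mem h1 zs hreg 1 (by omega) P hPd.le
  have h0 := chi_quotSMulTop ht _ G hFPC y hyreg
  have hPm : P ≤ maximalIdeal R₁ := le_maximalIdeal hP.ne_top
  have hd1 : Module.supportDim R₁
      (QuotSMulTop y (R₁ ⧸ (Ideal.ofList zs • ⊤ : Submodule R₁ R₁))) ≤ ((1 : ℕ) : WithBot ℕ∞) := by
    by_contra hcon
    rw [not_le] at hcon
    have h3 := succ_le_of_lt_withBot hcon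
    have h4 := Module.supportDim_quotSMulTop_succ_eq_supportDim hyreg (hPm hy)
    rw [supportDim_quot_of_weaklyRegular h1 zs (fun z hz => hPm (hmem z hz)) hreg] at h4
    have h5 : ((1 + 1 : ℕ) : WithBot ℕ∞) + 1 ≤ ((r₁ - zs.length : ℕ) : WithBot ℕ∞) := by
      rw [← h4]
      gcongr
    have h6 : 1 + 1 + 1 ≤ r₁ - zs.length := by exact_mod_cast h5
    omega
  -- the surjection onto `R/P`
  let g1 : (R₁ ⧸ (Ideal.ofList zs • ⊤ : Submodule R₁ R₁)) →ₗ[R₁] (R₁ ⧸ P) :=
    Submodule.liftQ _ P.mkQ (by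
      rw [smul_eq_mul, Ideal.mul_top, Submodule.ker_mkQ]
      exact hzP)
  have hg1 : Surjective g1 := by
    intro x
    obtain ⟨x, rfl⟩ := Submodule.mkQ_surjective _ x
    exact ⟨Submodule.Quotient.mk x, rfl⟩
  let g2 : QuotSMulTop y (R₁ ⧸ (Ideal.ofList zs • ⊤ : Submodule R₁ R₁)) →ₗ[R₁] (R₁ ⧸ P) :=
    Submodule.liftQ _ g1 (by
      intro x hx
      rw [Submodule.mem_smul_pointwise_iff_exists] at hx
      obtain ⟨x, -, rfl⟩ := hx
      rw [LinearMap.mem_ker, map_smul]
      obtain ⟨c, hc⟩ := Ideal.Quotient.mk_surjective (g1 x)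
      rw [← hc]
      change Ideal.Quotient.mk P (y * c) = 0
      rw [Ideal.Quotient.eq_zero_iff_mem]
      exact Ideal.mul_mem_right _ _ hy)
  have hg2 : Surjective g2 := by
    intro x
    obtain ⟨x, rfl⟩ := hg1 x
    exact ⟨Submodule.Quotient.mk x, rfl⟩
  have hFPQ : FP R₁ R₂ T
      (QuotSMulTop y (R₁ ⧸ (Ideal.ofList zs • ⊤ : Submodule R₁ R₁))) G :=
    hFPC.mono (LinearMap.annihilator_le_of_surjective _ (Submodule.mkQ_surjective _)) le_rfl
  have hadd := chi_add ht (LinearMap.ker g2).subtype g2 (Submodule.injective_subtype _) hg2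
    (by
      intro x
      simp) G hFPQ
  have hzQ : Ideal.ofList zs ≤ Module.annihilator R₁
      (QuotSMulTop y (R₁ ⧸ (Ideal.ofList zs • ⊤ : Submodule R₁ R₁))) := by
    refine le_trans ?_ (LinearMap.annihilator_le_of_surjective _ (Submodule.mkQ_surjective _))
    rw [annihilator_quot_list]
  have hK := chi_nonpos h1 h2 ht hb G ws hws hwreg hwl hwr hG zs hreg (by omega) hFPC
    (LinearMap.ker g2) (hzQ.trans (LinearMap.annihilator_le_of_injective _
      (Submodule.injective_subtype _))) ((Module.supportDim_le_of_injective _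
      (Submodule.injective_subtype _)).trans hd1)
  have hP' := chi_prime_nonpos h1 h2 ht hb G ws hws hwreg hwl hwr hG zs hreg (by omega) hFPC
    P hPd hzP
  omega

end vanish

end Vale.Agent.P177
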