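import Vale.Agent.P177.CLocB

/-!
Complete intersections, the Cohen-Macaulay case, and cutting by an element.
-/

namespace Vale.Agent.P177

open CategoryTheory TensorProduct Function IsLocalRing RingTheory.Sequence Pointwise

universe u

variable {R₁ R₂ T : Type u} [CommRing R₁] [CommRing R₂] [CommRing T]
  [IsRegularLocalRing R₁] [IsRegularLocalRing R₂] [IsRegularLocalRing T]
  [Algebra R₁ T] [Algebra R₂ T] [Module.Flat R₁ T] [Module.Flat R₂ T]
  [IsLocalHom (algebraMap R₁ T)] [IsLocalHom (algebraMap R₂ T)] {r₁ r₂ t b : ℕ}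

theorem nontrivial_tensor_local {T : Type u} [CommRing T] [IsLocalRing T] (X Y : Type u)
    [AddCommGroup X] [Module T X] [Module.Finite T X] [AddCommGroup Y] [Module T Y]
    [Module.Finite T Y] [Nontrivial X] [Nontrivial Y] : Nontrivial (X ⊗[T] Y) := by
  obtain ⟨f, hf⟩ := exists_surjective_residue (S := T) X
  obtain ⟨g, hg⟩ := exists_surjective_residue (S := T) Y
  obtain ⟨x, hx⟩ := hf 1
  obtain ⟨y, hy⟩ := hg 1
  refine ⟨x ⊗ₜ y, 0, fun h0 => ?_⟩
  have h1 : LinearMap.mul' T (T ⧸ maximalIdeal T) (TensorProduct.map f g (x ⊗ₜ y)) = 0 := by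
    rw [h0, map_zero, map_zero]
  rw [TensorProduct.map_tmul, hx, hy, LinearMap.mul'_apply, mul_one] at h1
  exact one_ne_zero h1

theorem annihilator_quot_list {R : Type u} [CommRing R] (zs : List R) :
    Module.annihilator R (R ⧸ (Ideal.ofList zs • ⊤ : Submodule R R)) = Ideal.ofList zs := by
  rw [smul_eq_mul, Ideal.mul_top, Ideal.annihilator_quotient]

omit [IsRegularLocalRing R₂] [Module.Flat R₂ T] [IsLocalHom (algebraMap R₂ T)] in
/-- Euler characteristic with a complete intersection. -/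
theorem chi_ci_eq (ht : ringKrullDim T = t) (zs : List R₁) (hzs : ∀ z ∈ zs, z ∈ maximalIdeal R₁)
    (hreg : IsWeaklyRegular R₁ zs) (G : Type u) [AddCommGroup G] [Module R₂ G]
    [Module.Finite R₂ G] (h : FP R₁ R₂ T (R₁ ⧸ (Ideal.ofList zs • ⊤ : Submodule R₁ R₁)) G) :
    chi R₁ R₂ T t (R₁ ⧸ (Ideal.ofList zs • ⊤ : Submodule R₁ R₁)) G =
      eul (zs.map (algebraMap R₁ T)) (T ⊗[R₂] G) := by
  have hregT : IsWeaklyRegular T (zs.map (algebraMap R₁ T)) := hreg.of_flat
  have hFL : FL2 (zs.map (algebraMap R₁ T)) T (T ⊗[R₂] G) := by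
    refine h.trans (Ideal.radical_mono ?_)
    rw [annihilator_quot_list, Ideal.map_ofList]
    exact sup_le le_sup_right ((map_ann_le_tensor G).trans (le_sup_of_le_left le_sup_right))
  have hv : ∀ j, 1 ≤ j → Subsingleton (TorM T j T (T ⊗[R₂] G)) := by
    intro j hj
    obtain ⟨j, rfl⟩ : ∃ k, j = k + 1 := ⟨j - 1, by omega⟩
    exact tor_subsingleton_of_flat j
  have hlen := length_le_dim ht _ (map_mem_maximalIdeal (T := T) hzs) hregT
  have hsum := sum_length_tor_quot (zs.map (algebraMap R₁ T)) (T ⊗[R₂] G) (t + 1) T hregT hFL 1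
    hv (by omega)
  obtain ⟨e⟩ := exists_baseChange_quot (T := T) zs R₁
  have e2 : (T ⊗[R₁] R₁) ≃ₗ[T] T := AlgebraTensorModule.rid R₁ T T
  have e3 : ((T ⊗[R₁] R₁) ⧸ (Ideal.ofList (zs.map (algebraMap R₁ T)) • ⊤ :
      Submodule T (T ⊗[R₁] R₁))) ≃ₗ[T]
      (T ⧸ (Ideal.ofList (zs.map (algebraMap R₁ T)) • ⊤ : Submodule T T)) :=
    Submodule.Quotient.equiv _ _ e2 (by
      rw [Submodule.map_smul'', Submodule.map_top, LinearEquiv.range])
  unfold chi
  rw [eulerTor_congr (e ≪≫ₗ e3) (LinearEquiv.refl T (T ⊗[R₂] G)) (t + 1)]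
  unfold eulerTor
  rw [hsum, Finset.sum_range_succ', Finset.sum_eq_zero, zero_add, pow_zero, one_mul]
  · exact eul_congr _ (torZero _ _ ≪≫ₗ TensorProduct.lid T _)
  · intro j _
    have := hv (j + 1) (by omega)
    rw [eul_subsingleton, mul_zero]

omit [IsRegularLocalRing R₁] [IsRegularLocalRing R₂] [IsRegularLocalRing T] [Module.Flat R₁ T]
  [Module.Flat R₂ T] [IsLocalHom (algebraMap R₁ T)] [IsLocalHom (algebraMap R₂ T)] in
theorem fl_of_fp_ci [IsLocalRing T] (zs : List R₁) (G : Type u) [AddCommGroup G] [Module R₂ G]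
    (h : FP R₁ R₂ T (R₁ ⧸ (Ideal.ofList zs • ⊤ : Submodule R₁ R₁)) G) :
    FL (zs.map (algebraMap R₁ T)) (T ⊗[R₂] G) := by
  refine h.trans (Ideal.radical_mono ?_)
  rw [annihilator_quot_list, Ideal.map_ofList]
  exact sup_le le_sup_right ((map_ann_le_tensor G).trans le_sup_left)

/-- All of Serre's statements for complete intersections. -/
theorem pos_ci (h1 : ringKrullDim R₁ = r₁) (h2 : ringKrullDim R₂ = r₂)
    (ht : ringKrullDim T = t) (hb : r₁ + r₂ = t + b) (zs : List R₁)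
    (hzs : ∀ z ∈ zs, z ∈ maximalIdeal R₁)
    (hreg : IsWeaklyRegular R₁ zs) (G : Type u) [AddCommGroup G] [Module R₂ G]
    [Module.Finite R₂ G] (h : FP R₁ R₂ T (R₁ ⧸ (Ideal.ofList zs • ⊤ : Submodule R₁ R₁)) G) :
    Pos R₁ R₂ T t b (R₁ ⧸ (Ideal.ofList zs • ⊤ : Submodule R₁ R₁)) G := by
  have hr1 := dim_le_dim (R := R₁) (T := T) h1 ht
  have hr2 := dim_le_dim (R := R₂) (T := T) h2 ht
  have hlen : zs.length ≤ r₁ := length_le_dim h1 zs hzs hreg
  have hdim := supportDim_quot_of_weaklyRegular h1 zs hzs hreg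
  have hchi := chi_ci_eq ht zs hzs hreg G h
  have hFL := fl_of_fp_ci (T := T) zs G h
  have hmap := map_mem_maximalIdeal (T := T) hzs
  have hle := supportDim_le_length _ hmap _ hFL
  rw [List.length_map] at hle
  obtain ⟨hnn, hpos⟩ := eul_nonneg_pos _ hmap _ hFL
  rw [List.length_map] at hpos
  refine ⟨?_, ?_, ?_, ?_⟩
  · intro e g he hg
    rw [hdim] at he
    have he' : e ≤ r₁ - zs.length := by exact_mod_cast he
    have h3 := (le_supportDim_baseChange (T := T) h2 ht G g hg).trans hle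
    have h4 : g + (t - r₂) ≤ zs.length := by exact_mod_cast h3
    omega
  · rw [hchi]; exact hnn
  · intro e g he hg hbe
    rw [hdim] at he
    have he' : e ≤ r₁ - zs.length := by exact_mod_cast he
    rw [hchi]
    apply hpos
    refine le_trans ?_ (le_supportDim_baseChange (T := T) h2 ht G g hg)
    have : zs.length ≤ g + (t - r₂) := by omega
    exact_mod_cast this
  · intro hh
    rw [hchi]
    apply eul_eq_zero_of_dim _ hmap _ hFL
    rw [List.length_map]
    intro hcon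
    obtain ⟨g, hg, hgl⟩ := supportDim_baseChange_le (T := T) h2 ht G _ hcon
    have := hh (r₁ - zs.length) g hdim.ge hg
    omega

theorem pos_residue (h1 : ringKrullDim R₁ = r₁) (h2 : ringKrullDim R₂ = r₂)
    (ht : ringKrullDim T = t) (hb : r₁ + r₂ = t + b) (G : Type u) [AddCommGroup G] [Module R₂ G]
    [Module.Finite R₂ G] (h : FP R₁ R₂ T (R₁ ⧸ maximalIdeal R₁) G) :
    Pos R₁ R₂ T t b (R₁ ⧸ maximalIdeal R₁) G := by
  obtain ⟨rs, hrs, hlen, hreg⟩ := exists_rsp R₁ h1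
  have e1 : (R₁ ⧸ (Ideal.ofList rs • ⊤ : Submodule R₁ R₁)) ≃ₗ[R₁] (R₁ ⧸ maximalIdeal R₁) :=
    Submodule.quotEquivOfEq _ _ (by rw [hrs]; simp)
  have h' : FP R₁ R₂ T (R₁ ⧸ (Ideal.ofList rs • ⊤ : Submodule R₁ R₁)) G :=
    h.mono e1.symm.annihilator_eq.le le_rfl
  exact (pos_ci h1 h2 ht hb rs (fun z hz => by rw [← hrs]; exact Ideal.subset_span hz) hreg G
    h').congr e1 (LinearEquiv.refl _ _)

/-- The Cohen-Macaulay case, in terms of depth. -/
theorem chi_pos_of_depth (h1 : ringKrullDim R₁ = r₁) (h2 : ringKrullDim R₂ = r₂)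
    (ht : ringKrullDim T = t) (hb : r₁ + r₂ = t + b) (E G : Type u) [AddCommGroup E]
    [Module R₁ E] [Module.Finite R₁ E] [AddCommGroup G] [Module R₂ G]
    [Module.Finite R₂ G] (h : FP R₁ R₂ T E G) (zs : List R₁) (ws : List R₂)
    (hzs : ∀ z ∈ zs, z ∈ maximalIdeal R₁) (hws : ∀ z ∈ ws, z ∈ maximalIdeal R₂)
    (hz : IsWeaklyRegular E zs) (hw : IsWeaklyRegular G ws) (hzl : zs.length ≤ r₁)
    (hwl : ws.length ≤ r₂) (hlen : b ≤ zs.length + ws.length) :
    0 ≤ chi R₁ R₂ T t E G ∧ (Nontrivial E → Nontrivial G → 0 < chi R₁ R₂ T t E G) := by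
  have hr1 := dim_le_dim (R := R₁) (T := T) h1 ht
  have hr2 := dim_le_dim (R := R₂) (T := T) h2 ht
  obtain ⟨us, hul, hus, hureg⟩ := exists_regular_baseChange (T := T) h1 ht E zs hzs hz hzl
  obtain ⟨vs, hvl, hvs, hvreg⟩ := exists_regular_baseChange (T := T) h2 ht G ws hws hw hwl
  have hv : ∀ j, 1 ≤ j → Subsingleton (TorM T j (T ⊗[R₁] E) (T ⊗[R₂] G)) := fun j hj =>
    tor_subsingleton_of_depth ht _ _ h.fl2 us vs hus hvs hureg hvreg j (by omega)
  have hchi : chi R₁ R₂ T t E G =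
      ((Module.length T (TorM T 0 (T ⊗[R₁] E) (T ⊗[R₂] G))).toNat : ℤ) := by
    unfold chi
    rw [eulerTor_of_vanish _ _ 1 (t + 1) (by omega) hv]
    unfold eulerTor
    simp
  rw [hchi]
  refine ⟨Nat.cast_nonneg _, fun hE hG => ?_⟩
  have hnt : Nontrivial (TorM T 0 (T ⊗[R₁] E) (T ⊗[R₂] G)) := by
    have a1 : Nontrivial (T ⊗[R₁] E) := by
      rw [← Module.supportDim_ne_bot_iff_nontrivial T]
      intro hbot
      have h0 : ((0 : ℕ) : WithBot ℕ∞) ≤ Module.supportDim R₁ E := by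
        unfold Module.supportDim
        have := (Module.nonempty_support_of_nontrivial (R := R₁) (M := E)).to_subtype
        exact Order.krullDim_nonneg
      have h3 := le_supportDim_baseChange (T := T) h1 ht E 0 h0
      rw [hbot] at h3
      simp at h3
    have a2 : Nontrivial (T ⊗[R₂] G) := by
      rw [← Module.supportDim_ne_bot_iff_nontrivial T]
      intro hbot
      have h0 : ((0 : ℕ) : WithBot ℕ∞) ≤ Module.supportDim R₂ G := by
        unfold Module.supportDim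
        have := (Module.nonempty_support_of_nontrivial (R := R₂) (M := G)).to_subtype
        exact Order.krullDim_nonneg
      have h3 := le_supportDim_baseChange (T := T) h2 ht G 0 h0
      rw [hbot] at h3
      simp at h3
    have a3 : Nontrivial ((T ⊗[R₁] E) ⊗[T] (T ⊗[R₂] G)) := nontrivial_tensor_local _ _
    exact (torZero _ _).toEquiv.nontrivial
  have h3 := h.length_ne_top 0
  have h4 : Module.length T (TorM T 0 (T ⊗[R₁] E) (T ⊗[R₂] G)) ≠ 0 := by
    rw [Ne, Module.length_eq_zero_iff]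
    exact not_subsingleton _
  have h5 : (Module.length T (TorM T 0 (T ⊗[R₁] E) (T ⊗[R₂] G))).toNat ≠ 0 := by
    rw [Ne, ENat.toNat_eq_zero]
    exact not_or.2 ⟨h4, h3⟩
  exact_mod_cast Nat.pos_of_ne_zero h5

omit [IsRegularLocalRing R₁] [IsRegularLocalRing R₂] [Module.Flat R₂ T]
  [IsLocalHom (algebraMap R₁ T)] [IsLocalHom (algebraMap R₂ T)] in
theorem chi_quotSMulTop [IsNoetherianRing R₁] (ht : ringKrullDim T = t) (E : Type u)
    [AddCommGroup E] [Module R₁ E] [Module.Finite R₁ E]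
    (G : Type u) [AddCommGroup G] [Module R₂ G] [Module.Finite R₂ G] (h : FP R₁ R₂ T E G)
    (x : R₁) (hx : IsSMulRegular E x) : chi R₁ R₂ T t (QuotSMulTop x E) G = 0 := by
  obtain ⟨f, g, -, hf, hg, hex⟩ := quot_ses E x hx
  have := chi_add ht f g hf hg hex G h
  omega

omit [IsRegularLocalRing R₂] [Module.Flat R₂ T] [IsLocalHom (algebraMap R₁ T)]
  [IsLocalHom (algebraMap R₂ T)] in
/-- Cutting by an element. -/
theorem cut (ht : ringKrullDim T = t) (P : Ideal R₁) [hP : P.IsPrime] (x : R₁)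
    (hx : x ∈ maximalIdeal R₁) (hxP : x ∉ P) (G : Type u) [AddCommGroup G] [Module R₂ G]
    [Module.Finite R₂ G] (h : FP R₁ R₂ T (R₁ ⧸ P) G)
    (hpos : Pos R₁ R₂ T t b (QuotSMulTop x (R₁ ⧸ P)) G) (e g : ℕ)
    (he : ((e + 1 : ℕ) : WithBot ℕ∞) ≤ Module.supportDim R₁ (R₁ ⧸ P))
    (hg : (g : WithBot ℕ∞) ≤ Module.supportDim R₂ G) : e + g < b := by
  have hreg : IsSMulRegular (R₁ ⧸ P) x := by
    rw [isSMulRegular_iff_right_eq_zero_of_smul]
    intro y hy
    obtain ⟨y, rfl⟩ := Ideal.Quotient.mk_surjective y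
    have h1 : Ideal.Quotient.mk P (x * y) = 0 := hy
    rw [Ideal.Quotient.eq_zero_iff_mem] at h1 ⊢
    exact (hP.mem_or_mem h1).resolve_left hxP
  have h0 := chi_quotSMulTop ht (R₁ ⧸ P) G h x hreg
  have h1 := Module.supportDim_quotSMulTop_succ_eq_supportDim hreg hx
  by_contra hcon
  have h2 : (e : WithBot ℕ∞) ≤ Module.supportDim R₁ (QuotSMulTop x (R₁ ⧸ P)) := by
    rw [← h1] at he
    generalize Module.supportDim R₁ (QuotSMulTop x (R₁ ⧸ P)) = a at he ⊢
    induction a using WithBot.recBotCoe with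
    | bot => simp at he
    | coe a =>
      have h3 : ((e + 1 : ℕ) : ℕ∞) ≤ a + 1 := by exact_mod_cast he
      have h4 : (e : ℕ∞) ≤ a := by
        push_cast at h3
        exact (ENat.add_le_add_iff_right ENat.one_ne_top).1 h3
      exact_mod_cast h4
  have h3 := hpos.pos e g h2 hg (by omega)
  omega

end Vale.Agent.P177
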