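import Vale.Agent.P177.CNormA

/-!
The normalization of a complete one dimensional local domain is a discrete valuation ring, finite
over it.
-/

namespace Vale.Agent.P177

open CategoryTheory TensorProduct Function IsLocalRing RingTheory.Sequence Pointwise

universe u

section KA

variable {A : Type u} [CommRing A] [IsLocalRing A] [IsNoetherianRing A] [IsDomain A]
  (hprime : ∀ q : Ideal A, q.IsPrime → q ≠ ⊥ → q = maximalIdeal A)
  {U : Type u} [CommRing U] [IsDomain U] [Algebra A U] (hinj : Injective (algebraMap A U))
  (hU : ∀ u : U, ∃ a : A, a ≠ 0 ∧ ∃ c : A, a • u = algebraMap A U c)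

include hprime hinj hU in
theorem isNoetherianRing_of_ka : IsNoetherianRing U := by
  refine ⟨fun (I : Ideal U) => ?_⟩
  by_cases hI : I = ⊥
  · rw [hI]; exact Submodule.fg_bot
  obtain ⟨u, huI, hu0⟩ := Submodule.exists_mem_ne_zero_of_ne_bot hI
  obtain ⟨a, ha0, c, hc⟩ := hU u
  have hcI : algebraMap A U c ∈ I := by
    rw [← hc, Algebra.smul_def]
    exact Ideal.mul_mem_left I _ huI
  have hc0 : c ≠ 0 := by
    rintro rfl
    rw [map_zero, Algebra.smul_def] at hc
    rcases mul_eq_zero.1 hc with h | h
    · exact ha0 ((map_eq_zero_iff _ hinj).1 h)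
    · exact hu0 h
  obtain ⟨M₀, hM₀, hM⟩ := exists_fg_add hprime hinj hU c hc0
  have hfin : Module.Finite A M₀ := Module.Finite.iff_fg.2 hM₀
  have hN : (M₀ ⊓ I.restrictScalars A).FG := Submodule.FG.of_le hM₀ inf_le_left
  obtain ⟨s, hs⟩ := hN
  classical
  refine ⟨insert (algebraMap A U c) s, le_antisymm ?_ ?_⟩
  · rw [Submodule.span_le]
    intro y hy
    rw [Finset.coe_insert, Set.mem_insert_iff] at hy
    rcases hy with rfl | hy
    · exact hcI
    · have h3 : y ∈ M₀ ⊓ I.restrictScalars A := hs ▸ Submodule.subset_span hy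
      exact h3.2
  · intro y hy
    obtain ⟨m, hm, u', rfl⟩ := hM y
    have hcu : c • u' ∈ Submodule.span U
        ((insert (algebraMap A U c) s : Finset U) : Set U) := by
      rw [Algebra.smul_def, mul_comm]
      exact Submodule.smul_mem _ _ (Submodule.subset_span (by simp))
    refine Submodule.add_mem _ ?_ hcu
    have hcuI : c • u' ∈ I := by
      rw [Algebra.smul_def]
      exact Ideal.mul_mem_right _ I hcI
    have hmI : m ∈ I := by
      have h4 := I.sub_mem hy hcuI
      rwa [add_sub_cancel_right] at h4
    have h3 : m ∈ Submodule.span A (s : Set U) := by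
      rw [hs]
      exact ⟨hm, hmI⟩
    have h4 : Submodule.span A (s : Set U) ≤ (Submodule.span U
        ((insert (algebraMap A U c) s : Finset U) : Set U)).restrictScalars A := by
      rw [Submodule.span_le]
      intro z hz
      exact Submodule.subset_span (by simp [Finset.mem_coe.1 hz])
    exact h4 h3

variable [Algebra.IsIntegral A U]

omit [IsNoetherianRing A] [IsDomain A] in
include hinj in
theorem map_ne_top_of_integral : (maximalIdeal A).map (algebraMap A U) ≠ ⊤ := by
  obtain ⟨Q, hQ, hQA⟩ := Ideal.exists_ideal_over_prime_of_isIntegral_of_isDomain (S := U)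
    (maximalIdeal A) (by
      rw [(RingHom.injective_iff_ker_eq_bot _).1 hinj]
      exact bot_le)
  intro htop
  apply hQ.ne_top
  rw [eq_top_iff, ← htop, Ideal.map_le_iff_le_comap, hQA]

include hprime hinj hU in
/-- Over a complete ring, `U` is finite. -/
theorem finite_of_complete [IsAdicComplete (maximalIdeal A) A] (hne : maximalIdeal A ≠ ⊥) :
    Module.Finite A U := by
  have hnoeth := isNoetherianRing_of_ka hprime hinj hU
  have hH : IsHausdorff ((maximalIdeal A).map (algebraMap A U)) U :=
    IsHausdorff.of_isDomain _ (map_ne_top_of_integral hinj)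
  have hH' : IsHausdorff (maximalIdeal A) U := IsHausdorff.map_algebraMap_iff.1 hH
  obtain ⟨x, hx, hx0⟩ := Submodule.exists_mem_ne_zero_of_ne_bot hne
  obtain ⟨M₀, hM₀, hM⟩ := exists_fg_add hprime hinj hU x hx0
  have hfin : Module.Finite A M₀ := Module.Finite.iff_fg.2 hM₀
  have hprec : IsPrecomplete (maximalIdeal A) M₀ := isPrecomplete_of_finite _ _
  have hsurj : Surjective M₀.subtype := by
    apply surjective_of_mkQ_comp_surjective (I := maximalIdeal A)
    intro y
    obtain ⟨u, rfl⟩ := Submodule.mkQ_surjective _ y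
    obtain ⟨m, hm, u', rfl⟩ := hM u
    refine ⟨⟨m, hm⟩, ?_⟩
    rw [map_add]
    have h3 : (Submodule.mkQ (maximalIdeal A • ⊤ : Submodule A U)) (x • u') = 0 := by
      rw [Submodule.mkQ_apply, Submodule.Quotient.mk_eq_zero]
      exact Submodule.smul_mem_smul hx trivial
    rw [h3, add_zero]
    rfl
  exact Module.Finite.of_surjective M₀.subtype hsurj

end KA

section localring

/-- A domain finite over a complete local ring is local. -/
theorem isLocalRing_of_finite (A : Type u) [CommRing A] [IsLocalRing A] [IsNoetherianRing A]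
    [IsAdicComplete (maximalIdeal A) A]
    (U : Type u) [CommRing U] [IsDomain U] [Algebra A U] [Module.Finite A U] :
    IsLocalRing U := by
  set J := (maximalIdeal A).map (algebraMap A U) with hJ
  have hprec : IsPrecomplete (maximalIdeal A) U := isPrecomplete_of_finite _ _
  have hhaus : IsHausdorff (maximalIdeal A) U := inferInstance
  have hcomp : IsAdicComplete (maximalIdeal A) U := { hprec, hhaus with }
  have hJc : IsAdicComplete J U := (IsAdicComplete.map_algebraMap_iff _ _).2 hcomp
  have hjac : J ≤ Ideal.jacobson ⊥ := IsAdicComplete.le_jacobson_bot J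
  have hunit : ∀ a : U, IsUnit (Ideal.Quotient.mk J a) → IsUnit a := by
    intro a ha
    obtain ⟨b, hb⟩ := ha.exists_right_inv
    obtain ⟨b, rfl⟩ := Ideal.Quotient.mk_surjective b
    rw [← map_mul, ← map_one (Ideal.Quotient.mk J), Ideal.Quotient.eq] at hb
    have h3 := Ideal.mem_jacobson_bot.1 (hjac hb) 1
    have h4 : (a * b - 1) * 1 + 1 = a * b := by ring
    rw [h4] at h3
    exact isUnit_of_mul_isUnit_left h3
  have hart : IsArtinianRing (U ⧸ J) := by
    have h1 : FL ([] : List A) (U ⧸ J) := by
      unfold FL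
      refine le_trans ?_ Ideal.le_radical
      refine le_trans ?_ le_sup_left
      intro a ha
      rw [Module.mem_annihilator]
      intro x
      obtain ⟨x, rfl⟩ := Ideal.Quotient.mk_surjective x
      have h4 : a • x ∈ J := by
        rw [Algebra.smul_def]
        exact Ideal.mul_mem_right _ _ (Ideal.mem_map_of_mem _ ha)
      exact Ideal.Quotient.eq_zero_iff_mem.2 h4
    have hfin : Module.Finite A (U ⧸ J) := inferInstance
    have h2 := Module.length_ne_top_iff.1 h1.length_ne_top
    rw [isFiniteLength_iff_isNoetherian_isArtinian] at h2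
    exact isArtinian_of_tower A h2.2
  refine IsLocalRing.of_isUnit_or_isUnit_one_sub_self fun a => ?_
  -- an idempotent modulo `J`
  obtain ⟨n, y, hy⟩ := IsArtinian.exists_pow_succ_smul_dvd (Ideal.Quotient.mk J a) (1 : U ⧸ J)
  simp only [smul_eq_mul, mul_one, Nat.succ_eq_add_one] at hy
  set α := Ideal.Quotient.mk J a with hα
  have hk : ∀ k : ℕ, α ^ n = α ^ (n + k) * y ^ k := by
    intro k
    induction k with
    | zero => simp
    | succ k ih =>
      rw [ih, pow_add α n k, ← hy]
      ring
  have hidem := hk n
  obtain ⟨c, hc⟩ : ∃ c, c = y ^ n := ⟨_, rfl⟩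
  rw [← hc, pow_add] at hidem
  -- `α ^ n = α ^ n * α ^ n * c`
  obtain ⟨e, he⟩ := Ideal.Quotient.mk_surjective (α ^ n * c)
  have hee : e ^ 2 - e ∈ J := by
    rw [← Ideal.Quotient.eq_zero_iff_mem, map_sub, map_pow, he]
    have : (α ^ n * c) ^ 2 = α ^ n * α ^ n * c * c := by ring
    rw [this, ← hidem, sub_self]
  have hhens : HenselianRing U J := inferInstance
  obtain ⟨E, hE, hEe⟩ := hhens.is_henselian (Polynomial.X ^ 2 - Polynomial.X)
    (by monicity!) e (by simpa using hee) (by
      have h5 : (Polynomial.derivative (Polynomial.X ^ 2 - Polynomial.X : Polynomial U)).eval e =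
          2 * e - 1 := by
        simp only [Polynomial.derivative_sub, Polynomial.derivative_X_pow,
          Polynomial.derivative_X, Polynomial.eval_sub, Polynomial.eval_mul,
          Polynomial.eval_pow, Polynomial.eval_X, Polynomial.eval_one]
        norm_num
      rw [h5]
      refine IsUnit.of_mul_eq_one (Ideal.Quotient.mk J (2 * e - 1)) ?_
      rw [← map_mul]
      have h6 : (2 * e - 1) * (2 * e - 1) = 1 + 4 * (e ^ 2 - e) := by ring
      rw [h6, map_add, map_mul, Ideal.Quotient.eq_zero_iff_mem.2 hee, mul_zero, add_zero, map_one])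
  have hE2 : E * (E - 1) = 0 := by
    have h7 : E ^ 2 - E = 0 := by simpa using hE
    rw [← h7]; ring
  have hEe' : Ideal.Quotient.mk J E = α ^ n * c := by
    rw [← he, Ideal.Quotient.eq]
    exact hEe
  rcases mul_eq_zero.1 hE2 with h0 | h1
  · -- `α` is nilpotent
    right
    apply hunit
    rw [map_sub, map_one]
    apply IsNilpotent.isUnit_one_sub
    refine ⟨n, ?_⟩
    change α ^ n = 0
    rw [hidem, mul_assoc, ← hEe', h0, map_zero, mul_zero]
  · left
    apply hunit
    change IsUnit α
    have h8 : α ^ n * c = 1 := by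
      rw [← hEe', sub_eq_zero.1 h1, map_one]
    rcases Nat.eq_zero_or_pos n with hn | hn
    · -- `n = 0`
      subst hn
      rw [zero_add, pow_one, pow_zero] at hy
      exact IsUnit.of_mul_eq_one _ hy
    · have h9 : IsUnit (α ^ n) := IsUnit.of_mul_eq_one _ h8
      exact (isUnit_pow_iff (by omega)).1 h9

end localring

/-- The normalization of a complete one dimensional local domain. -/
theorem exists_dvr (A : Type u) [CommRing A] [IsLocalRing A] [IsNoetherianRing A] [IsDomain A]
    [IsAdicComplete (maximalIdeal A) A]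
    (hprime : ∀ q : Ideal A, q.IsPrime → q ≠ ⊥ → q = maximalIdeal A)
    (hne : maximalIdeal A ≠ ⊥) :
    ∃ (V : Type u) (_ : CommRing V) (_ : IsDomain V) (_ : IsDiscreteValuationRing V)
      (_ : Algebra A V), Module.Finite A V ∧ Injective (algebraMap A V) ∧
      ∃ c : A, c ≠ 0 ∧ ∀ v : V, ∃ d : A, c • v = algebraMap A V d := by
  let K := FractionRing A
  let V := integralClosure A K
  have hinj : Injective (algebraMap A V) := by
    have h1 : Injective (algebraMap A K) := IsFractionRing.injective A K
    have h2 : algebraMap A K = (algebraMap V K).comp (algebraMap A V) :=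
      IsScalarTower.algebraMap_eq A V K
    rw [h2, RingHom.coe_comp] at h1
    exact Injective.of_comp h1
  have hU : ∀ u : V, ∃ a : A, a ≠ 0 ∧ ∃ c : A, a • u = algebraMap A V c := by
    intro u
    obtain ⟨c, ⟨a, ha⟩, hca⟩ := IsLocalization.exists_mk'_eq (nonZeroDivisors A) (u : K)
    refine ⟨a, nonZeroDivisors.ne_zero ha, c, ?_⟩
    apply Subtype.ext
    change a • (u : K) = algebraMap A K c
    rw [← hca, Algebra.smul_def, mul_comm]
    exact IsLocalization.mk'_spec K c ⟨a, ha⟩
  have hint : Algebra.IsIntegral A V := inferInstance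
  have hfin : Module.Finite A V := finite_of_complete hprime hinj hU hne
  have hnoeth : IsNoetherianRing V := isNoetherianRing_of_ka hprime hinj hU
  have hloc : IsLocalRing V := isLocalRing_of_finite A V
  have hic : IsIntegrallyClosed V := integralClosure.isIntegrallyClosedOfFiniteExtension K
  have hmax : ∀ P : Ideal V, P ≠ ⊥ → P.IsPrime → P = maximalIdeal V := by
    intro P hP hPp
    have h1 : P.comap (algebraMap A V) ≠ ⊥ := fun h => hP (Ideal.eq_bot_of_comap_eq_bot h)
    have h2 := hprime (P.comap (algebraMap A V)) (Ideal.comap_isPrime _ _) h1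
    have h3 : P.IsMaximal := by
      apply Ideal.isMaximal_of_isIntegral_of_isMaximal_comap (R := A)
      rw [h2]
      infer_instance
    exact IsLocalRing.eq_maximalIdeal h3
  have h5 : IsIntegrallyClosed V ∧ ∀ P : Ideal V, P ≠ ⊥ → P.IsPrime → P = maximalIdeal V :=
    ⟨hic, hmax⟩
  have hpid : IsPrincipalIdealRing V :=
    ((tfae_of_isNoetherianRing_of_isLocalRing_of_isDomain V).out 3 0).mp h5
  have hdvr : IsDiscreteValuationRing V :=
    { hpid, hloc with
      not_a_field' := by
        intro hbot
        obtain ⟨x, hx, hx0⟩ := Submodule.exists_mem_ne_zero_of_ne_bot hne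
        have h1 : algebraMap A V x ∈ maximalIdeal V := by
          have h2 : ((maximalIdeal V).comap (algebraMap A V)) = maximalIdeal A :=
            IsLocalRing.eq_maximalIdeal (Ideal.isMaximal_comap_of_isIntegral_of_isMaximal _)
          rw [← h2] at hx
          exact hx
        rw [hbot, Ideal.mem_bot, map_eq_zero_iff _ hinj] at h1
        exact hx0 h1 }
  obtain ⟨c, hc0, hc⟩ := exists_common_multiple hU (⊤ : Submodule A V) Module.Finite.fg_top
  exact ⟨V, inferInstance, inferInstance, hdvr, inferInstance, hfin, hinj, c, hc0,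
    fun v => hc v trivial⟩

end Vale.Agent.P177
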