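import Vale.Agent.P177.EulPos

/-!
Finite modules over complete rings; a lemma of Krull and Akizuki.
-/

namespace Vale.Agent.P177

open CategoryTheory TensorProduct Function IsLocalRing RingTheory.Sequence Pointwise

universe u

theorem isPrecomplete_of_finite {R : Type u} [CommRing R] (I : Ideal R) [IsPrecomplete I R]
    (M : Type u) [AddCommGroup M] [Module R M] [Module.Finite R M] : IsPrecomplete I M := by
  rw [← AdicCompletion.of_surjective_iff]
  intro x
  obtain ⟨y, rfl⟩ := AdicCompletion.ofTensorProduct_surjective_of_finite I M x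
  induction y using TensorProduct.induction_on with
  | zero => exact ⟨0, by rw [map_zero, map_zero]⟩
  | tmul a m =>
    obtain ⟨r, rfl⟩ := AdicCompletion.of_surjective I R a
    refine ⟨r • m, ?_⟩
    rw [AdicCompletion.ofTensorProduct_tmul, map_smul]
    exact (algebraMap_smul (AdicCompletion I R) r (AdicCompletion.of I M m)).symm
  | add x y hx hy =>
    obtain ⟨a, ha⟩ := hx
    obtain ⟨b, hb⟩ := hy
    exact ⟨a + b, by rw [map_add, map_add, ha, hb]⟩

section KA

variable {A : Type u} [CommRing A] [IsLocalRing A]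

theorem maximalIdeal_le_radical_of_ne_bot
    (hprime : ∀ q : Ideal A, q.IsPrime → q ≠ ⊥ → q = maximalIdeal A) (I : Ideal A) (hI : I ≠ ⊥) :
    maximalIdeal A ≤ I.radical := by
  rw [Ideal.radical_eq_sInf]
  refine le_sInf ?_
  rintro q ⟨hIq, hq⟩
  refine (hprime q hq ?_).ge
  rintro rfl
  exact hI (le_bot_iff.1 hIq)

variable [IsNoetherianRing A] [IsDomain A]
  (hprime : ∀ q : Ideal A, q.IsPrime → q ≠ ⊥ → q = maximalIdeal A)
  {U : Type u} [CommRing U] [IsDomain U] [Algebra A U] (hinj : Injective (algebraMap A U))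
  (hU : ∀ u : U, ∃ a : A, a ≠ 0 ∧ ∃ c : A, a • u = algebraMap A U c)

omit [IsLocalRing A] [IsNoetherianRing A] [IsDomain U] in
include hU in
theorem exists_common_multiple (M : Submodule A U) (hM : M.FG) :
    ∃ c : A, c ≠ 0 ∧ ∀ m ∈ M, ∃ d : A, c • m = algebraMap A U d := by
  induction M, hM using Submodule.fg_induction with
  | singleton x =>
    obtain ⟨a, ha, c, hc⟩ := hU x
    refine ⟨a, ha, fun m hm => ?_⟩
    obtain ⟨e, rfl⟩ := Submodule.mem_span_singleton.1 hm
    exact ⟨e * c, by rw [smul_comm, hc, map_mul, Algebra.smul_def]⟩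
  | sup N₁ N₂ hN₁ hN₂ h1 h2 =>
    obtain ⟨c1, hc1, hd1⟩ := h1
    obtain ⟨c2, hc2, hd2⟩ := h2
    refine ⟨c1 * c2, mul_ne_zero hc1 hc2, fun m hm => ?_⟩
    obtain ⟨x, hx, y, hy, rfl⟩ := Submodule.mem_sup.1 hm
    obtain ⟨d1, h3⟩ := hd1 x hx
    obtain ⟨d2, h4⟩ := hd2 y hy
    refine ⟨c2 * d1 + c1 * d2, ?_⟩
    rw [smul_add, mul_smul, mul_smul, smul_comm c1 c2 x, h3, h4, Algebra.smul_def,
      Algebra.smul_def, map_add, map_mul, map_mul]

include hprime hinj hU in
theorem length_quotSMulTop_eq (M : Submodule A U) (hM : M.FG) (h1M : (1 : U) ∈ M) (x : A)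
    (hx0 : x ≠ 0) : (Module.length A (QuotSMulTop x M)).toNat =
      (Module.length A (QuotSMulTop x A)).toNat ∧
      Module.length A (QuotSMulTop x M) ≠ ⊤ := by
  have hfin : Module.Finite A M := Module.Finite.iff_fg.2 hM
  let f : A →ₗ[A] M := (Algebra.linearMap A U).codRestrict M (fun a => by
    rw [Algebra.linearMap_apply, Algebra.algebraMap_eq_smul_one]
    exact M.smul_mem a h1M)
  have hf : Injective f := fun a b hab => hinj (congrArg Subtype.val hab)
  have hex : Exact f (LinearMap.range f).mkQ := by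
    intro x
    rw [Submodule.mkQ_apply, Submodule.Quotient.mk_eq_zero]
    rfl
  obtain ⟨c, hc0, hc⟩ := exists_common_multiple hU M hM
  have hFLQ : FL ([] : List A) (M ⧸ LinearMap.range f) := by
    unfold FL
    rw [Ideal.ofList_nil, sup_bot_eq]
    apply maximalIdeal_le_radical_of_ne_bot hprime
    intro hbot
    apply hc0
    have h3 : c ∈ Module.annihilator A (M ⧸ LinearMap.range f) := by
      rw [Module.mem_annihilator]
      intro v
      obtain ⟨⟨m, hm⟩, rfl⟩ := Submodule.mkQ_surjective _ v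
      rw [← map_smul, Submodule.mkQ_apply, Submodule.Quotient.mk_eq_zero]
      obtain ⟨d, hd⟩ := hc m hm
      exact ⟨d, Subtype.ext hd.symm⟩
    rw [hbot] at h3
    exact h3
  have hFLx : ∀ (N : Type u) [AddCommGroup N] [Module A N], FL [x] N := by
    intro N _ _
    unfold FL
    apply maximalIdeal_le_radical_of_ne_bot hprime
    intro hbot
    apply hx0
    have h3 : x ∈ Module.annihilator A N ⊔ Ideal.ofList [x] :=
      Ideal.mem_sup_right (by rw [Ideal.ofList_singleton]; exact Ideal.mem_span_singleton_self x)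
    rw [hbot] at h3
    exact h3
  have hadd := eul_add [x] f (LinearMap.range f).mkQ hf (Submodule.mkQ_surjective _) hex
    (hFLx M)
  rw [eul_cons_eq_zero x [] (M ⧸ LinearMap.range f) hFLQ, add_zero] at hadd
  have htors : ∀ (N : Type u) [AddCommGroup N] [Module A N],
      (∀ n : N, x • n = 0 → n = 0) → eul [x] N =
      ((Module.length A (QuotSMulTop x N)).toNat : ℤ) := by
    intro N _ _ hN
    have : Subsingleton (Submodule.torsionBy A N x) := by
      refine subsingleton_of_forall_eq 0 ?_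
      rintro ⟨y, hy⟩
      exact Subtype.ext (hN y hy)
    change eul [] (QuotSMulTop x N) - eul [] (Submodule.torsionBy A N x) = _
    rw [eul_subsingleton [] (Submodule.torsionBy A N x), sub_zero]
    rfl
  rw [htors M (by
      rintro ⟨m, hm⟩ h
      have h3 : x • m = 0 := congrArg Subtype.val h
      apply Subtype.ext
      rw [Algebra.smul_def] at h3
      exact (mul_eq_zero.1 h3).resolve_left fun h4 => hx0 ((map_eq_zero_iff _ hinj).1 h4)),
    htors A (fun n hn => (mul_eq_zero.1 hn).resolve_left hx0)] at hadd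
  refine ⟨by exact_mod_cast hadd, ?_⟩
  exact ((hFLx M).quot (z := x) (zs := [])).length_ne_top

include hprime hinj hU in
/-- The lemma of Krull and Akizuki. -/
theorem exists_fg_add (x : A) (hx0 : x ≠ 0) :
    ∃ M₀ : Submodule A U, M₀.FG ∧ ∀ u : U, ∃ m ∈ M₀, ∃ u' : U, u = m + x • u' := by
  let π : U →ₗ[A] QuotSMulTop x U := Submodule.mkQ _
  let φ : Submodule A U → ℕ := fun M => (Module.length A (M.map π)).toNat
  have hquot : ∀ M : Submodule A U, M.FG → (1 : U) ∈ M →
      Module.length A (M.map π) ≤ Module.length A (QuotSMulTop x M) := by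
    intro M _ _
    let g0 : M →ₗ[A] M.map π := π.restrict (fun m hm => Submodule.mem_map_of_mem hm)
    let g : QuotSMulTop x M →ₗ[A] M.map π := Submodule.liftQ _ g0 (by
      intro y hy
      rw [Submodule.mem_smul_pointwise_iff_exists] at hy
      obtain ⟨y, -, rfl⟩ := hy
      apply Subtype.ext
      change π (x • (y : U)) = 0
      rw [Submodule.mkQ_apply, Submodule.Quotient.mk_eq_zero]
      exact Submodule.smul_mem_pointwise_smul _ x _ trivial)
    refine Module.length_le_of_surjective g ?_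
    rintro ⟨_, m, hm, rfl⟩
    exact ⟨Submodule.Quotient.mk ⟨m, hm⟩, rfl⟩
  have hne : ∀ M : Submodule A U, M.FG → (1 : U) ∈ M → Module.length A (M.map π) ≠ ⊤ := by
    intro M hM h1 htop
    apply (length_quotSMulTop_eq hprime hinj hU M hM h1 x hx0).2
    rw [eq_top_iff, ← htop]
    exact hquot M hM h1
  have hbd : ∀ M : Submodule A U, M.FG → (1 : U) ∈ M →
      φ M ≤ (Module.length A (QuotSMulTop x A)).toNat := by
    intro M hM h1
    obtain ⟨h3, h4⟩ := length_quotSMulTop_eq hprime hinj hU M hM h1 x hx0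
    rw [← h3]
    exact ENat.toNat_le_toNat (hquot M hM h1) h4
  have hmax : ∃ M₀ : Submodule A U, (M₀.FG ∧ (1 : U) ∈ M₀) ∧
      ∀ M : Submodule A U, M.FG → (1 : U) ∈ M → φ M ≤ φ M₀ := by
    by_contra hcon
    push Not at hcon
    have h3 : ∀ k : ℕ, ∃ M : Submodule A U, (M.FG ∧ (1 : U) ∈ M) ∧ k ≤ φ M := by
      intro k
      induction k with
      | zero => exact ⟨Submodule.span A {1}, ⟨Submodule.fg_span_singleton _,
          Submodule.mem_span_singleton_self _⟩, Nat.zero_le _⟩
      | succ k ih =>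
        obtain ⟨M, hM, hk⟩ := ih
        obtain ⟨M', hM', h1', hlt⟩ := hcon M hM
        exact ⟨M', ⟨hM', h1'⟩, by omega⟩
    obtain ⟨M, hM, hk⟩ := h3 ((Module.length A (QuotSMulTop x A)).toNat + 1)
    have := hbd M hM.1 hM.2
    omega
  obtain ⟨M₀, ⟨hM₀, h1M₀⟩, hmax⟩ := hmax
  refine ⟨M₀, hM₀, fun u => ?_⟩
  have hM₁ : (M₀ ⊔ Submodule.span A {u}).FG := hM₀.sup (Submodule.fg_span_singleton _)
  have h1M₁ : (1 : U) ∈ M₀ ⊔ Submodule.span A {u} := Submodule.mem_sup_left h1M₀
  have hle : M₀.map π ≤ (M₀ ⊔ Submodule.span A {u}).map π := Submodule.map_mono le_sup_left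
  have heq : M₀.map π = (M₀ ⊔ Submodule.span A {u}).map π := by
    by_contra hcon
    have hfl := Module.length_ne_top_iff.1 (hne _ hM₁ h1M₁)
    rw [isFiniteLength_iff_isNoetherian_isArtinian] at hfl
    obtain ⟨_, _⟩ := hfl
    have h3 : (M₀.map π).comap ((M₀ ⊔ Submodule.span A {u}).map π).subtype ≠ ⊤ := by
      intro htop
      apply hcon
      apply le_antisymm hle
      intro y hy
      have h4 : (⟨y, hy⟩ : (M₀ ⊔ Submodule.span A {u}).map π) ∈
          (M₀.map π).comap ((M₀ ⊔ Submodule.span A {u}).map π).subtype := htop ▸ trivial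
      exact h4
    have h4 := Submodule.length_lt h3
    rw [(Submodule.comapSubtypeEquivOfLe hle).length_eq] at h4
    have h5 := hmax _ hM₁ h1M₁
    have h6 : φ M₀ < φ (M₀ ⊔ Submodule.span A {u}) := by
      rw [← ENat.natCast_toNat (hne _ hM₀ h1M₀), ← ENat.natCast_toNat (hne _ hM₁ h1M₁)] at h4
      exact_mod_cast h4
    omega
  have h7 : π u ∈ M₀.map π := by
    rw [heq]
    exact Submodule.mem_map_of_mem (Submodule.mem_sup_right (Submodule.mem_span_singleton_self u))
  obtain ⟨m, hm, hmu⟩ := h7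
  have h8 : π (u - m) = 0 := by rw [map_sub, hmu, sub_self]
  rw [Submodule.mkQ_apply, Submodule.Quotient.mk_eq_zero,
    Submodule.mem_smul_pointwise_iff_exists] at h8
  obtain ⟨u', -, hu'⟩ := h8
  exact ⟨m, hm, u', by rw [hu']; ring⟩

end KA

end Vale.Agent.P177
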