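import Vale.Agent.P177.CStep
import Vale.Agent.P177.CNorm
import Vale.Agent.P177.CLocThree

/-!
Serre's statements for primes of coheight one when the first ring is complete.
-/

namespace Vale.Agent.P177

open CategoryTheory TensorProduct Function IsLocalRing RingTheory.Sequence Pointwise

universe u

section coheight

variable {R : Type u} [CommRing R] [IsLocalRing R]

theorem eq_maximalIdeal_of_coheight_one (P : Ideal R) [hP : P.IsPrime]
    (hPd : Module.supportDim R (R ⧸ P) = (1 : ℕ)) (q : Ideal R) [hq : q.IsPrime] (hlt : P < q) :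
    q = maximalIdeal R := by
  by_contra hne
  have hlt' : q < maximalIdeal R := lt_of_le_of_ne (le_maximalIdeal hq.ne_top) hne
  have h1 : ((0 : ℕ) : WithBot ℕ∞) ≤ Module.supportDim R (R ⧸ maximalIdeal R) := by
    unfold Module.supportDim
    have := (Module.nonempty_support_of_nontrivial (R := R)
      (M := R ⧸ maximalIdeal R)).to_subtype
    exact Order.krullDim_nonneg
  have h2 := supportDim_quotient_strict hlt' 0 h1
  have h3 := supportDim_quotient_strict hlt (0 + 1) h2
  rw [hPd] at h3
  have h4 : 0 + 1 + 1 ≤ 1 := by exact_mod_cast h3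
  omega

theorem isAdicComplete_quotient [IsNoetherianRing R] [IsAdicComplete (maximalIdeal R) R]
    (P : Ideal R) [IsLocalRing (R ⧸ P)] :
    IsAdicComplete (maximalIdeal (R ⧸ P)) (R ⧸ P) := by
  have hprec : IsPrecomplete (maximalIdeal R) (R ⧸ P) := isPrecomplete_of_finite _ _
  have hhaus : IsHausdorff (maximalIdeal R) (R ⧸ P) := inferInstance
  have hcomp : IsAdicComplete (maximalIdeal R) (R ⧸ P) := { hprec, hhaus with }
  have h1 : (maximalIdeal R).map (algebraMap R (R ⧸ P)) = maximalIdeal (R ⧸ P) :=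
    map_maximalIdeal_of_surjective _ Ideal.Quotient.mk_surjective
  rw [← h1]
  exact (IsAdicComplete.map_algebraMap_iff _ _).2 hcomp

/-- A discrete valuation ring attached to a prime of coheight one of a complete ring. -/
theorem exists_dvr_of_prime [IsNoetherianRing R] [IsAdicComplete (maximalIdeal R) R]
    (P : Ideal R) [hP : P.IsPrime] (hPd : Module.supportDim R (R ⧸ P) = (1 : ℕ)) :
    ∃ (V : Type u) (_ : CommRing V) (_ : IsDomain V) (_ : IsDiscreteValuationRing V)
      (_ : Algebra R V) (_ : Module.Finite R V) (f : (R ⧸ P) →ₗ[R] V), Injective f ∧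
      Module.supportDim R (V ⧸ LinearMap.range f) ≤ 0 ∧ P ≤ Module.annihilator R V ∧
      Module.length R (V ⧸ LinearMap.range (Algebra.linearMap R V)) ≠ ⊤ := by
  have hdom : IsDomain (R ⧸ P) := Ideal.Quotient.isDomain P
  have hloc : IsLocalRing (R ⧸ P) :=
    .of_surjective' (Ideal.Quotient.mk P) Ideal.Quotient.mk_surjective
  have hcomp := isAdicComplete_quotient P
  have hprime : ∀ q : Ideal (R ⧸ P), q.IsPrime → q ≠ ⊥ → q = maximalIdeal (R ⧸ P) := by
    intro q hq hq0
    have h1 : P < q.comap (Ideal.Quotient.mk P) := by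
      refine lt_of_le_of_ne (fun x hx => ?_) ?_
      · rw [Ideal.mem_comap, Ideal.Quotient.eq_zero_iff_mem.2 hx]
        exact q.zero_mem
      · intro heq
        apply hq0
        rw [eq_bot_iff]
        intro x hx
        obtain ⟨x, rfl⟩ := Ideal.Quotient.mk_surjective x
        have h2 : x ∈ q.comap (Ideal.Quotient.mk P) := hx
        rw [← heq] at h2
        exact Ideal.Quotient.eq_zero_iff_mem.2 h2
    have h2 := eq_maximalIdeal_of_coheight_one P hPd (q.comap (Ideal.Quotient.mk P)) h1
    have h3 : (q.comap (Ideal.Quotient.mk P)).map (Ideal.Quotient.mk P) = q :=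
      Ideal.map_comap_of_surjective _ Ideal.Quotient.mk_surjective q
    rw [← h3, h2]
    exact map_maximalIdeal_of_surjective _ Ideal.Quotient.mk_surjective
  obtain ⟨x, hx, hxP⟩ := exists_mem_notMem_of_supportDim P hPd.ge
  have hne : maximalIdeal (R ⧸ P) ≠ ⊥ := by
    intro hbot
    apply hxP
    have h1 : (maximalIdeal R).map (Ideal.Quotient.mk P) = maximalIdeal (R ⧸ P) :=
      map_maximalIdeal_of_surjective _ Ideal.Quotient.mk_surjective
    have h2 : Ideal.Quotient.mk P x ∈ maximalIdeal (R ⧸ P) := h1 ▸ Ideal.mem_map_of_mem _ hx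
    rw [hbot, Ideal.mem_bot, Ideal.Quotient.eq_zero_iff_mem] at h2
    exact h2
  obtain ⟨V, _, _, _, _, hfin, hinj, c, hc0, hc⟩ := exists_dvr (R ⧸ P) hprime hne
  let aV : Algebra R V := ((algebraMap (R ⧸ P) V).comp (Ideal.Quotient.mk P)).toAlgebra
  have sV : IsScalarTower R (R ⧸ P) V := IsScalarTower.of_algebraMap_eq fun x => rfl
  have fV : Module.Finite R V := Module.Finite.trans (R ⧸ P) V
  let f : (R ⧸ P) →ₗ[R] V := (Algebra.linearMap (R ⧸ P) V).restrictScalars R
  have hPann : P ≤ Module.annihilator R V := by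
    rw [annihilator_eq_ker]
    intro p hp
    rw [RingHom.mem_ker]
    change algebraMap (R ⧸ P) V (Ideal.Quotient.mk P p) = 0
    rw [Ideal.Quotient.eq_zero_iff_mem.2 hp, map_zero]
  have hrange : LinearMap.range f = LinearMap.range (Algebra.linearMap R V) := by
    ext v
    constructor
    · rintro ⟨a, rfl⟩
      obtain ⟨a, rfl⟩ := Ideal.Quotient.mk_surjective a
      exact ⟨a, rfl⟩
    · rintro ⟨a, rfl⟩
      exact ⟨Ideal.Quotient.mk P a, rfl⟩
  obtain ⟨c, rfl⟩ := Ideal.Quotient.mk_surjective c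
  have hcP : c ∉ P := fun h => hc0 (Ideal.Quotient.eq_zero_iff_mem.2 h)
  have hFL : FL ([] : List R) (V ⧸ LinearMap.range f) := by
    unfold FL
    rw [Ideal.ofList_nil, sup_bot_eq, Ideal.radical_eq_sInf]
    refine le_sInf ?_
    rintro q ⟨hq1, hq⟩
    have h1 : P ≤ q := (hPann.trans (LinearMap.annihilator_le_of_surjective _
      (Submodule.mkQ_surjective _))).trans hq1
    have h2 : c ∈ q := by
      apply hq1
      rw [Module.mem_annihilator]
      intro v
      obtain ⟨v, rfl⟩ := Submodule.mkQ_surjective _ v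
      rw [← map_smul, Submodule.mkQ_apply, Submodule.Quotient.mk_eq_zero]
      obtain ⟨d, hd⟩ := hc v
      refine ⟨d, ?_⟩
      rw [← algebraMap_smul (R ⧸ P) c v]
      exact hd.symm
    have h3 : P < q := lt_of_le_of_ne h1 (fun h => hcP (h ▸ h2))
    exact (eq_maximalIdeal_of_coheight_one P hPd q h3).ge
  refine ⟨V, inferInstance, inferInstance, inferInstance, aV, fV, f, hinj, ?_, hPann, ?_⟩
  · exact supportDim_le_length [] (by simp) _ hFL
  · rw [← hrange]
    exact hFL.length_ne_top

end coheight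

variable {R₁ R₂ T : Type u} [CommRing R₁] [CommRing R₂] [CommRing T]
  [IsRegularLocalRing R₁] [IsRegularLocalRing R₂] [IsRegularLocalRing T]
  [Algebra R₁ T] [Algebra R₂ T] [Module.Flat R₁ T] [Module.Flat R₂ T]
  [IsLocalHom (algebraMap R₁ T)] [IsLocalHom (algebraMap R₂ T)] {r₁ r₂ t b : ℕ}

theorem hOne_complete (h1 : ringKrullDim R₁ = r₁) (h2 : ringKrullDim R₂ = r₂)
    (ht : ringKrullDim T = t) (hb : r₁ + r₂ = t + b) [IsAdicComplete (maximalIdeal R₁) R₁] :
    HOne R₁ R₂ T t b := by
  intro P hP hPd G _ _ _ hFP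
  obtain ⟨V, _, _, _, _, _, f, hf, hdim, hPann, hlen⟩ := exists_dvr_of_prime P hPd
  have hFPV : FP R₁ R₂ T V G := hFP.mono (by rwa [Ideal.annihilator_quotient]) le_rfl
  have hposV : Pos R₁ R₂ T t b V G := stepHyp_all h2 G
    (Module.length R₁ (V ⧸ LinearMap.range (Algebra.linearMap R₁ V))).toNat R₁ T r₁ t h1 ht hb
    (ENat.natCast_toNat hlen).ge hFPV
  have hdimV := supportDim_dvr R₁ V
  have hex : Exact f (LinearMap.range f).mkQ := by
    intro x
    rw [Submodule.mkQ_apply, Submodule.Quotient.mk_eq_zero]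
    rfl
  have hadd := chi_add ht f (LinearMap.range f).mkQ hf (Submodule.mkQ_surjective _) hex G hFPV
  have hq := pos_dim_zero h1 h2 ht hb G (V ⧸ LinearMap.range f) hdim (hFPV.mono
    (LinearMap.annihilator_le_of_surjective _ (Submodule.mkQ_surjective _)) le_rfl)
  rw [hq.zero, add_zero] at hadd
  · refine ⟨?_, ?_, ?_, ?_⟩
    · rw [hPd, ← hdimV]; exact hposV.dim_le
    · rw [← hadd]; exact hposV.nonneg
    · rw [hPd, ← hdimV, ← hadd]; exact hposV.pos
    · rw [hPd, ← hdimV, ← hadd]; exact hposV.zero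
  · intro e g he hg
    have h3 : (e : WithBot ℕ∞) ≤ 0 := he.trans hdim
    have h4 : e ≤ 0 := by exact_mod_cast h3
    have := hposV.dim_le 1 g hdimV.ge hg
    omega

end Vale.Agent.P177
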