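import Vale.Agent.P177.CComplete
import Vale.Agent.P177.COneC
import Vale.Agent.P177.TorComplete

/-!
Serre's statements for primes of coheight one, by passing to completions.
-/

namespace Vale.Agent.P177

open CategoryTheory TensorProduct Function IsLocalRing RingTheory.Sequence Pointwise

universe u

section descend

variable {R₁ R₂ T S C : Type u} [CommRing R₁] [CommRing R₂] [CommRing T] [CommRing S] [CommRing C]
  [Algebra R₁ T] [Algebra R₂ T] [Algebra R₁ S] [Algebra S C] [Algebra T C] [Algebra R₁ C]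
  [Algebra R₂ C] [IsScalarTower R₁ S C] [IsScalarTower R₁ T C] [IsScalarTower R₂ T C]

theorem chi_descend [IsLocalRing T] [IsLocalRing C] [Module.Flat T C]
    (hloc : (maximalIdeal T).map (algebraMap T C) = maximalIdeal C) (t : ℕ) (E G : Type u)
    [AddCommGroup E] [Module R₁ E] [AddCommGroup G] [Module R₂ G] :
    chi S R₂ C t (S ⊗[R₁] E) G = chi R₁ R₂ T t E G := by
  unfold chi
  have e1 : (C ⊗[S] (S ⊗[R₁] E)) ≃ₗ[C] (C ⊗[T] (T ⊗[R₁] E)) :=
    AlgebraTensorModule.cancelBaseChange R₁ S C C E ≪≫ₗ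
      (AlgebraTensorModule.cancelBaseChange R₁ T C C E).symm
  have e2 : (C ⊗[R₂] G) ≃ₗ[C] (C ⊗[T] (T ⊗[R₂] G)) :=
    (AlgebraTensorModule.cancelBaseChange R₂ T C C G).symm
  rw [eulerTor_congr e1 e2]
  unfold eulerTor
  refine Finset.sum_congr rfl fun j _ => ?_
  rw [length_tor_bc₂ (A := T) (C := C) hloc j (TensorProduct.isBaseChange T (T ⊗[R₁] E) C)
    (TensorProduct.isBaseChange T (T ⊗[R₂] G) C)]

theorem FP.ascend [IsLocalRing T] [IsLocalRing C]
    (hloc : (maximalIdeal T).map (algebraMap T C) = maximalIdeal C) (E G : Type u)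
    [AddCommGroup E] [Module R₁ E] [AddCommGroup G] [Module R₂ G] (h : FP R₁ R₂ T E G) :
    FP S R₂ C (S ⊗[R₁] E) G := by
  unfold FP at h ⊢
  rw [← hloc]
  refine (Ideal.map_mono h).trans ((Ideal.map_radical_le _).trans (Ideal.radical_mono ?_))
  rw [Ideal.map_sup, Ideal.map_map, Ideal.map_map, ← IsScalarTower.algebraMap_eq,
    ← IsScalarTower.algebraMap_eq]
  refine sup_le_sup ?_ le_rfl
  rw [IsScalarTower.algebraMap_eq R₁ S C, ← Ideal.map_map]
  exact Ideal.map_mono (map_ann_le_tensor E)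

theorem Pos.descend [IsRegularLocalRing R₁] [IsRegularLocalRing T] [IsRegularLocalRing S]
    [IsRegularLocalRing C] [Module.Flat R₁ S] [Module.Flat T C]
    (hlocS : (maximalIdeal R₁).map (algebraMap R₁ S) = maximalIdeal S)
    (hloc : (maximalIdeal T).map (algebraMap T C) = maximalIdeal C) {r : ℕ}
    (hr : ringKrullDim R₁ = r) (hs : ringKrullDim S = r) {t b : ℕ} (E G : Type u)
    [AddCommGroup E] [Module R₁ E] [Module.Finite R₁ E] [AddCommGroup G] [Module R₂ G]
    (h : Pos S R₂ C t b (S ⊗[R₁] E) G) : Pos R₁ R₂ T t b E G := by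
  have hS : IsLocalHom (algebraMap R₁ S) := isLocalHom_of_map_maximalIdeal _ _ hlocS
  have hle := supportDim_le_baseChange R₁ S hlocS E
  have hchi := chi_descend (R₁ := R₁) (R₂ := R₂) (S := S) hloc t E G
  refine ⟨?_, ?_, ?_, ?_⟩
  · intro e g he hg
    exact h.dim_le e g (he.trans hle) hg
  · rw [← hchi]; exact h.nonneg
  · intro e g he hg hb
    rw [← hchi]
    exact h.pos e g (he.trans hle) hg hb
  · intro hh
    rw [← hchi]
    refine h.zero fun e g he hg => ?_
    obtain ⟨e', he', hee'⟩ := supportDim_baseChange_le hr hs E e he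
    have := hh e' g he' hg
    omega

end descend

variable {R₁ R₂ T : Type u} [CommRing R₁] [CommRing R₂] [CommRing T]
  [IsRegularLocalRing R₁] [IsRegularLocalRing R₂] [IsRegularLocalRing T]
  [Algebra R₁ T] [Algebra R₂ T] [Module.Flat R₁ T] [Module.Flat R₂ T]
  [IsLocalHom (algebraMap R₁ T)] [IsLocalHom (algebraMap R₂ T)] {r₁ r₂ t b : ℕ}

/-- Serre's statements when the first module has dimension at most one. -/
theorem pos_dim_le_one (h1 : ringKrullDim R₁ = r₁) (h2 : ringKrullDim R₂ = r₂)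
    (ht : ringKrullDim T = t) (hb : r₁ + r₂ = t + b) (G : Type u)
    [AddCommGroup G] [Module R₂ G]
    [Module.Finite R₂ G] (E : Type u) [AddCommGroup E] [Module R₁ E] [Module.Finite R₁ E]
    (hE : Module.supportDim R₁ E ≤ ((1 : ℕ) : WithBot ℕ∞)) (h : FP R₁ R₂ T E G) :
    Pos R₁ R₂ T t b E G := by
  obtain ⟨S, _, _, _, hflatS, hlhS, hlocS, hdimS, hcS, huniv⟩ := exists_regular_completion R₁ h1
  obtain ⟨C, _, _, _, hflatC, hlhC, hlocC, hdimC, hcC, -⟩ := exists_regular_completion T ht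
  have hmap : maximalIdeal R₁ ≤ (maximalIdeal C).comap
      ((algebraMap T C).comp (algebraMap R₁ T)) := by
    intro x hx
    exact algebraMap_mem_maximalIdeal (R := T) (T := C)
      (algebraMap_mem_maximalIdeal (R := R₁) (T := T) hx)
  obtain ⟨g, hg⟩ := huniv C (maximalIdeal C) ((algebraMap T C).comp (algebraMap R₁ T)) hmap
  let aSC : Algebra S C := g.toAlgebra
  let a1C : Algebra R₁ C := ((algebraMap T C).comp (algebraMap R₁ T)).toAlgebra
  let a2C : Algebra R₂ C := ((algebraMap T C).comp (algebraMap R₂ T)).toAlgebra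
  have t1 : IsScalarTower R₁ T C := IsScalarTower.of_algebraMap_eq fun x => rfl
  have t2 : IsScalarTower R₂ T C := IsScalarTower.of_algebraMap_eq fun x => rfl
  have t3 : IsScalarTower R₁ S C := IsScalarTower.of_algebraMap_eq fun x =>
    (RingHom.congr_fun hg x).symm
  have f1 : Module.Flat R₁ C := Module.Flat.trans R₁ T C
  have f2 : Module.Flat R₂ C := Module.Flat.trans R₂ T C
  have l2 : IsLocalHom (algebraMap R₂ C) := by
    rw [IsScalarTower.algebraMap_eq R₂ T C]
    infer_instance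
  have lS : IsLocalHom (algebraMap S C) := by
    refine ((IsLocalRing.local_hom_TFAE (algebraMap S C)).out 0 2).mpr ?_
    rw [← hlocS, Ideal.map_map, ← IsScalarTower.algebraMap_eq, Ideal.map_le_iff_le_comap]
    exact hmap
  have fS : Module.Flat S C := by
    apply flat_of_tor_residue
    have h3 := tor_subsingleton_bc (S := R₁) (B := S) 0
      (TensorProduct.isBaseChange R₁ (R₁ ⧸ maximalIdeal R₁) S) C
    have e1 : (S ⊗[R₁] (R₁ ⧸ maximalIdeal R₁)) ≃ₗ[S] (S ⧸ maximalIdeal S) :=
      (Algebra.TensorProduct.quotIdealMapEquivTensorQuot S (maximalIdeal R₁)).symm.toLinearEquiv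
        ≪≫ₗ Submodule.quotEquivOfEq _ _ hlocS
    exact (torCongrLeft 1 e1 C).symm.toEquiv.subsingleton
  have hdimE : Module.supportDim S (S ⊗[R₁] E) ≤ ((1 : ℕ) : WithBot ℕ∞) := by
    by_contra hcon
    rw [not_le] at hcon
    obtain ⟨e, he, hee⟩ := supportDim_baseChange_le h1 hdimS E _ (succ_le_of_lt_withBot hcon)
    have h4 : e ≤ 1 := by exact_mod_cast he.trans hE
    omega
  have H : HOne S R₂ C t b := hOne_complete hdimS h2 hdimC hb
  have hpos := pos_dim_one hdimS h2 hdimC hb H G (S ⊗[R₁] E) hdimE (FP.ascend hlocC E G h)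
  exact Pos.descend hlocS hlocC h1 hdimS E G hpos

theorem hOne_all (h1 : ringKrullDim R₁ = r₁) (h2 : ringKrullDim R₂ = r₂)
    (ht : ringKrullDim T = t) (hb : r₁ + r₂ = t + b) : HOne R₁ R₂ T t b :=
  fun P _ hPd G _ _ _ hFP => pos_dim_le_one h1 h2 ht hb G (R₁ ⧸ P) hPd.le hFP

end Vale.Agent.P177
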