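import Vale.Agent.P177.CStrict
import Mathlib.RingTheory.Flat.Basic
import Mathlib.RingTheory.Localization.BaseChange

/-!
Quotients by the power torsion of an element.
-/

namespace Vale.Agent.P177

open IsLocalRing Function TensorProduct

universe u

section tors

variable {S : Type u} [CommRing S] (t : S) (W : Type u) [AddCommGroup W] [Module S W]

/-- Elements killed by a power of `t`. -/
def tors : Submodule S W where
  carrier := {w | ∃ n : ℕ, t ^ n • w = 0}
  zero_mem' := ⟨0, by simp⟩
  add_mem' := by
    rintro v w ⟨n, hn⟩ ⟨m, hm⟩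
    refine ⟨n + m, ?_⟩
    rw [smul_add, pow_add, mul_smul, mul_smul, hm, smul_zero, add_zero, smul_comm, hn, smul_zero]
  smul_mem' := by
    rintro c w ⟨n, hn⟩
    exact ⟨n, by rw [smul_comm, hn, smul_zero]⟩

theorem mem_tors {w : W} : w ∈ tors t W ↔ ∃ n : ℕ, t ^ n • w = 0 := Iff.rfl

/-- The quotient by the power torsion. -/
abbrev St := W ⧸ tors t W

variable {t W}

theorem St_reg (v : St t W) (hv : t • v = 0) : v = 0 := by
  obtain ⟨w, rfl⟩ := Submodule.mkQ_surjective _ v
  have h1 : (Submodule.Quotient.mk (t • w) : St t W) = 0 := hv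
  rw [Submodule.Quotient.mk_eq_zero] at h1
  obtain ⟨n, hn⟩ := h1
  refine (Submodule.Quotient.mk_eq_zero _).2 ⟨n + 1, ?_⟩
  rw [pow_succ, mul_smul]
  exact hn

theorem tors_unit_mul {t t' : S} (u : Sˣ) (h : t' = u * t) : tors t' W = tors t W := by
  ext w
  rw [mem_tors, mem_tors]
  refine exists_congr fun n => ?_
  rw [h, mul_pow, mul_smul]
  have : IsUnit ((u : S) ^ n) := (u ^ n).isUnit
  constructor
  · intro h1
    have h2 : ((u⁻¹ : Sˣ) : S) ^ n • ((u : S) ^ n • t ^ n • w) = 0 := by rw [h1, smul_zero]
    rw [← mul_smul, ← mul_pow, Units.inv_mul, one_pow, one_smul] at h2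
    exact h2
  · intro h1
    rw [h1, smul_zero]

theorem St_congr {W' : Type u} [AddCommGroup W'] [Module S W'] (e : W ≃ₗ[S] W') :
    Nonempty (St t W ≃ₗ[S] St t W') := by
  refine ⟨Submodule.Quotient.equiv _ _ e ?_⟩
  ext w
  constructor
  · rintro ⟨v, ⟨n, hn⟩, rfl⟩
    refine ⟨n, ?_⟩
    have := congrArg e hn
    rw [map_smul, map_zero] at this
    exact this
  · rintro ⟨n, hn⟩
    refine ⟨e.symm w, ⟨n, ?_⟩, e.apply_symm_apply w⟩
    rw [← map_smul, hn, map_zero]

theorem St_unit {t' : S} (u : Sˣ) (h : t' = u * t) : Nonempty (St t' W ≃ₗ[S] St t W) :=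
  ⟨Submodule.quotEquivOfEq _ _ (tors_unit_mul u h)⟩

/-- The power torsion commutes with flat base change. -/
theorem St_baseChange {S' : Type u} [CommRing S'] [Algebra S S'] [Module.Flat S S'] :
    Nonempty ((S' ⊗[S] St t W) ≃ₗ[S'] St (algebraMap S S' t) (S' ⊗[S] W)) := by
  let π : (S' ⊗[S] W) →ₗ[S'] (S' ⊗[S] St t W) := (Submodule.mkQ (tors t W)).baseChange S'
  have hπ : Surjective π := by
    change Surjective ((Submodule.mkQ (tors t W)).lTensor S')
    exact LinearMap.lTensor_surjective _ (Submodule.mkQ_surjective _)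
  have hk : LinearMap.ker π = tors (algebraMap S S' t) (S' ⊗[S] W) := by
    ext z
    constructor
    · intro hz
      have hex : Exact ((tors t W).subtype.lTensor S') ((Submodule.mkQ (tors t W)).lTensor S') :=
        lTensor_exact S' (LinearMap.exact_subtype_mkQ _) (Submodule.mkQ_surjective _)
      obtain ⟨y, rfl⟩ := (hex z).1 hz
      induction y with
      | zero => rw [map_zero]; exact zero_mem _
      | add y y' hy hy' =>
        rw [map_add]
        refine add_mem (hy ?_) (hy' ?_)
        · exact (hex _).2 ⟨_, rfl⟩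
        · exact (hex _).2 ⟨_, rfl⟩
      | tmul s w =>
        obtain ⟨n, hn⟩ := w.2
        refine ⟨n, ?_⟩
        rw [LinearMap.lTensor_tmul, ← map_pow, algebraMap_smul, ← TensorProduct.tmul_smul]
        change s ⊗ₜ (t ^ n • (w : W)) = 0
        rw [hn, TensorProduct.tmul_zero]
    · rintro ⟨n, hn⟩
      let f : W →ₗ[S] W := LinearMap.lsmul S W (t ^ n)
      have hex : Exact ((LinearMap.ker f).subtype.lTensor S') (f.lTensor S') :=
        Module.Flat.lTensor_exact S' (LinearMap.exact_subtype_ker_map f)
      have hf : ∀ z : S' ⊗[S] W, f.lTensor S' z = (algebraMap S S' t) ^ n • z := by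
        intro z
        induction z with
        | zero => rw [map_zero, smul_zero]
        | add y y' hy hy' => rw [map_add, smul_add, hy, hy']
        | tmul s w =>
          rw [LinearMap.lTensor_tmul, ← map_pow, algebraMap_smul, ← TensorProduct.tmul_smul]
          rfl
      obtain ⟨y, rfl⟩ := (hex z).1 ((hf z).trans hn)
      clear hn
      induction y with
      | zero => rw [map_zero]; exact zero_mem _
      | add y y' hy hy' =>
        rw [map_add]
        exact add_mem hy hy'
      | tmul s w =>
        change (Submodule.mkQ (tors t W)).lTensor S' (s ⊗ₜ (w : W)) = 0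
        rw [LinearMap.lTensor_tmul]
        have h1 : (Submodule.mkQ (tors t W)) (w : W) = 0 := by
          rw [Submodule.mkQ_apply, Submodule.Quotient.mk_eq_zero]
          exact ⟨n, w.2⟩
        rw [h1, TensorProduct.tmul_zero]
  exact ⟨((Submodule.quotEquivOfEq _ _ hk.symm).trans
    (LinearMap.quotKerEquivOfSurjective π hπ)).symm⟩

end tors

section strict

variable {A S : Type u} [CommRing A] [CommRing S] [Algebra A S] (x : A) (M : Type u)
  [AddCommGroup M] [Module A M]

/-- The strict transform of a module on a chart. -/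
abbrev StM := St (algebraMap A S x) (S ⊗[A] M)

variable (S) in
/-- The canonical map to the strict transform. -/
noncomputable def stMap : M →ₗ[A] StM (S := S) x M :=
  ((tors (algebraMap A S x) (S ⊗[A] M)).mkQ.restrictScalars A).comp (TensorProduct.mk A S M 1)

variable {x M} {I : Ideal A}

theorem stMap_isStrict (hS : IsStrict x (fun k => (I ^ k : Ideal A)) (Algebra.linearMap A S))
    (hx : x ∈ I) (f : S →+* Localization.Away x)
    (hf : ∀ a, f (algebraMap A S a) = algebraMap A _ a) :
    IsStrict x (fun n => (I ^ n • ⊤ : Submodule A M)) (stMap S x M) := by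
  let q : (S ⊗[A] M) →ₗ[S] StM (S := S) x M := (tors (algebraMap A S x) (S ⊗[A] M)).mkQ
  have hq : ∀ m : M, stMap S x M m = q (1 ⊗ₜ m) := fun m => rfl
  have hmul : ∀ (n : ℕ) (v : StM (S := S) x M), x ^ n • v = (algebraMap A S x) ^ n • v := by
    intro n v
    rw [← map_pow, algebraMap_smul]
  constructor
  · intro v hv
    rw [← algebraMap_smul S x v] at hv
    exact St_reg v hv
  · intro n m hm
    refine Submodule.smul_induction_on hm ?_ ?_
    · intro a ha m _
      obtain ⟨v, hv⟩ := hS.div n a ha
      refine ⟨v • stMap S x M m, ?_⟩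
      rw [← smul_assoc, hv, map_smul]
      exact algebraMap_smul S a _
    · rintro m m' ⟨v, hv⟩ ⟨v', hv'⟩
      exact ⟨v + v', by rw [smul_add, hv, hv', map_add]⟩
  · intro v
    obtain ⟨w, rfl⟩ := Submodule.mkQ_surjective _ v
    change ∃ n, ∃ m ∈ _, x ^ n • q w = _
    induction w with
    | zero => exact ⟨0, 0, zero_mem _, by rw [map_zero, map_zero, smul_zero]⟩
    | add w w' hw hw' =>
      obtain ⟨n, m, hm, hwm⟩ := hw
      obtain ⟨n', m', hm', hwm'⟩ := hw'
      refine ⟨n + n', x ^ n' • m + x ^ n • m', ?_, ?_⟩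
      · refine add_mem ?_ ?_
        · rw [add_comm, pow_add, mul_smul]
          exact Submodule.smul_mem_smul (Ideal.pow_mem_pow hx n') hm
        · rw [pow_add, mul_smul]
          exact Submodule.smul_mem_smul (Ideal.pow_mem_pow hx n) hm'
      · rw [map_add, map_add, map_smul, map_smul, ← hwm, ← hwm', smul_add, ← mul_smul,
          ← mul_smul, ← pow_add, ← pow_add, add_comm n' n]
    | tmul s m =>
      obtain ⟨n, a, ha, hs⟩ := hS.surj s
      refine ⟨n, a • m, Submodule.smul_mem_smul ha trivial, ?_⟩
      have h1 : x ^ n • q (s ⊗ₜ m) = q ((x ^ n • s) ⊗ₜ m) := by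
        rw [hmul, ← map_smul, TensorProduct.smul_tmul', smul_eq_mul, Algebra.smul_def, map_pow]
      have h2 : (Algebra.linearMap A S) a = a • (1 : S) := by
        rw [Algebra.linearMap_apply, Algebra.algebraMap_eq_smul_one]
      rw [h1, hs, hq, TensorProduct.tmul_smul, TensorProduct.smul_tmul', h2]
  · intro m hm
    rw [hq] at hm
    have h1 : (Submodule.Quotient.mk ((1 : S) ⊗ₜ[A] m) : StM (S := S) x M) = 0 := hm
    rw [Submodule.Quotient.mk_eq_zero] at h1
    obtain ⟨n, hn⟩ := h1
    rw [← map_pow, algebraMap_smul, ← TensorProduct.tmul_smul] at hn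
    let L := Localization.Away x
    let fA : S →ₐ[A] L := { f with commutes' := hf }
    have h2 : (1 : L) ⊗ₜ[A] (x ^ n • m) = 0 := by
      have := congrArg (fA.toLinearMap.rTensor M) hn
      rw [LinearMap.rTensor_tmul, map_zero] at this
      change f 1 ⊗ₜ[A] (x ^ n • m) = 0 at this
      rwa [map_one] at this
    have h3 : IsLocalizedModule (Submonoid.powers x) (TensorProduct.mk A L M 1) :=
      (isLocalizedModule_iff_isBaseChange (Submonoid.powers x) L _).2
        (TensorProduct.isBaseChange A M L)
    obtain ⟨⟨_, k, rfl⟩, hk⟩ := (IsLocalizedModule.eq_zero_iff (Submonoid.powers x)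
      (TensorProduct.mk A L M 1)).1 h2
    refine ⟨k + n, ?_⟩
    rw [pow_add, mul_smul]
    exact hk

end strict

end Vale.Agent.P177
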