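import Vale.Agent.P177.CChartB
import Vale.Agent.P177.CSt
import Mathlib.RingTheory.RingHom.Flat

/-!
Localizations of the chart and of the extended Rees algebra.
-/

namespace Vale.Agent.P177

open IsLocalRing Function TensorProduct

universe u

section laurent

open LaurentPolynomial

variable {S : Type u} [CommRing S] (P : Ideal S)

/-- Extension of an ideal to Laurent polynomials. -/
noncomputable def lExt : Ideal (LaurentPolynomial S) := P.map (C : S →+* LaurentPolynomial S)

theorem lExt_eq : lExt P = (P.map (Polynomial.C : S →+* Polynomial S)).map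
    (algebraMap (Polynomial S) (LaurentPolynomial S)) := by
  rw [Ideal.map_map]
  unfold lExt
  congr 1
  ext a : 1
  rw [RingHom.comp_apply, LaurentPolynomial.algebraMap_eq_toLaurent, Polynomial.toLaurent_C]

instance lExt_isPrime [P.IsPrime] : (lExt P).IsPrime := by
  rw [lExt_eq]
  refine IsLocalization.isPrime_of_isPrime_disjoint
    (Submonoid.powers (Polynomial.X : Polynomial S)) _ _ inferInstance ?_
  rw [Set.disjoint_left]
  rintro _ ⟨n, rfl⟩ h
  have h1 := Ideal.mem_map_C_iff.1 h n
  simp only [Polynomial.coeff_X_pow_self] at h1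
  exact (Ideal.IsPrime.ne_top ‹P.IsPrime›) ((Ideal.eq_top_iff_one P).2 h1)

theorem lExt_comap [P.IsMaximal] : P = (lExt P).comap (C : S →+* LaurentPolynomial S) := by
  refine Ideal.IsMaximal.eq_of_le ‹_› ?_ Ideal.le_comap_map
  have h1 : P.IsPrime := Ideal.IsMaximal.isPrime ‹_›
  exact (Ideal.comap_isPrime (C : S →+* LaurentPolynomial S) (lExt P)).ne_top

theorem coeff_mem_of_sum_mem (a : ℕ → S) (n : ℕ)
    (h : ∑ i ∈ Finset.range n, (C (a i) * T i : LaurentPolynomial S) ∈ lExt P) :
    ∀ i, i < n → a i ∈ P := by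
  let u : (LaurentPolynomial (S ⧸ P))ˣ := (isUnit_T 1).unit
  let κ : LaurentPolynomial S →+* LaurentPolynomial (S ⧸ P) :=
    eval₂ ((C : (S ⧸ P) →+* LaurentPolynomial (S ⧸ P)).comp (Ideal.Quotient.mk P)) u
  have hκ : ∀ (r : S) (i : ℕ), κ (C r * T i) = C (Ideal.Quotient.mk P r) * T i := by
    intro r i
    have h1 := eval₂_C_mul_T_n ((C : (S ⧸ P) →+* LaurentPolynomial (S ⧸ P)).comp
      (Ideal.Quotient.mk P)) u r i
    refine h1.trans ?_
    rw [RingHom.comp_apply]
    congr 1
    change (T 1 : LaurentPolynomial (S ⧸ P)) ^ i = T i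
    rw [T_pow]
    simp
  have hle : lExt P ≤ RingHom.ker κ := by
    unfold lExt
    rw [Ideal.map_le_iff_le_comap]
    intro r hr
    have h1 := hκ r 0
    rw [Nat.cast_zero, T_zero, mul_one] at h1
    change κ (C r) = 0
    rw [h1, Ideal.Quotient.eq_zero_iff_mem.2 hr, map_zero, zero_mul]
  have h1 : κ (∑ i ∈ Finset.range n, (C (a i) * T i : LaurentPolynomial S)) = 0 := hle h
  rw [map_sum, Finset.sum_congr rfl fun i _ => hκ (a i) i] at h1
  have h2 : Polynomial.toLaurent (∑ i ∈ Finset.range n,
      Polynomial.monomial i (Ideal.Quotient.mk P (a i))) = 0 := by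
    rw [map_sum, ← h1]
    refine Finset.sum_congr rfl fun i _ => ?_
    rw [← Polynomial.C_mul_X_pow_eq_monomial, Polynomial.toLaurent_C_mul_X_pow]
  rw [Polynomial.toLaurent_eq_zero] at h2
  intro i hi
  have h3 := congrArg (fun p => Polynomial.coeff p i) h2
  simp only [Polynomial.finsetSum_coeff, Polynomial.coeff_monomial, Polynomial.coeff_zero,
    Finset.sum_ite_eq', Finset.mem_range, hi, if_true] at h3
  exact Ideal.Quotient.eq_zero_iff_mem.1 h3

end laurent

section omega

open LaurentPolynomial

variable {A : Type u} [CommRing A] {d : ℕ} {x : Fin d → A} (c : Fin d → A)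

theorem chartPhi_aeval (F : MvPolynomial (Fin d) A) (n : ℕ) (hF : F.IsHomogeneous n) :
    chartPhi x c (MvPolynomial.aeval (eY x) F) = C (MvPolynomial.aeval (cY x c) F) * T n := by
  have h1 : chartPhi x c (MvPolynomial.aeval (eY x) F) =
      MvPolynomial.aeval (fun i => T 1 * C (cY x c i)) F := by
    have h2 : chartPhi x c (MvPolynomial.aeval (eY x) F) = MvPolynomial.eval₂
        ((chartPhi x c).comp (algebraMap A (ERees x))) (fun i => chartPhi x c (eY x i)) F := by
      rw [MvPolynomial.aeval_def]
      exact MvPolynomial.eval₂_comp_left _ _ _ _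
    rw [h2, MvPolynomial.aeval_def]
    congr 1
    · ext a : 1
      rw [RingHom.comp_apply, chartPhi_algebraMap]
      rfl
    · funext i
      rw [chartPhi_eY, mul_comm]
  rw [h1, aeval_mul_of_isHomogeneous _ _ F n hF, T_pow, mul_one, mul_comm]
  congr 1
  have h3 : (fun i => (C (cY x c i) : LaurentPolynomial (Chart x c))) =
      fun i => algebraMap (Chart x c) (LaurentPolynomial (Chart x c)) (cY x c i) := rfl
  rw [h3]
  exact MvPolynomial.aeval_algebraMap_apply (LaurentPolynomial (Chart x c)) (cY x c) F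

variable [IsRegularLocalRing A] (hd : ringKrullDim A = d)
  (hx : Ideal.span (Set.range x) = maximalIdeal A)

include hd in
theorem exists_omega (P : Ideal (Chart x c)) [hP : P.IsMaximal]
    (hmP : ∀ a ∈ maximalIdeal A, algebraMap A (Chart x c) a ∈ P) :
    ∃ (Ω : Type u) (_ : CommRing Ω) (_ : IsRegularLocalRing Ω)
      (_ : Algebra (Localization.AtPrime P) Ω) (_ : Module.Flat (Localization.AtPrime P) Ω)
      (ρ : ERees x →+* Ω) (q : Ideal (MvPolynomial (Fin d) (ResidueField A))) (_ : q.IsPrime),
      (maximalIdeal (Localization.AtPrime P)).map (algebraMap (Localization.AtPrime P) Ω) =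
        maximalIdeal Ω ∧
      ringKrullDim Ω = ((q.height + 1 : ℕ∞) : WithBot ℕ∞) ∧
      (∀ f ∈ q, ∀ n, MvPolynomial.homogeneousComponent n f ∈ q) ∧
      (∃ i, MvPolynomial.X i ∉ q) ∧
      (∀ a : A, algebraMap (Localization.AtPrime P) Ω
        (algebraMap (Chart x c) _ (algebraMap A _ a)) = ρ (algebraMap A _ a)) ∧
      (∃ u : Ωˣ, algebraMap (Localization.AtPrime P) Ω
        (algebraMap (Chart x c) _ (algebraMap A _ (x0 x c))) = u * ρ (eT x)) ∧
      ρ.Flat ∧ (maximalIdeal Ω).comap ρ = q.comap (eRes hx) := by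
  have hPp : P.IsPrime := hP.isPrime
  let Q : Ideal (LaurentPolynomial (Chart x c)) := lExt P
  have hcomap : P = Q.comap (C : Chart x c →+* _) := lExt_comap P
  let Ω := Localization.AtPrime Q
  let f : Localization.AtPrime P →+* Ω := Localization.localRingHom P Q C hcomap
  let _ : Algebra (Localization.AtPrime P) Ω := f.toAlgebra
  have hf : ∀ s : Chart x c, f (algebraMap _ _ s) = algebraMap _ Ω (C s) := fun s =>
    Localization.localRingHom_to_map P Q C hcomap s
  have htow : IsScalarTower (Chart x c) (Localization.AtPrime P) Ω :=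
    IsScalarTower.of_algebraMap_eq fun s => (hf s).symm
  have hflat : Module.Flat (Localization.AtPrime P) Ω :=
    (Module.flat_iff_of_isLocalization (Localization.AtPrime P) P.primeCompl Ω).2 inferInstance
  -- the extended Rees algebra
  let _ : Algebra (ERees x) (LaurentPolynomial (Chart x c)) := (chartPhi x c).toAlgebra
  have hloc : IsLocalization.Away (eXi x c) (LaurentPolynomial (Chart x c)) :=
    chart_isLocalization x c
  let ρ : ERees x →+* Ω := (algebraMap (LaurentPolynomial (Chart x c)) Ω).comp (chartPhi x c)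
  have hρ : algebraMap (ERees x) Ω = ρ := IsScalarTower.algebraMap_eq _ _ _
  let 𝔓 : Ideal (ERees x) := Q.comap (chartPhi x c)
  have h𝔓 : 𝔓.IsPrime := inferInstance
  have hlocP : IsLocalization.AtPrime Ω 𝔓 :=
    IsLocalization.isLocalization_isLocalization_atPrime_isLocalization
      (Submonoid.powers (eXi x c)) Ω Q
  have hT𝔓 : eT x ∈ 𝔓 := by
    change chartPhi x c (eT x) ∈ Q
    rw [chartPhi_eT]
    exact Ideal.mul_mem_right _ _ (Ideal.mem_map_of_mem _ (hmP _ (x0_mem hx c)))
  obtain ⟨q, hq, h𝔓q⟩ := exists_comap_eRes hx 𝔓 hT𝔓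
  obtain ⟨hreg, hht, -⟩ := eRees_regular_aux hd hx q
  have hregΩ : IsRegularLocalRing Ω := by
    have : IsRegularLocalRing (Localization.AtPrime 𝔓) := by
      have : ∀ (J : Ideal (ERees x)) [J.IsPrime], J = q.comap (eRes hx) →
          IsRegularLocalRing (Localization.AtPrime J) := by
        rintro J hJ rfl
        exact hreg
      exact this 𝔓 h𝔓q
    let e : Localization.AtPrime 𝔓 ≃+* Ω :=
      (IsLocalization.algEquiv 𝔓.primeCompl (Localization.AtPrime 𝔓) Ω).toRingEquiv
    exact IsRegularLocalRing.of_ringEquiv (R := Localization.AtPrime 𝔓) (R' := Ω) e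
  have hmem : ∀ F : ERees x, F ∈ 𝔓 ↔ eRes hx F ∈ q := fun F => by rw [h𝔓q]; rfl
  have hξ : eXi x c ∉ 𝔓 := by
    intro h
    have h1 : chartPhi x c (eXi x c) ∈ Q := h
    rw [chartPhi_eXi] at h1
    exact (inferInstance : Q.IsPrime).ne_top (Ideal.eq_top_of_isUnit_mem _ h1 (isUnit_T 1))
  refine ⟨Ω, inferInstance, hregΩ, inferInstance, hflat, ρ, q, hq, ?_, ?_, ?_, ?_, ?_, ?_, ?_, ?_⟩
  · rw [← Localization.AtPrime.map_eq_maximalIdeal, Ideal.map_map,
      ← Localization.AtPrime.map_eq_maximalIdeal]
    change _ = (lExt P).map _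
    unfold lExt
    rw [Ideal.map_map]
    congr 1
    ext s : 1
    exact hf s
  · rw [← hht, ← h𝔓q]
    exact IsLocalization.AtPrime.ringKrullDim_eq_height 𝔓 Ω
  · intro g hg n
    obtain ⟨G, hG⟩ := MvPolynomial.map_surjective (residue A) residue_surjective g
    have h1 : MvPolynomial.aeval (eY x) G ∈ 𝔓 := by
      rw [hmem, eRes_aeval, hG]
      exact hg
    have h2 : ∑ i ∈ Finset.range (G.totalDegree + 1), (C (MvPolynomial.aeval (cY x c)
        (MvPolynomial.homogeneousComponent i G)) * T i : LaurentPolynomial (Chart x c)) ∈ Q := by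
      have h3 : ∑ i ∈ Finset.range (G.totalDegree + 1), (C (MvPolynomial.aeval (cY x c)
          (MvPolynomial.homogeneousComponent i G)) * T i : LaurentPolynomial (Chart x c)) =
          chartPhi x c (MvPolynomial.aeval (eY x) G) := by
        conv_rhs => rw [← MvPolynomial.sum_homogeneousComponent G]
        rw [map_sum, map_sum]
        refine Finset.sum_congr rfl fun i _ => ?_
        rw [chartPhi_aeval c _ i (MvPolynomial.homogeneousComponent_isHomogeneous i G)]
      rw [h3]
      exact h1
    have h3 := coeff_mem_of_sum_mem P _ _ h2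
    have h4 : MvPolynomial.homogeneousComponent n g =
        (MvPolynomial.homogeneousComponent n G).map (residue A) := by
      rw [← hG]
      ext m
      rw [MvPolynomial.coeff_map, MvPolynomial.coeff_homogeneousComponent,
        MvPolynomial.coeff_homogeneousComponent]
      split_ifs
      · rw [MvPolynomial.coeff_map]
      · rw [map_zero]
    rw [h4, ← eRes_aeval hx, ← hmem]
    change chartPhi x c _ ∈ Q
    rw [chartPhi_aeval c _ n (MvPolynomial.homogeneousComponent_isHomogeneous n G)]
    refine Ideal.mul_mem_right _ _ (Ideal.mem_map_of_mem _ ?_)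
    by_cases hn : n < G.totalDegree + 1
    · exact h3 n hn
    · rw [MvPolynomial.homogeneousComponent_eq_zero n G (by omega), map_zero]
      exact zero_mem _
  · by_contra hcon
    push Not at hcon
    apply hξ
    rw [hmem]
    unfold eXi
    rw [map_sum]
    refine Ideal.sum_mem _ fun i _ => ?_
    rw [map_mul, eRes_eY]
    exact Ideal.mul_mem_left _ _ (hcon i)
  · intro a
    change f (algebraMap _ _ (algebraMap A (Chart x c) a)) = ρ (algebraMap A _ a)
    rw [hf, RingHom.comp_apply, chartPhi_algebraMap]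
  · have hu : IsUnit (ρ (eXi x c)) := by
      rw [← hρ]
      exact IsLocalization.map_units Ω (⟨eXi x c, hξ⟩ : 𝔓.primeCompl)
    refine ⟨hu.unit, ?_⟩
    change f (algebraMap _ _ (algebraMap A (Chart x c) (x0 x c))) = ρ (eXi x c) * ρ (eT x)
    rw [← map_mul, mul_comm, ← algebraMap_x0, RingHom.comp_apply, chartPhi_algebraMap, hf]
  · have h1 : Module.Flat (ERees x) (LaurentPolynomial (Chart x c)) :=
      IsLocalization.flat _ (Submonoid.powers (eXi x c))
    have h2 : Module.Flat (ERees x) Ω := Module.Flat.trans _ (LaurentPolynomial (Chart x c)) _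
    rw [← hρ]
    exact RingHom.flat_algebraMap_iff.2 h2
  · rw [← h𝔓q]
    change (maximalIdeal Ω).comap ((algebraMap (LaurentPolynomial (Chart x c)) Ω).comp _) = _
    rw [← Ideal.comap_comap]
    exact congrArg (Ideal.comap (chartPhi x c)) Localization.AtPrime.under_maximalIdeal

end omega

end Vale.Agent.P177
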