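import Vale.Agent.P177.CLam

/-!
The Hilbert function of a filtered module through a strict resolution.
-/

namespace Vale.Agent.P177

open Function IsLocalRing PowerSeries

universe u

section aug

variable {A : Type u} [CommRing A] {M : Type u} [AddCommGroup M] [Module A M] (X : FR A M)

/-- The terms of the augmented complex. -/
def augC : ℕ → Type u
  | 0 => M
  | i + 1 => Fin (X.b i) → A

instance augGrp : ∀ i, AddCommGroup (augC X i)
  | 0 => inferInstanceAs (AddCommGroup M)
  | i + 1 => inferInstanceAs (AddCommGroup (Fin (X.b i) → A))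

instance augMod : ∀ i, Module A (augC X i)
  | 0 => inferInstanceAs (Module A M)
  | i + 1 => inferInstanceAs (Module A (Fin (X.b i) → A))

/-- The differentials of the augmented complex. -/
def augD : ∀ i, augC X (i + 1) →ₗ[A] augC X i
  | 0 => X.ε
  | i + 1 => X.δ i

end aug

section fres

variable {A : Type u} [CommRing A] {I : Ideal A} {M : Type u} [AddCommGroup M] [Module A M]
  {F : ℕ → Submodule A M} {r : ℕ} (X : FRes I F r)

/-- The numerator polynomial of a strict resolution. -/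
noncomputable def FRes.pol : Polynomial ℤ :=
  ∑ i ∈ Finset.range (r + 1), (-1) ^ i * ∑ j, Polynomial.X ^ (X.a i j)

/-- The alternating sum of shifts. -/
def FRes.psi (f : ℕ → ℤ) (n : ℕ) : ℤ :=
  ∑ i ∈ Finset.range (r + 1), (-1) ^ i * ∑ j, f (n - X.a i j)

theorem mk_shift (f : ℕ → ℤ) (hf : f 0 = 0) (a : ℕ) :
    (PowerSeries.mk fun n => f (n - a)) = (PowerSeries.X : ℤ⟦X⟧) ^ a * PowerSeries.mk f := by
  ext n
  rw [coeff_X_pow_mul', coeff_mk]
  split_ifs with h
  · rw [coeff_mk]
  · rw [Nat.sub_eq_zero_of_le (by omega), hf]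

theorem FRes.mk_psi (f : ℕ → ℤ) (hf : f 0 = 0) :
    PowerSeries.mk (X.psi f) = (X.pol : ℤ⟦X⟧) * PowerSeries.mk f := by
  have h1 : PowerSeries.mk (X.psi f) = ∑ i ∈ Finset.range (r + 1), (-1) ^ i * ∑ j,
      (PowerSeries.mk fun n => f (n - X.a i j)) := by
    ext n
    rw [coeff_mk, map_sum]
    unfold FRes.psi
    refine Finset.sum_congr rfl fun i _ => ?_
    have h2 : ((-1 : ℤ⟦X⟧) ^ i) = PowerSeries.C ((-1 : ℤ) ^ i) := by simp
    rw [h2, coeff_C_mul, map_sum]
    congr 1
    exact Finset.sum_congr rfl fun j _ => by rw [coeff_mk]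
  rw [h1]
  unfold FRes.pol
  have h3 : ((∑ i ∈ Finset.range (r + 1), (-1) ^ i * ∑ j, Polynomial.X ^ (X.a i j) :
      Polynomial ℤ) : ℤ⟦X⟧) = ∑ i ∈ Finset.range (r + 1), (-1) ^ i * ∑ j,
        (PowerSeries.X : ℤ⟦X⟧) ^ (X.a i j) := by
    have h4 : ∀ p : Polynomial ℤ, (p : ℤ⟦X⟧) = Polynomial.coeToPowerSeries.ringHom p :=
      fun p => rfl
    rw [h4, map_sum]
    refine Finset.sum_congr rfl fun i _ => ?_
    rw [map_mul, map_pow, map_neg, map_one, map_sum]
    congr 1
    refine Finset.sum_congr rfl fun j _ => ?_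
    rw [map_pow]
    congr 1
    exact Polynomial.coe_X
  rw [h3, Finset.sum_mul]
  refine Finset.sum_congr rfl fun i _ => ?_
  rw [mul_assoc, Finset.sum_mul]
  congr 1
  exact Finset.sum_congr rfl fun j _ => mk_shift f hf _

theorem wfil_zero' {N : Type*} [AddCommGroup N] [Module A N] {G : ℕ → Submodule A N}
    (hG : G 0 = ⊤) {b : ℕ} (a : Fin b → ℕ) : wfil G a 0 = ⊤ := by
  ext f
  simp [mem_wfil, hG]

/-- The Hilbert function is computed by a strict resolution. -/
theorem FRes.lamF_eq (hR : ∀ n, rl ⊤ (I ^ n : Ideal A) ≠ ⊤) (hF : ∀ n, rl ⊤ (F n) ≠ ⊤) :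
    lamF F = X.psi (lamF (fun n => (I ^ n : Ideal A))) := by
  funext n
  let G : ℕ → Submodule A A := fun n => (I ^ n : Ideal A)
  have hG : ∀ n, rl ⊤ (G n) ≠ ⊤ := hR
  let K : ∀ i, Submodule A (augC X.toFR i) := fun _ => ⊤
  let K' : ∀ i, Submodule A (augC X.toFR i)
    | 0 => F n
    | i + 1 => wfil G (X.a i) n
  have hsub : Subsingleton (augC X.toFR (r + 1 + 1)) := by
    refine ⟨fun v w => ?_⟩
    exact (eq_zero_of_fin_zero (X.bound (r + 1) (by omega)) v).trans
      (eq_zero_of_fin_zero (X.bound (r + 1) (by omega)) w).symm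
  have hK'0 : (K' 1).map (augD X.toFR 0) = F n := X.strict_ε n
  have hK'1 : (K' 2).map (augD X.toFR 1) = LinearMap.ker (augD X.toFR 0) ⊓ K' 1 := X.strict_zero n
  have hK'2 : ∀ i, (K' (i + 3)).map (augD X.toFR (i + 2)) =
      LinearMap.ker (augD X.toFR (i + 1)) ⊓ K' (i + 2) := fun i => X.strict_succ i n
  have hZ' : ∀ i, (K' (i + 1)).map (augD X.toFR i) = Zc (augC X.toFR) (augD X.toFR) i ⊓ K' i := by
    intro i
    match i with
    | 0 =>
      rw [hK'0]
      exact (top_inf_eq _).symm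
    | 1 => exact hK'1
    | i + 2 => exact hK'2 i
  have hZ : ∀ i, (K (i + 1)).map (augD X.toFR i) = Zc (augC X.toFR) (augD X.toFR) i ⊓ K i := by
    intro i
    change Submodule.map _ ⊤ = _ ⊓ ⊤
    rw [inf_top_eq, Submodule.map_top]
    match i with
    | 0 => exact LinearMap.range_eq_top.2 X.surj
    | 1 => exact (LinearMap.exact_iff.1 X.exact_zero).symm
    | i + 2 => exact (LinearMap.exact_iff.1 (X.exact_succ i)).symm
  obtain ⟨-, h2⟩ := rel_euler (augC X.toFR) (augD X.toFR) (r + 1) hsub (by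
      intro i v
      match i with
      | 0 => exact X.exact_zero.apply_apply_eq_zero v
      | i + 1 => exact (X.exact_succ i).apply_apply_eq_zero v) K K' (fun i => le_top)
    (fun i => le_top) (fun i => by rw [hZ']; exact inf_le_right) (by
      intro i
      match i with
      | 0 => exact hF n
      | i + 1 => exact (lamF_wfil G hG (X.a i) n).1) (by
      intro i
      rw [hZ, rl_eq_zero le_rfl]
      exact ENat.zero_ne_top)
  have hz1 : ∀ i, rl (Zc (augC X.toFR) (augD X.toFR) i ⊓ K i)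
      ((K (i + 1)).map (augD X.toFR i)) = 0 := fun i => by rw [hZ, rl_eq_zero le_rfl]
  have hz2 : ∀ i, rl (Zc (augC X.toFR) (augD X.toFR) i ⊓ K' i)
      ((K' (i + 1)).map (augD X.toFR i)) = 0 := fun i => by rw [hZ', rl_eq_zero le_rfl]
  simp only [hz1, hz2] at h2
  simp only [ENat.toNat_zero, Nat.cast_zero, mul_zero, Finset.sum_const_zero, sub_self] at h2
  rw [Finset.sum_range_succ'] at h2
  have h3 : ∀ i, ((rl (K (i + 1)) (K' (i + 1))).toNat : ℤ) = ∑ j, lamF G (n - X.a i j) :=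
    fun i => (lamF_wfil G hG (X.a i) n).2
  simp only [h3] at h2
  have h4 : ((rl (K 0) (K' 0)).toNat : ℤ) = lamF F n := rfl
  rw [h4] at h2
  change lamF F n = ∑ i ∈ Finset.range (r + 1), (-1) ^ i * ∑ j, lamF G (n - X.a i j)
  have h5 : ∑ i ∈ Finset.range (r + 1), (-1 : ℤ) ^ (i + 1) * ∑ j, lamF G (n - X.a i j) =
      - ∑ i ∈ Finset.range (r + 1), (-1 : ℤ) ^ i * ∑ j, lamF G (n - X.a i j) := by
    rw [← Finset.sum_neg_distrib]
    exact Finset.sum_congr rfl fun i _ => by ring
  rw [h5] at h2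
  linarith

end fres

end Vale.Agent.P177
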