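import Vale.Agent.P177.CPol
import Mathlib.RingTheory.KrullDimension.Module

/-!
Degrees of Hilbert functions and dimension.
-/

namespace Vale.Agent.P177

open Function IsLocalRing PowerSeries

universe u

variable {A : Type u} [CommRing A] [IsRegularLocalRing A] {d : ℕ}

theorem lamF_pos {M : Type u} [AddCommGroup M] [Module A M] [Module.Finite A M] [Nontrivial M]
    (n : ℕ) (hn : 1 ≤ n) : 1 ≤ lam A M n := by
  have h1 : rl ⊤ (maximalIdeal A ^ n • ⊤ : Submodule A M) ≠ 0 := by
    rw [rl_top_eq]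
    intro h
    rw [Module.length_eq_zero_iff, Submodule.Quotient.subsingleton_iff] at h
    have h2 : (⊤ : Submodule A M) ≤ maximalIdeal A • ⊤ := by
      obtain ⟨k, rfl⟩ : ∃ k, n = k + 1 := ⟨n - 1, by omega⟩
      rw [pow_succ', mul_smul] at h
      rw [← h]
      refine (smul_mono_right _ le_top).trans ?_
      rw [h]
    have h3 := Submodule.eq_bot_of_le_smul_of_le_jacobson_bot (maximalIdeal A) ⊤
      Module.Finite.fg_top h2 (IsLocalRing.maximalIdeal_le_jacobson _)
    exact bot_ne_top h3.symm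
  have h4 : (rl ⊤ (maximalIdeal A ^ n • ⊤ : Submodule A M)).toNat ≠ 0 := by
    intro h5
    rw [ENat.toNat_eq_zero] at h5
    exact h5.elim h1 (rl_pow_ne_top n)
  change 1 ≤ (((rl ⊤ (maximalIdeal A ^ n • ⊤ : Submodule A M)).toNat : ℕ) : ℤ)
  omega

/-- Numerator of the Hilbert series. -/
theorem mk_lam (hd : ringKrullDim A = d) {M : Type u} [AddCommGroup M] [Module A M]
    [Module.Finite A M]
    (X : FRes (maximalIdeal A) (fun n => (maximalIdeal A ^ n • ⊤ : Submodule A M)) d) :
    (1 - PowerSeries.X) ^ (d + 1) * PowerSeries.mk (lam A M) =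
      ((Polynomial.X * X.pol : Polynomial ℤ) : ℤ⟦X⟧) := by
  have h1 : lam A M = X.psi (lamR A) := X.lamF_eq rl_self_ne_top rl_pow_ne_top
  rw [h1, X.mk_psi _ (by unfold lamR; exact lamF_zero (by simp))]
  rw [mul_left_comm, mk_lamR d A hd]
  push_cast
  ring

theorem exists_HP_lam {M : Type u} [AddCommGroup M] [Module A M]
    [Module.Finite A M] [Nontrivial M] : ∃ D, HP (lam A M) D := by
  obtain ⟨d, hd⟩ := exists_nat_eq_ringKrullDim A
  obtain ⟨X⟩ := exists_fres_of_regular hd (goodFil_pow (maximalIdeal A) M)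
  obtain ⟨D, -, hD⟩ := exists_HP (mk_lam hd X) 1 (fun n hn => lamF_pos n hn)
  exact ⟨D, hD⟩

theorem lam_le_of_surjective {M N : Type u} [AddCommGroup M] [Module A M]
    [Module.Finite A M] [AddCommGroup N] [Module A N] [Module.Finite A N] (f : M →ₗ[A] N)
    (hf : Surjective f) (n : ℕ) : lam A N n ≤ lam A M n := by
  unfold lam lamF
  have h1 : rl ⊤ (maximalIdeal A ^ n • ⊤ : Submodule A N) ≤
      rl ⊤ (maximalIdeal A ^ n • ⊤ : Submodule A M) := by
    rw [rl_top_eq, rl_top_eq]
    refine Module.length_le_of_surjective (Submodule.mapQ _ _ f ?_) ?_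
    · rw [← Submodule.map_le_iff_le_comap, Submodule.map_smul'']
      exact smul_mono_right _ le_top
    · intro v
      obtain ⟨v, rfl⟩ := Submodule.mkQ_surjective _ v
      obtain ⟨w, rfl⟩ := hf v
      exact ⟨Submodule.Quotient.mk w, rfl⟩
  exact_mod_cast ENat.toNat_le_toNat h1 (rl_pow_ne_top n)

/-- Artin-Rees for an injective map. -/
theorem exists_shift {M N : Type u} [AddCommGroup M] [Module A M]
    [Module.Finite A M] [AddCommGroup N] [Module A N] [Module.Finite A N] (f : N →ₗ[A] M)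
    (hf : Injective f) : ∃ c, ∀ n, (maximalIdeal A ^ n • ⊤ : Submodule A M).comap f ≤
      (maximalIdeal A ^ (n - c) • ⊤ : Submodule A N) := by
  have h1 := (goodFil_pow (maximalIdeal A) M).comap_subtype (LinearMap.range f)
  obtain ⟨c, hc⟩ := h1.stable
  have h2 : ∀ k, ((maximalIdeal A ^ (c + k) • ⊤ : Submodule A M).comap
      (LinearMap.range f).subtype) ≤ (maximalIdeal A ^ k • ⊤ : Submodule A (LinearMap.range f)) := by
    intro k
    induction k with
    | zero => simp
    | succ k ih =>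
      have := hc (c + k) (by omega)
      rw [← add_assoc]
      rw [← this, pow_succ', mul_smul]
      exact smul_mono_right _ ih
  refine ⟨c, fun n v hv => ?_⟩
  by_cases hn : n ≤ c
  · rw [Nat.sub_eq_zero_of_le hn]
    simp
  · obtain ⟨k, rfl⟩ : ∃ k, n = c + k := ⟨n - c, by omega⟩
    rw [Nat.add_sub_cancel_left]
    have h3 : (⟨f v, v, rfl⟩ : LinearMap.range f) ∈
        (maximalIdeal A ^ k • ⊤ : Submodule A (LinearMap.range f)) := h2 k hv
    let e := LinearEquiv.ofInjective f hf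
    have h4 : e v = ⟨f v, v, rfl⟩ := rfl
    have h5 : (maximalIdeal A ^ k • ⊤ : Submodule A (LinearMap.range f)) =
        (maximalIdeal A ^ k • ⊤ : Submodule A N).map e.toLinearMap := by
      rw [Submodule.map_smul'', Submodule.map_top, LinearMap.range_eq_top.2 e.surjective]
    rw [h5] at h3
    obtain ⟨w, hw, hwv⟩ := h3
    have : w = v := e.injective (hwv.trans h4.symm)
    rwa [← this]

theorem HP.sub_shift {f : ℕ → ℤ} {D c : ℕ} (hf : HP f D) (h0 : f 0 = 0) (hc : 1 ≤ c) :
    (∀ D', D = D' + 1 → HP (fun n => f n - f (n - c)) D') ∧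
    (D = 0 → ∃ n₀, ∀ n, n₀ ≤ n → f n - f (n - c) = 0) := by
  obtain ⟨P, hP, he⟩ := hf
  have h1 : (PowerSeries.mk fun n => f n - f (n - c)) =
      (1 - PowerSeries.X) * ((∑ i ∈ Finset.range c, PowerSeries.X ^ i) * PowerSeries.mk f) := by
    have h2 : (PowerSeries.mk fun n => f n - f (n - c)) = PowerSeries.mk f -
        (PowerSeries.mk fun n => f (n - c)) := by
      ext n
      simp
    rw [h2, mk_shift f h0, ← mul_assoc, mul_neg_geom_sum]
    ring
  have h3 : (1 - PowerSeries.X) ^ D * (PowerSeries.mk fun n => f n - f (n - c)) =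
      ((P * ∑ i ∈ Finset.range c, Polynomial.X ^ i : Polynomial ℤ) : ℤ⟦X⟧) := by
    have h4 : ((P * ∑ i ∈ Finset.range c, Polynomial.X ^ i : Polynomial ℤ) : ℤ⟦X⟧) =
        (P : ℤ⟦X⟧) * ∑ i ∈ Finset.range c, PowerSeries.X ^ i := by
      have h4 : ∀ p : Polynomial ℤ, (p : ℤ⟦X⟧) = Polynomial.coeToPowerSeries.ringHom p :=
        fun p => rfl
      rw [h4, map_mul, map_sum]
      congr 1
      refine Finset.sum_congr rfl fun i _ => ?_
      rw [map_pow]
      congr 1
      exact Polynomial.coe_X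
    rw [h4, ← he, h1]
    ring
  refine ⟨?_, ?_⟩
  · rintro D' rfl
    refine ⟨P * ∑ i ∈ Finset.range c, Polynomial.X ^ i, ?_, h3⟩
    rw [Polynomial.eval_mul, Polynomial.eval_finsetSum]
    simp only [Polynomial.eval_pow, Polynomial.eval_X, one_pow, Finset.sum_const,
      Finset.card_range, nsmul_eq_mul, mul_one]
    exact mul_pos hP (by exact_mod_cast hc)
  · rintro rfl
    refine ⟨(P * ∑ i ∈ Finset.range c, Polynomial.X ^ i : Polynomial ℤ).natDegree + 1,
      fun n hn => ?_⟩
    have h4 := congrArg (coeff n) h3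
    rw [pow_zero, one_mul, coeff_mk, Polynomial.coeff_coe,
      Polynomial.coeff_eq_zero_of_natDegree_lt (by omega)] at h4
    exact h4

theorem lam_prime_step (P₀ P₁ : Ideal A) [P₀.IsPrime] [P₁.IsPrime] (h : P₀ < P₁) {D E : ℕ}
    (hD : HP (lam A (A ⧸ P₀)) D) (hE : HP (lam A (A ⧸ P₁)) E) : E + 1 ≤ D := by
  obtain ⟨x, hx1, hx0⟩ := SetLike.exists_of_lt h
  let f : (A ⧸ P₀) →ₗ[A] (A ⧸ P₀) := LinearMap.lsmul A (A ⧸ P₀) x
  have hf : Injective f := by
    rw [injective_iff_map_eq_zero]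
    intro v hv
    obtain ⟨v, rfl⟩ := Ideal.Quotient.mk_surjective v
    have h1 : Ideal.Quotient.mk P₀ (x * v) = 0 := hv
    rw [Ideal.Quotient.eq_zero_iff_mem] at h1 ⊢
    exact (Ideal.IsPrime.mem_or_mem ‹_› h1).resolve_left hx0
  obtain ⟨c, hc⟩ := exists_shift f hf
  have key : ∀ n, lam A (A ⧸ P₁) n ≤ lam A (A ⧸ P₀) n - lam A (A ⧸ P₀) (n - (c + 1)) := by
    intro n
    let Y : Submodule A (A ⧸ P₀) := maximalIdeal A ^ n • ⊤
    let W : Submodule A (A ⧸ P₀) := LinearMap.range f ⊔ Y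
    have h1 : rl ⊤ Y = rl ⊤ W + rl W Y := rl_add le_sup_right le_top
    have h2 : rl ⊤ (maximalIdeal A ^ n • ⊤ : Submodule A (A ⧸ P₁)) ≤ rl ⊤ W := by
      rw [rl_top_eq, rl_top_eq]
      have hle : W ≤ (maximalIdeal A ^ n • ⊤ : Submodule A (A ⧸ P₁)).comap
          (Submodule.factor h.le : (A ⧸ P₀) →ₗ[A] (A ⧸ P₁)) := by
        refine sup_le ?_ ?_
        · rintro _ ⟨v, rfl⟩
          obtain ⟨v, rfl⟩ := Ideal.Quotient.mk_surjective v
          have h3 : (Submodule.factor h.le : (A ⧸ P₀) →ₗ[A] (A ⧸ P₁))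
              (f (Ideal.Quotient.mk P₀ v)) = 0 := by
            change Ideal.Quotient.mk P₁ (x * v) = 0
            rw [Ideal.Quotient.eq_zero_iff_mem]
            exact Ideal.mul_mem_right _ _ hx1
          rw [Submodule.mem_comap, h3]
          exact zero_mem _
        · rw [← Submodule.map_le_iff_le_comap, Submodule.map_smul'']
          exact smul_mono_right _ le_top
      refine Module.length_le_of_surjective (Submodule.mapQ _ _ _ hle) ?_
      intro v
      obtain ⟨v, rfl⟩ := Submodule.mkQ_surjective _ v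
      obtain ⟨w, rfl⟩ := Submodule.factor_surjective h.le v
      exact ⟨Submodule.Quotient.mk w, rfl⟩
    have h3 : rl ⊤ (maximalIdeal A ^ (n - (c + 1)) • ⊤ : Submodule A (A ⧸ P₀)) ≤ rl W Y := by
      refine (rl_top_anti (Y := Y.comap f) ?_).trans ?_
      · exact (hc n).trans (Submodule.smul_mono_left (Ideal.pow_le_pow_right (by omega)))
      · rw [rl_top_eq]
        unfold rl
        let g : (A ⧸ P₀) →ₗ[A] W := f.codRestrict W (fun v => le_sup_left (a := LinearMap.range f)
          (b := Y) ⟨v, rfl⟩)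
        refine Module.length_le_of_injective (Submodule.mapQ (Y.comap f) (Y.submoduleOf W) g
          (fun v hv => hv)) ?_
        rw [injective_iff_map_eq_zero]
        intro v hv
        obtain ⟨v, rfl⟩ := Submodule.mkQ_surjective _ v
        have h4 : (Submodule.Quotient.mk (g v) : W ⧸ Y.submoduleOf W) = 0 := hv
        rw [Submodule.Quotient.mk_eq_zero] at h4
        exact (Submodule.Quotient.mk_eq_zero _).2 h4
    have hfin : rl ⊤ Y ≠ ⊤ := rl_pow_ne_top n
    have hW : rl ⊤ W ≠ ⊤ := fun h5 => hfin (by rw [h1, h5, top_add])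
    have hWY : rl W Y ≠ ⊤ := fun h5 => hfin (by rw [h1, h5, add_top])
    have h5 := congrArg ENat.toNat h1
    rw [ENat.toNat_add hW hWY] at h5
    have h6 := ENat.toNat_le_toNat h2 hW
    have h7 := ENat.toNat_le_toNat h3 hWY
    have e1 : lam A (A ⧸ P₁) n =
      ((rl ⊤ (maximalIdeal A ^ n • ⊤ : Submodule A (A ⧸ P₁))).toNat : ℤ) := rfl
    have e2 : lam A (A ⧸ P₀) n = ((rl ⊤ Y).toNat : ℤ) := rfl
    have e3 : lam A (A ⧸ P₀) (n - (c + 1)) =
      ((rl ⊤ (maximalIdeal A ^ (n - (c + 1)) • ⊤ : Submodule A (A ⧸ P₀))).toNat : ℤ) := rfl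
    rw [e1, e2, e3]
    omega
  have h0 : lam A (A ⧸ P₀) 0 = 0 := by
    unfold lam
    exact lamF_zero (by rw [pow_zero, Ideal.one_eq_top, Submodule.top_smul])
  obtain ⟨h1, h2⟩ := hD.sub_shift (c := c + 1) h0 (by omega)
  cases D with
  | zero =>
    obtain ⟨n₀, hn₀⟩ := h2 rfl
    have h3 := key (n₀ + 1)
    rw [hn₀ (n₀ + 1) (by omega)] at h3
    have : Nontrivial (A ⧸ P₁) := Ideal.Quotient.nontrivial_iff.2 (Ideal.IsPrime.ne_top ‹_›)
    have h4 := lamF_pos (A := A) (M := A ⧸ P₁) (n₀ + 1) (by omega)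
    omega
  | succ D' =>
    have := hE.le_of_le (h1 D' rfl) 0 (fun n _ => key n)
    omega

/-- The degree of the Hilbert function bounds the length of chains of primes. -/
theorem chain_le (k : ℕ) : ∀ (l : LTSeries (PrimeSpectrum A)), l.length = k →
    ∀ D, HP (lam A (A ⧸ (l.head).asIdeal)) D → k ≤ D := by
  induction k with
  | zero => exact fun _ _ _ _ => Nat.zero_le _
  | succ k ih =>
    intro l hl D hD
    have hne : l.length ≠ 0 := by omega
    have : Nontrivial (A ⧸ ((l.tail hne).head).asIdeal) :=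
      Ideal.Quotient.nontrivial_iff.2 ((l.tail hne).head).2.ne_top
    obtain ⟨E, hE⟩ := exists_HP_lam (A := A) (M := A ⧸ ((l.tail hne).head).asIdeal)
    have h1 := ih (l.tail hne) (by simp [hl]) E hE
    have hlt : l.head < (l.tail hne).head := by
      rw [RelSeries.head_tail]
      have hs : l ⟨0, by omega⟩ < l ⟨1, by omega⟩ := l.strictMono (by simp [Fin.lt_def])
      have e1 : l.head = l ⟨0, by omega⟩ := rfl
      have e2 : l 1 = l ⟨1, by omega⟩ := by
        congr 1
        ext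
        simp [Nat.mod_eq_of_lt (show 1 < l.length + 1 by omega)]
      rw [e1, e2]
      exact hs
    have h2 := lam_prime_step l.head.asIdeal (l.tail hne).head.asIdeal hlt hD hE
    omega

theorem le_HP_lam {M : Type u} [AddCommGroup M] [Module A M] [Module.Finite A M] {D k : ℕ}
    (hD : HP (lam A M) D) (hk : (k : WithBot ℕ∞) ≤ Module.supportDim A M) : k ≤ D := by
  obtain ⟨l, hl⟩ := Order.le_krullDim_iff.1 hk
  have hmono : StrictMono (Subtype.val : Module.support A M → PrimeSpectrum A) := fun _ _ h => h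
  let l' : LTSeries (PrimeSpectrum A) := l.map _ hmono
  have hhead : l'.head = l.head.1 := rfl
  obtain ⟨m, hm⟩ := Module.mem_support_iff_exists_annihilator.1 l.head.2
  let f : (A ⧸ (A ∙ m).annihilator) →ₗ[A] M := Submodule.liftQ _ (LinearMap.toSpanSingleton A M m)
    (by
      intro a ha
      rw [LinearMap.mem_ker, LinearMap.toSpanSingleton_apply]
      exact (Submodule.mem_annihilator_span_singleton m a).1 ha)
  have hf : Injective f := by
    rw [injective_iff_map_eq_zero]
    intro v hv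
    obtain ⟨v, rfl⟩ := Submodule.mkQ_surjective _ v
    have h1 : v • m = 0 := hv
    exact (Submodule.Quotient.mk_eq_zero _).2 ((Submodule.mem_annihilator_span_singleton m v).2 h1)
  obtain ⟨c, hc⟩ := exists_shift f hf
  let P := l'.head.asIdeal
  have hP : (A ∙ m).annihilator ≤ P := hm
  have : Nontrivial (A ⧸ P) := Ideal.Quotient.nontrivial_iff.2 l'.head.2.ne_top
  obtain ⟨E, hE⟩ := exists_HP_lam (A := A) (M := A ⧸ P)
  have h1 := chain_le k l' (by simpa [l'] using hl) E hE
  refine h1.trans ?_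
  have h2 : ∀ n, lam A (A ⧸ P) (n - c) ≤ lam A M n := by
    intro n
    refine (lam_le_of_surjective (Submodule.factor hP) (Submodule.factor_surjective hP) _).trans ?_
    have h3 : rl ⊤ (maximalIdeal A ^ (n - c) • ⊤ : Submodule A (A ⧸ (A ∙ m).annihilator)) ≤
        rl ⊤ (maximalIdeal A ^ n • ⊤ : Submodule A M) := by
      refine (rl_top_anti (hc n)).trans ?_
      rw [rl_top_eq, rl_top_eq]
      refine Module.length_le_of_injective (Submodule.mapQ _ _ f le_rfl) ?_
      rw [injective_iff_map_eq_zero]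
      intro v hv
      obtain ⟨v, rfl⟩ := Submodule.mkQ_surjective _ v
      have h4 : (Submodule.Quotient.mk (f v) : M ⧸ _) = 0 := hv
      rw [Submodule.Quotient.mk_eq_zero] at h4
      exact (Submodule.Quotient.mk_eq_zero _).2 h4
    have h5 := ENat.toNat_le_toNat h3 (rl_pow_ne_top n)
    unfold lam lamF
    exact_mod_cast h5
  have h3 : HP (fun n => lam A (A ⧸ P) (n - c)) E := by
    obtain ⟨Q, hQ, he⟩ := hE
    refine ⟨Polynomial.X ^ c * Q, by simpa using hQ, ?_⟩
    rw [mk_shift]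
    · push_cast
      rw [← he]
      ring
    · unfold lam
      exact lamF_zero (by rw [pow_zero, Ideal.one_eq_top, Submodule.top_smul])
  exact h3.le_of_le hD 0 (fun n _ => h2 n)

/-- Asymptotic behaviour of the tensor Hilbert function. -/
theorem psi_cases (hd : ringKrullDim A = d) {M N : Type u} [AddCommGroup M] [Module A M]
    [Module.Finite A M] [AddCommGroup N] [Module A N] [Module.Finite A N]
    [Nontrivial M] [Nontrivial N]
    (X : FRes (maximalIdeal A) (fun n => (maximalIdeal A ^ n • ⊤ : Submodule A M)) d) :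
    (∃ n₀, ∀ n, n₀ ≤ n → 0 ≤ X.psi (lam A N) n) ∧
    (∀ k l : ℕ, (k : WithBot ℕ∞) ≤ Module.supportDim A M → (l : WithBot ℕ∞) ≤
      Module.supportDim A N → d ≤ k + l → ∃ n₀, ∀ n, n₀ ≤ n → 1 ≤ X.psi (lam A N) n) := by
  obtain ⟨D, hD⟩ := exists_HP_lam (A := A) (M := M)
  obtain ⟨E, hE⟩ := exists_HP_lam (A := A) (M := N)
  have h0 : lam A N 0 = 0 := by
    unfold lam
    exact lamF_zero (by simp)
  have h1 : PowerSeries.X * PowerSeries.mk (X.psi (lam A N)) =
      (1 - PowerSeries.X) ^ (d + 1) * (PowerSeries.mk (lam A M) * PowerSeries.mk (lam A N)) := by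
    rw [X.mk_psi _ h0, ← mul_assoc, ← mul_assoc, mk_lam hd X]
    push_cast
    rfl
  obtain ⟨c1, c2, c3⟩ := prod_cases hD hE h1
  have c3' : d < D + E → ∃ n₀, ∀ n, n₀ ≤ n → 1 ≤ X.psi (lam A N) n := fun h =>
    Filter.tendsto_atTop_atTop.1 (c3 h) 1
  refine ⟨?_, ?_⟩
  · rcases lt_trichotomy (D + E) d with h | h | h
    · obtain ⟨n₀, hn₀⟩ := c1 h
      exact ⟨n₀, fun n hn => (hn₀ n hn).ge⟩
    · obtain ⟨n₀, hn₀⟩ := c2 h
      exact ⟨n₀, fun n hn => zero_le_one.trans (hn₀ n hn)⟩
    · obtain ⟨n₀, hn₀⟩ := c3' h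
      exact ⟨n₀, fun n hn => zero_le_one.trans (hn₀ n hn)⟩
  · intro k l hk hl hkl
    have hkD := le_HP_lam hD hk
    have hlE := le_HP_lam hE hl
    rcases lt_trichotomy (D + E) d with h | h | h
    · omega
    · exact c2 h
    · exact c3' h

end Vale.Agent.P177
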