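import Vale.Agent.P177.CLocSat

/-!
Primes of given coheight, and prime avoidance for systems of parameters.
-/

namespace Vale.Agent.P177

open CategoryTheory TensorProduct Function IsLocalRing RingTheory.Sequence Pointwise

universe u

section series

variable {T : Type u} [CommRing T]

theorem le_supportDim_of_series {I : Ideal T} (l : LTSeries (Module.support T (T ⧸ I)))
    (k m : ℕ) (hk : k + m = l.length) :
    (m : WithBot ℕ∞) ≤ Module.supportDim T (T ⧸ (l ⟨k, by omega⟩).1.asIdeal) := by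
  unfold Module.supportDim
  rw [Order.le_krullDim_iff]
  let l' : LTSeries (Module.support T (T ⧸ (l ⟨k, by omega⟩).1.asIdeal)) :=
    { length := m
      toFun := fun i => ⟨(l ⟨k + i, by omega⟩).1,
        (support_quotient_prime _ _).2 (l.strictMono.monotone (by
          rw [Fin.le_def]
          change k ≤ k + i
          omega))⟩
      step := fun i => l.strictMono (by
        rw [Fin.lt_def]
        change k + (i.castSucc : ℕ) < k + (i.succ : ℕ)
        simp) }
  exact ⟨l', rfl⟩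

theorem exists_prime_supportDim (I : Ideal T) (n : ℕ)
    (h : (n : WithBot ℕ∞) ≤ Module.supportDim T (T ⧸ I)) :
    ∃ q : Ideal T, q.IsPrime ∧ I ≤ q ∧ (n : WithBot ℕ∞) ≤ Module.supportDim T (T ⧸ q) := by
  unfold Module.supportDim at h
  obtain ⟨l, hl⟩ := Order.le_krullDim_iff.1 h
  exact ⟨(l ⟨0, by omega⟩).1.asIdeal, (l _).1.2, (support_quotient_prime _ _).1 (l _).2,
    le_supportDim_of_series l 0 n (by omega)⟩

theorem exists_gt_prime (I : Ideal T) (n : ℕ)
    (h : ((n + 1 : ℕ) : WithBot ℕ∞) ≤ Module.supportDim T (T ⧸ I)) :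
    ∃ q : Ideal T, q.IsPrime ∧ I < q ∧ (n : WithBot ℕ∞) ≤ Module.supportDim T (T ⧸ q) := by
  unfold Module.supportDim at h
  obtain ⟨l, hl⟩ := Order.le_krullDim_iff.1 h
  refine ⟨(l ⟨1, by omega⟩).1.asIdeal, (l _).1.2, ?_,
    le_supportDim_of_series l 1 n (by omega)⟩
  have h1 : I ≤ (l ⟨0, by omega⟩).1.asIdeal := (support_quotient_prime _ _).1 (l _).2
  have h2 : l ⟨0, by omega⟩ < l ⟨1, by omega⟩ := l.strictMono (by rw [Fin.lt_def]; simp)
  exact lt_of_le_of_lt h1 h2

/-- A prime above `P` with prescribed coheight. -/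
theorem exists_prime_exact [IsNoetherianRing T] (P : Ideal T) [hP : P.IsPrime] (n : ℕ)
    (h : (n : WithBot ℕ∞) ≤ Module.supportDim T (T ⧸ P)) :
    ∃ q : Ideal T, q.IsPrime ∧ P ≤ q ∧ Module.supportDim T (T ⧸ q) = n := by
  obtain ⟨q, ⟨hq1, hq2, hq3⟩, hmax⟩ := set_has_maximal_iff_noetherian.2
    (inferInstance : IsNoetherian T T) {q : Ideal T | q.IsPrime ∧ P ≤ q ∧
      (n : WithBot ℕ∞) ≤ Module.supportDim T (T ⧸ q)} ⟨P, hP, le_rfl, h⟩
  refine ⟨q, hq1, hq2, le_antisymm ?_ hq3⟩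
  by_contra hcon
  rw [not_le] at hcon
  obtain ⟨q', h1, h2, h3⟩ := exists_gt_prime q n (succ_le_of_lt_withBot hcon)
  exact hmax q' ⟨h1, hq2.trans h2.le, h3⟩ h2

variable [IsLocalRing T]

theorem maximalIdeal_le_radical_of_supportDim (J : Ideal T)
    (h : Module.supportDim T (T ⧸ J) ≤ 0) : maximalIdeal T ≤ J.radical := by
  rw [Ideal.radical_eq_sInf]
  refine le_sInf ?_
  rintro q ⟨hJq, hq⟩
  exact (eq_maximalIdeal_of_supportDim q ((supportDim_quotient_mono hJq).trans h)).ge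

end series

section avoid

variable {R T : Type u} [CommRing R] [CommRing T] [IsNoetherianRing T] [IsLocalRing T] [Algebra R T]

theorem exists_cut (P : Ideal R) (F : Set (Ideal R)) (hF : F.Finite)
    (hFp : ∀ q ∈ F, q.IsPrime ∧ ¬ (P ≤ q)) (J : Ideal T) (n : ℕ)
    (hJ : Module.supportDim T (T ⧸ J) ≤ ((n + 1 : ℕ) : WithBot ℕ∞))
    (hrad : maximalIdeal T ≤ (J ⊔ P.map (algebraMap R T)).radical) :
    ∃ z ∈ P, (∀ q ∈ F, z ∉ q) ∧
      Module.supportDim T (T ⧸ (J ⊔ Ideal.span {algebraMap R T z})) ≤ (n : WithBot ℕ∞) := by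
  have hfin : J.minimalPrimes.Finite := Ideal.finite_minimalPrimes_of_isNoetherianRing T J
  let F' : Set (Ideal R) := F ∪ (fun q : Ideal T => q.comap (algebraMap R T)) ''
    {q ∈ J.minimalPrimes | q ≠ maximalIdeal T}
  have hF' : F'.Finite := hF.union ((hfin.subset (fun q hq => hq.1)).image _)
  have hF'p : ∀ q ∈ F', q.IsPrime ∧ ¬ (P ≤ q) := by
    rintro q (hq | ⟨q, ⟨hq1, hq2⟩, rfl⟩)
    · exact hFp q hq
    · have hqp : q.IsPrime := hq1.1.1
      refine ⟨Ideal.comap_isPrime _ _, fun hle => ?_⟩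
      apply hq2
      apply le_antisymm (le_maximalIdeal hqp.ne_top)
      refine hrad.trans ?_
      rw [hqp.radical_le_iff]
      exact sup_le hq1.1.2 (Ideal.map_le_iff_le_comap.2 hle)
  have hnot : ¬ ((P : Set R) ⊆ ⋃ q ∈ F', (q : Set R)) := by
    intro hsub
    obtain ⟨q, hq, hle⟩ := (Ideal.subset_union_prime_finite hF' ⊥ ⊥
      (fun q hq _ _ => (hF'p q hq).1)).1 hsub
    exact (hF'p q hq).2 hle
  rw [Set.not_subset] at hnot
  obtain ⟨z, hz, hzn⟩ := hnot
  have hzn' : ∀ q ∈ F', z ∉ q := by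
    intro q hq hzq
    apply hzn
    simp only [Set.mem_iUnion]
    exact ⟨q, hq, hzq⟩
  refine ⟨z, hz, fun q hq => hzn' q (Or.inl hq), ?_⟩
  by_contra hcon
  rw [not_le] at hcon
  obtain ⟨q, hq1, hq2, hq3⟩ := exists_prime_supportDim _ _ (succ_le_of_lt_withBot hcon)
  obtain ⟨Q, hQ, hQq⟩ := Ideal.exists_minimalPrimes_le (le_sup_left.trans hq2)
  have hQp : Q.IsPrime := hQ.1.1
  by_cases hQm : Q = maximalIdeal T
  · have hqm : q = maximalIdeal T := le_antisymm (le_maximalIdeal hq1.ne_top) (hQm ▸ hQq)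
    obtain ⟨q', h1, h2, h3⟩ := exists_gt_prime q n hq3
    rw [hqm] at h2
    exact absurd (le_maximalIdeal h1.ne_top) (not_le_of_gt h2)
  · have hzQ : z ∉ Q.comap (algebraMap R T) := hzn' _ (Or.inr ⟨Q, ⟨hQ, hQm⟩, rfl⟩)
    have hlt : Q < q := by
      refine lt_of_le_of_ne hQq ?_
      rintro rfl
      apply hzQ
      exact hq2 (Ideal.mem_sup_right (Ideal.mem_span_singleton_self _))
    have h4 := (supportDim_quotient_strict hlt (n + 1) hq3).trans
      ((supportDim_quotient_mono hQ.1.2).trans hJ)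
    have h5 : n + 1 + 1 ≤ n + 1 := by exact_mod_cast h4
    omega

end avoid

end Vale.Agent.P177
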