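import Mathlib

/-! Data for the reduction to the diagonal. -/

namespace Vale.Agent.P177

open IsLocalRing RingTheory.Sequence

universe u

/-- Data for the reduction to the diagonal. -/
structure DiagData (S B : Type u) [CommRing S] [IsLocalRing S] [CommRing B] (d : ℕ) where
  i₁ : S →+* B
  i₂ : S →+* B
  flat₁ : i₁.Flat
  flat₂ : i₂.Flat
  μ : B →+* S
  μ_i₁ : μ.comp i₁ = RingHom.id S
  μ_i₂ : μ.comp i₂ = RingHom.id S
  ρ : B →+* S
  ρ_i₁ : ρ.comp i₁ = RingHom.id S
  ker_ρ : RingHom.ker ρ = (maximalIdeal S).map i₂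
  δ : List B
  length_δ : δ.length = d
  ker_μ : RingHom.ker μ = Ideal.ofList δ
  regular_δ : IsRegular B δ

end Vale.Agent.P177
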