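import Mathlib

/-! Flatness of the inclusions of power series rings. -/

namespace Vale.Agent.P177

/-- Power series over a Noetherian ring are flat. -/
theorem mvPowerSeries_flat (ι T : Type*) [Finite ι] [CommRing T] [IsNoetherianRing T] :
    Module.Flat T (MvPowerSeries ι T) := by
  have h1 : Module.Flat T (MvPolynomial ι T) := inferInstance
  have h2 : Module.Flat (MvPolynomial ι T) (MvPowerSeries ι T) :=
    Module.Flat.of_linearEquiv (MvPowerSeries.toAdicCompletionAlgEquiv ι T).toLinearEquiv
  have : IsScalarTower T (MvPolynomial ι T) (MvPowerSeries ι T) := inferInstance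
  exact Module.Flat.trans T (MvPolynomial ι T) (MvPowerSeries ι T)

theorem optionEquivLeft_rename_some {σ k : Type*} [Finite σ] [CommRing k]
    (p : MvPowerSeries σ k) :
    MvPowerSeries.optionEquivLeft σ k (MvPowerSeries.rename (some : σ → Option σ) p) =
      PowerSeries.C p := by
  ext n x
  rw [MvPowerSeries.coeff_coeff_optionEquivLeft, PowerSeries.coeff_C]
  split_ifs with hn
  · subst hn
    have h1 : x.optionElim 0 = Finsupp.embDomain Function.Embedding.some x := by
      rw [Finsupp.embDomain_eq_mapDomain]
      ext a
      cases a with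
      | none =>
        rw [Finsupp.mapDomain_of_notMem_range _ _ (by simp)]
        simp
      | some a =>
        rw [Finsupp.optionElim_apply_some]
        exact (Finsupp.mapDomain_apply (Option.some_injective σ) x a).symm
    rw [h1]
    exact MvPowerSeries.coeff_embDomain_rename Function.Embedding.some p x
  · rw [map_zero]
    apply MvPowerSeries.coeff_rename_eq_zero
    rintro ⟨y, hy⟩
    apply hn
    have h2 : Finsupp.mapDomain some y none = (x.optionElim n) none := by rw [hy]
    rw [Finsupp.mapDomain_of_notMem_range _ _ (by simp)] at h2
    simpa using h2.symm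

theorem flat_rename_some (σ k : Type*) [Finite σ] [CommRing k] [IsNoetherianRing k] :
    (MvPowerSeries.rename (R := k) (some : σ → Option σ)).toRingHom.Flat := by
  have h1 : (PowerSeries.C (R := MvPowerSeries σ k)).Flat := by
    have := mvPowerSeries_flat Unit (MvPowerSeries σ k)
    rw [← PowerSeries.algebraMap_eq, RingHom.flat_algebraMap_iff]
    exact this
  have h2 : (MvPowerSeries.rename (R := k) (some : σ → Option σ)).toRingHom =
      ((MvPowerSeries.optionEquivLeft σ k).symm.toRingEquiv.toRingHom).comp
        (PowerSeries.C (R := MvPowerSeries σ k)) := by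
    ext1 p
    apply (MvPowerSeries.optionEquivLeft σ k).injective
    exact (optionEquivLeft_rename_some p).trans
      ((MvPowerSeries.optionEquivLeft σ k).apply_symm_apply _).symm
  rw [h2]
  exact RingHom.Flat.comp h1 (RingHom.Flat.of_bijective
    (MvPowerSeries.optionEquivLeft σ k).symm.bijective)

theorem flat_rename_of_bijective {σ τ k : Type*} [Finite σ] [Finite τ] [CommRing k] (e : σ ≃ τ) :
    (MvPowerSeries.rename (R := k) e).toRingHom.Flat :=
  RingHom.Flat.of_bijective (MvPowerSeries.renameEquiv k e).bijective

universe u v

theorem flat_rename_aux (k : Type*) [CommRing k] [IsNoetherianRing k] (σ : Type u) [Finite σ]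
    (n : ℕ) : ∀ (τ : Type v) [Finite τ] (e : σ ↪ τ), Nat.card τ = Nat.card σ + n →
      (MvPowerSeries.rename (R := k) e).toRingHom.Flat := by
  induction n with
  | zero =>
    intro τ _ e h
    have hb : Function.Bijective e :=
      Function.Injective.bijective_of_nat_card_le e.injective (by omega)
    exact flat_rename_of_bijective (Equiv.ofBijective e hb)
  | succ n ih =>
    intro τ _ e h
    classical
    obtain ⟨t, ht⟩ : ∃ t, t ∉ Set.range e := by
      by_contra hcon
      push Not at hcon
      have := Nat.card_congr (Equiv.ofBijective e ⟨e.injective, hcon⟩)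
      omega
    let e' : σ ↪ {x : τ // x ≠ t} := ⟨fun s => ⟨e s, fun h => ht ⟨s, h⟩⟩, fun a b hab => by
      exact e.injective (congrArg Subtype.val hab)⟩
    have hcard : Nat.card {x : τ // x ≠ t} = Nat.card σ + n := by
      have h5 := Nat.card_congr (Equiv.optionSubtypeNe t)
      rw [Finite.card_option] at h5
      omega
    have h1 := ih _ e' hcard
    have h2 := flat_rename_some {x : τ // x ≠ t} k
    have h3 := flat_rename_of_bijective (k := k) (Equiv.optionSubtypeNe t)
    have h4 : (MvPowerSeries.rename (R := k) e).toRingHom =
      ((MvPowerSeries.rename (R := k) (Equiv.optionSubtypeNe t)).toRingHom.comp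
        (MvPowerSeries.rename (R := k)
          (some : {x : τ // x ≠ t} → Option {x : τ // x ≠ t})).toRingHom).comp
        (MvPowerSeries.rename (R := k) e').toRingHom := by
      ext1 p
      change MvPowerSeries.rename e p = MvPowerSeries.rename (Equiv.optionSubtypeNe t)
        (MvPowerSeries.rename some (MvPowerSeries.rename e' p))
      rw [MvPowerSeries.rename_rename, MvPowerSeries.rename_rename]
      rfl
    rw [h4]
    exact h1.comp (h2.comp h3)

theorem flat_rename {σ τ k : Type*} [Finite σ] [Finite τ] [CommRing k] [IsNoetherianRing k]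
    (e : σ ↪ τ) : (MvPowerSeries.rename (R := k) e).toRingHom.Flat := by
  obtain ⟨n, hn⟩ := Nat.exists_eq_add_of_le (Nat.card_le_card_of_injective e e.injective)
  exact flat_rename_aux k σ n τ e hn

end Vale.Agent.P177
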