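import Mathlib

/-! Power series rings over a field are regular local rings of the expected dimension. -/

namespace Vale.Agent.P177

open IsLocalRing

section General

variable {σ R : Type*} [Finite σ] [CommRing R]

theorem mem_span_X_of_constantCoeff_eq_zero (p : MvPowerSeries σ R)
    (hp : MvPowerSeries.constantCoeff p = 0) :
    p ∈ (Ideal.span (Set.range MvPowerSeries.X) : Ideal (MvPowerSeries σ R)) := by
  have h1 : Ideal.map (MvPowerSeries.toAdicCompletionAlgEquiv σ R).toRingEquiv
      (Ideal.span (Set.range MvPowerSeries.X)) =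
      (MvPolynomial.idealOfVars σ R).map (algebraMap _ _) := by
    simp_rw [Ideal.map_span, ← Set.range_comp]
    congr 2; ext1
    simp [AdicCompletion.algebraMap_apply, ← MvPolynomial.coe_X,
      MvPowerSeries.toAdicCompletion_coe]
  replace h1 := h1.trans
    (AdicCompletion.ker_evalOneₐ_eq_map _ (MvPolynomial.idealOfVars_fg σ R)).symm
  have h2 : MvPowerSeries.toAdicCompletionAlgEquiv σ R p ∈
      RingHom.ker (AdicCompletion.evalOneₐ (MvPolynomial.idealOfVars σ R)).toRingHom := by
    rw [RingHom.mem_ker]
    change AdicCompletion.evalOneₐ (MvPolynomial.idealOfVars σ R)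
      (MvPowerSeries.toAdicCompletion σ R p) = 0
    rw [MvPowerSeries.toAdicCompletion, AdicCompletion.evalOneₐ_liftAlgHom (hf := fun h ↦
      AlgHom.ext fun _ ↦ by
      simpa [Ideal.Quotient.mk_eq_mk_iff_sub_mem] using
        MvPowerSeries.truncTotal_sub_truncTotal_mem_pow_idealOfVars h (le_refl _) _)]
    have h3 : MvPowerSeries.truncTotalAlgHom σ R 1 p = 0 := by
      rw [MvPowerSeries.truncTotalAlgHom_apply, Ideal.Quotient.eq_zero_iff_mem]
      refine (MvPolynomial.mem_pow_idealOfVars_iff' ..).mpr fun x hx ↦ ?_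
      have hx0 : x = 0 := by
        rw [← Finsupp.degree_eq_zero_iff]
        omega
      rw [MvPowerSeries.coeff_truncTotal _ hx, hx0]
      simpa using hp
    rw [h3, map_zero]
  rw [← h1] at h2
  have h3 := Ideal.mem_map_of_equiv (MvPowerSeries.toAdicCompletionAlgEquiv σ R).toRingEquiv
    (I := (Ideal.span (Set.range MvPowerSeries.X))) (MvPowerSeries.toAdicCompletionAlgEquiv σ R p)
  obtain ⟨q, hq, hqp⟩ := h3.mp h2
  have : q = p := (MvPowerSeries.toAdicCompletionAlgEquiv σ R).injective hqp
  rwa [← this]

end General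

variable (σ : Type*) [Finite σ] (k : Type*) [Field k]

theorem mvPowerSeries_maximalIdeal [IsLocalRing (MvPowerSeries σ k)] :
    maximalIdeal (MvPowerSeries σ k) = Ideal.span (Set.range MvPowerSeries.X) := by
  apply le_antisymm
  · intro p hp
    apply mem_span_X_of_constantCoeff_eq_zero
    by_contra hne
    exact (mem_maximalIdeal p).mp hp
      (MvPowerSeries.isUnit_iff_constantCoeff.mpr (isUnit_iff_ne_zero.mpr hne))
  · rw [Ideal.span_le]
    rintro _ ⟨i, rfl⟩
    rw [SetLike.mem_coe, mem_maximalIdeal, mem_nonunits_iff, MvPowerSeries.isUnit_iff_constantCoeff]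
    simp

theorem le_ringKrullDim_mvPowerSeries_fin (n : ℕ) :
    (n : WithBot ℕ∞) ≤ ringKrullDim (MvPowerSeries (Fin n) k) := by
  induction n with
  | zero =>
    have : Nontrivial (MvPowerSeries (Fin 0) k) := inferInstance
    simpa using ringKrullDim_nonneg_of_nontrivial (R := MvPowerSeries (Fin 0) k)
  | succ n ih =>
    rw [ringKrullDim_eq_of_ringEquiv (MvPowerSeries.finSuccEquiv k n).toRingEquiv]
    refine le_trans ?_ ringKrullDim_succ_le_ringKrullDim_powerseries
    push_cast
    gcongr

theorem le_ringKrullDim_mvPowerSeries :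
    (Nat.card σ : WithBot ℕ∞) ≤ ringKrullDim (MvPowerSeries σ k) := by
  rw [ringKrullDim_eq_of_ringEquiv
    (MvPowerSeries.renameEquiv k (Finite.equivFin σ)).toRingEquiv]
  exact le_ringKrullDim_mvPowerSeries_fin k _

theorem mvPowerSeries_isRegularLocalRing : IsRegularLocalRing (MvPowerSeries σ k) := by
  apply IsRegularLocalRing.of_spanFinrank_maximalIdeal_le
  refine le_trans ?_ (le_ringKrullDim_mvPowerSeries σ k)
  rw [mvPowerSeries_maximalIdeal]
  norm_cast
  refine le_trans (Submodule.spanFinrank_span_le_ncard_of_finite (Set.finite_range _)) ?_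
  rw [← Set.image_univ]
  refine le_trans (Set.ncard_image_le Set.finite_univ) ?_
  rw [Set.ncard_univ]

theorem mvPowerSeries_ringKrullDim : ringKrullDim (MvPowerSeries σ k) = Nat.card σ := by
  apply le_antisymm ?_ (le_ringKrullDim_mvPowerSeries σ k)
  refine le_trans (ringKrullDim_le_spanFinrank_maximalIdeal _) ?_
  rw [mvPowerSeries_maximalIdeal]
  norm_cast
  refine le_trans (Submodule.spanFinrank_span_le_ncard_of_finite (Set.finite_range _)) ?_
  rw [← Set.image_univ]
  refine le_trans (Set.ncard_image_le Set.finite_univ) ?_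
  rw [Set.ncard_univ]

end Vale.Agent.P177
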