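import Mathlib
import Vale.Agent.P177.Regular
import Vale.Agent.P177.PowerSeriesRegular
import Vale.Agent.P177.PowerSeriesFlat
import Vale.Agent.P177.DiagData

/-! Reduction to the diagonal for power series rings over a field. -/

namespace Vale.Agent.P177

open IsLocalRing RingTheory.Sequence

/-- Kernel of a retraction of local rings. -/
theorem ker_le_of_retraction {S B : Type*} [CommRing S] [IsLocalRing S]
    [IsAdicComplete (maximalIdeal S) S] [CommRing B] [IsLocalRing B] [IsNoetherianRing B]
    (i : S →+* B) (π : B →+* S) (hπ : π.comp i = RingHom.id S) (J : Ideal B)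
    (hJ : J ≤ RingHom.ker π) (hm : (maximalIdeal S).map i ⊔ J = maximalIdeal B)
    (hres : ∀ b : B, ∃ s : S, b - i s ∈ maximalIdeal B) : RingHom.ker π = J := by
  apply le_antisymm _ hJ
  have hJm : J ≤ maximalIdeal B := hm ▸ le_sup_right
  have hnt : Nontrivial (B ⧸ J) :=
    Ideal.Quotient.nontrivial_iff.mpr (fun h => (maximalIdeal.isMaximal B).ne_top
      (top_le_iff.mp (h ▸ hJm)))
  have hloc : IsLocalRing (B ⧸ J) :=
    IsLocalRing.of_surjective' (Ideal.Quotient.mk J) Ideal.Quotient.mk_surjective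
  let f : S →+* B ⧸ J := (Ideal.Quotient.mk J).comp i
  have hmap : (maximalIdeal S).map f = (maximalIdeal B).map (Ideal.Quotient.mk J) := by
    rw [← Ideal.map_map, ← hm, Ideal.map_sup, Ideal.map_quotient_self, sup_bot_eq]
  have hle : (maximalIdeal B).map (Ideal.Quotient.mk J) ≤ maximalIdeal (B ⧸ J) := by
    rw [Ideal.map_le_iff_le_comap]
    intro b hb hu
    obtain ⟨u, hu⟩ := hu
    obtain ⟨c, hc⟩ := Ideal.Quotient.mk_surjective (u⁻¹ : (B ⧸ J)ˣ).val
    have h1 : b * c - 1 ∈ J := by
      rw [← Ideal.Quotient.mk_eq_mk_iff_sub_mem, map_mul, hc, ← hu, Units.mul_inv, map_one]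
    have h2 : (1 : B) ∈ maximalIdeal B := by
      have h3 := Ideal.sub_mem _ (Ideal.mul_mem_right c _ hb) (hJm h1)
      rwa [sub_sub_cancel] at h3
    exact (maximalIdeal.isMaximal B).ne_top (Ideal.eq_top_of_isUnit_mem _ h2 isUnit_one)
  have hH : IsHausdorff ((maximalIdeal S).map f) (B ⧸ J) := by
    rw [hmap]
    refine IsHausdorff.of_isLocalRing _ _ (fun h => ?_)
    rw [h] at hle
    exact (maximalIdeal.isMaximal (B ⧸ J)).ne_top (top_le_iff.mp hle)
  have hsurj : Function.Surjective f := by
    apply surjective_of_mk_map_comp_surjective (I := maximalIdeal S) f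
    intro y
    obtain ⟨y, rfl⟩ := Ideal.Quotient.mk_surjective y
    obtain ⟨b, rfl⟩ := Ideal.Quotient.mk_surjective y
    obtain ⟨s, hs⟩ := hres b
    refine ⟨s, ?_⟩
    rw [RingHom.comp_apply, Ideal.Quotient.mk_eq_mk_iff_sub_mem, hmap, ← neg_mem_iff, neg_sub]
    exact Ideal.mem_map_of_mem _ hs
  intro b hb
  obtain ⟨s, hs⟩ := hsurj (Ideal.Quotient.mk J b)
  have h1 : i s - b ∈ J := by
    rw [← Ideal.Quotient.mk_eq_mk_iff_sub_mem]
    exact hs
  have h2 : π (i s - b) = 0 := hJ h1
  have h3 : π (i s) = s := RingHom.congr_fun hπ s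
  rw [map_sub, h3, RingHom.mem_ker.mp hb, sub_zero] at h2
  rw [h2, map_zero, zero_sub, neg_mem_iff] at h1
  exact h1

section

variable (k : Type*) [Field k] (d : ℕ)

/-- The diagonal elements. -/
noncomputable def diagList : List (MvPowerSeries (Fin d ⊕ Fin d) k) :=
  List.ofFn (fun j : Fin d => MvPowerSeries.X (Sum.inl j) - MvPowerSeries.X (Sum.inr j))

theorem ofList_diagList : Ideal.ofList (diagList k d) =
    Ideal.span (Set.range (fun j : Fin d =>
      (MvPowerSeries.X (Sum.inl j) - MvPowerSeries.X (Sum.inr j) :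
        MvPowerSeries (Fin d ⊕ Fin d) k))) := by
  rw [Ideal.ofList, diagList]
  congr 1
  ext x
  simp [List.mem_ofFn]

theorem map_maximalIdeal_rename (e : Fin d ↪ Fin d ⊕ Fin d)
    [IsLocalRing (MvPowerSeries (Fin d) k)] :
    (maximalIdeal (MvPowerSeries (Fin d) k)).map (MvPowerSeries.rename (R := k) e).toRingHom =
      Ideal.span (Set.range (fun j : Fin d => MvPowerSeries.X (e j))) := by
  rw [mvPowerSeries_maximalIdeal, Ideal.map_span, ← Set.range_comp]
  congr 2
  ext1 j
  exact MvPowerSeries.rename_X e j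

theorem sub_C_mem (σ : Type*) [Finite σ] [IsLocalRing (MvPowerSeries σ k)]
    (b : MvPowerSeries σ k) :
    b - MvPowerSeries.C (MvPowerSeries.constantCoeff b) ∈ maximalIdeal (MvPowerSeries σ k) := by
  rw [mvPowerSeries_maximalIdeal]
  apply mem_span_X_of_constantCoeff_eq_zero
  simp

theorem maximalIdeal_eq_sup :
    (maximalIdeal (MvPowerSeries (Fin d ⊕ Fin d) k)) =
      Ideal.span (Set.range (fun j : Fin d => MvPowerSeries.X (Sum.inl j))) ⊔
      Ideal.span (Set.range (fun j : Fin d => MvPowerSeries.X (Sum.inr j))) := by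
  rw [mvPowerSeries_maximalIdeal, ← Ideal.span_union]
  congr 1
  ext x
  simp

theorem maximalIdeal_eq_sup' :
    (maximalIdeal (MvPowerSeries (Fin d ⊕ Fin d) k)) =
      Ideal.span (Set.range (fun j : Fin d => MvPowerSeries.X (Sum.inl j))) ⊔
      Ideal.ofList (diagList k d) := by
  rw [maximalIdeal_eq_sup, ofList_diagList]
  apply le_antisymm
  · refine sup_le le_sup_left ?_
    rw [Ideal.span_le]
    rintro _ ⟨j, rfl⟩
    have h1 : (MvPowerSeries.X (Sum.inl j) : MvPowerSeries (Fin d ⊕ Fin d) k) ∈
        Ideal.span (Set.range (fun j : Fin d =>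
          (MvPowerSeries.X (Sum.inl j) : MvPowerSeries (Fin d ⊕ Fin d) k))) :=
      Ideal.subset_span ⟨j, rfl⟩
    have h2 : (MvPowerSeries.X (Sum.inl j) - MvPowerSeries.X (Sum.inr j) :
        MvPowerSeries (Fin d ⊕ Fin d) k) ∈ Ideal.span (Set.range (fun j : Fin d =>
          (MvPowerSeries.X (Sum.inl j) - MvPowerSeries.X (Sum.inr j) :
          MvPowerSeries (Fin d ⊕ Fin d) k))) :=
      Ideal.subset_span ⟨j, rfl⟩
    have h3 := Ideal.sub_mem _ (Ideal.mem_sup_left h1) (Ideal.mem_sup_right h2)
    rwa [sub_sub_cancel] at h3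
  · refine sup_le le_sup_left ?_
    rw [Ideal.span_le]
    rintro _ ⟨j, rfl⟩
    exact Ideal.sub_mem _ (Ideal.mem_sup_left (Ideal.subset_span ⟨j, rfl⟩))
      (Ideal.mem_sup_right (Ideal.subset_span ⟨j, rfl⟩))

theorem isAdicComplete_mvPowerSeries (σ : Type*) [Finite σ] [IsLocalRing (MvPowerSeries σ k)] :
    IsAdicComplete (maximalIdeal (MvPowerSeries σ k)) (MvPowerSeries σ k) := by
  rw [mvPowerSeries_maximalIdeal]
  infer_instance

theorem isRegular_diagList : IsRegular (MvPowerSeries (Fin d ⊕ Fin d) k) (diagList k d) := by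
  have hreg := mvPowerSeries_isRegularLocalRing (Fin d ⊕ Fin d) k
  have h1 := isRegular_of_ofList_eq_maximalIdeal (MvPowerSeries (Fin d ⊕ Fin d) k)
    (diagList k d ++ List.ofFn (fun j : Fin d => MvPowerSeries.X (Sum.inl j))) (by
      rw [Ideal.ofList_append, maximalIdeal_eq_sup', sup_comm]
      congr 1
      rw [Ideal.ofList]
      congr 1
      ext x
      simp [List.mem_ofFn]) (by
      rw [mvPowerSeries_ringKrullDim]
      simp [diagList])
  have h2 := (isWeaklyRegular_append_iff _ _ _).mp h1.toIsWeaklyRegular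
  refine ⟨h2.1, fun htop => ?_⟩
  apply h1.top_ne_smul
  refine le_antisymm (htop.le.trans (Submodule.smul_mono_left ?_)) le_top
  rw [Ideal.ofList_append]
  exact le_sup_left

end

universe u

theorem exists_diagData (k : Type u) [Field k] (d : ℕ) [IsLocalRing (MvPowerSeries (Fin d) k)] :
    Nonempty (DiagData (MvPowerSeries (Fin d) k) (MvPowerSeries (Fin d ⊕ Fin d) k) d) := by
  have hS := isAdicComplete_mvPowerSeries k (Fin d)
  have hres : ∀ b : MvPowerSeries (Fin d ⊕ Fin d) k, ∃ s : MvPowerSeries (Fin d) k,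
      b - (MvPowerSeries.rename (R := k) Function.Embedding.inl).toRingHom s ∈
        maximalIdeal (MvPowerSeries (Fin d ⊕ Fin d) k) := by
    intro b
    refine ⟨MvPowerSeries.C (MvPowerSeries.constantCoeff b), ?_⟩
    have h1 : (MvPowerSeries.rename (R := k)
        (Function.Embedding.inl : Fin d ↪ Fin d ⊕ Fin d)).toRingHom
        (MvPowerSeries.C (MvPowerSeries.constantCoeff b)) =
        MvPowerSeries.C (MvPowerSeries.constantCoeff b) := MvPowerSeries.rename_C _ _
    rw [h1]
    exact sub_C_mem k _ b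
  refine ⟨{
    i₁ := (MvPowerSeries.rename (R := k) Function.Embedding.inl).toRingHom
    i₂ := (MvPowerSeries.rename (R := k) Function.Embedding.inr).toRingHom
    flat₁ := flat_rename _
    flat₂ := flat_rename _
    μ := (MvPowerSeries.rename (R := k) (Sum.elim id id)).toRingHom
    μ_i₁ := ?_
    μ_i₂ := ?_
    ρ := (MvPowerSeries.killCompl (R := k) Function.Embedding.inl).toRingHom
    ρ_i₁ := ?_
    ker_ρ := ?_
    δ := diagList k d
    length_δ := by simp [diagList]
    ker_μ := ?_
    regular_δ := isRegular_diagList k d }⟩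
  · ext1 p
    change MvPowerSeries.rename (Sum.elim id id) (MvPowerSeries.rename
      (Function.Embedding.inl : Fin d ↪ Fin d ⊕ Fin d) p) = p
    rw [MvPowerSeries.rename_rename]
    exact MvPowerSeries.rename_id_apply p
  · ext1 p
    change MvPowerSeries.rename (Sum.elim id id) (MvPowerSeries.rename
      (Function.Embedding.inr : Fin d ↪ Fin d ⊕ Fin d) p) = p
    rw [MvPowerSeries.rename_rename]
    exact MvPowerSeries.rename_id_apply p
  · ext1 p
    exact MvPowerSeries.killCompl_rename_app p
  · apply ker_le_of_retraction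
      (i := (MvPowerSeries.rename (R := k) Function.Embedding.inl).toRingHom)
      (hres := hres)
    · ext1 p
      exact MvPowerSeries.killCompl_rename_app p
    · rw [map_maximalIdeal_rename, Ideal.span_le]
      rintro _ ⟨j, rfl⟩
      exact MvPowerSeries.killCompl_X_eq_zero (by simp)
    · rw [map_maximalIdeal_rename, map_maximalIdeal_rename, maximalIdeal_eq_sup]
      rfl
  · apply ker_le_of_retraction
      (i := (MvPowerSeries.rename (R := k) Function.Embedding.inl).toRingHom)
      (hres := hres)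
    · ext1 p
      change MvPowerSeries.rename (Sum.elim id id) (MvPowerSeries.rename
        (Function.Embedding.inl : Fin d ↪ Fin d ⊕ Fin d) p) = p
      rw [MvPowerSeries.rename_rename]
      exact MvPowerSeries.rename_id_apply p
    · rw [ofList_diagList, Ideal.span_le]
      rintro _ ⟨j, rfl⟩
      change MvPowerSeries.rename (Sum.elim id id) _ = 0
      rw [map_sub, MvPowerSeries.rename_X, MvPowerSeries.rename_X]
      simp
    · rw [map_maximalIdeal_rename, maximalIdeal_eq_sup']
      rfl

end Vale.Agent.P177
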