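import Vale.Agent.P177.RegularLocalization
import Mathlib.RingTheory.Smooth.Flat
import Mathlib.RingTheory.RegularLocalRing.Polynomial

/-!
Quotients of regular local rings with injective conormal map; smooth algebras.
-/

namespace Vale.Agent.P177

open Function IsLocalRing RingTheory.Sequence Pointwise

universe u

section lemK

theorem isWeaklyRegular_cons_of_quotient {P : Type u} [CommRing P] (y : P) (hy : IsSMulRegular P y)
    (zs : List P) (h : IsWeaklyRegular (P ⧸ Ideal.span {y})
      (zs.map (Ideal.Quotient.mk (Ideal.span {y})))) : IsWeaklyRegular P (y :: zs) := by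
  rw [isWeaklyRegular_cons_iff']
  refine ⟨hy, ?_⟩
  have heq : (Ideal.span {y} : Submodule P P) = y • ⊤ := by
    rw [← Submodule.ideal_span_singleton_smul, smul_eq_mul, Ideal.mul_top]
  refine (AddEquiv.isWeaklyRegular_congr
    (e := (Submodule.quotEquivOfEq _ _ heq).toAddEquiv) ?_).mp h
  refine List.forall₂_same.mpr fun t _ x => ?_
  obtain ⟨a, rfl⟩ := Ideal.Quotient.mk_surjective t
  change Submodule.quotEquivOfEq _ _ heq (algebraMap P (P ⧸ Ideal.span {y}) a • x) =
    algebraMap P (P ⧸ Ideal.span {y}) a • Submodule.quotEquivOfEq _ _ heq x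
  rw [algebraMap_smul, algebraMap_smul, map_smul]

theorem exists_regular_list (n : ℕ) (P : Type u) [CommRing P] [IsRegularLocalRing P]
    (hn : ringKrullDim P = n) (J : Ideal P) (hJm : J ≤ maximalIdeal P)
    (hJ : J ⊓ maximalIdeal P ^ 2 ≤ maximalIdeal P * J) :
    ∃ z : List P, Ideal.ofList z = J ∧ IsWeaklyRegular P z ∧ IsRegularLocalRing (P ⧸ J) := by
  induction n using Nat.strong_induction_on generalizing P J with
  | _ n ih =>
    by_cases hJ0 : J = ⊥
    · subst hJ0
      refine ⟨[], Ideal.ofList_nil, IsWeaklyRegular.nil P P, ?_⟩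
      exact IsRegularLocalRing.of_ringEquiv (RingEquiv.quotientBot P).symm
    · have h1 : ∃ y ∈ J, y ∉ maximalIdeal P * J := by
        by_contra hcon
        push Not at hcon
        apply hJ0
        refine Submodule.eq_bot_of_le_smul_of_le_jacobson_bot (maximalIdeal P) J
          (IsNoetherian.noetherian J) hcon ?_
        rw [IsLocalRing.jacobson_eq_maximalIdeal _ bot_ne_top]
      obtain ⟨y, hyJ, hy⟩ := h1
      have hy2 : y ∉ maximalIdeal P ^ 2 := fun h => hy (hJ ⟨hyJ, h⟩)
      obtain ⟨hreg, hdim⟩ := regular_quotient P y (hJm hyJ) hy2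
      have hdom : IsDomain P := regular_isDomain P
      have hy0 : y ≠ 0 := fun h => hy2 (h ▸ zero_mem _)
      obtain ⟨k, hk⟩ := exists_nat_eq_ringKrullDim (P ⧸ Ideal.span {y})
      have hkn : k + 1 = n := by
        rw [hk, hn] at hdim
        exact_mod_cast hdim
      have hspan : Ideal.span {y} ≤ J := by
        rw [Ideal.span_singleton_le_iff_mem]
        exact hyJ
      have hmm : (maximalIdeal P).map (Ideal.Quotient.mk (Ideal.span {y})) =
          maximalIdeal (P ⧸ Ideal.span {y}) :=
        map_maximalIdeal_of_surjective _ Ideal.Quotient.mk_surjective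
      obtain ⟨z', hz', hzr, hq⟩ := ih k (by omega) (P ⧸ Ideal.span {y}) hk
        (J.map (Ideal.Quotient.mk (Ideal.span {y}))) (by
          rw [← hmm]
          exact Ideal.map_mono hJm) (by
          rintro x' ⟨hx1, hx2⟩
          obtain ⟨x, hx, rfl⟩ := (Ideal.mem_map_iff_of_surjective _
            Ideal.Quotient.mk_surjective).1 hx1
          rw [← hmm, ← Ideal.map_pow] at hx2
          obtain ⟨u, hu, hux⟩ := (Ideal.mem_map_iff_of_surjective _
            Ideal.Quotient.mk_surjective).1 hx2
          have h2 : u - x ∈ J := hspan ((Ideal.Quotient.mk_eq_mk_iff_sub_mem _ _).1 hux)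
          have h3 : u ∈ J := by
            have := J.add_mem h2 hx
            rwa [sub_add_cancel] at this
          rw [← hux, ← hmm, ← Ideal.map_mul]
          exact Ideal.mem_map_of_mem _ (hJ ⟨h3, hu⟩))
      obtain ⟨zs, rfl⟩ : ∃ zs : List P, zs.map (Ideal.Quotient.mk (Ideal.span {y})) = z' :=
        (List.map_surjective_iff.2 Ideal.Quotient.mk_surjective) z'
      refine ⟨y :: zs, ?_, isWeaklyRegular_cons_of_quotient y
        (IsRegular.of_ne_zero hy0).left.isSMulRegular zs hzr, ?_⟩
      · rw [← Ideal.map_ofList] at hz'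
        have h4 := congrArg (Ideal.comap (Ideal.Quotient.mk (Ideal.span {y}))) hz'
        rw [Ideal.comap_map_of_surjective' _ Ideal.Quotient.mk_surjective,
          Ideal.comap_map_of_surjective' _ Ideal.Quotient.mk_surjective, Ideal.mk_ker,
          sup_eq_left.2 hspan] at h4
        rw [Ideal.ofList_cons, sup_comm, h4]
      · exact IsRegularLocalRing.of_ringEquiv (DoubleQuot.quotQuotEquivQuotOfLE hspan)

end lemK

section lemS

/-- The conormal map of a surjection onto a formally smooth algebra is injective modulo the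
maximal ideal. -/
theorem inf_sq_le_of_formallySmooth (A P S : Type u) [CommRing A] [CommRing P] [CommRing S]
    [Algebra A P] [Algebra A S] [IsLocalRing P] [Algebra.FormallySmooth A S]
    (f : P →ₐ[A] S) (hf : Surjective f) (hJm : RingHom.ker f ≤ maximalIdeal P) :
    RingHom.ker f ⊓ maximalIdeal P ^ 2 ≤ maximalIdeal P * RingHom.ker f := by
  let J := RingHom.ker f
  let B := P ⧸ J ^ 2
  let g : B →ₐ[A] S := Ideal.Quotient.liftₐ (J ^ 2) f (by
    intro a ha
    have : a ∈ J := Ideal.pow_le_self two_ne_zero ha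
    exact this)
  have hg : ∀ x : P, g (Ideal.Quotient.mk (J ^ 2) x) = f x := fun x => rfl
  have hgs : Surjective g := fun s => by
    obtain ⟨x, rfl⟩ := hf s
    exact ⟨_, hg x⟩
  have hker : ∀ b : B, g b = 0 → b ∈ J.map (Ideal.Quotient.mk (J ^ 2)) := by
    intro b hb
    obtain ⟨x, rfl⟩ := Ideal.Quotient.mk_surjective b
    rw [hg] at hb
    exact Ideal.mem_map_of_mem _ hb
  have hnil : IsNilpotent (RingHom.ker (g : B →+* S)) := by
    refine ⟨2, ?_⟩
    rw [Ideal.zero_eq_bot, eq_bot_iff]
    have h1 : RingHom.ker (g : B →+* S) ≤ J.map (Ideal.Quotient.mk (J ^ 2)) := hker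
    refine (Ideal.pow_right_mono h1 2).trans ?_
    rw [← Ideal.map_pow, Ideal.map_quotient_self]
  let σ : S →ₐ[A] B := Algebra.FormallySmooth.liftOfSurjective (AlgHom.id A S) g hgs hnil
  have hσ : ∀ s, g (σ s) = s := fun s =>
    Algebra.FormallySmooth.liftOfSurjective_apply (AlgHom.id A S) g hgs hnil s
  have hδ : ∀ x : P, Ideal.Quotient.mk (J ^ 2) x - σ (f x) ∈
      J.map (Ideal.Quotient.mk (J ^ 2)) := by
    intro x
    apply hker
    rw [map_sub, hg, hσ, sub_self]
  have key : ∀ x ∈ maximalIdeal P ^ 2, Ideal.Quotient.mk (J ^ 2) x - σ (f x) ∈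
      (maximalIdeal P * J).map (Ideal.Quotient.mk (J ^ 2)) := by
    intro x hx
    rw [pow_two] at hx
    induction hx using Submodule.mul_induction_on' with
    | mem_mul_mem a ha b hb =>
      have h1 : Ideal.Quotient.mk (J ^ 2) (a * b) - σ (f (a * b)) =
          Ideal.Quotient.mk (J ^ 2) a * (Ideal.Quotient.mk (J ^ 2) b - σ (f b)) +
          σ (f b) * (Ideal.Quotient.mk (J ^ 2) a - σ (f a)) := by
        rw [map_mul, map_mul, map_mul]
        ring
      rw [h1, Ideal.map_mul]
      refine add_mem (Ideal.mul_mem_mul (Ideal.mem_map_of_mem _ ha) (hδ b))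
        (Ideal.mul_mem_mul ?_ (hδ a))
      have h2 : σ (f b) = Ideal.Quotient.mk (J ^ 2) b -
          (Ideal.Quotient.mk (J ^ 2) b - σ (f b)) := by ring
      rw [h2]
      exact sub_mem (Ideal.mem_map_of_mem _ hb) (Ideal.map_mono hJm (hδ b))
    | add x _ y _ hx hy =>
      have h1 : Ideal.Quotient.mk (J ^ 2) (x + y) - σ (f (x + y)) =
          (Ideal.Quotient.mk (J ^ 2) x - σ (f x)) +
          (Ideal.Quotient.mk (J ^ 2) y - σ (f y)) := by
        rw [map_add, map_add, map_add]
        ring
      rw [h1]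
      exact add_mem hx hy
  rintro x ⟨hx1, hx2⟩
  have h3 := key x hx2
  have h4 : f x = 0 := hx1
  rw [h4, map_zero, sub_zero] at h3
  have h5 := Ideal.mem_comap.2 h3
  rw [Ideal.comap_map_of_surjective' _ Ideal.Quotient.mk_surjective, Ideal.mk_ker] at h5
  have h6 : J ^ 2 ≤ maximalIdeal P * J := by
    rw [pow_two]
    exact Ideal.mul_mono_left hJm
  exact (sup_le le_rfl h6 : maximalIdeal P * J ⊔ J ^ 2 ≤ maximalIdeal P * J) h5

/-- A regular local algebra surjecting onto a formally smooth one. -/
theorem exists_regular_list_of_formallySmooth (A P S : Type u) [CommRing A] [CommRing P]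
    [CommRing S] [Algebra A P] [Algebra A S] [IsRegularLocalRing P] [Nontrivial S]
    [Algebra.FormallySmooth A S] (f : P →ₐ[A] S) (hf : Surjective f) :
    IsRegularLocalRing S ∧
      ∃ z : List P, Ideal.ofList z = RingHom.ker f ∧ IsWeaklyRegular P z := by
  have hJm : RingHom.ker f ≤ maximalIdeal P := by
    apply le_maximalIdeal
    intro h
    have h1 : (1 : P) ∈ RingHom.ker f := by rw [h]; trivial
    have h2 : f 1 = 0 := h1
    rw [map_one] at h2
    exact one_ne_zero h2
  obtain ⟨n, hn⟩ := exists_nat_eq_ringKrullDim P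
  obtain ⟨z, h1, h2, h3⟩ := exists_regular_list n P hn (RingHom.ker f) hJm
    (inf_sq_le_of_formallySmooth A P S f hf hJm)
  have h4 : IsRegularLocalRing (P ⧸ RingHom.ker (f : P →+* S)) := h3
  exact ⟨IsRegularLocalRing.of_ringEquiv (RingHom.quotientKerEquivOfSurjective (f := (f : P →+* S))
    hf), z, h1, h2⟩

end lemS

section ess

/-- A local algebra essentially of finite type is a quotient of a localization of a polynomial
ring at a prime. -/
theorem exists_surjective_localization (A S : Type u) [CommRing A] [CommRing S] [Algebra A S]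
    [IsLocalRing S] [Algebra.EssFiniteType A S] :
    ∃ (σ : Finset S) (𝔭 : Ideal (MvPolynomial σ A)) (_ : 𝔭.IsPrime)
      (f : Localization.AtPrime 𝔭 →ₐ[A] S), Surjective f := by
  obtain ⟨σ, hσ⟩ := (Algebra.essFiniteType_iff A S).1 inferInstance
  let g : MvPolynomial σ A →ₐ[A] S := MvPolynomial.aeval fun i : σ => (i : S)
  have hg : ∀ s ∈ Algebra.adjoin A (σ : Set S), ∃ x, g x = s := by
    intro s hs
    have h1 : Algebra.adjoin A (σ : Set S) = g.range := by
      rw [Algebra.adjoin_eq_range]
      rfl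
    rw [h1] at hs
    exact hs
  let 𝔭 : Ideal (MvPolynomial σ A) := (maximalIdeal S).comap g
  have h𝔭 : 𝔭.IsPrime := Ideal.IsPrime.comap _
  have hunit : ∀ y : 𝔭.primeCompl, IsUnit (g y) := by
    intro y
    by_contra hcon
    exact y.2 ((mem_maximalIdeal _).2 hcon)
  let f : Localization.AtPrime 𝔭 →ₐ[A] S := IsLocalization.liftAlgHom (M := 𝔭.primeCompl)
    (S := Localization.AtPrime 𝔭) (f := g) hunit
  have hf : ∀ x, f (algebraMap _ _ x) = g x := by
    intro x
    exact IsLocalization.lift_eq (S := Localization.AtPrime 𝔭) (g := (g : _ →+* S)) hunit x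
  refine ⟨σ, 𝔭, h𝔭, f, ?_⟩
  intro s
  obtain ⟨t, ht, htu, hst⟩ := hσ s
  obtain ⟨a, ha⟩ := hg _ hst
  obtain ⟨b, hb⟩ := hg t ht
  have hb' : b ∈ 𝔭.primeCompl := by
    intro hb2
    have : g b ∈ maximalIdeal S := hb2
    rw [hb] at this
    exact this htu
  refine ⟨IsLocalization.mk' _ a (⟨b, hb'⟩ : 𝔭.primeCompl), ?_⟩
  have h2 := congrArg f (IsLocalization.mk'_spec (Localization.AtPrime 𝔭) a
    (⟨b, hb'⟩ : 𝔭.primeCompl))
  rw [map_mul, hf, hf] at h2
  change _ * g b = g a at h2
  rw [ha, hb] at h2
  exact htu.mul_right_cancel h2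

/-- Essentially smooth local algebras over a regular local ring are regular and flat. -/
theorem regular_flat_of_essSmooth (A S : Type u) [CommRing A] [CommRing S] [Algebra A S]
    [IsRegularLocalRing A] [IsLocalRing S] [Algebra.EssFiniteType A S]
    [Algebra.FormallySmooth A S] : IsRegularLocalRing S ∧ Module.Flat A S := by
  obtain ⟨σ, 𝔭, h𝔭, f, hf⟩ := exists_surjective_localization A S
  have h1 : IsRegularRing A := isRegularRing_of_isRegularLocalRing A
  have h2 : IsRegularRing (MvPolynomial σ A) := inferInstance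
  have h3 : IsRegularLocalRing (Localization.AtPrime 𝔭) :=
    h2.isRegularLocalRing_localization 𝔭
  refine ⟨(exists_regular_list_of_formallySmooth A _ S f hf).1, ?_⟩
  exact Algebra.FormallySmooth.flat_of_algHom_of_isNoetherianRing f hf

end ess

end Vale.Agent.P177
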