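import Mathlib

/-!
Height inequality for primes of `R₁ ⊗[A] R₂`.
-/

namespace Vale.Agent.P177

open Function IsLocalRing TensorProduct

universe u

section fiber

variable {R S : Type u} [CommRing R] [CommRing S] [Algebra R S]

theorem height_quot_eq_fiber (p : PrimeSpectrum R) (P : PrimeSpectrum S)
    (h : P ∈ PrimeSpectrum.comap (algebraMap R S) ⁻¹' {p}) :
    (P.asIdeal.map (Ideal.Quotient.mk (p.asIdeal.map (algebraMap R S)))).height =
      (PrimeSpectrum.preimageOrderIsoFiber R S p ⟨P, h⟩).asIdeal.height := by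
  let X := PrimeSpectrum.comap (algebraMap R S) ⁻¹' {p}
  have hX : ∀ x : X, p.asIdeal.map (algebraMap R S) ≤ x.1.asIdeal := by
    intro x
    rw [Ideal.map_le_iff_le_comap]
    have h1 := x.2
    simp only [X, Set.mem_preimage, Set.mem_singleton_iff] at h1
    rw [← h1]
    rfl
  let f : X → PrimeSpectrum (S ⧸ p.asIdeal.map (algebraMap R S)) := fun x =>
    ⟨x.1.asIdeal.map (Ideal.Quotient.mk _),
      Ideal.map_isPrime_of_surjective Ideal.Quotient.mk_surjective (by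
        rw [Ideal.mk_ker]
        exact hX x)⟩
  have hcf : ∀ x : X, (f x).asIdeal.comap (Ideal.Quotient.mk _) = x.1.asIdeal := by
    intro x
    change (x.1.asIdeal.map (Ideal.Quotient.mk _)).comap (Ideal.Quotient.mk _) = _
    rw [Ideal.comap_map_of_surjective' _ Ideal.Quotient.mk_surjective, Ideal.mk_ker,
      sup_eq_left.2 (hX x)]
  have hf : StrictMono f := by
    intro x y hxy
    refine lt_of_le_not_ge (Ideal.map_mono hxy.le) ?_
    intro hcon
    have h1 : (f y).asIdeal.comap (Ideal.Quotient.mk _) ≤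
        (f x).asIdeal.comap (Ideal.Quotient.mk _) := Ideal.comap_mono hcon
    rw [hcf, hcf] at h1
    exact absurd h1 (not_le_of_gt hxy)
  have h1 := Order.height_eq_of_strictMono f hf (by
    intro a b hb
    have h2 : (PrimeSpectrum.comap (Ideal.Quotient.mk _) b).asIdeal ≤ a.1.asIdeal := by
      rw [← hcf a]
      exact Ideal.comap_mono hb.le
    have h3 : p.asIdeal.map (algebraMap R S) ≤
        (PrimeSpectrum.comap (Ideal.Quotient.mk _) b).asIdeal := by
      intro x hx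
      rw [PrimeSpectrum.comap_asIdeal, Ideal.mem_comap, Ideal.Quotient.eq_zero_iff_mem.2 hx]
      exact zero_mem _
    have h4 : PrimeSpectrum.comap (Ideal.Quotient.mk _) b ∈ X := by
      simp only [X, Set.mem_preimage, Set.mem_singleton_iff]
      apply PrimeSpectrum.ext
      apply le_antisymm
      · have h5 := a.2
        simp only [X, Set.mem_preimage, Set.mem_singleton_iff] at h5
        exact (Ideal.comap_mono h2).trans (congrArg PrimeSpectrum.asIdeal h5).le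
      · rw [PrimeSpectrum.comap_asIdeal, ← Ideal.map_le_iff_le_comap]
        exact h3
    have h6 : f ⟨_, h4⟩ = b := by
      apply PrimeSpectrum.ext
      change ((PrimeSpectrum.comap (Ideal.Quotient.mk _) b).asIdeal).map _ = _
      rw [PrimeSpectrum.comap_asIdeal, Ideal.map_comap_of_surjective _ Ideal.Quotient.mk_surjective]
    refine ⟨⟨_, h4⟩, ?_, h6⟩
    rw [← h6] at hb
    refine lt_of_le_not_ge h2 ?_
    intro hcon
    exact absurd (Ideal.map_mono (f := Ideal.Quotient.mk _) hcon : f a ≤ f ⟨_, h4⟩)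
      (not_le_of_gt hb)) ⟨P, h⟩
  rw [PrimeSpectrum.height_eq_orderHeight, Order.height_orderIso, h1,
    ← PrimeSpectrum.height_eq_orderHeight]

theorem isNoetherianRing_fiber (p : Ideal R) [p.IsPrime] [IsNoetherianRing S] :
    IsNoetherianRing (p.Fiber S) := by
  let _ : Algebra S (p.Fiber S) := Algebra.TensorProduct.rightAlgebra
  exact isNoetherianRing_of_ringEquiv _ (Ideal.Fiber.algEquivAux₁ (S := S) p).symm.toRingEquiv

end fiber

section fields

theorem flat_includeRight (k K F : Type u) [CommRing k] [CommRing K] [CommRing F]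
    [Algebra k K] [Algebra k F] [Module.Flat k K] :
    ((Algebra.TensorProduct.includeRight : F →ₐ[k] K ⊗[k] F) : F →+* K ⊗[k] F).Flat := by
  have h1 : (algebraMap F (F ⊗[k] K)).Flat := by
    rw [RingHom.flat_algebraMap_iff]
    infer_instance
  have h2 : ((Algebra.TensorProduct.comm k F K : F ⊗[k] K →ₐ[k] K ⊗[k] F) :
      F ⊗[k] K →+* K ⊗[k] F).Flat :=
    RingHom.Flat.of_bijective (Algebra.TensorProduct.comm k F K).bijective
  have h3 := h1.comp h2
  convert h3 using 1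
  ext x
  rw [RingHom.comp_apply, Algebra.TensorProduct.algebraMap_apply]
  change Algebra.TensorProduct.includeRight x =
    Algebra.TensorProduct.comm k F K (algebraMap F F x ⊗ₜ[k] (1 : K))
  rw [Algebra.TensorProduct.comm_tmul]
  rfl

theorem exists_flat_map (A R₁ R₂ k K : Type u) [CommRing A] [CommRing R₁] [CommRing R₂]
    [Algebra A R₁] [Algebra A R₂] [Field k] [Field K] [Algebra A k] [Algebra A K] [Algebra R₁ K]
    [Algebra k K] [IsScalarTower A k K] [IsScalarTower A R₁ K] :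
    ∃ φ : k ⊗[A] R₂ →+* K ⊗[R₁] (R₁ ⊗[A] R₂), φ.Flat ∧ ∀ r : R₂, φ (1 ⊗ₜ r) = 1 ⊗ₜ (1 ⊗ₜ r) := by
  let e₁ : K ⊗[R₁] (R₁ ⊗[A] R₂) ≃ₐ[K] K ⊗[A] R₂ :=
    Algebra.TensorProduct.cancelBaseChange A R₁ K K R₂
  let e₂ : K ⊗[k] (k ⊗[A] R₂) ≃ₐ[K] K ⊗[A] R₂ := Algebra.TensorProduct.cancelBaseChange A k K K R₂
  have h1 : ∀ r : R₂, e₂ ((1 : K) ⊗ₜ[k] ((1 : k) ⊗ₜ[A] r)) = 1 ⊗ₜ r := fun r => by
    simp only [e₂, Algebra.TensorProduct.cancelBaseChange_tmul, one_smul]
  have h2 : ∀ r : R₂, e₁.symm (1 ⊗ₜ r) = ((1 : K) ⊗ₜ[R₁] ((1 : R₁) ⊗ₜ[A] r)) := fun r => by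
    rw [AlgEquiv.symm_apply_eq]
    simp only [e₁, Algebra.TensorProduct.cancelBaseChange_tmul, one_smul]
  have f1 := flat_includeRight k K (k ⊗[A] R₂)
  have f2 : (e₂ : K ⊗[k] (k ⊗[A] R₂) →+* K ⊗[A] R₂).Flat :=
    RingHom.Flat.of_bijective e₂.bijective
  have f3 : (e₁.symm : K ⊗[A] R₂ →+* K ⊗[R₁] (R₁ ⊗[A] R₂)).Flat :=
    RingHom.Flat.of_bijective e₁.symm.bijective
  refine ⟨_, (f1.comp f2).comp f3, ?_⟩
  intro r
  simp only [RingHom.coe_comp, comp_apply, RingHom.coe_coe,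
    Algebra.TensorProduct.includeRight_apply]
  rw [h1, h2]

end fields

section

variable {A R₁ R₂ : Type u} [CommRing A] [CommRing R₁] [CommRing R₂] [Algebra A R₁]
  [Algebra A R₂] [IsNoetherianRing A] [IsNoetherianRing R₁] [IsNoetherianRing R₂]
  [IsNoetherianRing (R₁ ⊗[A] R₂)] [Module.Flat A R₂]

theorem height_bound (Q : Ideal (R₁ ⊗[A] R₂)) [Q.IsPrime] :
    (Q.comap (algebraMap R₁ (R₁ ⊗[A] R₂))).height +
      (Q.comap (Algebra.TensorProduct.includeRight : R₂ →ₐ[A] R₁ ⊗[A] R₂)).height ≤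
      Q.height + (Q.comap (algebraMap A (R₁ ⊗[A] R₂))).height := by
  let P₁ : PrimeSpectrum R₁ := ⟨Q.comap (algebraMap R₁ (R₁ ⊗[A] R₂)), Ideal.IsPrime.comap _⟩
  let P₂ : PrimeSpectrum R₂ :=
    ⟨Q.comap (Algebra.TensorProduct.includeRight : R₂ →ₐ[A] R₁ ⊗[A] R₂), Ideal.IsPrime.comap _⟩
  let q : PrimeSpectrum A := ⟨Q.comap (algebraMap A (R₁ ⊗[A] R₂)), Ideal.IsPrime.comap _⟩
  have hP₁ : q = PrimeSpectrum.comap (algebraMap A R₁) P₁ := by
    apply PrimeSpectrum.ext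
    change Q.comap _ = (Q.comap _).comap _
    rw [Ideal.comap_comap, ← IsScalarTower.algebraMap_eq]
  have hP₂ : q = PrimeSpectrum.comap (algebraMap A R₂) P₂ := by
    apply PrimeSpectrum.ext
    ext x
    change algebraMap A (R₁ ⊗[A] R₂) x ∈ Q ↔
      (Algebra.TensorProduct.includeRight : R₂ →ₐ[A] R₁ ⊗[A] R₂) (algebraMap A R₂ x) ∈ Q
    rw [AlgHom.commutes]
  have hq₁ : Q.comap (algebraMap A (R₁ ⊗[A] R₂)) = q.asIdeal := rfl
  -- fields
  let φ₀ : q.asIdeal.ResidueField →ₐ[A] P₁.asIdeal.ResidueField :=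
    Ideal.ResidueField.mapₐ q.asIdeal P₁.asIdeal (Algebra.ofId _ _)
      (congrArg PrimeSpectrum.asIdeal hP₁)
  let _ : Algebra q.asIdeal.ResidueField P₁.asIdeal.ResidueField := φ₀.toRingHom.toAlgebra
  have htow : IsScalarTower A q.asIdeal.ResidueField P₁.asIdeal.ResidueField :=
    IsScalarTower.of_algebraMap_eq fun x => (φ₀.commutes x).symm
  obtain ⟨φ, hφflat, hφ⟩ := exists_flat_map A R₁ R₂ q.asIdeal.ResidueField
    P₁.asIdeal.ResidueField
  let _ : Algebra (q.asIdeal.Fiber R₂) (P₁.asIdeal.Fiber (R₁ ⊗[A] R₂)) := φ.toAlgebra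
  have : Module.Flat (q.asIdeal.Fiber R₂) (P₁.asIdeal.Fiber (R₁ ⊗[A] R₂)) := hφflat
  have : Algebra.HasGoingDown (q.asIdeal.Fiber R₂) (P₁.asIdeal.Fiber (R₁ ⊗[A] R₂)) :=
    Algebra.HasGoingDown.of_flat
  have hF : IsNoetherianRing (q.asIdeal.Fiber R₂) := isNoetherianRing_fiber q.asIdeal
  have hG : IsNoetherianRing (P₁.asIdeal.Fiber (R₁ ⊗[A] R₂)) := isNoetherianRing_fiber P₁.asIdeal
  have m₂ : P₂ ∈ PrimeSpectrum.comap (algebraMap A R₂) ⁻¹' {q} := hP₂.symm
  have m₁ : (⟨Q, inferInstance⟩ : PrimeSpectrum (R₁ ⊗[A] R₂)) ∈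
      PrimeSpectrum.comap (algebraMap R₁ (R₁ ⊗[A] R₂)) ⁻¹' {P₁} := rfl
  let PF := PrimeSpectrum.preimageOrderIsoFiber A R₂ q ⟨P₂, m₂⟩
  let QG := PrimeSpectrum.preimageOrderIsoFiber R₁ (R₁ ⊗[A] R₂) P₁ ⟨_, m₁⟩
  have hcom : PrimeSpectrum.comap φ QG = PF := by
    apply (PrimeSpectrum.preimageOrderIsoFiber A R₂ q).symm.injective
    rw [OrderIso.symm_apply_apply]
    apply Subtype.ext
    apply PrimeSpectrum.ext
    ext r
    have h1 : r ∈ (((PrimeSpectrum.preimageOrderIsoFiber A R₂ q).symm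
        (PrimeSpectrum.comap φ QG)).1).asIdeal ↔ φ (1 ⊗ₜ r) ∈ QG.asIdeal := by
      rfl
    have h2 : ((PrimeSpectrum.preimageOrderIsoFiber R₁ (R₁ ⊗[A] R₂) P₁).symm QG) = ⟨_, m₁⟩ :=
      OrderIso.symm_apply_apply _ _
    have h3 : ∀ x : R₁ ⊗[A] R₂, x ∈ Q ↔ ((1 : P₁.asIdeal.ResidueField) ⊗ₜ x) ∈ QG.asIdeal := by
      intro x
      have h4 : x ∈ (((PrimeSpectrum.preimageOrderIsoFiber R₁ (R₁ ⊗[A] R₂) P₁).symm QG).1).asIdeal
          ↔ ((1 : P₁.asIdeal.ResidueField) ⊗ₜ x) ∈ QG.asIdeal := by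
        rfl
      rw [h2] at h4
      exact h4
    rw [h1, hφ, ← h3]
    rfl
  have i1 : P₂.asIdeal.LiesOver q.asIdeal := ⟨congrArg PrimeSpectrum.asIdeal hP₂⟩
  have i2 : Q.LiesOver P₁.asIdeal := ⟨rfl⟩
  have i3 : QG.asIdeal.LiesOver PF.asIdeal := ⟨(congrArg PrimeSpectrum.asIdeal hcom).symm⟩
  have h1 := Ideal.height_le_height_add_of_liesOver q.asIdeal P₂.asIdeal
  have h2 := Ideal.height_eq_height_add_of_liesOver_of_hasGoingDown PF.asIdeal QG.asIdeal
  have hflat1 : Module.Flat R₁ (R₁ ⊗[A] R₂) := inferInstance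
  have hgd1 : Algebra.HasGoingDown R₁ (R₁ ⊗[A] R₂) := Algebra.HasGoingDown.of_flat
  have h3 := Ideal.height_eq_height_add_of_liesOver_of_hasGoingDown P₁.asIdeal Q
  have h4 := height_quot_eq_fiber q P₂ m₂
  have h5 := height_quot_eq_fiber P₁ ⟨Q, inferInstance⟩ m₁
  have h6 : PF.asIdeal.height ≤ QG.asIdeal.height := by
    rw [h2]
    exact le_self_add
  change P₁.asIdeal.height + P₂.asIdeal.height ≤ Q.height + q.asIdeal.height
  rw [h4] at h1
  rw [h3]
  change (Q.map _).height = QG.asIdeal.height at h5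
  rw [h5]
  calc P₁.asIdeal.height + P₂.asIdeal.height ≤
      P₁.asIdeal.height + (q.asIdeal.height + PF.asIdeal.height) := by gcongr
    _ ≤ P₁.asIdeal.height + (q.asIdeal.height + QG.asIdeal.height) := by gcongr
    _ = _ := by ring

end

end Vale.Agent.P177
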