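import Vale.Agent.P177.GlobalPos
import Vale.Agent.P177.CotangentRegular
import Vale.Agent.P177.HeightBound

/-!
Positivity for essentially smooth algebras over a regular local ring of small dimension, from the
local positivity statement.
-/

namespace Vale.Agent.P177

open CategoryTheory TensorProduct Function IsLocalRing RingTheory.Sequence Pointwise

universe u

/-- `global_pos` with explicit ring homomorphisms. -/
theorem global_pos_hom {R₁ R₂ T : Type u} [CommRing R₁] [CommRing R₂] [CommRing T]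
    [IsRegularLocalRing R₁] [IsRegularLocalRing R₂] [IsRegularLocalRing T]
    (i₁ : R₁ →+* T) (i₂ : R₂ →+* T) (h₁ : i₁.Flat) (h₂ : i₂.Flat)
    (a : ℕ) (hLoc : LocPos.{u} a)
    (μ : T →+* R₁) (hμ : ∀ s, μ (i₁ s) = s) (z : List T)
    (hkerμ : RingHom.ker μ = Ideal.ofList z) (hz : IsWeaklyRegular T z)
    (θ : R₂ ≃+* R₁) (hθ : ∀ s, μ (i₂ s) = θ s)
    (d : ℕ) (hd : ringKrullDim R₁ = d)
    (hb : ∀ (Q : Ideal T) [Q.IsPrime] (r₁ r₂ q : ℕ), (Q.comap i₁).height = r₁ →
      (Q.comap i₂).height = r₂ → Q.height = q → r₁ + r₂ ≤ q + a)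
    (M N : Type u) [AddCommGroup M] [Module R₂ M] [Module.Finite R₂ M]
    [AddCommGroup N] [Module R₁ N] [Module R₂ N] [Module.Finite R₁ N]
    (hN : ∀ (s : R₂) (t : N), s • t = θ s • t)
    (hlen : Module.length R₂ (M ⊗[R₂] N) ≠ ⊤) :
    0 ≤ eulerTor R₂ (d + 1) M N ∧ ∀ m n : ℕ, (m : WithBot ℕ∞) ≤ Module.supportDim R₂ M →
      (n : WithBot ℕ∞) ≤ Module.supportDim R₁ N →
      (m + n ≤ d) ∧ (d ≤ m + n → 0 < eulerTor R₂ (d + 1) M N) := by
  let _ : Algebra R₁ T := i₁.toAlgebra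
  let _ : Algebra R₂ T := i₂.toAlgebra
  have : Module.Flat R₁ T := h₁
  have : Module.Flat R₂ T := h₂
  exact global_pos a hLoc μ hμ z hkerμ hz θ hθ d hd hb M N hN hlen

theorem serre_essSmooth (a : ℕ) (hLoc : LocPos.{u} a) (A R : Type u) [CommRing A]
    [IsRegularLocalRing A] (hA : ringKrullDim A ≤ a) [CommRing R] [IsLocalRing R] [Algebra A R]
    [Algebra.EssFiniteType A R] [Algebra.FormallySmooth A R] (d : ℕ) (hd : ringKrullDim R = d)
    (M N : Type u) [AddCommGroup M] [Module R M] [Module.Finite R M]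
    [AddCommGroup N] [Module R N] [Module.Finite R N]
    (hlen : Module.length R (M ⊗[R] N) ≠ ⊤) :
    0 ≤ eulerTor R (d + 1) M N ∧ ∀ m n : ℕ, (m : WithBot ℕ∞) ≤ Module.supportDim R M →
      (n : WithBot ℕ∞) ≤ Module.supportDim R N →
      (m + n ≤ d) ∧ (d ≤ m + n → 0 < eulerTor R (d + 1) M N) := by
  obtain ⟨hR, hflat⟩ := regular_flat_of_essSmooth A R
  let μ₀ : R ⊗[A] R →ₐ[R] R := Algebra.TensorProduct.lift (AlgHom.id R R) (AlgHom.id A R)
    (fun x y => mul_comm _ _)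
  have hμ₀ : ∀ x y, μ₀ (x ⊗ₜ y) = x * y := fun x y => Algebra.TensorProduct.lift_tmul _ _ _ _ _
  let 𝔐 : Ideal (R ⊗[A] R) := (maximalIdeal R).comap μ₀
  have h𝔐 : 𝔐.IsPrime := Ideal.IsPrime.comap _
  have hunit : ∀ y : 𝔐.primeCompl, IsUnit (μ₀ y) := by
    intro y
    by_contra hcon
    exact y.2 ((mem_maximalIdeal _).2 hcon)
  let μ : Localization.AtPrime 𝔐 →ₐ[R] R := IsLocalization.liftAlgHom (M := 𝔐.primeCompl)
    (S := Localization.AtPrime 𝔐) (f := μ₀) hunit
  have hμ : ∀ x, μ (algebraMap _ _ x) = μ₀ x := by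
    intro x
    exact IsLocalization.lift_eq (S := Localization.AtPrime 𝔐) (g := (μ₀ : _ →+* R)) hunit x
  have hμs : Surjective μ := fun s => ⟨algebraMap R _ s, μ.commutes s⟩
  have f1 : Algebra.FormallySmooth (R ⊗[A] R) (Localization.AtPrime 𝔐) :=
    Algebra.FormallySmooth.of_isLocalization 𝔐.primeCompl
  have f2 : Algebra.FormallySmooth R (Localization.AtPrime 𝔐) :=
    Algebra.FormallySmooth.comp R (R ⊗[A] R) (Localization.AtPrime 𝔐)
  obtain ⟨hT, hTflat⟩ := regular_flat_of_essSmooth R (Localization.AtPrime 𝔐)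
  obtain ⟨-, z, hz1, hz2⟩ := exists_regular_list_of_formallySmooth R (Localization.AtPrime 𝔐) R μ
    hμs
  have hN1 : IsNoetherianRing (R ⊗[A] R) := Algebra.EssFiniteType.isNoetherianRing R (R ⊗[A] R)
  have hflat1 : (algebraMap R (Localization.AtPrime 𝔐)).Flat := by
    rw [RingHom.flat_algebraMap_iff]
    exact hTflat
  have hflat2 : ((algebraMap (R ⊗[A] R) (Localization.AtPrime 𝔐)).comp
      ((Algebra.TensorProduct.includeRight : R →ₐ[A] R ⊗[A] R) : R →+* R ⊗[A] R)).Flat := by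
    refine (flat_includeRight A R R).comp ?_
    rw [RingHom.flat_algebraMap_iff]
    exact IsLocalization.flat _ 𝔐.primeCompl
  refine global_pos_hom (algebraMap R (Localization.AtPrime 𝔐))
    ((algebraMap (R ⊗[A] R) (Localization.AtPrime 𝔐)).comp
      ((Algebra.TensorProduct.includeRight : R →ₐ[A] R ⊗[A] R) : R →+* R ⊗[A] R))
    hflat1 hflat2 a hLoc (μ : Localization.AtPrime 𝔐 →+* R) (fun s => μ.commutes s) z hz1.symm hz2
    (RingEquiv.refl R) ?_ d hd ?_ M N (fun s t => rfl) hlen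
  · intro s
    change μ (algebraMap (R ⊗[A] R) _ (1 ⊗ₜ s)) = s
    rw [hμ, hμ₀, one_mul]
  · intro Q hQ r₁ r₂ q h₁ h₂ hq
    have hQ' : (Q.comap (algebraMap (R ⊗[A] R) (Localization.AtPrime 𝔐))).IsPrime :=
      Ideal.IsPrime.comap _
    have h5 := height_bound (Q.comap (algebraMap (R ⊗[A] R) (Localization.AtPrime 𝔐)))
    have h6 : (Q.comap (algebraMap (R ⊗[A] R) (Localization.AtPrime 𝔐))).height = q := by
      rw [← hq]
      exact IsLocalization.height_under 𝔐.primeCompl Q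
    have h7 : ((Q.comap (algebraMap (R ⊗[A] R) (Localization.AtPrime 𝔐))).comap
        (algebraMap R (R ⊗[A] R))).height = r₁ := by
      rw [← h₁, Ideal.comap_comap, ← IsScalarTower.algebraMap_eq]
    have h8 : ((Q.comap (algebraMap (R ⊗[A] R) (Localization.AtPrime 𝔐))).comap
        (Algebra.TensorProduct.includeRight : R →ₐ[A] R ⊗[A] R)).height = r₂ := by
      rw [← h₂]
      rfl
    have hq3 : ((Q.comap (algebraMap (R ⊗[A] R) (Localization.AtPrime 𝔐))).comap
        (algebraMap A (R ⊗[A] R))).IsPrime := Ideal.IsPrime.comap _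
    have h9 := Ideal.height_le_ringKrullDim_of_ne_top hq3.ne_top
    have h10 := h9.trans hA
    have h11 : ((Q.comap (algebraMap (R ⊗[A] R) (Localization.AtPrime 𝔐))).comap
        (algebraMap A (R ⊗[A] R))).height ≤ (a : ℕ∞) := by exact_mod_cast h10
    rw [h6, h7, h8] at h5
    have h12 : ((r₁ : ℕ∞) + r₂) ≤ q + a := h5.trans (by gcongr)
    exact_mod_cast h12

end Vale.Agent.P177
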