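import Vale.Agent.P177.CPsA
import Vale.Agent.P177.Diagonal
import Vale.Agent.P177.EssSmooth

/-!
Power series rings over a regular local ring of small dimension.
-/

namespace Vale.Agent.P177

open CategoryTheory TensorProduct Function IsLocalRing RingTheory.Sequence Pointwise

section general

/-- Kernel of a retraction. -/
theorem ker_le_of_retraction_ideal {S B : Type*} [CommRing S] (I : Ideal S)
    [IsAdicComplete I S] [CommRing B] [IsLocalRing B] [IsNoetherianRing B]
    (i : S →+* B) (π : B →+* S) (hπ : π.comp i = RingHom.id S) (J J' : Ideal B)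
    (hJ : J ≤ RingHom.ker π) (hJ' : J' ≤ maximalIdeal B) (hm : I.map i ⊔ J = J')
    (hres : ∀ b : B, ∃ s : S, b - i s ∈ J') : RingHom.ker π = J := by
  apply le_antisymm _ hJ
  have hJm : J ≤ maximalIdeal B := le_sup_right.trans (hm.le.trans hJ')
  have hnt : Nontrivial (B ⧸ J) :=
    Ideal.Quotient.nontrivial_iff.mpr (fun h => (maximalIdeal.isMaximal B).ne_top
      (top_le_iff.mp (h ▸ hJm)))
  have hloc : IsLocalRing (B ⧸ J) :=
    IsLocalRing.of_surjective' (Ideal.Quotient.mk J) Ideal.Quotient.mk_surjective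
  let f : S →+* B ⧸ J := (Ideal.Quotient.mk J).comp i
  have hmap : I.map f = J'.map (Ideal.Quotient.mk J) := by
    rw [← Ideal.map_map, ← hm, Ideal.map_sup, Ideal.map_quotient_self, sup_bot_eq]
  have hle : (maximalIdeal B).map (Ideal.Quotient.mk J) ≤ maximalIdeal (B ⧸ J) :=
    (map_maximalIdeal_of_surjective _ Ideal.Quotient.mk_surjective).le
  have hH : IsHausdorff (I.map f) (B ⧸ J) := by
    rw [hmap]
    refine IsHausdorff.of_isLocalRing _ _ (fun h => ?_)
    have h1 : (⊤ : Ideal (B ⧸ J)) ≤ maximalIdeal (B ⧸ J) :=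
      h ▸ (Ideal.map_mono hJ').trans hle
    exact (maximalIdeal.isMaximal (B ⧸ J)).ne_top (top_le_iff.mp h1)
  have hsurj : Function.Surjective f := by
    apply surjective_of_mk_map_comp_surjective (I := I) f
    intro y
    obtain ⟨y, rfl⟩ := Ideal.Quotient.mk_surjective y
    obtain ⟨b, rfl⟩ := Ideal.Quotient.mk_surjective y
    obtain ⟨s, hs⟩ := hres b
    refine ⟨s, ?_⟩
    rw [RingHom.comp_apply, Ideal.Quotient.mk_eq_mk_iff_sub_mem, hmap, ← neg_mem_iff, neg_sub]
    exact Ideal.mem_map_of_mem _ hs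
  intro b hb
  obtain ⟨s, hs⟩ := hsurj (Ideal.Quotient.mk J b)
  have h1 : i s - b ∈ J := by
    rw [← Ideal.Quotient.mk_eq_mk_iff_sub_mem]
    exact hs
  have h2 : π (i s - b) = 0 := hJ h1
  have h3 : π (i s) = s := RingHom.congr_fun hπ s
  rw [map_sub, h3, RingHom.mem_ker.mp hb, sub_zero] at h2
  rw [h2, map_zero, zero_sub, neg_mem_iff] at h1
  exact h1

/-- A criterion for regularity. -/
theorem isRegularLocalRing_of_list {B : Type*} [CommRing B] [IsLocalRing B] [IsNoetherianRing B]
    (rs : List B) (h : Ideal.ofList rs = maximalIdeal B)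
    (hle : (rs.length : WithBot ℕ∞) ≤ ringKrullDim B) :
    IsRegularLocalRing B ∧ ringKrullDim B = rs.length := by
  classical
  have h1 : (maximalIdeal B).spanFinrank ≤ rs.length := by
    rw [← h, Ideal.ofList]
    have h2 : {r | r ∈ rs} = (rs.toFinset : Set B) := by
      ext x
      simp
    rw [h2]
    refine (Submodule.spanFinrank_span_le_ncard_of_finite (Finset.finite_toSet _)).trans ?_
    rw [Set.ncard_coe_finset]
    exact List.toFinset_card_le rs
  have h3 : ((maximalIdeal B).spanFinrank : WithBot ℕ∞) ≤ rs.length := by exact_mod_cast h1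
  exact ⟨IsRegularLocalRing.of_spanFinrank_maximalIdeal_le B (h3.trans hle),
    le_antisymm ((ringKrullDim_le_spanFinrank_maximalIdeal B).trans h3) hle⟩

variable {σ A : Type*} [Finite σ] [CommRing A] [IsLocalRing A]

theorem mvPowerSeries_maximalIdeal_gen : maximalIdeal (MvPowerSeries σ A) =
    (maximalIdeal A).map (MvPowerSeries.C (σ := σ)) ⊔
      Ideal.span (Set.range MvPowerSeries.X) := by
  apply le_antisymm
  · intro p hp
    have h1 : MvPowerSeries.constantCoeff p ∈ maximalIdeal A := by
      by_contra hne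
      rw [mem_maximalIdeal, mem_nonunits_iff, not_not] at hne
      exact (mem_maximalIdeal p).mp hp (MvPowerSeries.isUnit_iff_constantCoeff.mpr hne)
    have h2 := mem_span_X_of_constantCoeff_eq_zero
      (p - MvPowerSeries.C (MvPowerSeries.constantCoeff p)) (by simp)
    have h3 := Ideal.add_mem _ (Ideal.mem_sup_right h2) (Ideal.mem_sup_left
      (Ideal.mem_map_of_mem (MvPowerSeries.C (σ := σ)) h1))
    rwa [sub_add_cancel] at h3
  · refine sup_le ?_ ?_
    · rw [Ideal.map_le_iff_le_comap]
      intro x hx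
      rw [Ideal.mem_comap, mem_maximalIdeal, mem_nonunits_iff,
        MvPowerSeries.isUnit_iff_constantCoeff, MvPowerSeries.constantCoeff_C]
      exact hx
    · rw [Ideal.span_le]
      rintro _ ⟨i, rfl⟩
      rw [SetLike.mem_coe, mem_maximalIdeal, mem_nonunits_iff,
        MvPowerSeries.isUnit_iff_constantCoeff]
      simp

omit [IsLocalRing A] in
theorem le_ringKrullDim_mvPowerSeries_fin_gen (n : ℕ) [Nontrivial A] :
    ringKrullDim A + n ≤ ringKrullDim (MvPowerSeries (Fin n) A) := by
  induction n with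
  | zero =>
    rw [ringKrullDim_eq_of_ringEquiv (MvPowerSeries.isEmptyEquiv (Fin 0) A).toRingEquiv]
    simp
  | succ n ih =>
    rw [ringKrullDim_eq_of_ringEquiv (MvPowerSeries.finSuccEquiv A n).toRingEquiv]
    refine le_trans ?_ ringKrullDim_succ_le_ringKrullDim_powerseries
    push_cast
    rw [← add_assoc]
    gcongr

omit [IsLocalRing A] in
theorem mvPowerSeries_regular (n : ℕ) (e : σ ≃ Fin n) [IsRegularLocalRing A] {a : ℕ}
    (ha : ringKrullDim A = a) : IsRegularLocalRing (MvPowerSeries σ A) ∧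
      ringKrullDim (MvPowerSeries σ A) = ((a + n : ℕ) : WithBot ℕ∞) := by
  obtain ⟨rs, hrs, hlen⟩ := exists_list_maximalIdeal A
  have hlen' : rs.length = a := by
    rw [ha] at hlen
    exact_mod_cast hlen
  have h1 := isRegularLocalRing_of_list (B := MvPowerSeries σ A)
    (rs.map (MvPowerSeries.C (σ := σ)) ++ List.ofFn (fun j : Fin n => MvPowerSeries.X (e.symm j)))
    (by
      rw [Ideal.ofList_append, ← Ideal.map_ofList, hrs, mvPowerSeries_maximalIdeal_gen]
      congr 1
      rw [Ideal.ofList]
      congr 1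
      ext x
      simp only [List.mem_ofFn, Set.mem_ofPred_eq, Set.mem_range]
      constructor
      · rintro ⟨j, rfl⟩
        exact ⟨_, rfl⟩
      · rintro ⟨j, rfl⟩
        exact ⟨e j, by simp⟩)
    (by
      rw [ringKrullDim_eq_of_ringEquiv (MvPowerSeries.renameEquiv A e).toRingEquiv]
      refine le_trans ?_ (le_ringKrullDim_mvPowerSeries_fin_gen n)
      rw [ha]
      simp [hlen'])
  refine ⟨h1.1, ?_⟩
  rw [h1.2]
  simp [hlen']

end general

end Vale.Agent.P177
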