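import Vale.Agent.P177.CLocA

/-!
Systems of parameters and the height inequality for a pair of maps of regular local rings whose
maximal ideals generate the maximal ideal of the target.
-/

namespace Vale.Agent.P177

open IsLocalRing RingTheory.Sequence Function

universe u

/-- Parameters for a quotient of a noetherian local ring. -/
theorem exists_parameters {R : Type u} [CommRing R] [IsLocalRing R] [IsNoetherianRing R]
    (P : Ideal R) (hP : P ≠ ⊤) (n : ℕ) (hn : Module.supportDim R (R ⧸ P) = (n : WithBot ℕ∞)) :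
    ∃ xs : List R, xs.length = n ∧ (∀ x ∈ xs, x ∈ maximalIdeal R) ∧
      maximalIdeal R ≤ (P ⊔ Ideal.ofList xs).radical := by
  have hnt : Nontrivial (R ⧸ P) := Ideal.Quotient.nontrivial_iff.2 hP
  have hloc : IsLocalRing (R ⧸ P) :=
    .of_surjective' (Ideal.Quotient.mk P) Ideal.Quotient.mk_surjective
  obtain ⟨s, hs, hcard⟩ :=
    Ideal.exists_finset_card_eq_height_of_isNoetherianRing (maximalIdeal (R ⧸ P))
  have hdim : ((maximalIdeal (R ⧸ P)).height : WithBot ℕ∞) = (n : WithBot ℕ∞) := by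
    rw [IsLocalRing.maximalIdeal_height_eq_ringKrullDim, ← hn,
      Module.supportDim_quotient_eq_ringKrullDim]
  have hcard' : s.card = n := by
    have h1 : ((s.card : ℕ∞) : WithBot ℕ∞) = (n : WithBot ℕ∞) := by rw [hcard, hdim]
    exact_mod_cast h1
  have hrad : maximalIdeal (R ⧸ P) ≤ (Ideal.span (s : Set (R ⧸ P))).radical := by
    rw [Ideal.radical_eq_sInf]
    refine le_sInf ?_
    rintro q ⟨hq1, hq⟩
    exact hs.2 ⟨hq, hq1⟩ (le_maximalIdeal hq.ne_top)
  refine ⟨s.toList.map (surjInv (Ideal.Quotient.mk_surjective (I := P))), by simpa using hcard',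
    ?_, ?_⟩
  · intro x hx
    rw [List.mem_map] at hx
    obtain ⟨y, hy, rfl⟩ := hx
    have hy' : y ∈ maximalIdeal (R ⧸ P) := hs.1.2 (Ideal.subset_span (by simpa using hy))
    rw [mem_maximalIdeal, mem_nonunits_iff]
    intro hu
    rw [mem_maximalIdeal, mem_nonunits_iff] at hy'
    apply hy'
    rw [← surjInv_eq (Ideal.Quotient.mk_surjective (I := P)) y]
    exact hu.map _
  intro x hx
  have h1 : Ideal.Quotient.mk P x ∈ maximalIdeal (R ⧸ P) := by
    have h2 : (maximalIdeal R).map (Ideal.Quotient.mk P) = maximalIdeal (R ⧸ P) :=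
      map_maximalIdeal_of_surjective _ Ideal.Quotient.mk_surjective
    rw [← h2]
    exact Ideal.mem_map_of_mem _ hx
  obtain ⟨k, hk⟩ := hrad h1
  refine ⟨k, ?_⟩
  have h3 : Ideal.span (s : Set (R ⧸ P)) ≤ (Ideal.ofList (s.toList.map
      (surjInv (Ideal.Quotient.mk_surjective (I := P))))).map (Ideal.Quotient.mk P) := by
    rw [Ideal.span_le]
    intro y hy
    rw [← surjInv_eq (Ideal.Quotient.mk_surjective (I := P)) y]
    apply Ideal.mem_map_of_mem
    apply Ideal.subset_span
    exact List.mem_map.2 ⟨y, by simpa using hy, rfl⟩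
  have h4 := h3 hk
  rw [← map_pow, Ideal.mem_map_iff_of_surjective _ Ideal.Quotient.mk_surjective] at h4
  obtain ⟨y, hy, hxy⟩ := h4
  rw [eq_comm, Ideal.Quotient.mk_eq_mk_iff_sub_mem] at hxy
  have h5 := Ideal.add_mem _ (Ideal.mem_sup_left hxy) (Ideal.mem_sup_right hy)
  rwa [sub_add_cancel] at h5

/-- Height inequality. -/
theorem height_le_of_sup {R T : Type u} [CommRing R] [CommRing T] [IsRegularLocalRing R]
    [IsRegularLocalRing T] (i₁ i₂ : R →+* T) {d t a : ℕ} (hd : ringKrullDim R = d)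
    (ht : ringKrullDim T = t)
    (hsup : (maximalIdeal R).map i₁ ⊔ (maximalIdeal R).map i₂ = maximalIdeal T)
    (ha : 2 * d ≤ t + a) (Q : Ideal T) [hQ : Q.IsPrime] (r₁ r₂ q : ℕ)
    (h1 : (Q.comap i₁).height = r₁) (h2 : (Q.comap i₂).height = r₂) (hq : Q.height = q) :
    r₁ + r₂ ≤ q + a := by
  obtain ⟨zs, -, -, hzl, hzh, hzd, -⟩ := exists_ci ht Q
  obtain ⟨ws, -, -, hwl, hwh, hwd, -⟩ := exists_ci hd (Q.comap i₁)
  obtain ⟨vs, -, -, hvl, hvh, hvd, -⟩ := exists_ci hd (Q.comap i₂)
  obtain ⟨xs, hxl, hxm, hx⟩ := exists_parameters (Q.comap i₁)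
    (Ideal.comap_ne_top i₁ hQ.ne_top) _ hwd
  obtain ⟨ys, hyl, hym, hy⟩ := exists_parameters (Q.comap i₂)
    (Ideal.comap_ne_top i₂ hQ.ne_top) _ hvd
  have hcov : ∀ (i : R →+* T) (us : List R),
      maximalIdeal R ≤ (Q.comap i ⊔ Ideal.ofList us).radical →
      (maximalIdeal R).map i ≤ (Q ⊔ Ideal.ofList (us.map i)).radical := by
    intro i us hus
    refine (Ideal.map_mono hus).trans ((Ideal.map_radical_le _).trans (Ideal.radical_mono ?_))
    rw [Ideal.map_sup]
    refine sup_le_sup Ideal.map_comap_le ?_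
    rw [Ideal.map_ofList]
  have hFL : FL (xs.map i₁ ++ ys.map i₂) (T ⧸ Q) := by
    unfold FL
    rw [Ideal.annihilator_quotient]
    refine hsup.ge.trans (sup_le ((hcov i₁ xs hx).trans (Ideal.radical_mono ?_))
      ((hcov i₂ ys hy).trans (Ideal.radical_mono ?_)))
    · rw [Ideal.ofList_append]
      exact sup_le_sup le_rfl le_sup_left
    · rw [Ideal.ofList_append]
      exact sup_le_sup le_rfl le_sup_right
  have hmem : ∀ z ∈ xs.map i₁ ++ ys.map i₂, z ∈ maximalIdeal T := by
    intro z hz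
    rw [List.mem_append, List.mem_map, List.mem_map] at hz
    rw [← hsup]
    rcases hz with ⟨x, hx, rfl⟩ | ⟨y, hy, rfl⟩
    · exact Ideal.mem_sup_left (Ideal.mem_map_of_mem _ (hxm x hx))
    · exact Ideal.mem_sup_right (Ideal.mem_map_of_mem _ (hym y hy))
  have hle := supportDim_le_length _ hmem _ hFL
  rw [hzd, List.length_append, List.length_map, List.length_map, hxl, hyl] at hle
  have hle' : t - zs.length ≤ (d - ws.length) + (d - vs.length) := by exact_mod_cast hle
  rw [h1] at hwh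
  rw [h2] at hvh
  rw [hq] at hzh
  have e1 : r₁ = ws.length := by exact_mod_cast hwh
  have e2 : r₂ = vs.length := by exact_mod_cast hvh
  have e3 : q = zs.length := by exact_mod_cast hzh
  omega

end Vale.Agent.P177
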