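import Vale.Agent.P177.CPs

/-!
Serre's statements for power series rings over a regular local ring of small dimension.
-/

namespace Vale.Agent.P177

open CategoryTheory TensorProduct Function IsLocalRing RingTheory.Sequence Pointwise

section

variable (A : Type*) [CommRing A] (n : ℕ)

theorem idealX_eq_sup :
    (Ideal.span (Set.range MvPowerSeries.X) : Ideal (MvPowerSeries (Fin n ⊕ Fin n) A)) =
      Ideal.span (Set.range (fun j : Fin n => MvPowerSeries.X (Sum.inl j))) ⊔
      Ideal.span (Set.range (fun j : Fin n => MvPowerSeries.X (Sum.inr j))) := by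
  rw [← Ideal.span_union]
  congr 1
  ext x
  simp

/-- The diagonal elements. -/
noncomputable def diagListGen : List (MvPowerSeries (Fin n ⊕ Fin n) A) :=
  List.ofFn (fun j : Fin n => MvPowerSeries.X (Sum.inl j) - MvPowerSeries.X (Sum.inr j))

theorem ofList_diagListGen : Ideal.ofList (diagListGen A n) =
    Ideal.span (Set.range (fun j : Fin n =>
      (MvPowerSeries.X (Sum.inl j) - MvPowerSeries.X (Sum.inr j) :
        MvPowerSeries (Fin n ⊕ Fin n) A))) := by
  rw [Ideal.ofList, diagListGen]
  congr 1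
  ext x
  simp [List.mem_ofFn]

theorem map_idealX_rename (e : Fin n ↪ Fin n ⊕ Fin n) :
    (Ideal.span (Set.range MvPowerSeries.X) : Ideal (MvPowerSeries (Fin n) A)).map
      (MvPowerSeries.rename (R := A) e).toRingHom =
      Ideal.span (Set.range (fun j : Fin n => MvPowerSeries.X (e j))) := by
  rw [Ideal.map_span, ← Set.range_comp]
  congr 2
  ext1 j
  exact MvPowerSeries.rename_X e j

theorem idealX_eq_sup' :
    (Ideal.span (Set.range MvPowerSeries.X) : Ideal (MvPowerSeries (Fin n ⊕ Fin n) A)) =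
      Ideal.span (Set.range (fun j : Fin n => MvPowerSeries.X (Sum.inl j))) ⊔
      Ideal.ofList (diagListGen A n) := by
  rw [idealX_eq_sup, ofList_diagListGen]
  apply le_antisymm
  · refine sup_le le_sup_left ?_
    rw [Ideal.span_le]
    rintro _ ⟨j, rfl⟩
    have h1 : (MvPowerSeries.X (Sum.inl j) : MvPowerSeries (Fin n ⊕ Fin n) A) ∈
        Ideal.span (Set.range (fun j : Fin n =>
          (MvPowerSeries.X (Sum.inl j) : MvPowerSeries (Fin n ⊕ Fin n) A))) :=
      Ideal.subset_span ⟨j, rfl⟩
    have h2 : (MvPowerSeries.X (Sum.inl j) - MvPowerSeries.X (Sum.inr j) :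
        MvPowerSeries (Fin n ⊕ Fin n) A) ∈ Ideal.span (Set.range (fun j : Fin n =>
          (MvPowerSeries.X (Sum.inl j) - MvPowerSeries.X (Sum.inr j) :
          MvPowerSeries (Fin n ⊕ Fin n) A))) :=
      Ideal.subset_span ⟨j, rfl⟩
    have h3 := Ideal.sub_mem _ (Ideal.mem_sup_left h1) (Ideal.mem_sup_right h2)
    rwa [sub_sub_cancel] at h3
  · refine sup_le le_sup_left ?_
    rw [Ideal.span_le]
    rintro _ ⟨j, rfl⟩
    exact Ideal.sub_mem _ (Ideal.mem_sup_left (Ideal.subset_span ⟨j, rfl⟩))
      (Ideal.mem_sup_right (Ideal.subset_span ⟨j, rfl⟩))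

theorem sub_C_mem_gen (σ : Type*) [Finite σ] (b : MvPowerSeries σ A) :
    b - MvPowerSeries.C (MvPowerSeries.constantCoeff b) ∈
      (Ideal.span (Set.range MvPowerSeries.X) : Ideal (MvPowerSeries σ A)) := by
  apply mem_span_X_of_constantCoeff_eq_zero
  simp

variable [IsRegularLocalRing A]

theorem isWeaklyRegular_diagListGen {a : ℕ} (ha : ringKrullDim A = a) :
    IsWeaklyRegular (MvPowerSeries (Fin n ⊕ Fin n) A) (diagListGen A n) := by
  obtain ⟨hreg, hdim⟩ := mvPowerSeries_regular (A := A) (n + n) (finSumFinEquiv (m := n) (n := n)) ha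
  obtain ⟨rs, hrs, hlen⟩ := exists_list_maximalIdeal A
  have hlen' : rs.length = a := by
    rw [ha] at hlen
    exact_mod_cast hlen
  have h1 := isRegular_of_ofList_eq_maximalIdeal (MvPowerSeries (Fin n ⊕ Fin n) A)
    (diagListGen A n ++ (List.ofFn (fun j : Fin n => MvPowerSeries.X (Sum.inl j)) ++
      rs.map (MvPowerSeries.C (σ := Fin n ⊕ Fin n)))) (by
      rw [Ideal.ofList_append, Ideal.ofList_append, ← Ideal.map_ofList, hrs,
        mvPowerSeries_maximalIdeal_gen, idealX_eq_sup', ← sup_assoc, sup_comm,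
        sup_comm (Ideal.ofList (diagListGen A n))]
      congr 2
      rw [Ideal.ofList]
      congr 1
      ext x
      simp [List.mem_ofFn]) (by
      rw [hdim]
      simp only [List.length_append, List.length_ofFn, List.length_map, hlen', diagListGen]
      congr 1
      omega)
  exact ((isWeaklyRegular_append_iff _ _ _).mp h1.toIsWeaklyRegular).1

end

universe u

/-- Serre's statements for power series rings over a regular local ring. -/
theorem serre_powerSeries (a : ℕ) (hLoc : LocPos.{u} a) (A : Type u) [CommRing A]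
    [IsRegularLocalRing A] (hA : ringKrullDim A ≤ a) (n : ℕ) (d : ℕ)
    (hd : ringKrullDim (MvPowerSeries (Fin n) A) = d)
    (M N : Type u) [AddCommGroup M] [Module (MvPowerSeries (Fin n) A) M]
    [Module.Finite (MvPowerSeries (Fin n) A) M]
    [AddCommGroup N] [Module (MvPowerSeries (Fin n) A) N]
    [Module.Finite (MvPowerSeries (Fin n) A) N]
    (hlen : Module.length (MvPowerSeries (Fin n) A) (M ⊗[MvPowerSeries (Fin n) A] N) ≠ ⊤) :
    0 ≤ eulerTor (MvPowerSeries (Fin n) A) (d + 1) M N ∧ ∀ m n' : ℕ,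
      (m : WithBot ℕ∞) ≤ Module.supportDim (MvPowerSeries (Fin n) A) M →
      (n' : WithBot ℕ∞) ≤ Module.supportDim (MvPowerSeries (Fin n) A) N →
      (m + n' ≤ d) ∧ (d ≤ m + n' → 0 < eulerTor (MvPowerSeries (Fin n) A) (d + 1) M N) := by
  obtain ⟨a', ha'⟩ : ∃ a' : ℕ, ringKrullDim A = a' := by
    obtain ⟨rs, -, hlen⟩ := exists_list_maximalIdeal A
    exact ⟨_, hlen.symm⟩
  have haa : a' ≤ a := by
    rw [ha'] at hA
    exact_mod_cast hA
  obtain ⟨hregR, hdimR⟩ := mvPowerSeries_regular (A := A) n (Equiv.refl (Fin n)) ha'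
  obtain ⟨hregT, hdimT⟩ :=
    mvPowerSeries_regular (A := A) (n + n) (finSumFinEquiv (m := n) (n := n)) ha'
  have hcomp : IsAdicComplete (Ideal.span (Set.range MvPowerSeries.X) :
    Ideal (MvPowerSeries (Fin n) A)) (MvPowerSeries (Fin n) A) := inferInstance
  have hker : RingHom.ker (MvPowerSeries.rename (R := A)
      (Sum.elim id id : Fin n ⊕ Fin n → Fin n)).toRingHom = Ideal.ofList (diagListGen A n) := by
    refine ker_le_of_retraction_ideal (Ideal.span (Set.range MvPowerSeries.X))
      (MvPowerSeries.rename (R := A) (Embedding.inl : Fin n ↪ Fin n ⊕ Fin n)).toRingHom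
      _ ?_ (Ideal.ofList (diagListGen A n)) (Ideal.span (Set.range MvPowerSeries.X)) ?_ ?_ ?_ ?_
    · ext1 p
      change MvPowerSeries.rename (Sum.elim id id) (MvPowerSeries.rename
        (Function.Embedding.inl : Fin n ↪ Fin n ⊕ Fin n) p) = p
      rw [MvPowerSeries.rename_rename]
      exact MvPowerSeries.rename_id_apply p
    · rw [ofList_diagListGen, Ideal.span_le]
      rintro _ ⟨j, rfl⟩
      change MvPowerSeries.rename (Sum.elim id id) _ = 0
      rw [map_sub, MvPowerSeries.rename_X, MvPowerSeries.rename_X]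
      simp
    · rw [mvPowerSeries_maximalIdeal_gen]
      exact le_sup_right
    · rw [map_idealX_rename, idealX_eq_sup']
      rfl
    · intro b
      refine ⟨MvPowerSeries.C (MvPowerSeries.constantCoeff b), ?_⟩
      have h1 : (MvPowerSeries.rename (R := A)
          (Function.Embedding.inl : Fin n ↪ Fin n ⊕ Fin n)).toRingHom
          (MvPowerSeries.C (MvPowerSeries.constantCoeff b)) =
          MvPowerSeries.C (MvPowerSeries.constantCoeff b) := MvPowerSeries.rename_C _ _
      rw [h1]
      exact sub_C_mem_gen A _ b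
  have hsup : (maximalIdeal (MvPowerSeries (Fin n) A)).map (MvPowerSeries.rename (R := A)
      (Embedding.inl : Fin n ↪ Fin n ⊕ Fin n)).toRingHom ⊔
      (maximalIdeal (MvPowerSeries (Fin n) A)).map (MvPowerSeries.rename (R := A)
      (Embedding.inr : Fin n ↪ Fin n ⊕ Fin n)).toRingHom =
      maximalIdeal (MvPowerSeries (Fin n ⊕ Fin n) A) := by
    have hC : ∀ e : Fin n ↪ Fin n ⊕ Fin n, ((maximalIdeal A).map
        (MvPowerSeries.C (σ := Fin n))).map (MvPowerSeries.rename (R := A) e).toRingHom =
        (maximalIdeal A).map (MvPowerSeries.C (σ := Fin n ⊕ Fin n)) := by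
      intro e
      rw [Ideal.map_map]
      congr 1
      ext1 x
      exact MvPowerSeries.rename_C _ _
    rw [mvPowerSeries_maximalIdeal_gen, mvPowerSeries_maximalIdeal_gen, Ideal.map_sup,
      Ideal.map_sup, map_idealX_rename, map_idealX_rename, hC, hC, ← sup_sup_distrib_left,
      idealX_eq_sup]
    rfl
  have hdd : d = a' + n := by
    rw [hd] at hdimR
    exact_mod_cast hdimR
  refine global_pos_hom
    (MvPowerSeries.rename (R := A) (Embedding.inl : Fin n ↪ Fin n ⊕ Fin n)).toRingHom
    (MvPowerSeries.rename (R := A) (Embedding.inr : Fin n ↪ Fin n ⊕ Fin n)).toRingHom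
    (flat_rename _) (flat_rename _) a hLoc
    (MvPowerSeries.rename (R := A) (Sum.elim id id : Fin n ⊕ Fin n → Fin n)).toRingHom ?_
    (diagListGen A n) hker (isWeaklyRegular_diagListGen A n ha')
    (RingEquiv.refl _) ?_ d hd ?_ M N (fun s t => rfl) hlen
  · intro p
    change MvPowerSeries.rename (Sum.elim id id) (MvPowerSeries.rename
      (Function.Embedding.inl : Fin n ↪ Fin n ⊕ Fin n) p) = p
    rw [MvPowerSeries.rename_rename]
    exact MvPowerSeries.rename_id_apply p
  · intro p
    change MvPowerSeries.rename (Sum.elim id id) (MvPowerSeries.rename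
      (Function.Embedding.inr : Fin n ↪ Fin n ⊕ Fin n) p) = p
    rw [MvPowerSeries.rename_rename]
    exact MvPowerSeries.rename_id_apply p
  · intro Q hQ r₁ r₂ q h₁ h₂ hq
    have h3 := height_le_of_sup _ _ hdimR hdimT hsup (a := a') (by omega) Q r₁ r₂ q h₁ h₂ hq
    omega

end Vale.Agent.P177
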