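import Vale.Agent.P177.CLocA
import Vale.Agent.P177.CPs
import Vale.Agent.P177.RegularLocalization

/-!
The extended Rees algebra of the maximal ideal of a regular local ring.
-/

namespace Vale.Agent.P177

open MvPolynomial IsLocalRing RingTheory.Sequence Function

universe u

section defs

variable {A : Type u} [CommRing A] {d : ℕ} (x : Fin d → A)

/-- Equations of the extended Rees algebra of the ideal generated by `x`. -/
noncomputable def reesIdeal : Ideal (MvPolynomial (Option (Fin d)) A) :=
  Ideal.span (Set.range fun i : Fin d => C (x i) - X none * X (some i))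

/-- The extended Rees algebra (for a regular system of parameters `x`). -/
abbrev ERees := MvPolynomial (Option (Fin d)) A ⧸ reesIdeal x

/-- The inverse `τ` of the Rees variable. -/
noncomputable def eT : ERees x := Ideal.Quotient.mk _ (X none)

/-- The element `x i * t` of the extended Rees algebra. -/
noncomputable def eY (i : Fin d) : ERees x := Ideal.Quotient.mk _ (X (some i))

theorem algebraMap_rees (i : Fin d) : algebraMap A (ERees x) (x i) = eT x * eY x i := by
  have h : (C (x i) - X none * X (some i) : MvPolynomial (Option (Fin d)) A) ∈ reesIdeal x :=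
    Ideal.subset_span ⟨i, rfl⟩
  rw [eT, eY, ← map_mul, ← sub_eq_zero]
  change Ideal.Quotient.mk _ (C (x i)) - _ = _
  rw [← map_sub]
  exact Ideal.Quotient.eq_zero_iff_mem.2 h

/-- A ring homomorphism out of the extended Rees algebra. -/
noncomputable def eLift {B : Type*} [CommRing B] (f : A →+* B) (t : B) (y : Fin d → B)
    (h : ∀ i, f (x i) = t * y i) : ERees x →+* B :=
  Ideal.Quotient.lift _ (eval₂Hom f (fun o : Option (Fin d) => o.elim t y)) (by
    intro a ha
    have h1 : reesIdeal x ≤ RingHom.ker (eval₂Hom f (fun o : Option (Fin d) => o.elim t y)) := by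
      refine Ideal.span_le.2 ?_
      rintro _ ⟨i, rfl⟩
      simp [h i]
    exact h1 ha)

variable {x}

@[simp]
theorem eLift_algebraMap {B : Type*} [CommRing B] (f : A →+* B) (t : B) (y : Fin d → B)
    (h : ∀ i, f (x i) = t * y i) (a : A) : eLift x f t y h (algebraMap A _ a) = f a := by
  change eval₂Hom f (fun o : Option (Fin d) => o.elim t y) (C a) = _
  simp

@[simp]
theorem eLift_eT {B : Type*} [CommRing B] (f : A →+* B) (t : B) (y : Fin d → B)
    (h : ∀ i, f (x i) = t * y i) : eLift x f t y h (eT x) = t := by
  change eval₂Hom f (fun o : Option (Fin d) => o.elim t y) (X none) = _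
  simp

@[simp]
theorem eLift_eY {B : Type*} [CommRing B] (f : A →+* B) (t : B) (y : Fin d → B)
    (h : ∀ i, f (x i) = t * y i) (i : Fin d) : eLift x f t y h (eY x i) = y i := by
  change eval₂Hom f (fun o : Option (Fin d) => o.elim t y) (X (some i)) = _
  simp

theorem eRees_hom_ext {B : Type*} [CommRing B] {f g : ERees x →+* B}
    (h : ∀ a, f (algebraMap A _ a) = g (algebraMap A _ a)) (hT : f (eT x) = g (eT x))
    (hY : ∀ i, f (eY x i) = g (eY x i)) : f = g := by
  refine Ideal.Quotient.ringHom_ext (MvPolynomial.ringHom_ext (fun a => h a) ?_)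
  rintro (_ | i)
  · exact hT
  · exact hY i

end defs

section res

variable {A : Type u} [CommRing A] [IsLocalRing A] {d : ℕ} {x : Fin d → A}
  (hx : Ideal.span (Set.range x) = maximalIdeal A)

/-- Reduction of the extended Rees algebra modulo `τ`. -/
noncomputable def eRes : ERees x →+* MvPolynomial (Fin d) (ResidueField A) :=
  eLift x (C.comp (residue A)) 0 X (fun i => by
    have : x i ∈ maximalIdeal A := by rw [← hx]; exact Ideal.subset_span ⟨i, rfl⟩
    rw [zero_mul, RingHom.comp_apply, (residue_eq_zero_iff _).2 this, map_zero])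

@[simp]
theorem eRes_algebraMap (a : A) : eRes hx (algebraMap A _ a) = C (residue A a) := by
  simp [eRes]

@[simp]
theorem eRes_eT : eRes hx (eT x) = 0 := by simp [eRes]

@[simp]
theorem eRes_eY (i : Fin d) : eRes hx (eY x i) = X i := by simp [eRes]

theorem eRes_surjective : Surjective (eRes hx) := by
  intro p
  induction p using MvPolynomial.induction_on with
  | C a =>
    obtain ⟨a, rfl⟩ := residue_surjective a
    exact ⟨algebraMap A _ a, eRes_algebraMap hx a⟩
  | add p q hp hq =>
    obtain ⟨p, rfl⟩ := hp
    obtain ⟨q, rfl⟩ := hq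
    exact ⟨p + q, map_add _ _ _⟩
  | mul_X p i hp =>
    obtain ⟨p, rfl⟩ := hp
    exact ⟨p * eY x i, by rw [map_mul, eRes_eY]⟩

theorem eRes_lift {B : Type*} [CommRing B] (q : ERees x →+* B) (hq0 : q (eT x) = 0)
    (F : ERees x) (hF : eRes hx F = 0) : q F = 0 := by
  have hq : ∀ a ∈ maximalIdeal A, (q.comp (algebraMap A _)) a = 0 := by
    intro a ha
    rw [← hx] at ha
    have : Ideal.span (Set.range x) ≤ RingHom.ker (q.comp (algebraMap A _)) := by
      refine Ideal.span_le.2 ?_
      rintro _ ⟨i, rfl⟩
      change q (algebraMap A _ (x i)) = 0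
      rw [algebraMap_rees, map_mul, hq0, zero_mul]
    exact this ha
  let s₀ : ResidueField A →+* B := Ideal.Quotient.lift _ (q.comp (algebraMap A _)) hq
  let s : MvPolynomial (Fin d) (ResidueField A) →+* B := eval₂Hom s₀ (fun i => q (eY x i))
  have hs : s.comp (eRes hx) = q := by
    refine eRees_hom_ext (fun a => ?_) ?_ (fun i => ?_)
    · rw [RingHom.comp_apply, eRes_algebraMap, coe_eval₂Hom, eval₂_C]
      rfl
    · rw [RingHom.comp_apply, eRes_eT, map_zero, hq0]
    · rw [RingHom.comp_apply, eRes_eY, coe_eval₂Hom, eval₂_X]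
  rw [← hs, RingHom.comp_apply, hF, map_zero]

theorem ker_eRes : RingHom.ker (eRes hx) = Ideal.span {eT x} := by
  refine le_antisymm ?_ ?_
  · intro a ha
    rw [← Ideal.Quotient.eq_zero_iff_mem]
    have h0 : Ideal.Quotient.mk (Ideal.span {eT x}) (eT x) = 0 :=
      Ideal.Quotient.eq_zero_iff_mem.2 (Ideal.mem_span_singleton_self _)
    exact eRes_lift (B := ERees x ⧸ Ideal.span {eT x}) hx (Ideal.Quotient.mk _) h0 a ha
  · rw [Ideal.span_le]
    rintro _ rfl
    exact eRes_eT hx

theorem eRes_aeval (F : MvPolynomial (Fin d) A) :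
    eRes hx (aeval (eY x) F) = F.map (residue A) := by
  induction F using MvPolynomial.induction_on with
  | C a => rw [aeval_C, eRes_algebraMap, map_C]
  | add p q hp hq => rw [map_add, map_add, hp, hq, map_add]
  | mul_X p i hp => rw [map_mul, aeval_X, map_mul, hp, eRes_eY, map_mul, map_X]

end res

section loc

/-- The map of localizations induced by a surjective ring homomorphism. -/
theorem exists_localization_surjective {R S : Type*} [CommRing R] [CommRing S] (g : R →+* S)
    (hg : Surjective g) (q : Ideal S) [q.IsPrime] :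
    ∃ G : Localization.AtPrime (q.comap g) →+* Localization.AtPrime q,
      (∀ r, G (algebraMap R _ r) = algebraMap S _ (g r)) ∧ Surjective G ∧
      RingHom.ker G = (RingHom.ker g).map (algebraMap R (Localization.AtPrime (q.comap g))) := by
  have hT : Submonoid.map g (q.comap g).primeCompl = q.primeCompl := by
    ext y
    constructor
    · rintro ⟨r, hr, rfl⟩
      exact hr
    · intro hy
      obtain ⟨r, rfl⟩ := hg y
      exact ⟨r, hy, rfl⟩
  have hle : (q.comap g).primeCompl ≤ Submonoid.comap g q.primeCompl := fun r hr => hr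
  refine ⟨IsLocalization.map (Localization.AtPrime q) g hle, fun r => IsLocalization.map_eq hle r,
    ?_, IsLocalization.ker_map _ g hT⟩
  intro y
  obtain ⟨a, s, rfl⟩ := IsLocalization.exists_mk'_eq q.primeCompl y
  obtain ⟨r, rfl⟩ := hg a
  obtain ⟨t, ht⟩ := hg s
  have ht' : t ∈ (q.comap g).primeCompl := by
    change g t ∉ q
    rw [ht]
    exact s.2
  refine ⟨IsLocalization.mk' _ r ⟨t, ht'⟩, ?_⟩
  rw [IsLocalization.map_mk']
  congr 1
  exact Subtype.ext ht

end loc

section regular

variable {A : Type u} [CommRing A] [IsRegularLocalRing A] {d : ℕ} (hd : ringKrullDim A = d)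
  {x : Fin d → A} (hx : Ideal.span (Set.range x) = maximalIdeal A)

include hd hx in
theorem ofFn_regular : IsWeaklyRegular A (List.ofFn x) := by
  have h1 : Ideal.ofList (List.ofFn x) = maximalIdeal A := by
    rw [← hx, Ideal.ofList]
    congr 1
    ext y
    simp [List.mem_ofFn]
  refine (isRegular_of_ofList_eq_maximalIdeal A (List.ofFn x) h1 ?_).toIsWeaklyRegular
  rw [List.length_ofFn, hd]

/-- The kernel of the reduction map from the polynomial ring. -/
theorem ker_eRes_comp (hx : Ideal.span (Set.range x) = maximalIdeal A) :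
    RingHom.ker ((eRes hx).comp (Ideal.Quotient.mk (reesIdeal x))) =
      Ideal.ofList ((List.ofFn x).map (algebraMap A (MvPolynomial (Option (Fin d)) A)) ++
        [X none]) := by
  refine le_antisymm ?_ ?_
  · intro p hp
    have h1 : Ideal.Quotient.mk (reesIdeal x) p ∈ RingHom.ker (eRes hx) := hp
    rw [ker_eRes, Ideal.mem_span_singleton'] at h1
    obtain ⟨F, hF⟩ := h1
    obtain ⟨f, rfl⟩ := Ideal.Quotient.mk_surjective F
    have h2 : p - f * X none ∈ reesIdeal x := by
      rw [← Ideal.Quotient.eq_zero_iff_mem, map_sub, map_mul, ← hF]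
      exact sub_self _
    have h3 : (X none : MvPolynomial (Option (Fin d)) A) ∈ Ideal.ofList
        ((List.ofFn x).map (algebraMap A (MvPolynomial (Option (Fin d)) A)) ++ [X none]) :=
      Ideal.subset_span (by simp)
    have h4 : reesIdeal x ≤ Ideal.ofList
        ((List.ofFn x).map (algebraMap A (MvPolynomial (Option (Fin d)) A)) ++ [X none]) := by
      refine Ideal.span_le.2 ?_
      rintro _ ⟨i, rfl⟩
      refine sub_mem (Ideal.subset_span ?_) (Ideal.mul_mem_right _ _ h3)
      simp only [List.mem_append, List.mem_map, List.mem_ofFn, Set.mem_ofPred_eq]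
      exact Or.inl ⟨x i, ⟨i, rfl⟩, rfl⟩
    have h5 := add_mem (h4 h2) (Ideal.mul_mem_left _ f h3)
    rwa [sub_add_cancel] at h5
  · refine Ideal.span_le.2 ?_
    intro p hp
    simp only [List.mem_append, List.mem_map, List.mem_ofFn, Set.mem_ofPred_eq,
      List.mem_singleton] at hp
    rcases hp with ⟨_, ⟨i, rfl⟩, rfl⟩ | rfl
    · change eRes hx (algebraMap A _ (x i)) = 0
      have : x i ∈ maximalIdeal A := by rw [← hx]; exact Ideal.subset_span ⟨i, rfl⟩
      rw [eRes_algebraMap, (residue_eq_zero_iff _).2 this, map_zero]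
    · exact eRes_eT hx

include hd in
/-- Localizations of the extended Rees algebra at primes containing `τ` are regular. -/
theorem eRees_regular_aux (hx : Ideal.span (Set.range x) = maximalIdeal A)
    (q : Ideal (MvPolynomial (Fin d) (ResidueField A))) [q.IsPrime] :
    IsRegularLocalRing (Localization.AtPrime (q.comap (eRes hx))) ∧
      (q.comap (eRes hx)).height = q.height + 1 ∧
      algebraMap (ERees x) (Localization.AtPrime (q.comap (eRes hx))) (eT x) ≠ 0 := by
  have hregA : IsRegularRing A := isRegularRing_of_isRegularLocalRing A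
  obtain ⟨G, hG, hGs, hGk⟩ := exists_localization_surjective
    ((eRes hx).comp (Ideal.Quotient.mk (reesIdeal x)))
    ((eRes_surjective hx).comp Ideal.Quotient.mk_surjective) q
  obtain ⟨H, hH, hHs, hHk⟩ := exists_localization_surjective (eRes hx) (eRes_surjective hx) q
  let Pt : Ideal (MvPolynomial (Option (Fin d)) A) :=
    q.comap ((eRes hx).comp (Ideal.Quotient.mk (reesIdeal x)))
  let P : Ideal (ERees x) := q.comap (eRes hx)
  have hB : IsRegularLocalRing (Localization.AtPrime Pt) := inferInstance
  have hκ : IsRegularLocalRing (Localization.AtPrime q) := inferInstance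
  -- a regular sequence
  have hreg : IsWeaklyRegular (Localization.AtPrime Pt)
      (((List.ofFn x).map (algebraMap A (MvPolynomial (Option (Fin d)) A)) ++
        [X none]).map (algebraMap _ (Localization.AtPrime Pt))) := by
    rw [List.map_append, List.map_map, isWeaklyRegular_append_iff]
    have hfl : Module.Flat A (Localization.AtPrime Pt) :=
      Module.Flat.trans A (MvPolynomial (Option (Fin d)) A) _
    have e1 : (algebraMap (MvPolynomial (Option (Fin d)) A) (Localization.AtPrime Pt)) ∘
        (algebraMap A (MvPolynomial (Option (Fin d)) A)) =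
        algebraMap A (Localization.AtPrime Pt) := by
      rw [IsScalarTower.algebraMap_eq A (MvPolynomial (Option (Fin d)) A)
        (Localization.AtPrime Pt)]
      rfl
    rw [e1]
    refine ⟨(ofFn_regular hd hx).of_flat, ?_⟩
    have e2 : Ideal.ofList ((List.ofFn x).map (algebraMap A (Localization.AtPrime Pt))) =
        (maximalIdeal A).map (algebraMap A (Localization.AtPrime Pt)) := by
      rw [← Ideal.map_ofList, ← hx]
      congr 1
      rw [Ideal.ofList]
      congr 1
      ext y
      simp [List.mem_ofFn]
    rw [List.map_singleton, isWeaklyRegular_singleton_iff, e2]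
    -- the extension of the maximal ideal is prime and does not contain `τ`
    let I0 : Ideal (MvPolynomial (Option (Fin d)) A) :=
      (maximalIdeal A).map (algebraMap A (MvPolynomial (Option (Fin d)) A))
    have hI0 : I0 = RingHom.ker (MvPolynomial.map (σ := Option (Fin d)) (residue A)) := by
      rw [MvPolynomial.ker_map, ker_residue]
      rfl
    have hI0p : I0.IsPrime := by
      rw [hI0]
      exact RingHom.ker_isPrime _
    have hI0le : I0 ≤ Pt := by
      refine Ideal.map_le_iff_le_comap.2 fun a ha => ?_
      change eRes hx (algebraMap A _ a) ∈ q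
      rw [eRes_algebraMap, (residue_eq_zero_iff _).2 ha, map_zero]
      exact zero_mem _
    have hdisj : Disjoint (Pt.primeCompl : Set (MvPolynomial (Option (Fin d)) A)) I0 := by
      rw [Set.disjoint_left]
      intro a ha ha'
      exact ha (hI0le ha')
    have hmap : (maximalIdeal A).map (algebraMap A (Localization.AtPrime Pt)) =
        I0.map (algebraMap _ (Localization.AtPrime Pt)) := by
      rw [Ideal.map_map, ← IsScalarTower.algebraMap_eq]
    have hprime : (I0.map (algebraMap _ (Localization.AtPrime Pt))).IsPrime :=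
      IsLocalization.isPrime_of_isPrime_disjoint Pt.primeCompl _ _ hI0p hdisj
    have hτ : algebraMap _ (Localization.AtPrime Pt) (X none : MvPolynomial (Option (Fin d)) A) ∉
        I0.map (algebraMap _ (Localization.AtPrime Pt)) := by
      intro hmem
      have h2 : (X none : MvPolynomial (Option (Fin d)) A) ∈ I0 := by
        rw [← IsLocalization.under_map_of_isPrime_disjoint Pt.primeCompl
          (Localization.AtPrime Pt) hI0p hdisj]
        exact hmem
      rw [hI0, RingHom.mem_ker, map_X] at h2
      exact X_ne_zero _ h2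
    rw [hmap, smul_eq_mul, Ideal.mul_top, isSMulRegular_iff_right_eq_zero_of_smul]
    intro y hy
    obtain ⟨b, rfl⟩ := Submodule.mkQ_surjective _ y
    change Submodule.Quotient.mk (_ • b) = 0 at hy
    rw [Submodule.Quotient.mk_eq_zero] at hy
    change Submodule.Quotient.mk b = 0
    rw [Submodule.Quotient.mk_eq_zero]
    exact (hprime.mem_or_mem hy).resolve_left hτ
  -- dimension of `B`
  have hlen : ((((List.ofFn x).map (algebraMap A (MvPolynomial (Option (Fin d)) A)) ++
        [X none]).map (algebraMap _ (Localization.AtPrime Pt))).length) = d + 1 := by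
    simp
  have hker : RingHom.ker G = Ideal.ofList
      (((List.ofFn x).map (algebraMap A (MvPolynomial (Option (Fin d)) A)) ++
        [X none]).map (algebraMap _ (Localization.AtPrime Pt))) := by
    rw [hGk, ker_eRes_comp hx, Ideal.map_ofList]
  have hreg' : IsRegular (Localization.AtPrime Pt)
      (((List.ofFn x).map (algebraMap A (MvPolynomial (Option (Fin d)) A)) ++
        [X none]).map (algebraMap _ (Localization.AtPrime Pt))) := by
    refine ⟨hreg, ?_⟩
    rw [smul_eq_mul, Ideal.mul_top, ← hker]
    intro h
    have : (1 : Localization.AtPrime Pt) ∈ RingHom.ker G := h ▸ trivial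
    rw [RingHom.mem_ker, map_one] at this
    exact one_ne_zero this
  obtain ⟨zs, hzs, hzslen⟩ := exists_list_maximalIdeal (Localization.AtPrime q)
  have hdimB : ringKrullDim (Localization.AtPrime Pt) = ((zs.length + (d + 1) : ℕ) :
      WithBot ℕ∞) := by
    rw [← ringKrullDim_add_length_eq_ringKrullDim_of_isRegular _ hreg', ← hker, hlen,
      ringKrullDim_eq_of_ringEquiv (RingHom.quotientKerEquivOfSurjective hGs), ← hzslen]
    norm_cast
  have hqh : q.height = zs.length := by
    have := IsLocalization.AtPrime.ringKrullDim_eq_height q (Localization.AtPrime q)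
    rw [← hzslen] at this
    exact_mod_cast this.symm
  have hPth : Pt.height = ((zs.length + (d + 1) : ℕ) : ℕ∞) := by
    have := IsLocalization.AtPrime.ringKrullDim_eq_height Pt (Localization.AtPrime Pt)
    rw [hdimB] at this
    exact_mod_cast this.symm
  -- lower bound for the height of `P`
  have hle : reesIdeal x ≤ Pt := by
    intro p hp
    change (eRes hx) (Ideal.Quotient.mk _ p) ∈ q
    rw [Ideal.Quotient.eq_zero_iff_mem.2 hp, map_zero]
    exact zero_mem _
  have hPh : ((zs.length + 1 : ℕ) : ℕ∞) ≤ P.height := by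
    have h1 := Ideal.height_le_height_add_spanFinrank_of_le hle
    have h2 : Pt.map (Ideal.Quotient.mk (reesIdeal x)) = P := by
      have : Pt = P.comap (Ideal.Quotient.mk (reesIdeal x)) := rfl
      rw [this, Ideal.map_comap_of_surjective _ Ideal.Quotient.mk_surjective]
    have h3 : (reesIdeal x).spanFinrank ≤ d := by
      refine (Submodule.spanFinrank_span_le_ncard_of_finite (Set.finite_range _)).trans ?_
      rw [← Set.image_univ]
      refine (Set.ncard_image_le Set.finite_univ).trans ?_
      rw [Set.ncard_univ, Nat.card_eq_fintype_card, Fintype.card_fin]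
    rw [h2, hPth] at h1
    have h4 : ((zs.length + (d + 1) : ℕ) : ℕ∞) ≤ P.height + d := h1.trans (by gcongr)
    by_cases hfin : P.height = ⊤
    · rw [hfin]; exact le_top
    · obtain ⟨h, hh⟩ := ENat.ne_top_iff_exists.mp hfin
      rw [← hh] at h4 ⊢
      have h5 : zs.length + (d + 1) ≤ h + d := by exact_mod_cast h4
      have h6 : zs.length + 1 ≤ h := by omega
      exact_mod_cast h6
  -- generators of the maximal ideal of `L`
  have hex : ∃ ws : List (Localization.AtPrime P), ws.map H = zs := by
    obtain ⟨ws, hws⟩ := List.map_surjective_iff.2 hHs zs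
    exact ⟨ws, hws⟩
  obtain ⟨ws, hws⟩ := hex
  have hmax : Ideal.ofList (algebraMap (ERees x) (Localization.AtPrime P) (eT x) :: ws) =
      maximalIdeal (Localization.AtPrime P) := by
    have h1 : maximalIdeal (Localization.AtPrime P) =
        (maximalIdeal (Localization.AtPrime q)).comap H := by
      have : IsLocalHom H := IsLocalHom.of_surjective H hHs
      exact (IsLocalRing.maximalIdeal_comap H).symm
    rw [h1, ← hzs, ← hws, ← Ideal.map_ofList, Ideal.comap_map_of_surjective H hHs, Ideal.ofList_cons]
    rw [sup_comm]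
    congr 1
    change _ = RingHom.ker H
    rw [hHk, ker_eRes, Ideal.map_span, Set.image_singleton]
  have hwl : ws.length = zs.length := by rw [← hws, List.length_map]
  have hdimL := IsLocalization.AtPrime.ringKrullDim_eq_height P (Localization.AtPrime P)
  obtain ⟨h1, h2⟩ := isRegularLocalRing_of_list
    (algebraMap (ERees x) (Localization.AtPrime P) (eT x) :: ws) hmax (by
    rw [hdimL, List.length_cons, hwl]
    exact_mod_cast hPh)
  refine ⟨h1, ?_, ?_⟩
  · rw [hdimL, List.length_cons, hwl] at h2
    rw [hqh]
    exact_mod_cast h2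
  · intro h0
    have h3 : RingHom.ker H = ⊥ := by
      rw [hHk, ker_eRes, Ideal.map_span, Set.image_singleton, h0]
      simp
    have h4 := ringKrullDim_eq_of_ringEquiv (RingEquiv.ofBijective H
      ⟨(RingHom.injective_iff_ker_eq_bot H).2 h3, hHs⟩)
    rw [h2, List.length_cons, hwl, ← hzslen] at h4
    have h5 : zs.length + 1 = zs.length := by exact_mod_cast h4
    omega

include hx in
theorem exists_comap_eRes (P : Ideal (ERees x)) [P.IsPrime] (hP : eT x ∈ P) :
    ∃ q : Ideal (MvPolynomial (Fin d) (ResidueField A)), q.IsPrime ∧ P = q.comap (eRes hx) := by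
  have hk : RingHom.ker (eRes hx) ≤ P := by
    rw [ker_eRes, Ideal.span_le]
    rintro _ rfl
    exact hP
  refine ⟨P.map (eRes hx), Ideal.map_isPrime_of_surjective (eRes_surjective hx) hk, ?_⟩
  rw [Ideal.comap_map_of_surjective _ (eRes_surjective hx)]
  exact (sup_eq_left.2 hk).symm

include hd hx in
/-- The element `τ` is a nonzerodivisor in the extended Rees algebra. -/
theorem eT_regular (F : ERees x) (h : eT x * F = 0) : F = 0 := by
  by_contra hF
  have hne : Ideal.torsionOf (ERees x) (ERees x) F ≠ ⊤ := by
    rw [Ne, Ideal.eq_top_iff_one, Ideal.mem_torsionOf_iff, one_smul]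
    exact hF
  obtain ⟨P, hP, hle⟩ := Ideal.exists_le_maximal _ hne
  have hPp : P.IsPrime := hP.isPrime
  have hτ : eT x ∈ P := hle (by rw [Ideal.mem_torsionOf_iff]; exact h)
  obtain ⟨q, hq, rfl⟩ := exists_comap_eRes hx P hτ
  obtain ⟨hreg, -, h0⟩ := eRees_regular_aux hd hx q
  have hdom := regular_isDomain (Localization.AtPrime (q.comap (eRes hx)))
  have h1 : algebraMap (ERees x) (Localization.AtPrime (q.comap (eRes hx))) F = 0 := by
    have h2 := congrArg (algebraMap (ERees x) (Localization.AtPrime (q.comap (eRes hx)))) h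
    rw [map_mul, map_zero] at h2
    exact (mul_eq_zero.1 h2).resolve_left h0
  obtain ⟨c, hc⟩ := (IsLocalization.map_eq_zero_iff (q.comap (eRes hx)).primeCompl
    (Localization.AtPrime (q.comap (eRes hx))) F).1 h1
  exact c.2 (hle (by rw [Ideal.mem_torsionOf_iff]; exact hc))

omit [IsRegularLocalRing A] in
theorem aeval_mul_of_isHomogeneous {B : Type*} [CommRing B] [Algebra A B] (t : B) (y : Fin d → B)
    (F : MvPolynomial (Fin d) A) (n : ℕ) (hF : F.IsHomogeneous n) :
    aeval (fun i => t * y i) F = t ^ n * aeval y F := by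
  rw [aeval_def, aeval_def, eval₂_eq', eval₂_eq', Finset.mul_sum]
  refine Finset.sum_congr rfl fun m hm => ?_
  have hdeg : ∑ i, m i = n := by
    have := hF (mem_support_iff.1 hm)
    rw [← this, Finsupp.weight_apply, Finsupp.sum_fintype]
    · simp
    · simp
  simp only [mul_pow, Finset.prod_mul_distrib, Finset.prod_pow_eq_pow_sum, hdeg]
  ring

omit [IsRegularLocalRing A] in
theorem algebraMap_eval_of_isHomogeneous (F : MvPolynomial (Fin d) A) (n : ℕ)
    (hF : F.IsHomogeneous n) :
    algebraMap A (ERees x) (eval x F) = eT x ^ n * aeval (eY x) F := by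
  have h1 : algebraMap A (ERees x) (eval x F) = aeval (fun i => eT x * eY x i) F := by
    have h2 : (fun i => eT x * eY x i) = fun i => algebraMap A (ERees x) (x i) :=
      funext fun i => (algebraMap_rees x i).symm
    rw [h2]
    exact (MvPolynomial.aeval_algebraMap_apply (ERees x) x F).symm
  rw [h1, aeval_mul_of_isHomogeneous _ _ F n hF]

include hd hx in
/-- The initial form of an element of order `n` does not vanish. -/
theorem map_residue_eq_zero (F : MvPolynomial (Fin d) A) (n : ℕ) (hF : F.IsHomogeneous n)
    (h : eval x F ∈ maximalIdeal A ^ (n + 1)) : F.map (residue A) = 0 := by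
  rw [← hx, Ideal.mem_span_pow_iff_exists_isHomogeneous] at h
  obtain ⟨G, hG, hGF⟩ := h
  have h1 := congrArg (algebraMap A (ERees x)) hGF
  rw [algebraMap_eval_of_isHomogeneous G (n + 1) hG, algebraMap_eval_of_isHomogeneous F n hF,
    pow_succ, mul_assoc] at h1
  have h2 : ∀ m : ℕ, ∀ f g : ERees x, eT x ^ m * f = eT x ^ m * g → f = g := by
    intro m
    induction m with
    | zero => intro f g hfg; simpa using hfg
    | succ m ih =>
      intro f g hfg
      rw [pow_succ, mul_assoc, mul_assoc] at hfg
      have h3 := ih _ _ hfg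
      rw [← sub_eq_zero, ← mul_sub] at h3
      exact sub_eq_zero.1 (eT_regular hd hx _ h3)
  have h3 := congrArg (eRes hx) (h2 n _ _ h1)
  rw [map_mul, eRes_eT, zero_mul] at h3
  rw [← eRes_aeval hx, ← h3]

include hd hx in
/-- The associated graded ring is a domain. -/
theorem mul_notMem_pow {a b : A} {i j : ℕ} (ha : a ∈ maximalIdeal A ^ i)
    (ha' : a ∉ maximalIdeal A ^ (i + 1)) (hb : b ∈ maximalIdeal A ^ j)
    (hb' : b ∉ maximalIdeal A ^ (j + 1)) : a * b ∉ maximalIdeal A ^ (i + j + 1) := by
  have key : ∀ (a : A) (i : ℕ), a ∈ maximalIdeal A ^ i → a ∉ maximalIdeal A ^ (i + 1) →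
      ∃ F : MvPolynomial (Fin d) A, F.IsHomogeneous i ∧ eval x F = a ∧
        F.map (residue A) ≠ 0 := by
    intro a i ha ha'
    rw [← hx, Ideal.mem_span_pow_iff_exists_isHomogeneous] at ha
    obtain ⟨F, hF, hFa⟩ := ha
    refine ⟨F, hF, hFa, fun h0 => ha' ?_⟩
    rw [← hFa, eval_eq']
    refine Ideal.sum_mem _ fun m hm => ?_
    have hdeg : ∑ i, m i = i := by
      have := hF (mem_support_iff.1 hm)
      rw [← this, Finsupp.weight_apply, Finsupp.sum_fintype]
      · simp
      · simp
    have h1 : F.coeff m ∈ maximalIdeal A := by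
      rw [← residue_eq_zero_iff, ← coeff_map, h0, coeff_zero]
    have h2 : ∏ i, x i ^ m i ∈ maximalIdeal A ^ i := by
      rw [← hdeg, ← Finset.prod_pow_eq_pow_sum]
      refine Ideal.prod_mem_prod fun i _ => Ideal.pow_mem_pow ?_ _
      rw [← hx]
      exact Ideal.subset_span ⟨i, rfl⟩
    rw [pow_succ']
    exact Ideal.mul_mem_mul h1 h2
  obtain ⟨F, hF, rfl, hF0⟩ := key a i ha ha'
  obtain ⟨G, hG, rfl, hG0⟩ := key b j hb hb'
  intro h
  rw [← map_mul] at h
  have h1 := map_residue_eq_zero hd hx (F * G) (i + j) (hF.mul hG) h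
  rw [map_mul] at h1
  rcases mul_eq_zero.1 h1 with h1 | h1
  · exact hF0 h1
  · exact hG0 h1

end regular

/-- Multiplication by an element of order one is strict for the adic filtration. -/
theorem mem_pow_of_mul_mem {A : Type u} [CommRing A] [IsRegularLocalRing A] {y c : A}
    (hy : y ∈ maximalIdeal A) (hy2 : y ∉ maximalIdeal A ^ 2) {m : ℕ}
    (h : y * c ∈ maximalIdeal A ^ (m + 1)) : c ∈ maximalIdeal A ^ m := by
  obtain ⟨rs, hrs, hlen⟩ := exists_list_maximalIdeal A
  let x : Fin rs.length → A := rs.get
  have hx : Ideal.span (Set.range x) = maximalIdeal A := by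
    rw [← hrs, Ideal.ofList]
    congr 1
    ext y
    simp [x, List.mem_iff_get]
  by_contra hc
  have hex : ∃ j, c ∉ maximalIdeal A ^ (j + 1) := ⟨m, fun h => hc (Ideal.pow_le_pow_right
    (Nat.le_succ m) h)⟩
  classical
  let j := Nat.find hex
  have hj : c ∉ maximalIdeal A ^ (j + 1) := Nat.find_spec hex
  have hj' : c ∈ maximalIdeal A ^ j := by
    rcases Nat.eq_zero_or_pos j with h0 | h0
    · rw [h0]; simp
    · obtain ⟨k, hk⟩ : ∃ k, j = k + 1 := ⟨j - 1, by omega⟩
      have := Nat.find_min hex (m := k) (by change k < j; omega)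
      rw [not_not] at this
      rw [hk]
      exact this
  have hjm : j < m := by
    by_contra hle
    rw [not_lt] at hle
    exact hc (Ideal.pow_le_pow_right hle hj')
  have h1 := mul_notMem_pow hlen.symm hx (a := y) (i := 1) (by simpa using hy) hy2 hj' hj
  exact h1 (Ideal.pow_le_pow_right (by omega) h)


end Vale.Agent.P177
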