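import Vale.Agent.P177.CAct
import Vale.Agent.P177.CPolB

/-!
Stabilization of the homology of the filtered pieces.
-/

namespace Vale.Agent.P177

open Function IsLocalRing

universe u

section stab

variable {A : Type u} [CommRing A] {I : Ideal A} {M : Type u} [AddCommGroup M] [Module A M]
  {F : ℕ → Submodule A M} {r : ℕ} (X : FRes I F r) {N : Type u} [AddCommGroup N] [Module A N]
  (G : ℕ → Submodule A N)

/-- Cycles of filtration level `n`. -/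
def FRes.ZK (n i : ℕ) : Submodule A (Fin (X.b i) → N) := X.Z N i ⊓ wfil G (X.a i) n

/-- Boundaries of filtration level `n`. -/
def FRes.BK (n i : ℕ) : Submodule A (Fin (X.b i) → N) :=
  (wfil G (X.a (i + 1)) n).map (act N (X.δ i))

variable {G}

theorem FRes.BK_le_ZK (hG : GoodFil I G) (n i : ℕ) : X.BK G n i ≤ X.ZK G n i :=
  le_inf (LinearMap.map_le_range.trans (X.B_le_Z N i)) (X.map_wfil_le hG i n)

theorem FRes.exists_stable [IsNoetherianRing A] [Module.Finite A N] (hG : GoodFil I G) (i : ℕ) :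
    ∃ c, ∀ n, c ≤ n → ∀ m, X.ZK G (n + m) i = I ^ m • X.ZK G n i := by
  have h1 := (hG.weighted (X.a i)).comap_subtype (X.Z N i)
  obtain ⟨c, hc⟩ := h1.stable
  have h2 : ∀ n, (((wfil G (X.a i) n).comap (X.Z N i).subtype).map (X.Z N i).subtype) =
      X.ZK G n i := fun n => Submodule.map_comap_subtype _ _
  have h3 : ∀ n, c ≤ n → X.ZK G (n + 1) i = I • X.ZK G n i := by
    intro n hn
    rw [← h2, ← h2, ← hc n hn, Submodule.map_smul'']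
  refine ⟨c, fun n hn m => ?_⟩
  induction m with
  | zero => simp
  | succ m ih => rw [← add_assoc, h3 _ (by omega), ih, pow_succ', mul_smul]

theorem FRes.surj_stab [IsNoetherianRing A] [Module.Finite A N] (hG : GoodFil I G) {x : A}
    {n₀ : ℕ} {I₁ J₁ : Ideal A} (hI : ∀ c ∈ I₁, ∀ v : M, c • v = 0)
    (hJ : ∀ c ∈ J₁, ∀ v : N, c • v = 0)
    (hC : I ^ (n₀ + 1) ≤ (I₁ ⊓ I ^ (n₀ + 1)) ⊔ (J₁ ⊓ I ^ (n₀ + 1)) ⊔
      Ideal.span {x} * I ^ n₀) (i : ℕ) :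
    ∃ k₀, ∀ k, k₀ ≤ k → ∀ z ∈ X.ZK G (k + 1) i, ∃ w ∈ X.ZK G k i, z - x • w ∈
      X.BK G (k + 1) i := by
  obtain ⟨c, hc⟩ := X.exists_stable (N := N) hG i
  refine ⟨c + n₀, fun k hk z hz => ?_⟩
  obtain ⟨m, rfl⟩ : ∃ m, k = m + n₀ := ⟨k - n₀, by omega⟩
  rw [add_assoc, hc m (by omega)] at hz
  refine Submodule.smul_induction_on hz ?_ ?_
  · intro e he w hw
    obtain ⟨ab, hab, y, hy, rfl⟩ := Submodule.mem_sup.1 (hC he)
    obtain ⟨a, ha, b, hb, rfl⟩ := Submodule.mem_sup.1 hab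
    obtain ⟨y, hy', rfl⟩ := Ideal.mem_span_singleton_mul.1 hy
    refine ⟨y • w, ?_, ?_⟩
    · rw [hc m (by omega)]
      exact Submodule.smul_mem_smul hy' hw
    · have hbw : b • w = 0 := by
        funext k
        exact hJ b hb.1 _
      have h1 : (a + b + x * y) • w - x • y • w = a • w := by
        rw [add_smul, add_smul, hbw, mul_smul, add_zero, add_sub_cancel_right]
      rw [h1]
      obtain ⟨s, hs, -, hs2⟩ := X.homotopy N ha.2 (hI a ha.1) i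
      rw [hs2 w hw.1]
      exact ⟨_, act_mem hG hs hw.2, rfl⟩
  · rintro z₁ z₂ ⟨w₁, hw₁, h₁⟩ ⟨w₂, hw₂, h₂⟩
    refine ⟨w₁ + w₂, add_mem hw₁ hw₂, ?_⟩
    have : z₁ + z₂ - x • (w₁ + w₂) = (z₁ - x • w₁) + (z₂ - x • w₂) := by
      rw [smul_add]
      abel
    rw [this]
    exact add_mem h₁ h₂

theorem eventually_const (f : ℕ → ℕ) (k₀ : ℕ) (h : ∀ k, k₀ ≤ k → f (k + 1) ≤ f k) :
    ∃ k₁, k₀ ≤ k₁ ∧ ∀ k, k₁ ≤ k → f (k + 1) = f k := by
  have hanti : ∀ k m, k₀ ≤ k → f (k + m) ≤ f k := by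
    intro k m hk
    induction m with
    | zero => exact le_rfl
    | succ m ih => exact (h (k + m) (Nat.le_add_right_of_le hk)).trans ih
  obtain ⟨m, ⟨k₁, hk₁, rfl⟩, hmin⟩ :
      ∃ m, (∃ k, k₀ ≤ k ∧ f k = m) ∧ ∀ m', (∃ k, k₀ ≤ k ∧ f k = m') → m ≤ m' := by
    classical
    have hex : ∃ m, ∃ k, k₀ ≤ k ∧ f k = m := ⟨_, k₀, le_rfl, rfl⟩
    exact ⟨Nat.find hex, Nat.find_spec hex, fun m' hm' => Nat.find_min' hex hm'⟩
  refine ⟨k₁, hk₁, fun k hk => le_antisymm (h k (by omega)) ?_⟩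
  have h1 := hmin _ ⟨k + 1, by omega, rfl⟩
  obtain ⟨m, rfl⟩ : ∃ m, k = k₁ + m := ⟨k - k₁, by omega⟩
  exact (hanti k₁ m hk₁).trans h1

theorem FRes.inj_stab (hG : GoodFil I G) {x : A} (hx : x ∈ I) {i k₀ : ℕ}
    (hfin : ∀ n, rl (X.ZK G n i) (X.BK G n i) ≠ ⊤)
    (hsurj : ∀ k, k₀ ≤ k → ∀ z ∈ X.ZK G (k + 1) i, ∃ w ∈ X.ZK G k i, z - x • w ∈
      X.BK G (k + 1) i) :
    ∃ k₁, k₀ ≤ k₁ ∧ ∀ k, k₁ ≤ k → ∀ w ∈ X.ZK G k i, x • w ∈ X.BK G (k + 1) i →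
      w ∈ X.BK G k i := by
  have hxK : ∀ (k : ℕ) (j : ℕ), ∀ w ∈ wfil G (X.a j) k, x • w ∈ wfil G (X.a j) (k + 1) :=
    fun k j w hw => (hG.weighted (X.a j)).smul _ (Submodule.smul_mem_smul hx hw)
  have hxZ : ∀ k, ∀ w ∈ X.ZK G k i, x • w ∈ X.ZK G (k + 1) i := fun k w hw =>
    ⟨Submodule.smul_mem _ _ hw.1, hxK k i w hw.2⟩
  have hxB : ∀ k, ∀ w ∈ X.BK G k i, x • w ∈ X.BK G (k + 1) i := by
    rintro k _ ⟨v, hv, rfl⟩
    exact ⟨x • v, hxK k _ v hv, map_smul _ _ _⟩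
  let μ : ∀ k, X.ZK G k i →ₗ[A] X.ZK G (k + 1) i := fun k =>
    (LinearMap.lsmul A _ x).restrict (hxZ k)
  let φ : ∀ k, (X.ZK G k i ⧸ (X.BK G k i).submoduleOf (X.ZK G k i)) →ₗ[A]
      (X.ZK G (k + 1) i ⧸ (X.BK G (k + 1) i).submoduleOf (X.ZK G (k + 1) i)) := fun k =>
    Submodule.mapQ _ _ (μ k) (fun v hv => hxB k v.1 hv)
  have hφ : ∀ k, k₀ ≤ k → Surjective (φ k) := by
    intro k hk v
    obtain ⟨⟨v, hv⟩, rfl⟩ := Submodule.mkQ_surjective _ v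
    obtain ⟨w, hw, hvw⟩ := hsurj k hk v hv
    refine ⟨Submodule.Quotient.mk ⟨w, hw⟩, ?_⟩
    change (Submodule.Quotient.mk (μ k ⟨w, hw⟩) : _ ⧸ _) = Submodule.Quotient.mk _
    rw [eq_comm, Submodule.Quotient.eq]
    exact hvw
  obtain ⟨k₁, hk₁, hconst⟩ := eventually_const
    (fun k => (rl (X.ZK G k i) (X.BK G k i)).toNat) k₀ (fun k hk =>
      ENat.toNat_le_toNat (Module.length_le_of_surjective (φ k) (hφ k hk)) (hfin k))
  refine ⟨k₁, hk₁, fun k hk w hw hxw => ?_⟩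
  have h1 := Module.length_eq_add_of_exact (LinearMap.ker (φ k)).subtype (φ k)
    (Submodule.injective_subtype _) (hφ k (by omega)) (LinearMap.exact_subtype_ker_map _)
  have h2 : rl (X.ZK G k i) (X.BK G k i) = rl (X.ZK G (k + 1) i) (X.BK G (k + 1) i) := by
    have := hconst k hk
    rw [← ENat.natCast_toNat (hfin k), ← ENat.natCast_toNat (hfin (k + 1))]
    exact_mod_cast this.symm
  have h3 : Module.length A (LinearMap.ker (φ k)) = 0 := by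
    change rl (X.ZK G k i) (X.BK G k i) = _ + rl (X.ZK G (k + 1) i) (X.BK G (k + 1) i) at h1
    rw [h2] at h1
    have h4 : (0 : ℕ∞) + rl (X.ZK G (k + 1) i) (X.BK G (k + 1) i) =
        Module.length A (LinearMap.ker (φ k)) + rl (X.ZK G (k + 1) i) (X.BK G (k + 1) i) := by
      rw [zero_add]
      exact h1
    exact (WithTop.add_right_cancel (hfin (k + 1)) h4).symm
  rw [Module.length_eq_zero_iff] at h3
  have h5 : (⟨Submodule.Quotient.mk ⟨w, hw⟩, by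
      rw [LinearMap.mem_ker]
      exact (Submodule.Quotient.mk_eq_zero _).2 hxw⟩ : LinearMap.ker (φ k)) = 0 :=
    Subsingleton.elim _ _
  have h6 : (Submodule.Quotient.mk ⟨w, hw⟩ :
      X.ZK G k i ⧸ (X.BK G k i).submoduleOf (X.ZK G k i)) = 0 := congrArg Subtype.val h5
  exact (Submodule.Quotient.mk_eq_zero ((X.BK G k i).submoduleOf (X.ZK G k i))).1 h6

/-- The stabilization statement for one homological degree. -/
def FRes.Stab (G : ℕ → Submodule A N) (x : A) (i k : ℕ) : Prop :=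
  (∀ z ∈ X.ZK G (k + 1) i, ∃ w ∈ X.ZK G k i, z - x • w ∈ X.BK G (k + 1) i) ∧
  ∀ w ∈ X.ZK G k i, x • w ∈ X.BK G (k + 1) i → w ∈ X.BK G k i

theorem FRes.exists_stab [IsNoetherianRing A] [Module.Finite A N] (hG : GoodFil I G) {x : A}
    (hx : x ∈ I) {n₀ : ℕ} {I₁ J₁ : Ideal A} (hI : ∀ c ∈ I₁, ∀ v : M, c • v = 0)
    (hJ : ∀ c ∈ J₁, ∀ v : N, c • v = 0)
    (hC : I ^ (n₀ + 1) ≤ (I₁ ⊓ I ^ (n₀ + 1)) ⊔ (J₁ ⊓ I ^ (n₀ + 1)) ⊔
      Ideal.span {x} * I ^ n₀)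
    (hfin : ∀ i n, rl (X.ZK G n i) (X.BK G n i) ≠ ⊤) (t : ℕ) :
    ∃ k₁, ∀ i, i < t → ∀ k, k₁ ≤ k → X.Stab G x i k := by
  have h1 : ∀ i, ∃ k₁, ∀ k, k₁ ≤ k → X.Stab G x i k := by
    intro i
    obtain ⟨k₀, hk₀⟩ := X.surj_stab hG hI hJ hC i
    obtain ⟨k₁, hk₁, h⟩ := X.inj_stab hG hx (hfin i) hk₀
    exact ⟨k₁, fun k hk => ⟨hk₀ k (by omega), h k hk⟩⟩
  choose k₁ hk₁ using h1
  refine ⟨∑ i ∈ Finset.range t, k₁ i, fun i hi k hk => hk₁ i k (le_trans ?_ hk)⟩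
  exact Finset.single_le_sum (f := k₁) (fun _ _ => Nat.zero_le _) (Finset.mem_range.2 hi)

end stab

end Vale.Agent.P177
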