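import Vale.Agent.P177.CStepB

/-!
Serre's statements for finite modules which are discrete valuation rings.
-/

namespace Vale.Agent.P177

open CategoryTheory TensorProduct Function IsLocalRing RingTheory.Sequence Pointwise Polynomial

universe u

attribute [local instance] Polynomial.algebra

theorem subsingleton_localization_of_smul {B : Type u} [CommRing B] (m : Ideal B) [m.IsPrime]
    (M : Type u) [AddCommGroup M] [Module B M] (b : B) (hb : b ∉ m) (h : ∀ x : M, b • x = 0) :
    Subsingleton (Localization.AtPrime m ⊗[B] M) := by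
  refine subsingleton_of_forall_eq 0 fun x => ?_
  induction x using TensorProduct.induction_on with
  | zero => rfl
  | tmul l x =>
    have hu := IsLocalization.map_units (Localization.AtPrime m) (⟨b, hb⟩ : m.primeCompl)
    obtain ⟨c, hc⟩ := hu.exists_left_inv
    have h1 : l = b • (c * l) := by
      rw [Algebra.smul_def, ← mul_assoc, mul_comm (algebraMap B _ b), hc, one_mul]
    rw [h1, TensorProduct.smul_tmul, h, TensorProduct.tmul_zero]
  | add x y hx hy => rw [hx, hy, add_zero]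

section

variable {R₁ R₂ T V : Type u} [CommRing R₁] [CommRing R₂] [CommRing T] [CommRing V]
  [IsRegularLocalRing R₁] [IsRegularLocalRing R₂] [IsRegularLocalRing T]
  [Algebra R₁ T] [Algebra R₂ T] [Module.Flat R₁ T] [Module.Flat R₂ T]
  [IsLocalHom (algebraMap R₁ T)] [IsLocalHom (algebraMap R₂ T)] {r₁ r₂ t b : ℕ}
  [IsDomain V] [IsDiscreteValuationRing V] [Algebra R₁ V] [Module.Finite R₁ V]

theorem pos_of_surjective (h1 : ringKrullDim R₁ = r₁) (h2 : ringKrullDim R₂ = r₂)
    (ht : ringKrullDim T = t) (hb : r₁ + r₂ = t + b) (G : Type u) [AddCommGroup G] [Module R₂ G]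
    [Module.Finite R₂ G] (hs : Surjective (algebraMap R₁ V)) (hFP : FP R₁ R₂ T V G) :
    Pos R₁ R₂ T t b V G := by
  obtain ⟨zs, hzs, hreg, hker⟩ := exists_regular_ker V r₁ R₁ (algebraMap R₁ V) hs h1
  have e : (R₁ ⧸ (Ideal.ofList zs • ⊤ : Submodule R₁ R₁)) ≃ₗ[R₁] V :=
    Submodule.quotEquivOfEq _ _ (by
      rw [smul_eq_mul, Ideal.mul_top, hker]
      rfl) ≪≫ₗ
    (Algebra.linearMap R₁ V).quotKerEquivOfSurjective hs
  exact (pos_ci h1 h2 ht hb zs hzs hreg G (hFP.mono e.symm.annihilator_eq.le le_rfl)).congr e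
    (LinearEquiv.refl _ _)

/-- The set of maximal ideals of `T[X]` which occur. -/
theorem finite_maximal [Algebra R₁[X] V] [IsScalarTower R₁ R₁[X] V] :
    {m : MaximalSpectrum T[X] | (maximalIdeal T).map C ⊔
      (RingHom.ker (algebraMap R₁[X] V)).map (algebraMap R₁[X] T[X]) ≤ m.asIdeal}.Finite := by
  obtain ⟨g, hg, hg0⟩ := exists_monic_ker (R₁ := R₁) (V := V)
  set I : Ideal T[X] := (maximalIdeal T).map C ⊔
      (RingHom.ker (algebraMap R₁[X] V)).map (algebraMap R₁[X] T[X]) with hI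
  have hfin := Ideal.finite_minimalPrimes_of_isNoetherianRing T[X] I
  refine (hfin.preimage (f := fun m : MaximalSpectrum T[X] => m.asIdeal)
    (fun a _ b _ hab => MaximalSpectrum.ext hab)).subset ?_
  intro m hm
  refine ⟨⟨m.isMaximal.isPrime, hm⟩, ?_⟩
  rintro q ⟨hq, hIq⟩ hqm
  have hmax : q.IsMaximal := isMaximal_of_monic_mem q (g.map (algebraMap R₁ T)) (hg.map _)
    (hIq (Ideal.mem_sup_right (Ideal.mem_map_of_mem (algebraMap R₁[X] T[X]) hg0)))
    (Ideal.map_le_iff_le_comap.1 (le_sup_left.trans hIq))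
  exact (hmax.eq_of_le m.isMaximal.ne_top hqm).ge

omit [IsRegularLocalRing R₁] [IsRegularLocalRing T] [Module.Flat R₁ T] in
theorem exists_maximal_mem [IsLocalRing T] [IsLocalRing R₁] [Module.Flat R₁ T]
    [Algebra R₁[X] V] [IsScalarTower R₁ R₁[X] V] :
    ∃ m : MaximalSpectrum T[X], (maximalIdeal T).map C ⊔
      (RingHom.ker (algebraMap R₁[X] V)).map (algebraMap R₁[X] T[X]) ≤ m.asIdeal := by
  have hff : Module.FaithfullyFlat R₁ T := Module.FaithfullyFlat.of_flat_of_isLocalHom
  have hnt : Nontrivial (T ⊗[R₁] V) := by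
    rw [Module.FaithfullyFlat.nontrivial_tensorProduct_iff_right]
    infer_instance
  obtain ⟨n, hn⟩ := Ideal.exists_maximal (T ⊗[R₁] V)
  let φ : T[X] →ₐ[T] (T ⊗[R₁] V) := aeval ((1 : T) ⊗ₜ[R₁] (algebraMap R₁[X] V X))
  have hφC : φ.toRingHom.comp C = algebraMap T (T ⊗[R₁] V) := by
    ext x
    exact φ.commutes x
  have hint : φ.toRingHom.IsIntegral := by
    refine RingHom.IsIntegral.tower_top C φ.toRingHom ?_
    rw [hφC]
    exact Algebra.IsIntegral.isIntegral
  have hmax : (n.comap φ.toRingHom).IsMaximal :=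
    Ideal.isMaximal_comap_of_isIntegral_of_isMaximal' _ hint n
  refine ⟨⟨n.comap φ.toRingHom, hmax⟩, sup_le ?_ ?_⟩
  · rw [Ideal.map_le_iff_le_comap]
    change maximalIdeal T ≤ (n.comap φ.toRingHom).comap C
    rw [Ideal.comap_comap, hφC]
    have h3 : (n.comap (algebraMap T (T ⊗[R₁] V))).IsMaximal :=
      Ideal.isMaximal_comap_of_isIntegral_of_isMaximal n
    rw [IsLocalRing.eq_maximalIdeal h3]
  · rw [Ideal.map_le_iff_le_comap]
    intro h hh
    change φ (h.map (algebraMap R₁ T)) ∈ n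
    have h4 : φ (h.map (algebraMap R₁ T)) = 0 := by
      rw [aeval_map_algebraMap]
      have h5 : ((1 : T) ⊗ₜ[R₁] (algebraMap R₁[X] V X)) =
          (Algebra.TensorProduct.includeRight : V →ₐ[R₁] T ⊗[R₁] V) (algebraMap R₁[X] V X) := rfl
      rw [h5, aeval_algHom_apply]
      have h6 : aeval (algebraMap R₁[X] V X) h = algebraMap R₁[X] V h := by
        have h2 : (IsScalarTower.toAlgHom R₁ R₁[X] V) = aeval (algebraMap R₁[X] V X) := by
          ext
          simp
        exact (DFunLike.congr_fun h2 h).symm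
      rw [h6, (RingHom.mem_ker).1 hh, map_zero]
    rw [h4]
    exact n.zero_mem

/-- The inductive step. -/
theorem pos_step (h1 : ringKrullDim R₁ = r₁) (h2 : ringKrullDim R₂ = r₂)
    (ht : ringKrullDim T = t) (hb : r₁ + r₂ = t + b) (G : Type u) [AddCommGroup G] [Module R₂ G]
    [Module.Finite R₂ G] (n : ℕ) (IH : StepHyp R₂ V G r₂ b n)
    (hlen : Module.length R₁ (V ⧸ LinearMap.range (Algebra.linearMap R₁ V)) ≤ ((n + 1 : ℕ) : ℕ∞))
    (w : V) (hw : w ∉ LinearMap.range (Algebra.linearMap R₁ V)) (hFP : FP R₁ R₂ T V G) :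
    Pos R₁ R₂ T t b V G := by
  let aV : Algebra R₁[X] V := (aeval (R := R₁) w).toRingHom.toAlgebra
  have sV : IsScalarTower R₁ R₁[X] V := IsScalarTower.of_algebraMap_eq fun x =>
    ((aeval (R := R₁) w).commutes x).symm
  have hwX : algebraMap R₁[X] V X = w := aeval_X w
  have hfin := finite_maximal (R₁ := R₁) (T := T) (V := V)
  set S : Finset (MaximalSpectrum T[X]) := hfin.toFinset with hS
  have hmemS : ∀ m, m ∈ S ↔ (maximalIdeal T).map C ⊔
      (RingHom.ker (algebraMap R₁[X] V)).map (algebraMap R₁[X] T[X]) ≤ m.asIdeal := by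
    intro m
    rw [hS, Set.Finite.mem_toFinset]
    rfl
  have hSvan : ∀ m : MaximalSpectrum T[X], m ∉ S → ∀ j,
      Subsingleton (Localization.AtPrime m.asIdeal ⊗[T[X]]
        TorM T[X] j (T[X] ⊗[T] (T ⊗[R₂] G)) (T[X] ⊗[R₁[X]] V)) := by
    intro m hm j
    have hmm := m.isMaximal
    rw [hmemS, sup_le_iff, not_and_or] at hm
    rcases hm with hm | hm
    · rw [Ideal.map_le_iff_le_comap, SetLike.not_le_iff_exists] at hm
      obtain ⟨a, ha, ham⟩ := hm
      obtain ⟨M', _, _, _, _, ⟨e1⟩, ⟨e2⟩, -⟩ := exists_tor_transfer (R₁ := R₁) (T := T)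
        (B₁ := R₁[X]) (B := T[X]) V (T ⊗[R₂] G) j
      have hFL := hFP.symm.fl2.tor j
      unfold FL at hFL
      rw [Ideal.ofList_nil, sup_bot_eq] at hFL
      obtain ⟨N, hN⟩ := hFL ha
      rw [Module.mem_annihilator] at hN
      have h3 : Subsingleton (Localization.AtPrime m.asIdeal ⊗[T[X]] M') := by
        refine subsingleton_localization_of_smul m.asIdeal M' ((C a) ^ N)
          (fun hcon => ham (hmm.isPrime.mem_of_pow_mem N hcon)) (fun x => ?_)
        have h4 : (C a ^ N : T[X]) = algebraMap T T[X] (a ^ N) := by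
          rw [map_pow]
          rfl
        rw [h4, algebraMap_smul]
        obtain ⟨y, rfl⟩ := e1.surjective x
        rw [← map_smul, hN y, map_zero]
      exact (e2.baseChange T[X] (Localization.AtPrime m.asIdeal) _ _).toEquiv.subsingleton
    · rw [Ideal.map_le_iff_le_comap, SetLike.not_le_iff_exists] at hm
      obtain ⟨h, hh, hhm⟩ := hm
      refine subsingleton_localization_of_smul m.asIdeal _ (algebraMap R₁[X] T[X] h) hhm
        (fun x => ?_)
      refine tor_smul_eq_zero_right (R := T[X]) (algebraMap R₁[X] T[X] h) (fun y => ?_) j _ x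
      induction y using TensorProduct.induction_on with
      | zero => exact smul_zero _
      | tmul p v =>
        rw [algebraMap_smul, TensorProduct.smul_tmul', TensorProduct.smul_tmul, Algebra.smul_def,
          (RingHom.mem_ker).1 hh, zero_mul, TensorProduct.tmul_zero]
      | add x y hx hy => rw [smul_add, hx, hy, add_zero]
  have hsum := eulerTor_eq_sum (R₁ := R₁) (T := T) (B₁ := R₁[X]) (B := T[X]) V (T ⊗[R₂] G)
    (fun j => hFP.symm.length_ne_top j) S hSvan (t + 1 + 1)
  have hchi : chi R₁ R₂ T t V G = eulerTor T (t + 1 + 1) (T ⊗[R₂] G) (T ⊗[R₁] V) := by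
    rw [eulerTor_of_vanish _ _ (t + 1) (t + 1 + 1) (by omega) (fun j hj =>
      regular_tor_vanish T t ht _ _ j hj)]
    exact eulerTor_symm _ _ _
  rw [hsum] at hchi
  have hper : ∀ m : MaximalSpectrum T[X], m ∈ S →
      (∀ g : ℕ, (g : WithBot ℕ∞) ≤ Module.supportDim R₂ G → 1 + g ≤ b) ∧
      0 ≤ eulerTor (Localization.AtPrime m.asIdeal) (t + 1 + 1)
        (Localization.AtPrime m.asIdeal ⊗[T[X]] (T[X] ⊗[T] (T ⊗[R₂] G)))
        (Localization.AtPrime m.asIdeal ⊗[T[X]] (T[X] ⊗[R₁[X]] V)) ∧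
      (∀ g : ℕ, (g : WithBot ℕ∞) ≤ Module.supportDim R₂ G → b ≤ 1 + g →
        0 < eulerTor (Localization.AtPrime m.asIdeal) (t + 1 + 1)
        (Localization.AtPrime m.asIdeal ⊗[T[X]] (T[X] ⊗[T] (T ⊗[R₂] G)))
        (Localization.AtPrime m.asIdeal ⊗[T[X]] (T[X] ⊗[R₁[X]] V))) ∧
      ((∀ g : ℕ, (g : WithBot ℕ∞) ≤ Module.supportDim R₂ G → 1 + g < b) →
        eulerTor (Localization.AtPrime m.asIdeal) (t + 1 + 1)
        (Localization.AtPrime m.asIdeal ⊗[T[X]] (T[X] ⊗[T] (T ⊗[R₂] G)))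
        (Localization.AtPrime m.asIdeal ⊗[T[X]] (T[X] ⊗[R₁[X]] V)) = 0) := fun m hm =>
    have hmm := m.isMaximal
    per_max h1 h2 ht hb G n IH hlen (by rwa [hwX]) hFP m.asIdeal
      (comap_C_eq_maximalIdeal m.asIdeal (Ideal.map_le_iff_le_comap.1
        (le_sup_left.trans ((hmemS m).1 hm)))) (le_sup_right.trans ((hmemS m).1 hm))
  obtain ⟨m₀, hm₀⟩ := exists_maximal_mem (R₁ := R₁) (T := T) (V := V)
  rw [← hmemS] at hm₀
  have hdimV := supportDim_dvr R₁ V
  obtain ⟨g, hg, hg0⟩ := exists_monic_ker (R₁ := R₁) (V := V)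
  have hc : ∀ m ∈ S, (0 : ℤ) < ((Module.length T (T[X] ⧸ m.asIdeal)).toNat : ℤ) := by
    intro m hm
    have hmm := m.isMaximal
    have h3 := length_quot_ne_top m.asIdeal (g.map (algebraMap R₁ T)) (hg.map _)
      ((hmemS m).1 hm (Ideal.mem_sup_right (Ideal.mem_map_of_mem (algebraMap R₁[X] T[X]) hg0)))
      (Ideal.map_le_iff_le_comap.1 (le_sup_left.trans ((hmemS m).1 hm)))
    have h4 : Module.length T (T[X] ⧸ m.asIdeal) ≠ 0 := by
      rw [Ne, Module.length_eq_zero_iff]
      exact not_subsingleton _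
    have h5 : (Module.length T (T[X] ⧸ m.asIdeal)).toNat ≠ 0 := by
      rw [Ne, ENat.toNat_eq_zero]
      exact not_or.2 ⟨h4, h3⟩
    exact_mod_cast Nat.pos_of_ne_zero h5
  refine ⟨?_, ?_, ?_, ?_⟩
  · intro e g' he hg'
    rw [hdimV] at he
    have he' : e ≤ 1 := by exact_mod_cast he
    have := (hper m₀ hm₀).1 g' hg'
    omega
  · rw [hchi]
    exact Finset.sum_nonneg fun m hm => mul_nonneg (hc m hm).le (hper m hm).2.1
  · intro e g' he hg' hb'
    rw [hdimV] at he
    have he' : e ≤ 1 := by exact_mod_cast he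
    rw [hchi]
    exact Finset.sum_pos (fun m hm => mul_pos (hc m hm)
      ((hper m hm).2.2.1 g' hg' (by omega))) ⟨m₀, hm₀⟩
  · intro hh
    rw [hchi]
    refine Finset.sum_eq_zero fun m hm => ?_
    rw [(hper m hm).2.2.2 (fun g' hg' => hh 1 g' hdimV.ge hg'), mul_zero]

end

/-- Serre's statements for discrete valuation rings finite over the first ring, such that the
cokernel has finite length. -/
theorem stepHyp_all {R₂ V : Type u} [CommRing R₂] [IsRegularLocalRing R₂] [CommRing V]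
    [IsDomain V] [IsDiscreteValuationRing V] {r₂ b : ℕ} (h2 : ringKrullDim R₂ = r₂)
    (G : Type u) [AddCommGroup G] [Module R₂ G] [Module.Finite R₂ G] (n : ℕ) :
    StepHyp R₂ V G r₂ b n := by
  induction n with
  | zero =>
    intro R₁ T _ _ _ _ _ _ _ _ _ _ _ _ r₁ t h1 ht hb hlen hFP
    refine pos_of_surjective h1 h2 ht hb G ?_ hFP
    rw [Nat.cast_zero, nonpos_iff_eq_zero, Module.length_eq_zero_iff] at hlen
    intro v
    have h3 : (Submodule.Quotient.mk v : V ⧸ LinearMap.range (Algebra.linearMap R₁ V)) = 0 :=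
      Subsingleton.elim _ _
    rw [Submodule.Quotient.mk_eq_zero] at h3
    exact h3
  | succ n ih =>
    intro R₁ T _ _ _ _ _ _ _ _ _ _ _ _ r₁ t h1 ht hb hlen hFP
    by_cases hs : Surjective (algebraMap R₁ V)
    · exact pos_of_surjective h1 h2 ht hb G hs hFP
    · have hex : ∃ w : V, w ∉ LinearMap.range (Algebra.linearMap R₁ V) := by
        by_contra hcon
        push Not at hcon
        exact hs hcon
      obtain ⟨w, hw⟩ := hex
      exact pos_step h1 h2 ht hb G n ih hlen w hw hFP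

end Vale.Agent.P177
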