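import Vale.Agent.P177.CPrime
import Vale.Agent.P177.CKer

/-!
Preparations for the inductive step: finite maps to discrete valuation rings and polynomial rings
over local rings.
-/

namespace Vale.Agent.P177

open CategoryTheory TensorProduct Function IsLocalRing RingTheory.Sequence Pointwise

universe u

section dvr

variable (R V : Type u) [CommRing R] [IsLocalRing R] [CommRing V] [IsDomain V]
  [IsDiscreteValuationRing V] [Algebra R V] [Module.Finite R V]

theorem comap_maximalIdeal_of_finite :
    (maximalIdeal V).comap (algebraMap R V) = maximalIdeal R :=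
  IsLocalRing.eq_maximalIdeal (Ideal.isMaximal_comap_of_isIntegral_of_isMaximal _)

theorem ker_lt_maximalIdeal : RingHom.ker (algebraMap R V) < maximalIdeal R := by
  refine lt_of_le_of_ne (le_maximalIdeal (RingHom.ker_ne_top _)) ?_
  intro h
  have h1 : (maximalIdeal V).comap (algebraMap R V) = (⊥ : Ideal V).comap (algebraMap R V) := by
    rw [comap_maximalIdeal_of_finite, ← h]
    rfl
  have h2 : (⊥ : Ideal V) < maximalIdeal V := bot_lt_iff_ne_bot.2
    (IsDiscreteValuationRing.not_a_field V)
  have h3 := Ideal.IsIntegral.comap_lt_comap (R := R) h2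
  rw [h1] at h3
  exact lt_irrefl _ h3

/-- Primes above the kernel. -/
theorem eq_ker_or_eq_maximalIdeal (q : Ideal R) [q.IsPrime]
    (h : RingHom.ker (algebraMap R V) ≤ q) :
    q = RingHom.ker (algebraMap R V) ∨ q = maximalIdeal R := by
  obtain ⟨Q, hQ, hQq⟩ := Ideal.exists_ideal_over_prime_of_isIntegral_of_isDomain (S := V) q h
  by_cases h0 : Q = ⊥
  · left
    rw [← hQq, h0]
    rfl
  · right
    have hQm : Q = maximalIdeal V := IsLocalRing.eq_maximalIdeal (hQ.isMaximal h0)
    rw [← hQq, hQm, comap_maximalIdeal_of_finite]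

omit [IsLocalRing R] [IsDomain V] [IsDiscreteValuationRing V] [Module.Finite R V] in
theorem annihilator_eq_ker : Module.annihilator R V = RingHom.ker (algebraMap R V) := by
  ext x
  rw [Module.mem_annihilator, RingHom.mem_ker]
  constructor
  · intro h
    rw [Algebra.algebraMap_eq_smul_one]
    exact h 1
  · intro h v
    rw [Algebra.smul_def, h, zero_mul]

theorem supportDim_dvr [IsNoetherianRing R] : Module.supportDim R V = (1 : ℕ) := by
  have hkp : (RingHom.ker (algebraMap R V)).IsPrime := RingHom.ker_isPrime _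
  have h4 : Module.supportDim R (R ⧸ RingHom.ker (algebraMap R V)) = Module.supportDim R V := by
    rw [← annihilator_eq_ker]
    unfold Module.supportDim
    rw [Module.support_eq_zeroLocus, Module.support_eq_zeroLocus, Ideal.annihilator_quotient]
  rw [← h4]
  have h0 : ((0 : ℕ) : WithBot ℕ∞) ≤ Module.supportDim R (R ⧸ maximalIdeal R) := by
    unfold Module.supportDim
    have := (Module.nonempty_support_of_nontrivial (R := R)
      (M := R ⧸ maximalIdeal R)).to_subtype
    exact Order.krullDim_nonneg
  apply le_antisymm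
  · by_contra hcon
    rw [not_le] at hcon
    obtain ⟨q, hq1, hq2, hq3⟩ := exists_gt_prime _ 1 (succ_le_of_lt_withBot hcon)
    rcases eq_ker_or_eq_maximalIdeal R V q hq2.le with h | h
    · exact absurd h hq2.ne'
    · obtain ⟨q', hq1', hq2', hq3'⟩ := exists_gt_prime q 0 hq3
      rw [h] at hq2'
      exact absurd (le_maximalIdeal hq1'.ne_top) (not_le_of_gt hq2')
  · exact supportDim_quotient_strict (ker_lt_maximalIdeal R V) 0 h0

end dvr

section poly

open Polynomial

variable {T : Type u} [CommRing T] [IsLocalRing T]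

/-- Primes containing the maximal ideal and a monic polynomial are maximal. -/
theorem isMaximal_of_monic_mem (q : Ideal T[X]) [hq : q.IsPrime] (g : T[X]) (hg : g.Monic)
    (hgq : g ∈ q) (hm : maximalIdeal T ≤ q.comap C) : q.IsMaximal := by
  have hcomap : q.comap C = maximalIdeal T :=
    le_antisymm (le_maximalIdeal (Ideal.comap_ne_top _ hq.ne_top)) hm
  have hint := hg.quotient_isIntegral (I := q) hgq
  have hdom : IsDomain (T[X] ⧸ q) := Ideal.Quotient.isDomain q
  have h1 : (⊥ : Ideal (T[X] ⧸ q)).IsMaximal := by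
    refine Ideal.isMaximal_of_isIntegral_of_isMaximal_comap' _ hint _ ?_
    have h2 : (⊥ : Ideal (T[X] ⧸ q)).comap
        ((Ideal.Quotient.mkₐ T q).comp (Algebra.ofId T T[X])).toRingHom = maximalIdeal T := by
      rw [← hcomap]
      ext x
      rw [Ideal.mem_comap, Ideal.mem_bot, Ideal.mem_comap]
      change Ideal.Quotient.mk q (C x) = 0 ↔ _
      rw [Ideal.Quotient.eq_zero_iff_mem]
    rw [h2]
    infer_instance
  exact (Ideal.bot_quotient_isMaximal_iff q).1 h1

theorem comap_C_eq_maximalIdeal (q : Ideal T[X]) [hq : q.IsPrime]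
    (hm : maximalIdeal T ≤ q.comap C) : q.comap C = maximalIdeal T :=
  le_antisymm (le_maximalIdeal (Ideal.comap_ne_top _ hq.ne_top)) hm

theorem ringKrullDim_localization_polynomial [IsNoetherianRing T] {t : ℕ}
    (ht : ringKrullDim T = t) (m : Ideal T[X]) [m.IsMaximal] (hm : m.comap C = maximalIdeal T) :
    ringKrullDim (Localization.AtPrime m) = ((t + 1 : ℕ) : WithBot ℕ∞) := by
  rw [IsLocalization.AtPrime.ringKrullDim_eq_height m (Localization.AtPrime m)]
  have : m.LiesOver (maximalIdeal T) := ⟨hm.symm⟩
  rw [Polynomial.height_eq_height_add_one (maximalIdeal T) m]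
  have h1 := IsLocalRing.maximalIdeal_height_eq_ringKrullDim (R := T)
  rw [ht] at h1
  push_cast
  rw [← h1]

/-- The residue ring has finite length. -/
theorem length_quot_ne_top [IsNoetherianRing T] (m : Ideal T[X]) (g : T[X])
    (hg : g.Monic) (hgm : g ∈ m) (hm : maximalIdeal T ≤ m.comap C) :
    Module.length T (T[X] ⧸ m) ≠ ⊤ := by
  have h1 : Module.Finite T (T[X] ⧸ Ideal.span {g}) := hg.finite_quotient
  have hle : Ideal.span {g} ≤ m := by
    rw [Ideal.span_singleton_le_iff_mem]
    exact hgm
  have h2 : Module.Finite T (T[X] ⧸ m) := Module.Finite.of_surjective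
    (Ideal.Quotient.factorₐ T hle).toLinearMap (Ideal.Quotient.factor_surjective hle)
  have h3 : FL ([] : List T) (T[X] ⧸ m) := by
    unfold FL
    refine le_trans ?_ Ideal.le_radical
    refine le_trans ?_ le_sup_left
    intro a ha
    rw [Module.mem_annihilator]
    intro x
    obtain ⟨x, rfl⟩ := Ideal.Quotient.mk_surjective x
    have h4 : a • x ∈ m := by
      rw [Polynomial.smul_eq_C_mul]
      exact Ideal.mul_mem_right _ _ (hm ha)
    exact Ideal.Quotient.eq_zero_iff_mem.2 h4
  exact h3.length_ne_top

end poly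

end Vale.Agent.P177
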