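import Vale.Agent.P177.CStepA
import Vale.Agent.P177.CTransfer

/-!
The inductive step: adjoining an element of the discrete valuation ring to the regular ring.
Data at one maximal ideal of `T[X]`.
-/

namespace Vale.Agent.P177

open CategoryTheory TensorProduct Function IsLocalRing RingTheory.Sequence Pointwise Polynomial

universe u

attribute [local instance] Polynomial.algebra

/-- The statement proved by induction. -/
def StepHyp (R₂ V G : Type u) [CommRing R₂] [CommRing V] [AddCommGroup G] [Module R₂ G]
    (r₂ b n : ℕ) : Prop :=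
  ∀ (R₁ T : Type u) [CommRing R₁] [IsRegularLocalRing R₁] [CommRing T]
    [IsRegularLocalRing T] [Algebra R₁ T] [Module.Flat R₁ T] [IsLocalHom (algebraMap R₁ T)]
    [Algebra R₂ T] [Module.Flat R₂ T] [IsLocalHom (algebraMap R₂ T)]
    [Algebra R₁ V] [Module.Finite R₁ V] (r₁ t : ℕ), ringKrullDim R₁ = r₁ →
    ringKrullDim T = t → r₁ + r₂ = t + b →
    Module.length R₁ (V ⧸ LinearMap.range (Algebra.linearMap R₁ V)) ≤ n →
    FP R₁ R₂ T V G → Pos R₁ R₂ T t b V G

section

variable {R₁ R₂ T V : Type u} [CommRing R₁] [CommRing R₂] [CommRing T] [CommRing V]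
  [IsRegularLocalRing R₁] [IsRegularLocalRing R₂] [IsRegularLocalRing T]
  [Algebra R₁ T] [Algebra R₂ T] [Module.Flat R₁ T] [Module.Flat R₂ T]
  [IsLocalHom (algebraMap R₁ T)] [IsLocalHom (algebraMap R₂ T)] {r₁ r₂ t b : ℕ}
  [IsDomain V] [IsDiscreteValuationRing V] [Algebra R₁ V] [Module.Finite R₁ V]
  [Algebra R₁[X] V] [IsScalarTower R₁ R₁[X] V]

omit [IsRegularLocalRing R₁] [IsDomain V] [IsDiscreteValuationRing V] in
theorem isIntegral_poly : Algebra.IsIntegral R₁[X] V :=
  Algebra.IsIntegral.tower_top R₁

omit [IsRegularLocalRing R₁] in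
theorem comap_poly_isMaximal :
    ((maximalIdeal V).comap (algebraMap R₁[X] V)).IsMaximal := by
  have := isIntegral_poly (R₁ := R₁) (V := V)
  exact Ideal.isMaximal_comap_of_isIntegral_of_isMaximal _

omit [IsRegularLocalRing R₁] in
theorem comap_C_comap_poly [IsLocalRing R₁] :
    ((maximalIdeal V).comap (algebraMap R₁[X] V)).comap C = maximalIdeal R₁ := by
  rw [Ideal.comap_comap, ← comap_maximalIdeal_of_finite R₁ V]
  congr 1
  exact (IsScalarTower.algebraMap_eq R₁ R₁[X] V).symm

omit [IsRegularLocalRing R₁] [IsDomain V] [IsDiscreteValuationRing V] in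
theorem exists_monic_ker : ∃ g : R₁[X], g.Monic ∧ algebraMap R₁[X] V g = 0 := by
  obtain ⟨g, hg, hg0⟩ := Algebra.IsIntegral.isIntegral (R := R₁) (algebraMap R₁[X] V X)
  refine ⟨g, hg, ?_⟩
  have h1 : algebraMap R₁[X] V g = aeval (algebraMap R₁[X] V X) g := by
    have h2 : (IsScalarTower.toAlgHom R₁ R₁[X] V) = aeval (algebraMap R₁[X] V X) := by
      ext
      simp
    have h3 := DFunLike.congr_fun h2 g
    exact h3
  rw [h1]
  exact hg0

omit [IsRegularLocalRing T] [Module.Flat R₁ T] in
/-- The contraction of a maximal ideal of `T[X]` containing the kernel. -/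
theorem comap_eq_of_ker_le [IsLocalRing T] (m : Ideal T[X]) [hmp : m.IsPrime]
    (hmT : m.comap C = maximalIdeal T)
    (hker : (RingHom.ker (algebraMap R₁[X] V)).map (algebraMap R₁[X] T[X]) ≤ m) :
    (maximalIdeal V).comap (algebraMap R₁[X] V) = m.comap (algebraMap R₁[X] T[X]) := by
  have := isIntegral_poly (R₁ := R₁) (V := V)
  have hC : (m.comap (algebraMap R₁[X] T[X])).comap C = maximalIdeal R₁ := by
    have h1 : (m.comap (algebraMap R₁[X] T[X])).comap C =
        (m.comap C).comap (algebraMap R₁ T) := by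
      rw [Ideal.comap_comap, Ideal.comap_comap]
      congr 1
      ext x
      simp
    rw [h1, hmT]
    exact ((IsLocalRing.local_hom_TFAE (algebraMap R₁ T)).out 0 4).mp ‹_›
  obtain ⟨Q, hQ, hQm⟩ := Ideal.exists_ideal_over_prime_of_isIntegral_of_isDomain (S := V)
    (m.comap (algebraMap R₁[X] T[X])) (Ideal.map_le_iff_le_comap.1 hker)
  have hQ0 : Q ≠ ⊥ := by
    rintro rfl
    have h2 : RingHom.ker (algebraMap R₁ V) = maximalIdeal R₁ := by
      rw [← hC, ← hQm]
      rw [Ideal.comap_comap, IsScalarTower.algebraMap_eq R₁ R₁[X] V]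
      rfl
    exact absurd h2 (ker_lt_maximalIdeal R₁ V).ne
  have hQm' : Q = maximalIdeal V := IsLocalRing.eq_maximalIdeal (hQ.isMaximal hQ0)
  rw [← hQm, hQm']

omit [IsRegularLocalRing T] in
theorem isLocalHom_localization [IsLocalRing T] (m : Ideal T[X]) [hmp : m.IsPrime]
    (hmT : m.comap C = maximalIdeal T) :
    IsLocalHom (algebraMap T (Localization.AtPrime m)) := by
  constructor
  intro a ha
  by_contra hcon
  have h1 : a ∈ maximalIdeal T := hcon
  rw [← hmT, Ideal.mem_comap] at h1
  rw [IsScalarTower.algebraMap_apply T T[X] (Localization.AtPrime m)] at ha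
  have h2 := (IsLocalization.AtPrime.isUnit_to_map_iff (Localization.AtPrime m) m
    (algebraMap T T[X] a)).1 ha
  exact h2 h1

/-- All data at one maximal ideal of `T[X]`. -/
theorem per_max (h1 : ringKrullDim R₁ = r₁) (h2 : ringKrullDim R₂ = r₂)
    (ht : ringKrullDim T = t) (hb : r₁ + r₂ = t + b) (G : Type u) [AddCommGroup G] [Module R₂ G]
    [Module.Finite R₂ G] (n : ℕ) (IH : StepHyp R₂ V G r₂ b n)
    (hlen : Module.length R₁ (V ⧸ LinearMap.range (Algebra.linearMap R₁ V)) ≤ ((n + 1 : ℕ) : ℕ∞))
    (hw : algebraMap R₁[X] V X ∉ LinearMap.range (Algebra.linearMap R₁ V))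
    (hFP : FP R₁ R₂ T V G) (m : Ideal T[X]) [hmm : m.IsMaximal]
    (hmT : m.comap C = maximalIdeal T)
    (hker : (RingHom.ker (algebraMap R₁[X] V)).map (algebraMap R₁[X] T[X]) ≤ m) :
    (∀ g : ℕ, (g : WithBot ℕ∞) ≤ Module.supportDim R₂ G → 1 + g ≤ b) ∧
    0 ≤ eulerTor (Localization.AtPrime m) (t + 1 + 1)
      (Localization.AtPrime m ⊗[T[X]] (T[X] ⊗[T] (T ⊗[R₂] G)))
      (Localization.AtPrime m ⊗[T[X]] (T[X] ⊗[R₁[X]] V)) ∧
    (∀ g : ℕ, (g : WithBot ℕ∞) ≤ Module.supportDim R₂ G → b ≤ 1 + g →
      0 < eulerTor (Localization.AtPrime m) (t + 1 + 1)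
      (Localization.AtPrime m ⊗[T[X]] (T[X] ⊗[T] (T ⊗[R₂] G)))
      (Localization.AtPrime m ⊗[T[X]] (T[X] ⊗[R₁[X]] V))) ∧
    ((∀ g : ℕ, (g : WithBot ℕ∞) ≤ Module.supportDim R₂ G → 1 + g < b) →
      eulerTor (Localization.AtPrime m) (t + 1 + 1)
      (Localization.AtPrime m ⊗[T[X]] (T[X] ⊗[T] (T ⊗[R₂] G)))
      (Localization.AtPrime m ⊗[T[X]] (T[X] ⊗[R₁[X]] V)) = 0) := by
  have hint := isIntegral_poly (R₁ := R₁) (V := V)
  have hMmax := comap_poly_isMaximal (R₁ := R₁) (V := V)
  have hMC := comap_C_comap_poly (R₁ := R₁) (V := V)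
  have hcm := comap_eq_of_ker_le (R₁ := R₁) (V := V) m hmT hker
  set M : Ideal R₁[X] := (maximalIdeal V).comap (algebraMap R₁[X] V) with hM
  -- the ring `R''`
  have iR : IsRegularLocalRing (Localization.AtPrime M) :=
    Polynomial.isRegularLocalRing_localization_atPrime_of_comap_eq_maximalIdeal R₁ M hMC
  have dR := ringKrullDim_localization_polynomial h1 M hMC
  have hunit : ∀ y : M.primeCompl, IsUnit (algebraMap R₁[X] V y) := by
    rintro ⟨y, hy⟩
    by_contra hcon
    exact hy hcon
  let aV : Algebra (Localization.AtPrime M) V :=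
    (IsLocalization.lift (M := M.primeCompl) (g := algebraMap R₁[X] V) hunit).toAlgebra
  have sV : IsScalarTower R₁[X] (Localization.AtPrime M) V :=
    IsScalarTower.of_algebraMap_eq fun x => (IsLocalization.lift_eq hunit x).symm
  have sV' : IsScalarTower R₁ (Localization.AtPrime M) V :=
    IsScalarTower.of_algebraMap_eq fun x => by
      rw [IsScalarTower.algebraMap_apply R₁ R₁[X] (Localization.AtPrime M),
        ← IsScalarTower.algebraMap_apply R₁[X] (Localization.AtPrime M) V,
        ← IsScalarTower.algebraMap_apply R₁ R₁[X] V]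
  have fV : Module.Finite (Localization.AtPrime M) V :=
    Module.Finite.of_restrictScalars_finite R₁ (Localization.AtPrime M) V
  -- the ring `L`
  have iL : IsRegularLocalRing (Localization.AtPrime m) :=
    Polynomial.isRegularLocalRing_localization_atPrime_of_comap_eq_maximalIdeal T m hmT
  have dL := ringKrullDim_localization_polynomial ht m hmT
  let aL : Algebra (Localization.AtPrime M) (Localization.AtPrime m) :=
    (Localization.localRingHom M m (algebraMap R₁[X] T[X]) hcm).toAlgebra
  have sL : IsScalarTower R₁[X] (Localization.AtPrime M) (Localization.AtPrime m) :=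
    IsScalarTower.of_algebraMap_eq fun x => by
      rw [IsScalarTower.algebraMap_apply R₁[X] T[X] (Localization.AtPrime m)]
      exact (Localization.localRingHom_to_map M m (algebraMap R₁[X] T[X]) hcm x).symm
  have hlocL : IsLocalHom (algebraMap (Localization.AtPrime M) (Localization.AtPrime m)) :=
    Localization.isLocalHom_localRingHom M m (algebraMap R₁[X] T[X]) hcm
  have fl1 : Module.Flat R₁[X] T[X] :=
    Module.Flat.isBaseChange R₁ R₁[X] T T[X] (Algebra.IsPushout.out (R := R₁) (S := R₁[X])
      (R' := T) (S' := T[X]))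
  have fl2 : Module.Flat T[X] (Localization.AtPrime m) := IsLocalization.flat _ m.primeCompl
  have fl3 : Module.Flat R₁[X] (Localization.AtPrime m) := Module.Flat.trans R₁[X] T[X] _
  have fl4 : Module.Flat (Localization.AtPrime M) (Localization.AtPrime m) :=
    (Module.flat_iff_of_isLocalization (Localization.AtPrime M) M.primeCompl _).2 fl3
  have hlocT := isLocalHom_localization m hmT
  have flT : Module.Flat T (Localization.AtPrime m) := Module.Flat.trans T T[X] _
  have sT2 : IsScalarTower R₂ T (Localization.AtPrime m) :=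
    IsScalarTower.of_algebraMap_eq fun x => by
      rw [IsScalarTower.algebraMap_apply R₂ T[X] (Localization.AtPrime m),
        IsScalarTower.algebraMap_apply T T[X] (Localization.AtPrime m),
        IsScalarTower.algebraMap_apply R₂ T T[X]]
  have fl5 : Module.Flat R₂ (Localization.AtPrime m) := Module.Flat.trans R₂ T _
  have hloc2 : IsLocalHom (algebraMap R₂ (Localization.AtPrime m)) := by
    rw [IsScalarTower.algebraMap_eq R₂ T (Localization.AtPrime m)]
    infer_instance
  -- compatibility of the maps
  have hc1 : ∀ a : R₁[X], algebraMap (Localization.AtPrime M) (Localization.AtPrime m)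
      (algebraMap R₁[X] (Localization.AtPrime M) a) =
      algebraMap T[X] (Localization.AtPrime m) (algebraMap R₁[X] T[X] a) := by
    intro a
    rw [← IsScalarTower.algebraMap_apply R₁[X] (Localization.AtPrime M) (Localization.AtPrime m),
      IsScalarTower.algebraMap_apply R₁[X] T[X] (Localization.AtPrime m)]
  have hc2 : ∀ a : R₁, algebraMap (Localization.AtPrime M) (Localization.AtPrime m)
      (algebraMap R₁ (Localization.AtPrime M) a) =
      algebraMap T[X] (Localization.AtPrime m) (C (algebraMap R₁ T a)) := by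
    intro a
    rw [IsScalarTower.algebraMap_apply R₁ R₁[X] (Localization.AtPrime M), hc1]
    congr 1
    simp
  -- the finiteness condition
  have hFP' : FP (Localization.AtPrime M) R₂ (Localization.AtPrime m) V G := by
    unfold FP
    rw [Ideal.radical_eq_sInf]
    refine le_sInf ?_
    rintro q ⟨hJq, hq⟩
    have hq' : (q.comap (algebraMap T[X] (Localization.AtPrime m))).IsPrime :=
      Ideal.comap_isPrime _ _
    have hq'm : q.comap (algebraMap T[X] (Localization.AtPrime m)) ≤ m := by
      have h3 : (maximalIdeal (Localization.AtPrime m)).comap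
          (algebraMap T[X] (Localization.AtPrime m)) = m := Localization.AtPrime.under_maximalIdeal
      exact (Ideal.comap_mono (le_maximalIdeal hq.ne_top)).trans h3.le
    have hq'C : maximalIdeal T ≤ (q.comap (algebraMap T[X] (Localization.AtPrime m))).comap C := by
      refine hFP.trans ?_
      rw [(Ideal.comap_isPrime C
        (q.comap (algebraMap T[X] (Localization.AtPrime m)))).radical_le_iff]
      apply sup_le
      · rw [Ideal.map_le_iff_le_comap]
        intro a ha
        change algebraMap T[X] (Localization.AtPrime m) (C (algebraMap R₁ T a)) ∈ q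
        rw [← hc2]
        apply hJq
        apply Ideal.mem_sup_left
        apply Ideal.mem_map_of_mem
        rw [Module.mem_annihilator] at ha ⊢
        intro v
        rw [algebraMap_smul]
        exact ha v
      · rw [Ideal.map_le_iff_le_comap]
        intro a ha
        change algebraMap T[X] (Localization.AtPrime m) (algebraMap T T[X] (algebraMap R₂ T a)) ∈ q
        rw [← IsScalarTower.algebraMap_apply T T[X] (Localization.AtPrime m),
          ← IsScalarTower.algebraMap_apply R₂ T (Localization.AtPrime m)]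
        apply hJq
        apply Ideal.mem_sup_right
        exact Ideal.mem_map_of_mem _ ha
    obtain ⟨g, hg, hg0⟩ := exists_monic_ker (R₁ := R₁) (V := V)
    have hgq : g.map (algebraMap R₁ T) ∈ q.comap (algebraMap T[X] (Localization.AtPrime m)) := by
      change algebraMap T[X] (Localization.AtPrime m) (algebraMap R₁[X] T[X] g) ∈ q
      rw [← hc1]
      apply hJq
      apply Ideal.mem_sup_left
      apply Ideal.mem_map_of_mem
      rw [Module.mem_annihilator]
      intro v
      rw [algebraMap_smul, Algebra.smul_def, hg0, zero_mul]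
    have hqmax := isMaximal_of_monic_mem _ _ (hg.map _) hgq hq'C
    have hqm := hqmax.eq_of_le hmm.ne_top hq'm
    rw [← Localization.AtPrime.map_eq_maximalIdeal, Ideal.map_le_iff_le_comap, hqm]
  -- the length
  have hlen' : Module.length (Localization.AtPrime M)
      (V ⧸ LinearMap.range (Algebra.linearMap (Localization.AtPrime M) V)) ≤ (n : ℕ∞) := by
    set W := LinearMap.range (Algebra.linearMap (Localization.AtPrime M) V) with hW
    set W₁ := LinearMap.range (Algebra.linearMap R₁ V) with hW₁
    have hle : Module.length (Localization.AtPrime M) (V ⧸ W) ≤ Module.length R₁ (V ⧸ W) := by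
      have h3 := Submodule.length_le_length_restrictScalars R₁
        (⊤ : Submodule (Localization.AtPrime M) (V ⧸ W))
      rw [Submodule.restrictScalars_top, Module.length_top, Module.length_top] at h3
      exact h3
    let f : (V ⧸ W₁) →ₗ[R₁] (V ⧸ W) := Submodule.liftQ W₁ (W.mkQ.restrictScalars R₁) (by
      rintro _ ⟨a, rfl⟩
      change W.mkQ (Algebra.linearMap R₁ V a) = 0
      rw [Submodule.mkQ_apply, Submodule.Quotient.mk_eq_zero]
      refine ⟨algebraMap R₁ (Localization.AtPrime M) a, ?_⟩
      change algebraMap (Localization.AtPrime M) V (algebraMap R₁ (Localization.AtPrime M) a) = _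
      rw [← IsScalarTower.algebraMap_apply R₁ (Localization.AtPrime M) V]
      rfl)
    have hf : Surjective f := by
      intro x
      obtain ⟨v, rfl⟩ := Submodule.mkQ_surjective _ x
      exact ⟨Submodule.Quotient.mk v, rfl⟩
    have hkerf : LinearMap.ker f ≠ ⊥ := by
      intro hbot
      apply hw
      have h3 : (Submodule.Quotient.mk (algebraMap R₁[X] V X) : V ⧸ W₁) ∈ LinearMap.ker f := by
        change W.mkQ (algebraMap R₁[X] V X) = 0
        rw [Submodule.mkQ_apply, Submodule.Quotient.mk_eq_zero]
        refine ⟨algebraMap R₁[X] (Localization.AtPrime M) X, ?_⟩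
        change algebraMap (Localization.AtPrime M) V
          (algebraMap R₁[X] (Localization.AtPrime M) X) = _
        rw [← IsScalarTower.algebraMap_apply R₁[X] (Localization.AtPrime M) V]
      rw [hbot, Submodule.mem_bot, Submodule.Quotient.mk_eq_zero] at h3
      exact h3
    have hne : Module.length R₁ (V ⧸ W₁) ≠ ⊤ := fun h3 => by
      rw [h3] at hlen
      exact absurd hlen (not_le_of_gt (ENat.natCast_lt_top _))
    have h4 := Module.length_ne_top_iff.1 hne
    rw [isFiniteLength_iff_isNoetherian_isArtinian] at h4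
    obtain ⟨h5, h6⟩ := h4
    have h7 := Submodule.length_quotient_lt (LinearMap.ker f) hkerf
    rw [(f.quotKerEquivOfSurjective hf).length_eq] at h7
    have h8 := (hle.trans_lt h7).trans_le hlen
    have h9 : ((n + 1 : ℕ) : ℕ∞) = (n : ℕ∞) + 1 := by push_cast; rfl
    rw [h9] at h8
    exact (ENat.lt_add_one_iff (ENat.natCast_ne_top n)).1 h8
  have hpos := IH (Localization.AtPrime M) (Localization.AtPrime m) (r₁ + 1) (t + 1) dR dL
    (by omega) hlen' hFP'
  have hdimV := supportDim_dvr (Localization.AtPrime M) V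
  -- identification of the modules
  have eG : (Localization.AtPrime m ⊗[T[X]] (T[X] ⊗[T] (T ⊗[R₂] G))) ≃ₗ[Localization.AtPrime m]
      (Localization.AtPrime m ⊗[R₂] G) :=
    AlgebraTensorModule.cancelBaseChange T T[X] (Localization.AtPrime m)
      (Localization.AtPrime m) (T ⊗[R₂] G) ≪≫ₗ
    AlgebraTensorModule.cancelBaseChange R₂ T (Localization.AtPrime m) (Localization.AtPrime m) G
  have eV1 : V ≃ₗ[Localization.AtPrime M] (Localization.AtPrime M ⊗[R₁[X]] V) := by
    have h3 : IsLocalizedModule M.primeCompl (LinearMap.id : V →ₗ[R₁[X]] V) :=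
      isLocalizedModule_id M.primeCompl (M := V) (Localization.AtPrime M)
    have h4 : IsBaseChange (Localization.AtPrime M) (LinearMap.id : V →ₗ[R₁[X]] V) :=
      (isLocalizedModule_iff_isBaseChange M.primeCompl (Localization.AtPrime M) _).1 h3
    exact h4.equiv.symm
  have eV : (Localization.AtPrime m ⊗[T[X]] (T[X] ⊗[R₁[X]] V)) ≃ₗ[Localization.AtPrime m]
      (Localization.AtPrime m ⊗[Localization.AtPrime M] V) :=
    AlgebraTensorModule.cancelBaseChange R₁[X] T[X] (Localization.AtPrime m)
      (Localization.AtPrime m) V ≪≫ₗ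
    (AlgebraTensorModule.cancelBaseChange R₁[X] (Localization.AtPrime M) (Localization.AtPrime m)
      (Localization.AtPrime m) V).symm ≪≫ₗ
    (AlgebraTensorModule.congr (LinearEquiv.refl _ _) eV1).symm
  have hchi : eulerTor (Localization.AtPrime m) (t + 1 + 1)
      (Localization.AtPrime m ⊗[T[X]] (T[X] ⊗[T] (T ⊗[R₂] G)))
      (Localization.AtPrime m ⊗[T[X]] (T[X] ⊗[R₁[X]] V)) =
      chi (Localization.AtPrime M) R₂ (Localization.AtPrime m) (t + 1) V G := by
    refine (eulerTor_congr (T := Localization.AtPrime m)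
      (X := Localization.AtPrime m ⊗[T[X]] (T[X] ⊗[T] (T ⊗[R₂] G)))
      (X' := Localization.AtPrime m ⊗[R₂] G)
      (Y := Localization.AtPrime m ⊗[T[X]] (T[X] ⊗[R₁[X]] V))
      (Y' := Localization.AtPrime m ⊗[Localization.AtPrime M] V) eG eV (t + 1 + 1)).trans ?_
    exact eulerTor_symm _ _ _
  rw [hchi]
  have hone : ((1 : ℕ) : WithBot ℕ∞) ≤ Module.supportDim (Localization.AtPrime M) V := hdimV.ge
  refine ⟨fun g hg => hpos.dim_le 1 g hone hg, hpos.nonneg, fun g hg hbg =>
    hpos.pos 1 g hone hg hbg, fun hh => hpos.zero fun e g he hg => ?_⟩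
  rw [hdimV] at he
  have he' : e ≤ 1 := by exact_mod_cast he
  have := hh g hg
  omega

end

end Vale.Agent.P177
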