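import Vale.Agent.P177.CStrict

/-!
The resolution of a strict transform.
-/

namespace Vale.Agent.P177

open Function IsLocalRing

universe u

section overS

variable {A S : Type u} [CommRing A] [CommRing S] [Algebra A S] {I : Ideal A} {x : A}
  {M M₁ : Type u} [AddCommGroup M] [Module A M] [AddCommGroup M₁] [Module A M₁] [Module S M₁]
  [IsScalarTower A S M₁] {F : ℕ → Submodule A M} {ι : M →ₗ[A] M₁}

theorem lc_single {R : Type*} [CommRing R] {N : Type*} [AddCommGroup N] [Module R N] {b : ℕ}
    (w : Fin b → N) (j : Fin b) : lc w (Pi.single j (1 : R)) = w j := by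
  rw [lc_apply, Finset.sum_eq_single j]
  · rw [Pi.single_eq_same, one_smul]
  · intro i _ hi
    rw [Pi.single_eq_of_ne hi, zero_smul]
  · simp

/-- The strict transform of a filtered map from a free module. -/
theorem exists_strict_map (hM : IsStrict x F ι) {b : ℕ} (a : Fin b → ℕ)
    (ε : (Fin b → A) →ₗ[A] M) (hε : ∀ j, ε (Pi.single j 1) ∈ F (a j)) :
    ∃ ε₁ : (Fin b → S) →ₗ[S] M₁,
      (∀ j, x ^ a j • ε₁ (Pi.single j 1) = ι (ε (Pi.single j 1))) ∧
      ∀ f, ε₁ (wmap x (Algebra.linearMap A S) a f) = ι (ε f) := by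
  have h1 : ∀ j, ∃ v, x ^ a j • v = ι (ε (Pi.single j 1)) := fun j => hM.div _ _ (hε j)
  choose v hv using h1
  refine ⟨lc v, fun j => by rw [lc_single, hv], fun f => ?_⟩
  have h2 : f = ∑ j, f j • (Pi.single j (1 : A) : Fin b → A) := by
    funext k
    simp [Finset.sum_apply, Pi.single_apply]
  conv_rhs => rw [h2]
  rw [lc_apply, map_sum, map_sum]
  refine Finset.sum_congr rfl fun j _ => ?_
  rw [wmap_apply, map_smul, map_smul, ← hv j]
  change (x ^ a j • algebraMap A S (f j)) • v j = _
  rw [smul_assoc, algebraMap_smul, smul_comm]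

section fr

variable {r : ℕ} (X : FRes I F r)

theorem FRes.eps_mem (j : Fin (X.b 0)) : X.ε (Pi.single j 1) ∈ F (X.a 0 j) := by
  rw [← X.strict_ε]
  exact ⟨_, single_mem_wfil _ _, rfl⟩

theorem FRes.delta_mem' (i : ℕ) (j : Fin (X.b (i + 1))) : X.δ i (Pi.single j 1) ∈
    wfil (fun k => (I ^ k : Ideal A)) (X.a i) (X.a (i + 1) j) := by
  rw [mem_wfil]
  exact fun k => X.delta_mem i j k

variable (hS : IsStrict x (fun k => (I ^ k : Ideal A)) (Algebra.linearMap A S)) (hx : x ∈ I)
  (hM : IsStrict x F ι)

include hS hx in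
theorem strict_free {b : ℕ} (a : Fin b → ℕ) : IsStrict x (wfil (fun k => (I ^ k : Ideal A)) a)
    (wmap x (Algebra.linearMap A S) a) := by
  refine hS.weighted (goodFil_self I).antitone ?_ a
  intro n m hm
  exact (goodFil_self I).smul n (Submodule.smul_mem_smul hx hm)

/-- The augmentation of the strict transform. -/
noncomputable def strictEps : (Fin (X.b 0) → S) →ₗ[S] M₁ :=
  (exists_strict_map (S := S) hM (X.a 0) X.ε X.eps_mem).choose

theorem strictEps_wmap (f : Fin (X.b 0) → A) :
    strictEps X hM (wmap x (Algebra.linearMap A S) (X.a 0) f) = ι (X.ε f) :=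
  (exists_strict_map (S := S) hM (X.a 0) X.ε X.eps_mem).choose_spec.2 f

/-- The differentials of the strict transform. -/
noncomputable def strictDelta (i : ℕ) : (Fin (X.b (i + 1)) → S) →ₗ[S] (Fin (X.b i) → S) :=
  (exists_strict_map (S := S) (strict_free hS hx (X.a i)) (X.a (i + 1)) (X.δ i)
    (X.delta_mem' i)).choose

theorem strictDelta_wmap (i : ℕ) (f : Fin (X.b (i + 1)) → A) :
    strictDelta X hS hx i (wmap x (Algebra.linearMap A S) (X.a (i + 1)) f) =
      wmap x (Algebra.linearMap A S) (X.a i) (X.δ i f) :=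
  (exists_strict_map (S := S) (strict_free hS hx (X.a i)) (X.a (i + 1)) (X.δ i)
    (X.delta_mem' i)).choose_spec.2 f

theorem strictDelta_single (i : ℕ) (j : Fin (X.b (i + 1))) (k : Fin (X.b i)) :
    x ^ X.a (i + 1) j • strictDelta X hS hx i (Pi.single j 1) k =
      x ^ X.a i k • algebraMap A S (X.δ i (Pi.single j 1) k) :=
  congrFun ((exists_strict_map (S := S) (strict_free hS hx (X.a i)) (X.a (i + 1)) (X.δ i)
    (X.delta_mem' i)).choose_spec.1 j) k

theorem GoodFil.x_smul {N : Type*} [AddCommGroup N] [Module A N] {G : ℕ → Submodule A N}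
    (hG : GoodFil I G) (hx : x ∈ I) (n : ℕ) (m : N) (hm : m ∈ G n) : x • m ∈ G (n + 1) :=
  hG.smul n (Submodule.smul_mem_smul hx hm)

/-- The resolution of the strict transform. -/
noncomputable def strictFR (hF : GoodFil I F) : FR S M₁ where
  b := X.b
  ε := strictEps X hM
  δ := strictDelta X hS hx
  surj := by
    have h := strict_exact (D := X.ε) (D₁ := (strictEps X hM (S := S)).restrictScalars A)
      (K₂ := wfil (fun k => (I ^ k : Ideal A)) (X.a 0))
      (strict_free hS hx (X.a 0)) hM (strictEps_wmap X hM)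
      (hF.x_smul hx) (Z := ⊤) (Z₁ := ⊤) (fun _ _ _ _ _ _ => ⟨0, trivial⟩)
      (fun n => by rw [X.strict_ε, top_inf_eq])
    intro v
    exact h (Submodule.mem_top (x := v))
  exact_zero := by
    intro v
    constructor
    · intro hv
      have h := strict_exact (D := X.δ 0)
        (D₁ := (strictDelta X hS hx 0).restrictScalars A)
        (K₂ := wfil (fun k => (I ^ k : Ideal A)) (X.a 1))
        (K₁ := wfil (fun k => (I ^ k : Ideal A)) (X.a 0))
        (strict_free hS hx (X.a 1)) (strict_free hS hx (X.a 0)) (strictDelta_wmap X hS hx 0)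
        (((goodFil_self I).weighted (X.a 0)).x_smul hx) (Z := LinearMap.ker X.ε)
        (Z₁ := LinearMap.ker ((strictEps X hM (S := S)).restrictScalars A))
        (fun v n m _ hvm hv => zA_ker hM (D := X.ε)
          (D₁ := (strictEps X hM (S := S)).restrictScalars A) (strictEps_wmap X hM) v n m hvm hv)
        (fun n => X.strict_zero n)
      exact h hv
    · rintro ⟨w, rfl⟩
      obtain ⟨n, m, -, hwm⟩ := (strict_free hS hx (X.a 1)).surj w
      apply hM.reg_pow n
      have h1 : ((strictEps X hM (S := S)).restrictScalars A)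
        (((strictDelta X hS hx 0).restrictScalars A) (x ^ n • w)) = 0 := by
        rw [hwm]
        change strictEps X hM (strictDelta X hS hx 0 (wmap x (Algebra.linearMap A S) (X.a 1) m)) = 0
        rw [strictDelta_wmap, strictEps_wmap, X.exact_zero.apply_apply_eq_zero, map_zero]
      rw [map_smul, map_smul] at h1
      exact h1
  exact_succ i := by
    intro v
    constructor
    · intro hv
      have h := strict_exact (D := X.δ (i + 1))
        (D₁ := (strictDelta X hS hx (i + 1)).restrictScalars A)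
        (K₂ := wfil (fun k => (I ^ k : Ideal A)) (X.a (i + 2)))
        (K₁ := wfil (fun k => (I ^ k : Ideal A)) (X.a (i + 1)))
        (strict_free hS hx (X.a (i + 2))) (strict_free hS hx (X.a (i + 1)))
        (strictDelta_wmap X hS hx (i + 1))
        (((goodFil_self I).weighted (X.a (i + 1))).x_smul hx) (Z := LinearMap.ker (X.δ i))
        (Z₁ := LinearMap.ker ((strictDelta X hS hx i).restrictScalars A))
        (fun v n m _ hvm hv => zA_ker (strict_free hS hx (X.a i)) (D := X.δ i)
          (D₁ := (strictDelta X hS hx i).restrictScalars A) (strictDelta_wmap X hS hx i)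
          v n m hvm hv)
        (fun n => X.strict_succ i n)
      exact h hv
    · rintro ⟨w, rfl⟩
      obtain ⟨n, m, -, hwm⟩ := (strict_free hS hx (X.a (i + 2))).surj w
      apply (strict_free hS hx (X.a i)).reg_pow n
      have h1 : ((strictDelta X hS hx i).restrictScalars A)
        (((strictDelta X hS hx (i + 1)).restrictScalars A) (x ^ n • w)) = 0 := by
        rw [hwm]
        change strictDelta X hS hx i (strictDelta X hS hx (i + 1)
          (wmap x (Algebra.linearMap A S) (X.a (i + 2)) m)) = 0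
        rw [strictDelta_wmap, strictDelta_wmap, (X.exact_succ i).apply_apply_eq_zero, map_zero]
      rw [map_smul, map_smul] at h1
      exact h1

end fr

section tensor

variable {r : ℕ} (X : FRes I F r)
  (hS : IsStrict x (fun k => (I ^ k : Ideal A)) (Algebra.linearMap A S)) (hx : x ∈ I)
  (hM : IsStrict x F ι) (hF : GoodFil I F) {N N₁ : Type u} [AddCommGroup N] [Module A N]
  [AddCommGroup N₁] [Module A N₁] [Module S N₁] [IsScalarTower A S N₁] {G : ℕ → Submodule A N}
  {κ : N →ₗ[A] N₁} (hN : IsStrict x G κ) (hG : GoodFil I G)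

include hN hG hx in
theorem strict_wN {b : ℕ} (a : Fin b → ℕ) : IsStrict x (wfil G a) (wmap x κ a) :=
  hN.weighted hG.antitone (hG.x_smul hx) a

theorem act_strictDelta (i : ℕ) (v : Fin (X.b (i + 1)) → N) :
    act N₁ (strictDelta X hS hx i) (wmap x κ (X.a (i + 1)) v) =
      wmap x κ (X.a i) (act N (X.δ i) v) := by
  funext k
  rw [act_apply, wmap_apply, act_apply, map_sum, Finset.smul_sum]
  refine Finset.sum_congr rfl fun j _ => ?_
  rw [wmap_apply, map_smul, smul_comm, ← smul_assoc, strictDelta_single, smul_assoc,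
    algebraMap_smul]

include hN hG in
/-- The homology of the filtered pieces is the homology of the strict transform. -/
theorem strict_length (i k : ℕ) (hstab : ∀ k', k ≤ k' → X.Stab G x i k') :
    rl (X.ZK G k i) (X.BK G k i) = Module.length A
      ((strictFR X hS hx hM hF).Z N₁ i ⧸ ((strictFR X hS hx hM hF).B N₁ i).submoduleOf
        ((strictFR X hS hx hM hF).Z N₁ i)) := by
  let X₁ := strictFR X hS hx hM hF
  let D₁ : (Fin (X.b (i + 1)) → N₁) →ₗ[A] (Fin (X.b i) → N₁) :=
    (act N₁ (strictDelta X hS hx i)).restrictScalars A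
  have hz : (∀ (v : Fin (X.b i) → N₁) (n : ℕ), ∀ m ∈ wfil G (X.a i) n,
        x ^ n • v = wmap x κ (X.a i) m → v ∈ (X₁.Z N₁ i).restrictScalars A →
        ∃ e, x ^ e • m ∈ X.Z N i) ∧
      (∀ (v : Fin (X.b i) → N₁) (n : ℕ), ∀ m ∈ wfil G (X.a i) n,
        x ^ n • v = wmap x κ (X.a i) m → m ∈ X.Z N i → v ∈ (X₁.Z N₁ i).restrictScalars A) := by
    cases i with
    | zero => exact ⟨fun _ _ _ _ _ _ => ⟨0, trivial⟩, fun _ _ _ _ _ _ => trivial⟩
    | succ i =>
      refine ⟨fun v n m _ hvm hv => ?_, fun v n m _ hvm hm => ?_⟩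
      · exact zA_ker (strict_wN hx hN hG (X.a i)) (D := act N (X.δ i))
          (D₁ := (act N₁ (strictDelta X hS hx i)).restrictScalars A) (act_strictDelta X hS hx i)
          v n m hvm hv
      · exact zB_ker (strict_wN hx hN hG (X.a i)) (D := act N (X.δ i))
          (D₁ := (act N₁ (strictDelta X hS hx i)).restrictScalars A) (act_strictDelta X hS hx i)
          v n m hvm hm
  obtain ⟨e⟩ := strict_homology (D := act N (X.δ i)) (D₁ := D₁)
    (strict_wN hx hN hG (X.a (i + 1))) (strict_wN hx hN hG (X.a i)) (act_strictDelta X hS hx i)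
    ((hG.weighted (X.a (i + 1))).x_smul hx) ((hG.weighted (X.a i)).x_smul hx)
    (Z := X.Z N i) (Z₁ := (X₁.Z N₁ i).restrictScalars A) hz.1 hz.2
    (fun k' hk' => (hstab k' hk').1) (fun k' hk' => (hstab k' hk').2)
  have e' := e.length_eq
  refine e'.trans ?_
  exact (Submodule.Quotient.restrictScalarsEquiv A
    ((X₁.B N₁ i).submoduleOf (X₁.Z N₁ i))).length_eq

end tensor

end overS

end Vale.Agent.P177
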