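import Vale.Agent.P177.TorLin

/-!
The local criterion: vanishing of `Tor^B(B ⊗ M, Z)` for all `M` from the residue field.
-/

namespace Vale.Agent.P177

open CategoryTheory TensorProduct Function IsLocalRing

universe u

section basic

variable {B : Type u} [CommRing B] {M' M M'' : Type u} [AddCommGroup M'] [Module B M']
  [AddCommGroup M] [Module B M] [AddCommGroup M''] [Module B M'']

theorem tor_subsingleton_mid (f : M' →ₗ[B] M) (g : M →ₗ[B] M'') (hf : Injective f)
    (hg : Surjective g) (h : Exact f g) (Z : Type u) [AddCommGroup Z] [Module B Z] (j : ℕ)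
    (h1 : Subsingleton (TorM B j M' Z)) (h2 : Subsingleton (TorM B j M'' Z)) :
    Subsingleton (TorM B j M Z) := by
  obtain ⟨δ, -, -, h3⟩ := exists_torDelta f g hf hg h Z
  refine subsingleton_of_forall_eq 0 fun x => ?_
  obtain ⟨y, rfl⟩ := (h3 j x).1 (Subsingleton.elim _ _)
  rw [Subsingleton.elim y 0, map_zero]

/-- Nakayama: a surjective multiplication by an element of the maximal ideal. -/
theorem subsingleton_of_smul_surjective [IsLocalRing B] (T : Type u) [AddCommGroup T] [Module B T]
    [Module.Finite B T] (b : B) (hb : b ∈ maximalIdeal B) (h : ∀ t : T, ∃ t' : T, t = b • t') :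
    Subsingleton T := by
  have h1 : (⊤ : Submodule B T) = ⊥ := by
    apply Submodule.eq_bot_of_le_smul_of_le_jacobson_bot (Ideal.span {b}) ⊤ Module.Finite.fg_top
    · intro t _
      obtain ⟨t', rfl⟩ := h t
      exact Submodule.smul_mem_smul (Ideal.mem_span_singleton_self b) trivial
    · rw [IsLocalRing.jacobson_eq_maximalIdeal _ bot_ne_top]
      exact (Ideal.span_singleton_le_iff_mem _).2 hb
  exact (Submodule.subsingleton_iff B).1 (subsingleton_of_bot_eq_top h1.symm)

/-- If `b` is regular on `M`, `M'' = M/bM` and `Tor_j(M'',Z) = 0` then `Tor_j(M,Z) = 0`. -/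
theorem tor_subsingleton_of_quot [IsLocalRing B] [IsNoetherianRing B] [Module.Finite B M]
    (b : B) (hb : b ∈ maximalIdeal B) (f : M →ₗ[B] M) (hfb : ∀ m, f m = b • m)
    (g : M →ₗ[B] M'') (hf : Injective f)
    (hg : Surjective g) (h : Exact f g) (Z : Type u) [AddCommGroup Z] [Module B Z]
    [Module.Finite B Z] (j : ℕ)
    (h2 : Subsingleton (TorM B j M'' Z)) :
    Subsingleton (TorM B j M Z) := by
  obtain ⟨δ, -, -, h3⟩ := exists_torDelta f g hf hg h Z
  have := tor_finite (R := B) j M Z
  apply subsingleton_of_smul_surjective (TorM B j M Z) b hb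
  intro x
  obtain ⟨y, rfl⟩ := (h3 j x).1 (Subsingleton.elim _ _)
  exact ⟨y, torMap_smul_id j b f hfb y⟩

end basic

section

variable {S B : Type u} [CommRing S] [CommRing B] [Algebra S B]

theorem baseChange_ses [Module.Flat S B] {M' M M'' : Type u} [AddCommGroup M'] [Module S M']
    [AddCommGroup M] [Module S M] [AddCommGroup M''] [Module S M'']
    (f : M' →ₗ[S] M) (g : M →ₗ[S] M'') (hf : Injective f)
    (hg : Surjective g) (h : Exact f g) :
    Injective (f.baseChange B) ∧ Surjective (g.baseChange B) ∧
      Exact (f.baseChange B) (g.baseChange B) := by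
  rw [LinearMap.baseChange_eq_ltensor, LinearMap.baseChange_eq_ltensor]
  exact ⟨Module.Flat.lTensor_preserves_injective_linearMap f hf, LinearMap.lTensor_surjective B hg,
    lTensor_exact B h hg⟩

theorem baseChange_smul_eq {M : Type u} [AddCommGroup M] [Module S M] (a : S) (f : M →ₗ[S] M)
    (hf : ∀ m, f m = a • m) (z : B ⊗[S] M) : f.baseChange B z = algebraMap S B a • z := by
  induction z using TensorProduct.induction_on with
  | zero => simp
  | tmul b m => simp [hf, TensorProduct.smul_tmul', Algebra.smul_def]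
  | add y z hy hz => rw [map_add, smul_add, hy, hz]

variable [IsLocalRing S] [IsNoetherianRing S] [IsLocalRing B] [IsNoetherianRing B]
  [Module.Flat S B] [IsLocalHom (algebraMap S B)]

/-- The local criterion. -/
theorem local_crit (j₀ : ℕ) (Z : Type u) [AddCommGroup Z] [Module B Z] [Module.Finite B Z]
    (hk : ∀ j, j₀ ≤ j → Subsingleton (TorM B j (B ⊗[S] (S ⧸ maximalIdeal S)) Z))
    (M : Type u) [AddCommGroup M] [Module S M] [Module.Finite S M] :
    ∀ j, j₀ ≤ j → Subsingleton (TorM B j (B ⊗[S] M) Z) := by
  suffices H : ∀ I : Ideal S, ∀ (M : Type u) [AddCommGroup M] [Module S M] [Module.Finite S M],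
      I ≤ Module.annihilator S M → ∀ j, j₀ ≤ j → Subsingleton (TorM B j (B ⊗[S] M) Z) from
    H ⊥ M bot_le
  intro I
  induction I using IsNoetherian.induction with
  | hgt I ih =>
  intro M _ _ hM hI
  induction hM using IsNoetherianRing.induction_on_isQuotientEquivQuotientPrime S with
  | subsingleton N =>
    intro j _
    have : Subsingleton (B ⊗[S] N) := inferInstance
    have h1 := tor_smul_eq_zero_left (R := B) (M := B ⊗[S] N) 1 (fun m => Subsingleton.elim _ _) j Z
    exact ⟨fun x y => by rw [← one_smul B x, ← one_smul B y, h1, h1]⟩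
  | quotient N P e =>
    intro j hj
    have hIP : I ≤ P.1 := by
      intro a ha
      have h1 := Module.mem_annihilator.1 (hI ha) (e.symm (Ideal.Quotient.mk P.1 1))
      rw [← map_smul, LinearEquiv.map_eq_zero_iff] at h1
      rw [← Ideal.Quotient.eq_zero_iff_mem, ← h1, Algebra.smul_def, map_one, mul_one]
      rfl
    by_cases hP : P.1 = maximalIdeal S
    · have e1 : (B ⊗[S] N) ≃ₗ[B] (B ⊗[S] (S ⧸ maximalIdeal S)) :=
        (e ≪≫ₗ Submodule.quotEquivOfEq _ _ hP).baseChange S B _ _
      have := hk j hj
      exact (torCongrLeft j e1 Z).toEquiv.subsingleton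
    · have hlt : P.1 < maximalIdeal S := lt_of_le_of_ne (le_maximalIdeal P.2.ne_top) hP
      obtain ⟨x, hxm, hxP⟩ := SetLike.exists_of_lt hlt
      let f : (S ⧸ P.1) →ₗ[S] (S ⧸ P.1) := LinearMap.lsmul S (S ⧸ P.1) x
      let g : (S ⧸ P.1) →ₗ[S] QuotSMulTop x (S ⧸ P.1) := Submodule.mkQ _
      have hfi : Injective f := by
        rw [injective_iff_map_eq_zero]
        intro a ha
        obtain ⟨a, rfl⟩ := Ideal.Quotient.mk_surjective a
        have h1 : Ideal.Quotient.mk P.1 (x * a) = 0 := ha
        rw [Ideal.Quotient.eq_zero_iff_mem] at h1 ⊢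
        exact (P.2.mem_or_mem h1).resolve_left hxP
      have hgs : Surjective g := Submodule.mkQ_surjective _
      have hex : Exact f g := by
        intro y
        rw [Submodule.mkQ_apply, Submodule.Quotient.mk_eq_zero]
        rw [Submodule.mem_smul_pointwise_iff_exists]
        simp [f]
      obtain ⟨k1, k2, k3⟩ := baseChange_ses (B := B) f g hfi hgs hex
      have hann : I < I ⊔ Ideal.span {x} := by
        refine lt_of_le_of_ne le_sup_left ?_
        intro h
        apply hxP
        apply hIP
        rw [h]
        exact Ideal.mem_sup_right (Ideal.mem_span_singleton_self x)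
      have hq : Subsingleton (TorM B j (B ⊗[S] QuotSMulTop x (S ⧸ P.1)) Z) := by
        apply ih _ hann _ _ j hj
        rw [sup_le_iff]
        constructor
        · intro a ha
          rw [Module.mem_annihilator]
          intro m
          obtain ⟨m, rfl⟩ := hgs m
          obtain ⟨m, rfl⟩ := Ideal.Quotient.mk_surjective m
          rw [← map_smul, Algebra.smul_def]
          have : (algebraMap S (S ⧸ P.1)) a = 0 := Ideal.Quotient.eq_zero_iff_mem.2 (hIP ha)
          rw [this, zero_mul, map_zero]
        · rw [Ideal.span_singleton_le_iff_mem, Module.mem_annihilator]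
          intro m
          obtain ⟨m, rfl⟩ := hgs m
          rw [← map_smul]
          exact (hex _).2 ⟨m, rfl⟩
      have hle : (maximalIdeal S).map (algebraMap S B) ≤ maximalIdeal B :=
        ((IsLocalRing.local_hom_TFAE (algebraMap S B)).out 0 2).mp ‹_›
      have hb : algebraMap S B x ∈ maximalIdeal B := hle (Ideal.mem_map_of_mem _ hxm)
      have h5 := tor_subsingleton_of_quot (algebraMap S B x) hb (f.baseChange B)
        (baseChange_smul_eq x f (fun m => rfl)) (g.baseChange B) k1 k2 k3 Z j hq
      exact (torCongrLeft j (e.baseChange S B _ _) Z).toEquiv.subsingleton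
  | exact N₁ N₂ N₃ f g hf hg h ih1 ih3 =>
    intro j hj
    obtain ⟨k1, k2, k3⟩ := baseChange_ses (B := B) f g hf hg h
    refine tor_subsingleton_mid _ _ k1 k2 k3 Z j (ih1 ?_ j hj) (ih3 ?_ j hj)
    · exact hI.trans (LinearMap.annihilator_le_of_injective f hf)
    · exact hI.trans (LinearMap.annihilator_le_of_surjective g hg)

end

end Vale.Agent.P177
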