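import Vale.Agent.P177.CTorIso
import Vale.Agent.P177.LocalCrit

/-!
Lengths over a base ring in terms of the lengths of the localizations at maximal ideals.
-/

namespace Vale.Agent.P177

open CategoryTheory TensorProduct Function IsLocalRing RingTheory.Sequence Pointwise

universe u

section simple

variable {B : Type u} [CommRing B]

theorem length_localization_quot_self (m : Ideal B) [hm : m.IsMaximal] :
    Module.length (Localization.AtPrime m) (Localization.AtPrime m ⊗[B] (B ⧸ m)) = 1 := by
  have e := (Algebra.TensorProduct.quotIdealMapEquivTensorQuot (Localization.AtPrime m)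
    m).toLinearEquiv
  rw [← e.length_eq, Localization.AtPrime.map_eq_maximalIdeal, Module.length_eq_one_iff]
  exact isSimpleModule_iff_quot_maximal.mpr ⟨_, inferInstance, ⟨LinearEquiv.refl _ _⟩⟩

theorem subsingleton_localization_quot (m m' : Ideal B) [hm : m.IsMaximal] [hm' : m'.IsMaximal]
    (hne : m ≠ m') : Subsingleton (Localization.AtPrime m ⊗[B] (B ⧸ m')) := by
  have e := (Algebra.TensorProduct.quotIdealMapEquivTensorQuot (Localization.AtPrime m)
    m').toLinearEquiv
  have h1 : m'.map (algebraMap B (Localization.AtPrime m)) = ⊤ := by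
    have h2 : ¬ (m' ≤ m) := fun hle => hne (hm'.eq_of_le hm.ne_top hle).symm
    rw [SetLike.not_le_iff_exists] at h2
    obtain ⟨x, hx, hxm⟩ := h2
    exact Ideal.eq_top_of_isUnit_mem _ (Ideal.mem_map_of_mem _ hx)
      (IsLocalization.map_units (Localization.AtPrime m) (⟨x, hxm⟩ : m.primeCompl))
  have h3 : Subsingleton (Localization.AtPrime m ⧸
      m'.map (algebraMap B (Localization.AtPrime m))) := Ideal.Quotient.subsingleton_iff.2 h1
  exact e.symm.toEquiv.subsingleton

end simple

theorem length_eq_sum {T B : Type u} [CommRing T] [CommRing B] [Algebra T B]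
    (S : Finset (MaximalSpectrum B)) (M : Type u) [AddCommGroup M] [Module B M]
    (hfin : IsFiniteLength B M) : ∀ [Module T M] [IsScalarTower T B M],
    (∀ m : MaximalSpectrum B, m ∉ S → Subsingleton (Localization.AtPrime m.asIdeal ⊗[B] M)) →
    Module.length T M = ∑ m ∈ S, Module.length T (B ⧸ m.asIdeal) *
      Module.length (Localization.AtPrime m.asIdeal) (Localization.AtPrime m.asIdeal ⊗[B] M) := by
  classical
  induction hfin with
  | of_subsingleton =>
    intro _ _ hS
    rename_i M _ _ hM _ _
    rw [Module.length_eq_zero_iff.2 hM, Finset.sum_eq_zero]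
    intro m _
    have : Subsingleton (Localization.AtPrime m.asIdeal ⊗[B] M) := inferInstance
    rw [Module.length_eq_zero_iff.2 this, mul_zero]
  | of_simple_quotient hN ih =>
    rename_i M _ _ N hsimple
    intro _ _ hS
    obtain ⟨m', hm', ⟨e⟩⟩ := isSimpleModule_iff_quot_maximal.1 hsimple
    have hex : Exact N.subtype N.mkQ := by
      intro x
      rw [Submodule.mkQ_apply, Submodule.Quotient.mk_eq_zero]
      simp
    have hsurj : Surjective N.mkQ := Submodule.mkQ_surjective _
    have hlen : Module.length T M = Module.length T N + Module.length T (B ⧸ m') := by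
      rw [Module.length_eq_add_of_exact (N.subtype.restrictScalars T) (N.mkQ.restrictScalars T)
        (Submodule.injective_subtype _) hsurj hex]
      congr 1
      exact (e.restrictScalars T).length_eq
    have hloc : ∀ m : MaximalSpectrum B,
        Injective (N.subtype.baseChange (Localization.AtPrime m.asIdeal)) ∧
        Surjective (N.mkQ.baseChange (Localization.AtPrime m.asIdeal)) ∧
        Exact (N.subtype.baseChange (Localization.AtPrime m.asIdeal))
          (N.mkQ.baseChange (Localization.AtPrime m.asIdeal)) := fun m =>
      baseChange_ses N.subtype N.mkQ (Submodule.injective_subtype _) hsurj hex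
    have hSN : ∀ m : MaximalSpectrum B, m ∉ S →
        Subsingleton (Localization.AtPrime m.asIdeal ⊗[B] N) := fun m hm =>
      haveI := hS m hm
      (hloc m).1.subsingleton
    have eloc : ∀ m : MaximalSpectrum B,
        Module.length (Localization.AtPrime m.asIdeal)
          (Localization.AtPrime m.asIdeal ⊗[B] (M ⧸ N)) = if m = ⟨m', hm'⟩ then 1 else 0 := by
      intro m
      have hmm := m.isMaximal
      rw [(e.baseChange B (Localization.AtPrime m.asIdeal) _ _).length_eq]
      split_ifs with h
      · subst h
        exact length_localization_quot_self m'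
      · have hne : m.asIdeal ≠ m' := fun h' => h (MaximalSpectrum.ext h')
        have := subsingleton_localization_quot m.asIdeal m' hne
        rw [Module.length_eq_zero_iff]
        exact this
    have hmem : (⟨m', hm'⟩ : MaximalSpectrum B) ∈ S := by
      by_contra hcon
      have h1 := hS _ hcon
      have h2 : Subsingleton (Localization.AtPrime m' ⊗[B] (M ⧸ N)) :=
        (hloc ⟨m', hm'⟩).2.1.subsingleton
      have h3 := eloc ⟨m', hm'⟩
      rw [if_pos rfl, Module.length_eq_zero_iff.2 h2] at h3
      exact zero_ne_one h3
    rw [hlen, ih hSN]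
    have hsum : ∀ m ∈ S, Module.length T (B ⧸ m.asIdeal) *
        Module.length (Localization.AtPrime m.asIdeal) (Localization.AtPrime m.asIdeal ⊗[B] M) =
        Module.length T (B ⧸ m.asIdeal) *
        Module.length (Localization.AtPrime m.asIdeal) (Localization.AtPrime m.asIdeal ⊗[B] N) +
        (if m = ⟨m', hm'⟩ then Module.length T (B ⧸ m') else 0) := by
      intro m _
      rw [Module.length_eq_add_of_exact _ _ (hloc m).1 (hloc m).2.1 (hloc m).2.2, eloc m, mul_add]
      congr 1
      split_ifs with h
      · rw [mul_one, h]
      · rw [mul_zero]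
    rw [Finset.sum_congr rfl hsum, Finset.sum_add_distrib, Finset.sum_ite_eq' S, if_pos hmem]

end Vale.Agent.P177
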