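import Vale.Agent.P177.CRees
import Mathlib.Algebra.Polynomial.Laurent
import Mathlib.RingTheory.Ideal.GoingDown
import Mathlib.RingTheory.Ideal.MinimalPrime.Localization

/-!
Heights of primes containing an ideal of initial forms.
-/

namespace Vale.Agent.P177

open IsLocalRing Function

universe u

section goingDown

theorem height_under_le {R S : Type*} [CommRing R] [CommRing S] [Algebra R S] [Module.Flat R S]
    (P : Ideal S) [hP : P.IsPrime] : (P.under R).height ≤ P.height := by
  have h1 := PrimeSpectrum.height_eq_orderHeight (⟨P.under R, inferInstance⟩ : PrimeSpectrum R)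
  have h2 := PrimeSpectrum.height_eq_orderHeight (⟨P, hP⟩ : PrimeSpectrum S)
  change (P.under R).height = _ at h1
  change P.height = _ at h2
  rw [h1, h2, Order.height_le_iff']
  intro l hl
  have hlo : P.LiesOver l.last.asIdeal := ⟨by rw [hl]⟩
  obtain ⟨L, hL1, hL2, -⟩ := Ideal.exists_ltSeries_of_hasGoingDown l P
  rw [← hL1, ← hL2]
  exact Order.length_le_height_last

end goingDown

section psi

open LaurentPolynomial

variable {R : Type u} [CommRing R] {d : ℕ} (x : Fin d → R)

theorem T_neg_one_mul_T_one : (T (-1) * T 1 : LaurentPolynomial R) = 1 := by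
  rw [← T_add]
  simp

/-- The embedding of the extended Rees algebra into Laurent polynomials. -/
noncomputable def ePsi : ERees x →+* LaurentPolynomial R :=
  eLift x (C : R →+* LaurentPolynomial R) (T (-1)) (fun i => C (x i) * T 1) (by
    intro i
    rw [mul_left_comm, T_neg_one_mul_T_one, mul_one])

@[simp]
theorem ePsi_algebraMap (a : R) : ePsi x (algebraMap R _ a) = C a := eLift_algebraMap _ _ _ _ _

@[simp]
theorem ePsi_eT : ePsi x (eT x) = T (-1) := eLift_eT _ _ _ _

@[simp]
theorem ePsi_eY (i : Fin d) : ePsi x (eY x i) = C (x i) * T 1 := eLift_eY _ _ _ _ _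

theorem ePsi_isLocalization :
    letI := (ePsi x).toAlgebra
    IsLocalization.Away (eT x) (LaurentPolynomial R) := by
  let _ := (ePsi x).toAlgebra
  have hT : ∀ n : ℕ, ePsi x (eT x ^ n) = T (-n) := by
    intro n
    rw [map_pow, ePsi_eT, T_pow]
    simp
  refine ⟨⟨?_, ?_, ?_⟩⟩
  · rintro ⟨_, n, rfl⟩
    change IsUnit (ePsi x (eT x ^ n))
    rw [hT]
    exact isUnit_T _
  · have key : ∀ z : LaurentPolynomial R, ∃ (n : ℕ) (F : ERees x), z * T (-n) = ePsi x F := by
      intro z
      induction z using LaurentPolynomial.induction_on' with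
      | add z w hz hw =>
        obtain ⟨n, F, hF⟩ := hz
        obtain ⟨m, G, hG⟩ := hw
        refine ⟨n + m, F * eT x ^ m + G * eT x ^ n, ?_⟩
        rw [map_add, map_mul, map_mul, hT, hT, ← hF, ← hG]
        push_cast
        rw [neg_add, T_add]
        ring
      | C_mul_T n a =>
        rcases n with n | n
        · refine ⟨n, algebraMap R _ a, ?_⟩
          rw [mul_assoc, ← T_add, ePsi_algebraMap]
          simp
        · refine ⟨0, algebraMap R _ a * eT x ^ (n + 1), ?_⟩
          rw [map_mul, hT, ePsi_algebraMap]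
          simp [Int.negSucc_eq]
    intro z
    obtain ⟨n, F, hF⟩ := key z
    refine ⟨(F, ⟨eT x ^ n, n, rfl⟩), ?_⟩
    change z * ePsi x (eT x ^ n) = ePsi x F
    rw [hT, hF]
  · intro F G h
    change ePsi x F = ePsi x G at h
    let L := Localization.Away (eT x)
    let g : ERees x →+* L := algebraMap (ERees x) L
    obtain ⟨u, hu⟩ := IsLocalization.Away.algebraMap_isUnit (S := L) (eT x)
    have hu1 : g (eT x) = u := hu.symm
    let ψ : LaurentPolynomial R →+* L := eval₂ (g.comp (algebraMap R _)) u⁻¹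
    have hψ : ψ.comp (ePsi x) = g := by
      refine eRees_hom_ext (fun a => ?_) ?_ (fun i => ?_)
      · rw [RingHom.comp_apply, ePsi_algebraMap]
        exact eval₂_C _ _ _
      · rw [RingHom.comp_apply, ePsi_eT]
        refine (eval₂_T _ _ _).trans ?_
        simp [hu1]
      · rw [RingHom.comp_apply, ePsi_eY]
        refine (eval₂_C_mul_T _ _ _ _).trans ?_
        rw [RingHom.comp_apply, algebraMap_rees, map_mul, hu1, mul_comm (u : L), mul_assoc]
        simp
    have h1 := congrArg ψ h
    rw [← RingHom.comp_apply, ← RingHom.comp_apply, hψ] at h1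
    exact IsLocalization.exists_of_eq h1

end psi

section star

open LaurentPolynomial

variable {R : Type u} [CommRing R] {d : ℕ} (x : Fin d → R) (I : Ideal R)

/-- The saturated extension of an ideal to the extended Rees algebra. -/
noncomputable def eStar : Ideal (ERees x) :=
  (I.map (C : R →+* LaurentPolynomial R)).comap (ePsi x)

variable {x I}

theorem mem_eStar {z : ERees x} : z ∈ eStar x I ↔ ePsi x z ∈ I.map (C : R →+* LaurentPolynomial R) :=
  Iff.rfl

theorem eStar_sat {z : ERees x} (h : eT x * z ∈ eStar x I) : z ∈ eStar x I := by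
  rw [mem_eStar, map_mul, ePsi_eT] at h
  rw [mem_eStar]
  have h1 := Ideal.mul_mem_left _ (T 1) h
  rw [← mul_assoc, mul_comm (T 1), T_neg_one_mul_T_one, one_mul] at h1
  exact h1

theorem coeff_mem_of_mem_map {z : LaurentPolynomial R}
    (h : z ∈ I.map (C : R →+* LaurentPolynomial R)) (n : ℤ) : z.coeff n ∈ I := by
  let κ : LaurentPolynomial R →+* LaurentPolynomial (R ⧸ I) :=
    AddMonoidAlgebra.mapRingHom ℤ (Ideal.Quotient.mk I)
  have hle : I.map (C : R →+* LaurentPolynomial R) ≤ RingHom.ker κ := by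
    rw [Ideal.map_le_iff_le_comap]
    intro a ha
    change κ (C a) = 0
    have h1 : (C a : LaurentPolynomial R) = AddMonoidAlgebra.single 0 a := rfl
    rw [h1]
    refine (AddMonoidAlgebra.mapRingHom_single _ _ _).trans ?_
    rw [Ideal.Quotient.eq_zero_iff_mem.2 ha]
    exact AddMonoidAlgebra.single_zero _
  have h1 : κ z = 0 := hle h
  have h2 : (κ z).coeff n = Ideal.Quotient.mk I (z.coeff n) :=
    AddMonoidAlgebra.coeff_mapRingHom _ _ _
  rw [h1] at h2
  exact Ideal.Quotient.eq_zero_iff_mem.1 h2.symm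

/-- A prime above the special fibre of the saturated extension has large height. -/
theorem exists_prime_height_le [IsRegularLocalRing R] (hd : ringKrullDim R = d)
    (hx : Ideal.span (Set.range x) = maximalIdeal R)
    (q : Ideal (MvPolynomial (Fin d) (ResidueField R))) [q.IsPrime]
    (hq : eStar x I ≤ q.comap (eRes hx)) :
    ∃ P₀ : Ideal R, P₀.IsPrime ∧ I ≤ P₀ ∧ P₀.height ≤ q.height := by
  obtain ⟨𝔮₀, h𝔮₀, hle⟩ := Ideal.exists_minimalPrimes_le hq
  have h𝔮₀p : 𝔮₀.IsPrime := h𝔮₀.1.1
  have hτ : eT x ∉ 𝔮₀ := by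
    intro h
    obtain ⟨y, hy, hxy⟩ := Ideal.exists_mul_mem_of_mem_minimalPrimes h𝔮₀ h
    exact hy (eStar_sat hxy)
  have hτ' : eT x ∈ q.comap (eRes hx) := by
    change eRes hx (eT x) ∈ q
    rw [eRes_eT]
    exact zero_mem _
  have hlt : 𝔮₀ < q.comap (eRes hx) := lt_of_le_of_ne hle (fun h => hτ (h ▸ hτ'))
  let _ := (ePsi x).toAlgebra
  have hloc : IsLocalization.Away (eT x) (LaurentPolynomial R) := ePsi_isLocalization x
  have hdisj : Disjoint (Submonoid.powers (eT x) : Set (ERees x)) 𝔮₀ := by
    rw [Set.disjoint_left]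
    rintro _ ⟨n, rfl⟩ h
    exact hτ (h𝔮₀p.mem_of_pow_mem n h)
  let Q₀ : Ideal (LaurentPolynomial R) := 𝔮₀.map (algebraMap (ERees x) (LaurentPolynomial R))
  have hQ₀ : Q₀.IsPrime :=
    IsLocalization.isPrime_of_isPrime_disjoint (Submonoid.powers (eT x)) _ _ h𝔮₀p hdisj
  have hQ₀c : Q₀.under (ERees x) = 𝔮₀ :=
    IsLocalization.under_map_of_isPrime_disjoint (Submonoid.powers (eT x)) _ h𝔮₀p hdisj
  have hht : Q₀.height = 𝔮₀.height := by
    rw [← IsLocalization.height_under (Submonoid.powers (eT x)) Q₀, hQ₀c]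
  refine ⟨Q₀.under R, inferInstance, ?_, ?_⟩
  · intro a ha
    change C a ∈ Q₀
    have h1 : algebraMap R (ERees x) a ∈ 𝔮₀ := by
      apply h𝔮₀.1.2
      rw [mem_eStar, ePsi_algebraMap]
      exact Ideal.mem_map_of_mem _ ha
    have h2 := Ideal.mem_map_of_mem (algebraMap (ERees x) (LaurentPolynomial R)) h1
    have h3 : algebraMap (ERees x) (LaurentPolynomial R) (algebraMap R (ERees x) a) = C a :=
      ePsi_algebraMap x a
    rw [h3] at h2
    exact h2
  · have h1 := height_under_le (R := R) Q₀
    rw [hht] at h1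
    refine h1.trans ?_
    have h2 := Ideal.height_add_one_le_of_lt_of_isPrime hlt
    obtain ⟨-, h3, -⟩ := eRees_regular_aux hd hx q
    rw [h3] at h2
    exact (ENat.add_le_add_iff_right (by simp)).1 h2

end star

end Vale.Agent.P177
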