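import Vale.Agent.P177.CTc

/-!
Initial forms and the saturated extension of an ideal.
-/

namespace Vale.Agent.P177

open IsLocalRing Function

universe u

section nf

variable {R : Type u} [CommRing R] {d : ℕ} (x : Fin d → R)

/-- Normal forms of elements of the extended Rees algebra. -/
theorem exists_normal_form (z : ERees x) : ∃ (F : MvPolynomial (Fin d) R) (g : Polynomial R),
    z = MvPolynomial.aeval (eY x) F + eT x * Polynomial.aeval (eT x) g := by
  have hadd : ∀ z w : ERees x,
      (∃ (F : MvPolynomial (Fin d) R) (g : Polynomial R),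
        z = MvPolynomial.aeval (eY x) F + eT x * Polynomial.aeval (eT x) g) →
      (∃ (F : MvPolynomial (Fin d) R) (g : Polynomial R),
        w = MvPolynomial.aeval (eY x) F + eT x * Polynomial.aeval (eT x) g) →
      ∃ (F : MvPolynomial (Fin d) R) (g : Polynomial R),
        z + w = MvPolynomial.aeval (eY x) F + eT x * Polynomial.aeval (eT x) g := by
    rintro _ _ ⟨F, g, rfl⟩ ⟨F', g', rfl⟩
    exact ⟨F + F', g + g', by rw [map_add, map_add]; ring⟩
  have h1 : ∀ F : MvPolynomial (Fin d) R, ∃ (F' : MvPolynomial (Fin d) R) (g : Polynomial R),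
      MvPolynomial.aeval (eY x) F * eT x =
        MvPolynomial.aeval (eY x) F' + eT x * Polynomial.aeval (eT x) g := by
    intro F
    induction F using MvPolynomial.induction_on with
    | C a =>
      refine ⟨0, Polynomial.C a, ?_⟩
      rw [map_zero, zero_add, MvPolynomial.aeval_C, Polynomial.aeval_C, mul_comm]
    | add F F' hF hF' =>
      rw [map_add, add_mul]
      exact hadd _ _ hF hF'
    | mul_X F i _ =>
      refine ⟨F * MvPolynomial.C (x i), 0, ?_⟩
      rw [map_mul, map_mul, MvPolynomial.aeval_X, MvPolynomial.aeval_C, map_zero, mul_zero,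
        add_zero, algebraMap_rees]
      ring
  have h2 : ∀ h : Polynomial R, ∃ (F' : MvPolynomial (Fin d) R) (g : Polynomial R),
      Polynomial.aeval (eT x) h =
        MvPolynomial.aeval (eY x) F' + eT x * Polynomial.aeval (eT x) g := by
    intro h
    refine ⟨MvPolynomial.C (h.coeff 0), h.divX, ?_⟩
    conv_lhs => rw [← Polynomial.divX_mul_X_add h]
    rw [map_add, map_mul, Polynomial.aeval_X, Polynomial.aeval_C, MvPolynomial.aeval_C]
    ring
  obtain ⟨p, rfl⟩ := Ideal.Quotient.mk_surjective z
  induction p using MvPolynomial.induction_on with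
  | C a =>
    refine ⟨MvPolynomial.C a, 0, ?_⟩
    rw [map_zero, mul_zero, add_zero, MvPolynomial.aeval_C]
    rfl
  | add p p' hp hp' =>
    rw [map_add]
    exact hadd _ _ hp hp'
  | mul_X p o hp =>
    obtain ⟨F, g, hFg⟩ := hp
    rw [map_mul, hFg]
    rcases o with _ | i
    · change ∃ (F' : MvPolynomial (Fin d) R) (g' : Polynomial R), _ * eT x = _
      rw [add_mul]
      refine hadd _ _ (h1 F) ⟨0, g * Polynomial.X, ?_⟩
      rw [map_zero, zero_add, map_mul, Polynomial.aeval_X]
      ring
    · change ∃ (F' : MvPolynomial (Fin d) R) (g' : Polynomial R), _ * eY x i = _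
      rw [add_mul]
      refine hadd _ _ ⟨F * MvPolynomial.X i, 0, ?_⟩ ?_
      · rw [map_zero, mul_zero, add_zero, map_mul, MvPolynomial.aeval_X]
      · obtain ⟨F', g', h⟩ := h2 (Polynomial.C (x i) * g)
        refine ⟨F', g', ?_⟩
        rw [← h, map_mul, Polynomial.aeval_C, algebraMap_rees]
        ring

end nf

section coeff

open LaurentPolynomial

variable {R : Type u} [CommRing R] {d : ℕ} (x : Fin d → R)

theorem coeff_C_mul_T (a : R) (m n : ℤ) : (C a * T m : LaurentPolynomial R).coeff n =
    if m = n then a else 0 := by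
  rw [← single_eq_C_mul_T]
  exact Finsupp.single_apply

theorem ePsi_aeval (F : MvPolynomial (Fin d) R) (n : ℕ) (hF : F.IsHomogeneous n) :
    ePsi x (MvPolynomial.aeval (eY x) F) = C (MvPolynomial.eval x F) * T n := by
  have h1 : ePsi x (MvPolynomial.aeval (eY x) F) =
      MvPolynomial.aeval (fun i => T 1 * C (x i)) F := by
    have h2 : ePsi x (MvPolynomial.aeval (eY x) F) = MvPolynomial.eval₂
        ((ePsi x).comp (algebraMap R (ERees x))) (fun i => ePsi x (eY x i)) F := by
      rw [MvPolynomial.aeval_def]
      exact MvPolynomial.eval₂_comp_left _ _ _ _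
    rw [h2, MvPolynomial.aeval_def]
    congr 1
    · ext a : 1
      rw [RingHom.comp_apply, ePsi_algebraMap]
      rfl
    · funext i
      rw [ePsi_eY, mul_comm]
  rw [h1, aeval_mul_of_isHomogeneous _ _ F n hF, T_pow, mul_one, mul_comm]
  congr 1
  have h3 : (fun i => (C (x i) : LaurentPolynomial R)) =
      fun i => algebraMap R (LaurentPolynomial R) (x i) := rfl
  rw [h3]
  exact MvPolynomial.aeval_algebraMap_apply (LaurentPolynomial R) x F

theorem coeff_ePsi_aeval (F : MvPolynomial (Fin d) R) (n : ℕ) :
    (ePsi x (MvPolynomial.aeval (eY x) F)).coeff n =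
      MvPolynomial.eval x (MvPolynomial.homogeneousComponent n F) := by
  conv_lhs => rw [← MvPolynomial.sum_homogeneousComponent F]
  rw [map_sum, map_sum]
  have h1 : ∀ i, ePsi x (MvPolynomial.aeval (eY x) (MvPolynomial.homogeneousComponent i F)) =
      C (MvPolynomial.eval x (MvPolynomial.homogeneousComponent i F)) * T i := fun i =>
    ePsi_aeval x _ i (MvPolynomial.homogeneousComponent_isHomogeneous i F)
  rw [Finset.sum_congr rfl fun i _ => h1 i, AddMonoidAlgebra.coeff_sum, Finsupp.finsetSum_apply]
  simp only [coeff_C_mul_T]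
  by_cases hn : n < F.totalDegree + 1
  · rw [Finset.sum_eq_single n]
    · simp
    · intro i _ hi
      rw [if_neg (by exact_mod_cast hi)]
    · intro h
      exact absurd (Finset.mem_range.2 hn) h
  · rw [MvPolynomial.homogeneousComponent_eq_zero n F (by omega), map_zero]
    refine Finset.sum_eq_zero fun i hi => ?_
    rw [Finset.mem_range] at hi
    rw [if_neg]
    intro h
    have : i = n := by exact_mod_cast h
    omega

theorem coeff_ePsi_neg (g : Polynomial R) (n : ℕ) :
    (ePsi x (eT x * Polynomial.aeval (eT x) g)).coeff n = 0 := by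
  induction g using Polynomial.induction_on' with
  | add p q hp hq =>
    rw [map_add, mul_add, map_add, AddMonoidAlgebra.coeff_add, Finsupp.add_apply, hp, hq, add_zero]
  | monomial m a =>
    have h1 : ePsi x (eT x * Polynomial.aeval (eT x) (Polynomial.monomial m a)) =
        C a * T (-(m + 1 : ℤ)) := by
      rw [Polynomial.aeval_monomial, map_mul, map_mul, map_pow, ePsi_eT, ePsi_algebraMap, T_pow,
        mul_left_comm, ← T_add]
      congr 2
      ring
    rw [h1, coeff_C_mul_T, if_neg]
    omega

end coeff

section crit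

variable {R : Type u} [CommRing R] [IsLocalRing R] {d : ℕ} {x : Fin d → R} {I : Ideal R}

/-- Criterion for a prime to contain the special fibre of the saturated extension. -/
theorem eStar_le (hx : Ideal.span (Set.range x) = maximalIdeal R)
    (q : Ideal (MvPolynomial (Fin d) (ResidueField R)))
    (hq : ∀ (n : ℕ) (F : MvPolynomial (Fin d) R), F.IsHomogeneous n → MvPolynomial.eval x F ∈ I →
      F.map (residue R) ∈ q) : eStar x I ≤ q.comap (eRes hx) := by
  intro z hz
  obtain ⟨F, g, rfl⟩ := exists_normal_form x z
  have h1 : ∀ n : ℕ, MvPolynomial.eval x (MvPolynomial.homogeneousComponent n F) ∈ I := by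
    intro n
    have h2 := coeff_mem_of_mem_map hz n
    rw [map_add, AddMonoidAlgebra.coeff_add, Finsupp.add_apply, coeff_ePsi_aeval, coeff_ePsi_neg,
      add_zero] at h2
    exact h2
  change eRes hx _ ∈ q
  rw [map_add, map_mul, eRes_eT, zero_mul, add_zero, eRes_aeval]
  rw [← MvPolynomial.sum_homogeneousComponent F, map_sum]
  exact Ideal.sum_mem _ fun n _ => hq n _ (MvPolynomial.homogeneousComponent_isHomogeneous n F)
    (h1 n)

end crit

end Vale.Agent.P177
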