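import Vale.Agent.P177.PTorsion

/-!
Devissage: from modules killed by `p` to `p`-power torsion modules.
-/

namespace Vale.Agent.P177

open CategoryTheory TensorProduct Function IsLocalRing RingTheory.Sequence Pointwise

universe u

section

variable {R : Type u} [CommRing R]

theorem Good.symm {d : ℕ} {M N : Type u} [AddCommGroup M] [Module R M]
    [AddCommGroup N] [Module R N] (h : Good R d M N) : Good R d N M := by
  have heq : eulerTor R (d + 1) N M = eulerTor R (d + 1) M N := by
    unfold eulerTor
    refine Finset.sum_congr rfl fun i _ => ?_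
    obtain ⟨e⟩ := tor_symm (R := R) i N M
    rw [e.length_eq]
  unfold Good
  rw [heq]
  refine ⟨h.1, fun a b ha hb hab => h.2 b a hb ha (by omega)⟩

variable [IsLocalRing R] [IsNoetherianRing R]

theorem length_tensor_ne_top_of_annihilator_le (M M' N : Type u) [AddCommGroup M] [Module R M]
    [AddCommGroup M'] [Module R M'] [AddCommGroup N] [Module R N] [Module.Finite R M]
    [Module.Finite R M'] [Module.Finite R N]
    (h : Module.length R (M ⊗[R] N) ≠ ⊤)
    (hle : Module.annihilator R M ≤ Module.annihilator R M') :
    Module.length R (M' ⊗[R] N) ≠ ⊤ := by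
  obtain ⟨k, hk⟩ := exists_pow_le_sup_annihilator M N h
  rw [Module.length_ne_top_iff]
  refine isFiniteLength_of_pow_smul_eq_zero k ?_
  intro a ha x
  obtain ⟨b, hb, c, hc, rfl⟩ := Submodule.mem_sup.1 (hk ha)
  rw [add_smul, tensor_smul_eq_zero_left b (fun m => Module.mem_annihilator.1 (hle hb) m) x,
    zero_add]
  apply (TensorProduct.comm R M' N).injective
  rw [map_smul, map_zero]
  exact tensor_smul_eq_zero_left c (fun m => Module.mem_annihilator.1 hc m) _

end

section

variable {R : Type u} [CommRing R] [IsRegularLocalRing R] {d : ℕ} (hd : ringKrullDim R = d)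

include hd in
theorem Good.of_exact {M' M M'' N : Type u} [AddCommGroup M'] [Module R M']
    [AddCommGroup M] [Module R M] [AddCommGroup M''] [Module R M''] [Module.Finite R M']
    [Module.Finite R M] [Module.Finite R M'']
    [AddCommGroup N] [Module R N] [Module.Finite R N]
    (f : M' →ₗ[R] M) (g : M →ₗ[R] M'') (hf : Injective f) (hg : Surjective g) (h : Exact f g)
    (hlen : Module.length R (M ⊗[R] N) ≠ ⊤) (h1 : Good R d M' N) (h3 : Good R d M'' N)
    (hdim : Module.supportDim R M ≤ Module.supportDim R M'') : Good R d M N := by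
  have hlen' : Module.length R (M' ⊗[R] N) ≠ ⊤ :=
    length_tensor_ne_top_of_annihilator_le M M' N hlen (LinearMap.annihilator_le_of_injective f hf)
  have hv : Module.length R (TorM R (d + 1) M'' N) = 0 := by
    have := regular_tor_vanish R d hd M'' N (d + 1) le_rfl
    exact Module.length_eq_zero
  have hadd := eulerTor_add_aux f g hf hg h N (fun i => tor_length_ne_top i M' N hlen')
    (fun i => tor_length_ne_top i M N hlen) (d + 1) hv
  unfold Good
  rw [hadd]
  refine ⟨add_nonneg h1.1 h3.1, fun a b ha hb hab => ?_⟩
  exact add_pos_of_nonneg_of_pos h1.1 (h3.2 a b (ha.trans hdim) hb hab)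

include hd in
theorem good_devissage (p : R) (W : Type u) [AddCommGroup W] [Module R W] [Module.Finite R W]
    (hW : ∀ (X : Type u) [AddCommGroup X] [Module R X] [Module.Finite R X],
      (∀ x : X, p • x = 0) → Module.length R (X ⊗[R] W) ≠ ⊤ → Good R d X W) (a : ℕ)
    (X : Type u) [AddCommGroup X] [Module R X] [Module.Finite R X]
    (hX : ∀ x : X, p ^ a • x = 0) (hlen : Module.length R (X ⊗[R] W) ≠ ⊤) : Good R d X W := by
  induction a generalizing X with
  | zero =>
    refine hW X (fun x => ?_) hlen
    have := hX x
    rw [pow_zero, one_smul] at this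
    rw [this, smul_zero]
  | succ a ih =>
    have hex : Exact (LinearMap.range (LinearMap.lsmul R X p)).subtype
        (LinearMap.range (LinearMap.lsmul R X p)).mkQ := by
      intro x
      simp
    have e1 : Injective (LinearMap.range (LinearMap.lsmul R X p)).subtype :=
      Submodule.injective_subtype _
    have e2 : Surjective (LinearMap.range (LinearMap.lsmul R X p)).mkQ :=
      Submodule.mkQ_surjective _
    have hlen1 : Module.length R ((LinearMap.range (LinearMap.lsmul R X p)) ⊗[R] W) ≠ ⊤ :=
      length_tensor_ne_top_of_annihilator_le X _ W hlen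
        (LinearMap.annihilator_le_of_injective _ e1)
    have hlen2 : Module.length R ((X ⧸ LinearMap.range (LinearMap.lsmul R X p)) ⊗[R] W) ≠ ⊤ :=
      length_tensor_ne_top_of_annihilator_le X _ W hlen
        (LinearMap.annihilator_le_of_surjective _ e2)
    refine Good.of_exact hd _ _ e1 e2 hex hlen (ih _ ?_ hlen1) (hW _ ?_ hlen2) ?_
    · rintro ⟨x, y, rfl⟩
      apply Subtype.ext
      change p ^ a • (p • y) = 0
      rw [smul_smul, ← pow_succ, hX]
    · intro x
      obtain ⟨y, rfl⟩ := Submodule.mkQ_surjective _ x
      rw [← map_smul, Submodule.mkQ_apply, Submodule.Quotient.mk_eq_zero]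
      exact ⟨y, rfl⟩
    · have hsup : Module.support R (X ⧸ LinearMap.range (LinearMap.lsmul R X p)) =
          Module.support R X := by
        have h1 : LinearMap.range (LinearMap.lsmul R X p) = Ideal.span {p} • (⊤ : Submodule R X) := by
          rw [Submodule.ideal_span_singleton_smul]
          ext x
          rw [Submodule.mem_smul_pointwise_iff_exists]
          simp
        rw [h1, Module.support_quotient]
        refine Set.inter_eq_left.2 ?_
        intro P hP
        have h2 := Module.annihilator_le_of_mem_support hP
        have h3 : p ^ (a + 1) ∈ Module.annihilator R X := Module.mem_annihilator.2 hX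
        have h4 : p ∈ P.asIdeal := P.2.mem_of_pow_mem _ (h2 h3)
        change (Ideal.span {p} : Set R) ⊆ P.asIdeal
        exact (Ideal.span_singleton_le_iff_mem _).2 h4
      unfold Module.supportDim
      rw [hsup]

/-- All pairs of `p`-power torsion modules over a regular local ring of mixed characteristic. -/
theorem good_p_power (R : Type u) [CommRing R] [IsRegularLocalRing R] (d : ℕ)
    (hd : ringKrullDim R = d) (p : ℕ) [Fact p.Prime] (hp0 : (p : R) ≠ 0)
    (hpm : (p : R) ∈ maximalIdeal R) (M N : Type u) [AddCommGroup M] [Module R M]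
    [Module.Finite R M] [AddCommGroup N] [Module R N] [Module.Finite R N] (a b : ℕ)
    (hM : ∀ x : M, (p : R) ^ a • x = 0) (hN : ∀ x : N, (p : R) ^ b • x = 0)
    (hlen : Module.length R (M ⊗[R] N) ≠ ⊤) : Good R d M N := by
  refine good_devissage hd (p : R) N ?_ a M hM hlen
  intro X _ _ _ hX hlenX
  apply Good.symm
  have hsymm : ∀ (Y : Type u) [AddCommGroup Y] [Module R Y],
      Module.length R (X ⊗[R] Y) = Module.length R (Y ⊗[R] X) := fun Y _ _ =>
    (TensorProduct.comm R X Y).length_eq
  refine good_devissage hd (p : R) X ?_ b N hN (by rwa [← hsymm])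
  intro Y _ _ _ hY hlenY
  exact good_killed_by_p R d hd p hp0 hpm Y X hY hX hlenY

end

end Vale.Agent.P177
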