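import Vale.Agent.P177.FlatTor

/-!
Flat change of rings for Tor: comparison as modules.
-/

namespace Vale.Agent.P177

open CategoryTheory TensorProduct Function IsLocalRing RingTheory.Sequence Pointwise

universe u

variable {S B : Type u} [CommRing S] [CommRing B] [Algebra S B]

theorem tor_bc_common [Module.Flat S B] (n : ℕ) {K X : Type u} [AddCommGroup K] [Module S K]
    [AddCommGroup X] [Module S X] [Module B X] [IsScalarTower S B X]
    {φ : K →ₗ[S] X} (hφ : IsBaseChange B φ)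
    (N : Type u) [AddCommGroup N] [Module S N] [Module B N] [IsScalarTower S B N] :
    ∃ (M : Type u) (_ : AddCommGroup M) (_ : Module S M) (_ : Module B M)
      (_ : IsScalarTower S B M), Nonempty (TorM S n K N ≃ₗ[S] M) ∧
      Nonempty (TorM B n X N ≃ₗ[B] M) := by
  induction n generalizing K X with
  | zero =>
    obtain ⟨e, -⟩ := exists_cancel hφ N
    exact ⟨N ⊗[S] K, inferInstance, inferInstance, inferInstance, inferInstance,
      ⟨torZero K N ≪≫ₗ TensorProduct.comm S K N⟩,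
      ⟨torZero X N ≪≫ₗ TensorProduct.comm B X N ≪≫ₗ e⟩⟩
  | succ n ih =>
    obtain ⟨F, K1, _, _, _, _, i, g, hF, hi, hg, h⟩ := exists_cover S K
    obtain ⟨Y, _, _, _, _, ψ, hψ⟩ := exists_baseChange (R := S) B F
    obtain ⟨X1, _, _, _, _, φ1, hφ1⟩ := exists_baseChange (R := S) B K1
    let j : X1 →ₗ[B] Y := hφ1.lift (ψ ∘ₗ i)
    have hj : ∀ k, j (φ1 k) = ψ (i k) := fun k => hφ1.lift_eq _ k
    let q : Y →ₗ[B] X := hψ.lift (φ ∘ₗ g)
    have hq : ∀ y, q (ψ y) = φ (g y) := fun y => hψ.lift_eq _ y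
    have hjinj : Injective j := bc_injective hφ1 hψ i j hj hi
    have hqs : Surjective q := bc_surjective hψ hφ g q hq hg
    have hex : Exact j q := bc_exact hφ1 hψ hφ i j hj g q hq hg h
    have hYflat : Module.Flat B Y := Module.Flat.isBaseChange S B F Y hψ
    cases n with
    | zero =>
      obtain ⟨e1⟩ := tor_one i g hi hg h N
      obtain ⟨e2⟩ := tor_one j q hjinj hqs hex N
      obtain ⟨θ, hθ, ⟨e⟩⟩ := exists_ker_bc hφ1 hψ i j hj N
      obtain ⟨e3⟩ := ker_comm (N := N) i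
      have e4 : LinearMap.ker (i.lTensor N) ≃ₗ[S] LinearMap.ker θ := by
        have : LinearMap.ker (i.lTensor N) = (LinearMap.ker θ).restrictScalars S := by
          ext x
          change i.lTensor N x = 0 ↔ θ x = 0
          rw [hθ]
        rw [this]
        exact LinearEquiv.refl _ _
      exact ⟨LinearMap.ker θ, inferInstance, inferInstance, inferInstance, inferInstance,
        ⟨e1 ≪≫ₗ e3 ≪≫ₗ e4⟩, ⟨e2 ≪≫ₗ e.symm⟩⟩
    | succ n =>
      obtain ⟨e1⟩ := tor_shift i g hi hg h N n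
      obtain ⟨e2⟩ := tor_shift j q hjinj hqs hex N n
      obtain ⟨M, i1, i2, i3, i4, ⟨f1⟩, ⟨f2⟩⟩ := ih hφ1
      exact ⟨M, i1, i2, i3, i4, ⟨e1 ≪≫ₗ f1⟩, ⟨e2 ≪≫ₗ f2⟩⟩

end Vale.Agent.P177
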