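import Vale.Agent.P177.TorShift

/-!
Tor via free resolutions given by maps between finite free modules.
-/

namespace Vale.Agent.P177

open CategoryTheory TensorProduct Function

universe u

section act

variable {A : Type*} [CommRing A] {p q r : ℕ} (N : Type*) [AddCommGroup N] [Module A N]

/-- The action of a linear map of finite free modules on powers of a module. -/
def act (δ : (Fin p → A) →ₗ[A] (Fin q → A)) : (Fin p → N) →ₗ[A] (Fin q → N) where
  toFun v := fun k => ∑ j, δ (Pi.single j 1) k • v j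
  map_add' v w := by
    funext k
    simp [smul_add, Finset.sum_add_distrib]
  map_smul' c v := by
    funext k
    simp only [Pi.smul_apply, RingHom.id_apply, Finset.smul_sum]
    exact Finset.sum_congr rfl fun j _ => smul_comm _ _ _

variable {N}

theorem act_apply (δ : (Fin p → A) →ₗ[A] (Fin q → A)) (v : Fin p → N) (k : Fin q) :
    act N δ v k = ∑ j, δ (Pi.single j 1) k • v j := rfl

theorem apply_eq_sum (δ : (Fin p → A) →ₗ[A] (Fin q → A)) (f : Fin p → A) (k : Fin q) :
    δ f k = ∑ j, f j * δ (Pi.single j 1) k := by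
  rw [LinearMap.pi_apply_eq_sum_univ δ f, Finset.sum_apply]
  refine Finset.sum_congr rfl fun j _ => ?_
  have h : (fun i => if j = i then (1 : A) else 0) = Pi.single j 1 := by
    funext i
    rw [Pi.single_apply]
    simp only [eq_comm]
  rw [Pi.smul_apply, smul_eq_mul, h]

theorem act_comp (δ : (Fin q → A) →ₗ[A] (Fin r → A)) (δ' : (Fin p → A) →ₗ[A] (Fin q → A))
    (v : Fin p → N) : act N (δ.comp δ') v = act N δ (act N δ' v) := by
  funext k
  rw [act_apply, act_apply]
  simp only [act_apply, LinearMap.comp_apply, Finset.smul_sum, smul_smul]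
  rw [Finset.sum_comm]
  refine Finset.sum_congr rfl fun j _ => ?_
  rw [← Finset.sum_smul]
  congr 1
  rw [apply_eq_sum δ]
  exact Finset.sum_congr rfl fun i _ => mul_comm _ _

theorem act_zero : act N (0 : (Fin p → A) →ₗ[A] (Fin q → A)) = 0 := by
  ext v k
  simp [act]

end act

/-- Kernels of compositions with surjective maps. -/
theorem exists_equiv_ker_comp {R V W U U' : Type*} [CommRing R] [AddCommGroup V] [Module R V]
    [AddCommGroup W] [Module R W] [AddCommGroup U] [Module R U] [AddCommGroup U'] [Module R U']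
    (π : V →ₗ[R] W) (hπ : Surjective π) (θ : W →ₗ[R] U) (ζ : V →ₗ[R] U')
    (key : ∀ v, ζ v = 0 ↔ θ (π v) = 0) (P : Submodule R V) (hP : LinearMap.ker π = P) :
    Nonempty ((LinearMap.ker ζ ⧸ P.submoduleOf (LinearMap.ker ζ)) ≃ₗ[R] LinearMap.ker θ) := by
  let π' : LinearMap.ker ζ →ₗ[R] LinearMap.ker θ :=
    (π ∘ₗ (LinearMap.ker ζ).subtype).codRestrict _ (fun v => (key v.1).1 v.2)
  have hπ' : Surjective π' := by
    rintro ⟨t, ht⟩
    obtain ⟨v, rfl⟩ := hπ t
    exact ⟨⟨v, (key v).2 ht⟩, Subtype.ext rfl⟩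
  have hk' : P.submoduleOf (LinearMap.ker ζ) = LinearMap.ker π' := by
    ext v
    have h1 : v ∈ LinearMap.ker π' ↔ v.1 ∈ LinearMap.ker π :=
      ⟨fun h => congrArg Subtype.val h, fun h => Subtype.ext h⟩
    rw [h1, hP]
    rfl
  exact ⟨(Submodule.quotEquivOfEq _ _ hk').trans (LinearMap.quotKerEquivOfSurjective π' hπ')⟩

section tensor

variable {R : Type u} [CommRing R] {p q : ℕ} (N : Type u) [AddCommGroup N] [Module R N]

/-- `R^p ⊗ N ≃ N^p`. -/
noncomputable def powEquiv (p : ℕ) : (Fin p → R) ⊗[R] N ≃ₗ[R] (Fin p → N) :=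
  TensorProduct.comm R _ _ ≪≫ₗ TensorProduct.piScalarRight R R N (Fin p)

theorem powEquiv_tmul (f : Fin p → R) (n : N) (j : Fin p) : powEquiv N p (f ⊗ₜ n) j = f j • n := by
  simp [powEquiv]

theorem powEquiv_rTensor (δ : (Fin p → R) →ₗ[R] (Fin q → R)) (t : (Fin p → R) ⊗[R] N) :
    powEquiv N q (δ.rTensor N t) = act N δ (powEquiv N p t) := by
  induction t using TensorProduct.induction_on with
  | zero => simp
  | add x y hx hy => simp only [map_add, hx, hy]
  | tmul f n =>
    funext k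
    rw [LinearMap.rTensor_tmul, powEquiv_tmul, act_apply]
    simp only [powEquiv_tmul, smul_smul]
    rw [← Finset.sum_smul, apply_eq_sum δ]
    congr 1
    exact Finset.sum_congr rfl fun i _ => mul_comm _ _

/-- A free presentation of `M` computes the tensor product. -/
theorem exists_tensor_presentation {M : Type u} [AddCommGroup M] [Module R M]
    (δ : (Fin p → R) →ₗ[R] (Fin q → R)) (ε : (Fin q → R) →ₗ[R] M) (hε : Surjective ε)
    (h : Exact δ ε) : ∃ π : (Fin q → N) →ₗ[R] M ⊗[R] N, Surjective π ∧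
      LinearMap.ker π = LinearMap.range (act N δ) ∧
      ∀ t : (Fin q → R) ⊗[R] N, π (powEquiv N q t) = ε.rTensor N t := by
  refine ⟨ε.rTensor N ∘ₗ (powEquiv N q).symm.toLinearMap, ?_, ?_, ?_⟩
  · exact (LinearMap.rTensor_surjective N hε).comp (powEquiv N q).symm.surjective
  · ext v
    rw [LinearMap.mem_ker, LinearMap.mem_range]
    have hex := rTensor_exact N h hε
    constructor
    · intro hv
      obtain ⟨t, ht⟩ := (hex _).1 hv
      refine ⟨powEquiv N p t, ?_⟩
      rw [← powEquiv_rTensor, ht]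
      exact (powEquiv N q).apply_symm_apply v
    · rintro ⟨w, rfl⟩
      apply (hex _).2
      refine ⟨(powEquiv N p).symm w, ?_⟩
      apply (powEquiv N q).injective
      rw [powEquiv_rTensor, LinearEquiv.apply_symm_apply]
      exact ((powEquiv N q).apply_symm_apply _).symm
  · intro t
    exact congrArg (ε.rTensor N) ((powEquiv N q).symm_apply_apply t)

/-- A free presentation of length two computes the first Tor module. -/
theorem tor_one_presentation {r : ℕ} {M : Type u} [AddCommGroup M] [Module R M]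
    (δ1 : (Fin p → R) →ₗ[R] (Fin q → R)) (δ0 : (Fin q → R) →ₗ[R] (Fin r → R))
    (ε : (Fin r → R) →ₗ[R] M) (hε : Surjective ε) (h0 : Exact δ0 ε) (h1 : Exact δ1 δ0) :
    Nonempty (TorM R 1 M N ≃ₗ[R] (LinearMap.ker (act N δ0) ⧸
      (LinearMap.range (act N δ1)).submoduleOf (LinearMap.ker (act N δ0)))) := by
  obtain ⟨e1⟩ := tor_one (LinearMap.ker ε).subtype ε (Submodule.injective_subtype _) hε
    (LinearMap.exact_subtype_ker_map _) N
  let ε' : (Fin q → R) →ₗ[R] LinearMap.ker ε :=
    δ0.codRestrict (LinearMap.ker ε) fun v => (h0 _).2 ⟨v, rfl⟩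
  have hε' : Surjective ε' := by
    rintro ⟨v, hv⟩
    obtain ⟨w, hw⟩ := (h0 v).1 hv
    exact ⟨w, Subtype.ext hw⟩
  have h1' : Exact δ1 ε' := by
    intro v
    rw [← h1 v]
    exact ⟨fun h => congrArg Subtype.val h, fun h => Subtype.ext h⟩
  obtain ⟨π, hπ, hk, hπt⟩ := exists_tensor_presentation N δ1 ε' hε' h1'
  have key : ∀ v : Fin q → N, powEquiv N r
      ((LinearMap.ker ε).subtype.rTensor N (π v)) = act N δ0 v := by
    intro v
    obtain ⟨t, rfl⟩ := (powEquiv (R := R) N q).surjective v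
    have h2 : (LinearMap.ker ε).subtype.rTensor N (ε'.rTensor N t) = δ0.rTensor N t := by
      rw [← LinearMap.comp_apply, ← LinearMap.rTensor_comp]
      rfl
    rw [hπt, h2, powEquiv_rTensor]
  have key' : ∀ v : Fin q → N, act N δ0 v = 0 ↔
      (LinearMap.ker ε).subtype.rTensor N (π v) = 0 := by
    intro v
    rw [← key]
    exact (powEquiv (R := R) N r).map_eq_zero_iff
  obtain ⟨e2⟩ := exists_equiv_ker_comp (W := (LinearMap.ker ε) ⊗[R] N)
    (U := (Fin r → R) ⊗[R] N) π hπ ((LinearMap.ker ε).subtype.rTensor N) (act N δ0) key' _ hk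
  exact ⟨e1.trans e2.symm⟩

end tensor

/-- A resolution by finite free modules. -/
structure FR (R : Type*) [CommRing R] (M : Type*) [AddCommGroup M] [Module R M] where
  /-- ranks -/
  b : ℕ → ℕ
  /-- augmentation -/
  ε : (Fin (b 0) → R) →ₗ[R] M
  /-- differentials -/
  δ : ∀ i, (Fin (b (i + 1)) → R) →ₗ[R] (Fin (b i) → R)
  surj : Surjective ε
  exact_zero : Exact (δ 0) ε
  exact_succ : ∀ i, Exact (δ (i + 1)) (δ i)

namespace FR

variable {R : Type u} [CommRing R] {M : Type u} [AddCommGroup M] [Module R M] (X : FR R M)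
  (N : Type u) [AddCommGroup N] [Module R N]

/-- The cycles. -/
def Z : ∀ i, Submodule R (Fin (X.b i) → N)
  | 0 => ⊤
  | i + 1 => LinearMap.ker (act N (X.δ i))

/-- The boundaries. -/
def B (i : ℕ) : Submodule R (Fin (X.b i) → N) := LinearMap.range (act N (X.δ i))

theorem B_le_Z (i : ℕ) : X.B N i ≤ X.Z N i := by
  cases i with
  | zero => exact le_top
  | succ i =>
    rintro _ ⟨v, rfl⟩
    change act N (X.δ i) (act N (X.δ (i + 1)) v) = 0
    have h : (X.δ i).comp (X.δ (i + 1)) = 0 := by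
      ext1 j
      exact LinearMap.ext fun c => (X.exact_succ i _).2 ⟨_, rfl⟩
    rw [← act_comp, h, act_zero, LinearMap.zero_apply]

/-- The truncated resolution of the first syzygy module. -/
def tail : FR R (LinearMap.ker X.ε) where
  b i := X.b (i + 1)
  ε := (X.δ 0).codRestrict (LinearMap.ker X.ε) fun v => (X.exact_zero _).2 ⟨v, rfl⟩
  δ i := X.δ (i + 1)
  surj := by
    rintro ⟨v, hv⟩
    obtain ⟨w, hw⟩ := (X.exact_zero v).1 hv
    exact ⟨w, Subtype.ext hw⟩
  exact_zero := by
    intro v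
    rw [← X.exact_succ 0 v]
    exact ⟨fun h => congrArg Subtype.val h, fun h => Subtype.ext h⟩
  exact_succ i := X.exact_succ (i + 1)

theorem tor_zero : Nonempty (TorM R 0 M N ≃ₗ[R] (X.Z N 0 ⧸ (X.B N 0).submoduleOf (X.Z N 0))) := by
  obtain ⟨π, hπ, hk, -⟩ := exists_tensor_presentation N (X.δ 0) X.ε X.surj X.exact_zero
  let π' : X.Z N 0 →ₗ[R] M ⊗[R] N := π ∘ₗ (X.Z N 0).subtype
  have hπ' : Surjective π' := by
    intro t
    obtain ⟨v, rfl⟩ := hπ t
    exact ⟨⟨v, trivial⟩, rfl⟩
  have hk' : LinearMap.ker π' = (X.B N 0).submoduleOf (X.Z N 0) := by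
    ext v
    change π v.1 = 0 ↔ v.1 ∈ X.B N 0
    rw [← LinearMap.mem_ker, hk]
    rfl
  exact ⟨torZero M N ≪≫ₗ (LinearMap.quotKerEquivOfSurjective π' hπ').symm ≪≫ₗ
    Submodule.quotEquivOfEq _ _ hk'⟩

theorem tor_one_eq : Nonempty (TorM R 1 M N ≃ₗ[R]
    (X.Z N 1 ⧸ (X.B N 1).submoduleOf (X.Z N 1))) :=
  tor_one_presentation N (X.δ 1) (X.δ 0) X.ε X.surj X.exact_zero (X.exact_succ 0)

theorem tor_succ_eq (i : ℕ) : ∀ {M : Type u} [AddCommGroup M] [Module R M] (X : FR R M),
    Nonempty (TorM R (i + 1) M N ≃ₗ[R]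
      (X.Z N (i + 1) ⧸ (X.B N (i + 1)).submoduleOf (X.Z N (i + 1)))) := by
  induction i with
  | zero => intro M _ _ X; exact X.tor_one_eq N
  | succ i ih =>
    intro M _ _ X
    obtain ⟨e⟩ := tor_shift (LinearMap.ker X.ε).subtype X.ε (Submodule.injective_subtype _) X.surj
      (LinearMap.exact_subtype_ker_map _) N i
    obtain ⟨e'⟩ := ih X.tail
    exact ⟨e ≪≫ₗ e'⟩

/-- Tor is the homology of the complex obtained from a free resolution. -/
theorem tor_eq (i : ℕ) :
    Nonempty (TorM R i M N ≃ₗ[R] (X.Z N i ⧸ (X.B N i).submoduleOf (X.Z N i))) := by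
  cases i with
  | zero => exact X.tor_zero N
  | succ i => exact tor_succ_eq N i X

end FR

end Vale.Agent.P177
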