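import Vale.Agent.P177.FinLength

/-!
Change of rings for Tor along a quotient by a regular element.
-/

namespace Vale.Agent.P177

open TensorProduct Function

universe u

section prelim

theorem ker_equiv {A : Type*} [CommRing A] {X X' Y Y' : Type*} [AddCommGroup X] [Module A X]
    [AddCommGroup X'] [Module A X'] [AddCommGroup Y] [Module A Y] [AddCommGroup Y'] [Module A Y']
    (e : X ≃ₗ[A] X') (e' : Y ≃ₗ[A] Y') (φ : X →ₗ[A] Y) (ψ : X' →ₗ[A] Y')
    (h : ∀ x, ψ (e x) = e' (φ x)) : Nonempty (LinearMap.ker φ ≃ₗ[A] LinearMap.ker ψ) := by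
  refine ⟨LinearEquiv.ofSubmodules e _ _ ?_⟩
  ext x
  simp only [Submodule.mem_map, LinearMap.mem_ker]
  constructor
  · rintro ⟨y, hy, rfl⟩
    change ψ (e y) = 0
    rw [h, hy, map_zero]
  · intro hx
    refine ⟨e.symm x, ?_, by simp⟩
    apply e'.injective
    rw [← h, LinearEquiv.apply_symm_apply, hx, map_zero]

theorem length_ker_add_range {A : Type*} [Ring A] {X Y : Type*} [AddCommGroup X] [Module A X]
    [AddCommGroup Y] [Module A Y] (φ : X →ₗ[A] Y) :
    Module.length A X = Module.length A (LinearMap.ker φ) + Module.length A (LinearMap.range φ) :=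
  Module.length_eq_add_of_exact (LinearMap.ker φ).subtype φ.rangeRestrict
    (Submodule.injective_subtype _) (LinearMap.surjective_rangeRestrict φ) (by
      intro x
      rw [Subtype.ext_iff]
      simp)

end prelim

variable {R A : Type u} [CommRing R] [CommRing A] [Algebra R A] {f : R}

/-- Standing hypotheses: `A = R/(f)` with `f` a nonzerodivisor. -/
structure IsHypersurface (R A : Type u) [CommRing R] [CommRing A] [Algebra R A] (f : R) :
    Prop where
  regular : IsSMulRegular R f
  surj : Function.Surjective (algebraMap R A)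
  ker : RingHom.ker (algebraMap R A) = Ideal.span {f}

namespace IsHypersurface

variable (H : IsHypersurface R A f)
include H

lemma algebraMap_f : algebraMap R A f = 0 := by
  have : f ∈ RingHom.ker (algebraMap R A) := by rw [H.ker]; exact Ideal.mem_span_singleton_self f
  exact this

lemma smul_eq_zero {N : Type u} [AddCommGroup N] [Module R N] [Module A N] [IsScalarTower R A N]
    (x : N) : f • x = 0 := by
  rw [← algebraMap_smul A f x, H.algebraMap_f, zero_smul]

lemma one_tmul_surj {X : Type u} [AddCommGroup X] [Module R X] (z : A ⊗[R] X) :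
    ∃ x : X, z = (1 : A) ⊗ₜ[R] x := by
  obtain ⟨x, hx⟩ := TensorProduct.mk_surjective R X A H.surj z
  exact ⟨x, hx.symm⟩

lemma one_tmul_eq_zero {X : Type u} [AddCommGroup X] [Module R X] (x : X)
    (hx : (1 : A) ⊗ₜ[R] x = 0) : ∃ y : X, x = f • y := by
  have hex : Function.Exact (LinearMap.lsmul R R f) (Algebra.linearMap R A) := by
    intro a
    simp only [Algebra.linearMap_apply, LinearMap.lsmul_apply, smul_eq_mul, Set.mem_range]
    constructor
    · intro ha
      have : a ∈ RingHom.ker (algebraMap R A) := ha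
      rw [H.ker, Ideal.mem_span_singleton] at this
      obtain ⟨c, rfl⟩ := this
      exact ⟨c, rfl⟩
    · rintro ⟨c, rfl⟩
      rw [map_mul, H.algebraMap_f, zero_mul]
  have h2 := rTensor_exact X hex H.surj
  have h3 : (Algebra.linearMap R A).rTensor X ((1 : R) ⊗ₜ[R] x) = 0 := by
    simpa using hx
  obtain ⟨w, hw⟩ := (h2 _).1 h3
  refine ⟨TensorProduct.lid R X w, ?_⟩
  have h4 : ∀ w : R ⊗[R] X, TensorProduct.lid R X ((LinearMap.lsmul R R f).rTensor X w) =
      f • TensorProduct.lid R X w := by
    intro w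
    induction w using TensorProduct.induction_on with
    | zero => simp
    | tmul a b => simp [mul_smul]
    | add a b ha hb => rw [map_add, map_add, ha, hb, map_add, smul_add]
  rw [← h4, hw]
  simp

lemma smul_tmul_one {X : Type u} [AddCommGroup X] [Module R X] (x : X) :
    (1 : A) ⊗ₜ[R] (f • x) = 0 := by
  rw [← TensorProduct.smul_tmul, Algebra.smul_def, H.algebraMap_f, zero_mul,
    TensorProduct.zero_tmul]

end IsHypersurface

section basechange

/-- Existence of base change as an opaque module. -/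
theorem exists_baseChange (A : Type u) [CommRing A] [Algebra R A] (K : Type u) [AddCommGroup K]
    [Module R K] :
    ∃ (X : Type u) (_ : AddCommGroup X) (_ : Module R X) (_ : Module A X)
      (_ : IsScalarTower R A X) (φ : K →ₗ[R] X), IsBaseChange A φ :=
  ⟨A ⊗[R] K, inferInstance, inferInstance, inferInstance, inferInstance,
    TensorProduct.mk R A K 1, TensorProduct.isBaseChange R K A⟩

variable {K F M X Y N : Type u} [AddCommGroup K] [Module R K] [AddCommGroup F] [Module R F]
  [AddCommGroup M] [Module R M]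
  [AddCommGroup X] [Module R X] [Module A X] [IsScalarTower R A X]
  [AddCommGroup Y] [Module R Y] [Module A Y] [IsScalarTower R A Y]
  [AddCommGroup N] [Module R N] [Module A N] [IsScalarTower R A N]

theorem IsHypersurface.baseChange_surj (H : IsHypersurface R A f) {φ : K →ₗ[R] X}
    (hφ : IsBaseChange A φ) : Surjective φ := by
  intro x
  obtain ⟨k, hk⟩ := H.one_tmul_surj (hφ.equiv.symm x)
  refine ⟨k, ?_⟩
  have := congrArg hφ.equiv hk
  rw [LinearEquiv.apply_symm_apply] at this
  rw [this, IsBaseChange.equiv_tmul, one_smul]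

theorem IsHypersurface.baseChange_eq_zero (H : IsHypersurface R A f) {φ : K →ₗ[R] X}
    (hφ : IsBaseChange A φ) (k : K) (hk : φ k = 0) : ∃ k', k = f • k' := by
  apply H.one_tmul_eq_zero k
  apply hφ.equiv.injective
  rw [IsBaseChange.equiv_tmul, one_smul, hk, map_zero]

theorem IsHypersurface.baseChange_smul (H : IsHypersurface R A f) (φ : K →ₗ[R] X)
    (k : K) : φ (f • k) = 0 := by
  rw [map_smul, H.smul_eq_zero]

/-- `N ⊗[A] X = N ⊗[R] K` for a base change `X` of `K`. -/
theorem exists_cancel {φ : K →ₗ[R] X} (hφ : IsBaseChange A φ) (N : Type u) [AddCommGroup N]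
    [Module R N] [Module A N] [IsScalarTower R A N] :
    ∃ e : N ⊗[A] X ≃ₗ[A] N ⊗[R] K, ∀ n k, e (n ⊗ₜ[A] φ k) = n ⊗ₜ[R] k := by
  refine ⟨TensorProduct.congr (LinearEquiv.refl A N) hφ.equiv.symm ≪≫ₗ
    AlgebraTensorModule.cancelBaseChange R A A N K, ?_⟩
  intro n k
  have h1 : hφ.equiv.symm (φ k) = (1 : A) ⊗ₜ[R] k := by
    rw [LinearEquiv.symm_apply_eq, IsBaseChange.equiv_tmul, one_smul]
  simp [h1]

theorem length_tensor_baseChange (hsurj : Function.Surjective (algebraMap R A))
    {φ : K →ₗ[R] X} (hφ : IsBaseChange A φ) (N : Type u) [AddCommGroup N]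
    [Module R N] [Module A N] [IsScalarTower R A N] :
    Module.length R (K ⊗[R] N) = Module.length A (X ⊗[A] N) := by
  obtain ⟨e, -⟩ := exists_cancel hφ N
  rw [(TensorProduct.comm R K N).length_eq, (TensorProduct.comm A X N).length_eq, e.length_eq,
    Module.length_eq_of_surjective (S := R) (R := A) hsurj]

/-- comparison of degree one kernels. -/
theorem length_ker_baseChange (hsurj : Function.Surjective (algebraMap R A))
    {φ : K →ₗ[R] X} (hφ : IsBaseChange A φ) {ψ : F →ₗ[R] Y} (hψ : IsBaseChange A ψ)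
    (i : K →ₗ[R] F) (j : X →ₗ[A] Y) (hij : ∀ k, j (φ k) = ψ (i k))
    (N : Type u) [AddCommGroup N] [Module R N] [Module A N] [IsScalarTower R A N] :
    Module.length R (LinearMap.ker (i.rTensor N)) =
      Module.length A (LinearMap.ker (j.rTensor N)) := by
  obtain ⟨e1⟩ := ker_comm (N := N) i
  obtain ⟨e2⟩ := ker_comm (N := N) j
  rw [e1.length_eq, e2.length_eq]
  let θ : N ⊗[R] K →ₗ[A] N ⊗[R] F := AlgebraTensorModule.map LinearMap.id i
  have h1 : Module.length R (LinearMap.ker (i.lTensor N)) =
      Module.length R (LinearMap.ker θ) := by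
    have : LinearMap.ker (i.lTensor N) = (LinearMap.ker θ).restrictScalars R := by
      ext x
      rfl
    rw [this]
    rfl
  rw [h1, Module.length_eq_of_surjective (S := R) (R := A) hsurj]
  obtain ⟨eX, heX⟩ := exists_cancel hφ N
  obtain ⟨eY, heY⟩ := exists_cancel hψ N
  have hX : ∀ z : N ⊗[R] K, j.lTensor N (eX.symm z) = eY.symm (θ z) := by
    intro z
    induction z using TensorProduct.induction_on with
    | zero => simp
    | tmul n k =>
      have a1 : eX.symm (n ⊗ₜ[R] k) = n ⊗ₜ[A] φ k := by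
        rw [LinearEquiv.symm_apply_eq, heX]
      have a2 : eY.symm (n ⊗ₜ[R] i k) = n ⊗ₜ[A] ψ (i k) := by
        rw [LinearEquiv.symm_apply_eq, heY]
      have a3 : θ (n ⊗ₜ[R] k) = n ⊗ₜ[R] i k := by simp [θ]
      rw [a1, a3, a2, LinearMap.lTensor_tmul, hij]
    | add a b ha hb => rw [map_add, map_add, ha, hb, map_add, map_add]
  obtain ⟨e3⟩ := ker_equiv eX.symm eY.symm θ (j.lTensor N) hX
  exact e3.length_eq

/-- injectivity of the base change of an inclusion with `f`-regular cokernel. -/
theorem IsHypersurface.baseChange_injective (H : IsHypersurface R A f)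
    {φ : K →ₗ[R] X} (hφ : IsBaseChange A φ) {ψ : F →ₗ[R] Y} (hψ : IsBaseChange A ψ)
    (i : K →ₗ[R] F) (j : X →ₗ[A] Y) (hij : ∀ k, j (φ k) = ψ (i k))
    (g : F →ₗ[R] M) (hi : Injective i) (h : Exact i g) (hM : IsSMulRegular M f) :
    Injective j := by
  rw [injective_iff_map_eq_zero]
  intro z hz
  obtain ⟨x, rfl⟩ := H.baseChange_surj hφ z
  rw [hij] at hz
  obtain ⟨y, hy⟩ := H.baseChange_eq_zero hψ _ hz
  have h1 : f • g y = 0 := by
    rw [← map_smul, ← hy]
    exact (h _).2 ⟨x, rfl⟩
  have h2 : g y = 0 := hM (by simpa using h1)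
  obtain ⟨k, hk⟩ := (h y).1 h2
  have h3 : x = f • k := hi (by rw [hy, map_smul, hk])
  rw [h3, H.baseChange_smul]

/-- exactness of the base change. -/
theorem IsHypersurface.baseChange_exact (H : IsHypersurface R A f)
    {φ : K →ₗ[R] X} (hφ : IsBaseChange A φ) {ψ : F →ₗ[R] Y} (hψ : IsBaseChange A ψ)
    {Z : Type u} [AddCommGroup Z] [Module R Z] [Module A Z] [IsScalarTower R A Z]
    {χ : M →ₗ[R] Z} (hχ : IsBaseChange A χ)
    (i : K →ₗ[R] F) (j : X →ₗ[A] Y) (hij : ∀ k, j (φ k) = ψ (i k))
    (g : F →ₗ[R] M) (hg : Surjective g) (q : Y →ₗ[A] Z) (hq : ∀ y, q (ψ y) = χ (g y))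
    (h : Exact i g) : Exact j q ∧ Surjective q := by
  refine ⟨?_, ?_⟩
  · intro y
    constructor
    · intro hy
      obtain ⟨y, rfl⟩ := H.baseChange_surj hψ y
      rw [hq] at hy
      obtain ⟨m, hm⟩ := H.baseChange_eq_zero hχ _ hy
      obtain ⟨y', rfl⟩ := hg m
      have : g (y - f • y') = 0 := by rw [map_sub, map_smul, hm, sub_self]
      obtain ⟨k, hk⟩ := (h _).1 this
      refine ⟨φ k, ?_⟩
      rw [hij, hk, map_sub, H.baseChange_smul, sub_zero]
    · rintro ⟨x, rfl⟩
      obtain ⟨k, rfl⟩ := H.baseChange_surj hφ x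
      rw [hij, hq, (h _).2 ⟨k, rfl⟩, map_zero]
  · intro z
    obtain ⟨m, rfl⟩ := H.baseChange_surj hχ z
    obtain ⟨y, rfl⟩ := hg m
    exact ⟨ψ y, hq y⟩

theorem IsHypersurface.regular_of_flat (H : IsHypersurface R A f) (F : Type u) [AddCommGroup F]
    [Module R F] [Module.Flat R F] : IsSMulRegular F f := by
  apply Module.Flat.isSMulRegular_of_isRegular
  have h1 : IsLeftRegular f := isLeftRegular_iff.2 H.regular
  exact ⟨h1, fun a b hab => h1 (by simpa [mul_comm] using hab)⟩

/-- Change of rings for Tor: if `f` is regular on `K` then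
`Tor^R(K,N)` and `Tor^A(K/fK,N)` have the same length. -/
theorem IsHypersurface.length_tor_baseChange (H : IsHypersurface R A f) (n : ℕ)
    {K X : Type u} [AddCommGroup K] [Module R K]
    [AddCommGroup X] [Module R X] [Module A X] [IsScalarTower R A X]
    {φ : K →ₗ[R] X} (hφ : IsBaseChange A φ) (hK : IsSMulRegular K f)
    (N : Type u) [AddCommGroup N] [Module R N] [Module A N] [IsScalarTower R A N] :
    Module.length R (TorM R n K N) = Module.length A (TorM A n X N) := by
  induction n generalizing K X with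
  | zero =>
    rw [(torZero K N).length_eq, length_tensor_baseChange H.surj hφ N, (torZero X N).length_eq]
  | succ n ih =>
    obtain ⟨F, K1, _, _, _, _, i, g, hF, hi, hg, h⟩ := exists_cover R K
    obtain ⟨Y, _, _, _, _, ψ, hψ⟩ := exists_baseChange (R := R) A F
    obtain ⟨X1, _, _, _, _, φ1, hφ1⟩ := exists_baseChange (R := R) A K1
    let j : X1 →ₗ[A] Y := hφ1.lift (ψ ∘ₗ i)
    have hj : ∀ k, j (φ1 k) = ψ (i k) := fun k => hφ1.lift_eq _ k
    let q : Y →ₗ[A] X := hψ.lift (φ ∘ₗ g)
    have hq : ∀ y, q (ψ y) = φ (g y) := fun y => hψ.lift_eq _ y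
    have hjinj : Injective j := H.baseChange_injective hφ1 hψ i j hj g hi h hK
    obtain ⟨hex, hqs⟩ := H.baseChange_exact hφ1 hψ hφ i j hj g hg q hq h
    have hYflat : Module.Flat A Y := Module.Flat.isBaseChange R A F Y hψ
    have hFr : IsSMulRegular F f := H.regular_of_flat F
    have hK1 : IsSMulRegular K1 f := by
      intro a b hab
      apply hi
      apply hFr
      simpa using congrArg i hab
    cases n with
    | zero =>
      obtain ⟨e1⟩ := tor_one i g hi hg h N
      obtain ⟨e2⟩ := tor_one j q hjinj hqs hex N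
      rw [e1.length_eq, e2.length_eq]
      exact length_ker_baseChange H.surj hφ1 hψ i j hj N
    | succ n =>
      obtain ⟨e1⟩ := tor_shift i g hi hg h N n
      obtain ⟨e2⟩ := tor_shift j q hjinj hqs hex N n
      rw [e1.length_eq, e2.length_eq]
      exact ih hφ1 hK1

end basechange

end Vale.Agent.P177
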