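import Mathlib

/-! Coefficient fields of complete local rings of prime characteristic. -/

namespace Vale.Agent.P177

open IsLocalRing Polynomial

/-- A surjection from a ring of characteristic `p` onto a field with square-zero kernel
has a section. -/
theorem exists_section_of_sq_zero {B k : Type*} [CommRing B] [Field k] (p : ℕ) [Fact p.Prime]
    [CharP B p] (π : B →+* k) (hπ : Function.Surjective π) (hI : (RingHom.ker π) ^ 2 = ⊥) :
    ∃ s : k →+* B, π.comp s = RingHom.id k := by
  classical
  have hp : p.Prime := Fact.out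
  have hchar : CharP k p := by
    have h0 : (p : k) = 0 := by
      rw [← map_natCast π, CharP.cast_eq_zero, map_zero]
    exact (CharP.charP_iff_prime_eq_zero hp).mpr h0
  have hsq : ∀ b : B, π b = 0 → b ^ 2 = 0 := by
    intro b hb
    have : b ^ 2 ∈ (RingHom.ker π) ^ 2 := Ideal.pow_mem_pow (RingHom.mem_ker.mpr hb) 2
    rw [hI] at this
    simpa using this
  have hpow : ∀ b : B, π b = 0 → b ^ p = 0 := by
    intro b hb
    obtain ⟨c, hc⟩ := Nat.exists_eq_add_of_le hp.two_le
    rw [hc, pow_add, hsq b hb, zero_mul]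
  have hunit : ∀ b : B, π b ≠ 0 → IsUnit b := by
    intro b hb
    obtain ⟨c, hc⟩ := hπ (π b)⁻¹
    have h1 : π (b * c - 1) = 0 := by
      rw [map_sub, map_mul, hc, mul_inv_cancel₀ hb, map_one, sub_self]
    have h2 := hsq _ h1
    have h3 : b * (c * (2 - b * c)) = 1 := by
      linear_combination -h2
    exact IsUnit.of_mul_eq_one _ h3
  let S : Set (Subring B) := {K | (frobenius B p).range ≤ K ∧ ∀ x ∈ K, π x = 0 → x = 0}
  have hne : (frobenius B p).range ∈ S := by
    refine ⟨le_rfl, ?_⟩
    rintro x ⟨y, rfl⟩ hx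
    rw [frobenius_def, map_pow] at hx
    have : π y = 0 := pow_eq_zero_iff hp.ne_zero |>.mp hx
    rw [frobenius_def]
    exact hpow y this
  obtain ⟨K, hKle, hKmax⟩ := zorn_le_nonempty₀ S (by
    intro c hcS hc y hy
    refine ⟨sSup c, ⟨?_, ?_⟩, fun z hz => le_sSup hz⟩
    · exact le_trans (hcS hy).1 (le_sSup hy)
    · intro x hx hx0
      rw [Subring.mem_sSup_of_directedOn ⟨y, hy⟩ hc.directedOn] at hx
      obtain ⟨z, hz, hxz⟩ := hx
      exact (hcS hz).2 x hxz hx0) _ hne
  have hKS : K ∈ S := hKmax.prop
  have hfrob : ∀ x : B, x ^ p ∈ K := fun x => hKS.1 ⟨x, rfl⟩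
  -- the image as a subfield
  let L : Subfield k :=
    { K.map π with
      inv_mem' := by
        rintro x ⟨y, hy, rfl⟩
        by_cases hy0 : π y = 0
        · rw [hy0, inv_zero]
          exact ⟨0, K.zero_mem, map_zero π⟩
        · obtain ⟨u, hu⟩ := hunit y hy0
          refine ⟨y ^ (p - 1) * ((u⁻¹ : Bˣ) : B) ^ p, K.mul_mem (K.pow_mem hy _) (hfrob _), ?_⟩
          have h1 : π y * π ((u⁻¹ : Bˣ) : B) = 1 := by
            rw [← map_mul, ← hu, Units.mul_inv, map_one]
          have h2 : π ((u⁻¹ : Bˣ) : B) = (π y)⁻¹ := eq_inv_of_mul_eq_one_right h1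
          rw [map_mul, map_pow, map_pow, h2]
          obtain ⟨q, hq⟩ := Nat.exists_eq_succ_of_ne_zero hp.ne_zero
          subst hq
          rw [Nat.succ_sub_one, pow_succ, ← mul_assoc, ← mul_pow, mul_inv_cancel₀ hy0, one_pow,
            one_mul] }
  have hL : ∀ x, x ∈ L ↔ ∃ y ∈ K, π y = x := fun x => Iff.rfl
  have hsurj : ∀ b : k, b ∈ L := by
    by_contra hcon
    obtain ⟨b, hb⟩ := not_forall.mp hcon
    obtain ⟨β, rfl⟩ := hπ b
    -- the irreducible polynomial
    have hbp : (π β) ^ p ∈ L := ⟨β ^ p, hfrob β, map_pow π β p⟩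
    have hirr : Irreducible (X ^ p - C (⟨(π β) ^ p, hbp⟩ : L)) := by
      apply X_pow_sub_C_irreducible_of_prime hp
      intro c hc
      have h1 : ((c : k)) ^ p = (π β) ^ p := by
        have := congrArg (Subtype.val) hc
        simpa using this
      have h2 : (c : k) = π β := frobenius_inj k p (by simpa [frobenius_def] using h1)
      exact hb (h2 ▸ c.2)
    have hmin : minpoly L (π β) = X ^ p - C (⟨(π β) ^ p, hbp⟩ : L) := by
      symm
      apply minpoly.eq_of_irreducible_of_monic hirr
      · simp only [map_sub, map_pow, aeval_X, aeval_C]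
        exact sub_self _
      · exact monic_X_pow_sub_C _ hp.ne_zero
    -- the adjoined ring
    let K' : Subring B := (Algebra.adjoin K {β}).toSubring
    have hKK' : K ≤ K' := by
      intro x hx
      exact (Algebra.adjoin K {β}).algebraMap_mem ⟨x, hx⟩
    have hβK' : β ∈ K' := Algebra.subset_adjoin rfl
    have hK'S : K' ∈ S := by
      refine ⟨le_trans hKS.1 hKK', ?_⟩
      intro x hx hx0
      have hx' : x ∈ Algebra.adjoin K {β} := hx
      rw [Algebra.adjoin_singleton_eq_range_aeval] at hx'
      obtain ⟨P, rfl⟩ := hx'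
      let Q : K[X] := X ^ p - C ⟨β ^ p, hfrob β⟩
      have hQ : Q.Monic := monic_X_pow_sub_C _ hp.ne_zero
      have hQβ : aeval β Q = 0 := by
        simp only [Q, map_sub, map_pow, aeval_X, aeval_C]
        exact sub_self _
      have hdiv : aeval β (P %ₘ Q) = aeval β P := by
        conv_rhs => rw [← modByMonic_add_div P Q]
        rw [map_add, map_mul, hQβ, zero_mul, add_zero]
      have : Nontrivial K := by
        have hnt : Nontrivial B := π.domain_nontrivial
        infer_instance
      have hdeg : (P %ₘ Q).degree < p := by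
        have := degree_modByMonic_lt P hQ
        rwa [degree_X_pow_sub_C hp.pos] at this
      let πK : K →+* L := (π.comp K.subtype).codRestrict L (fun x => ⟨x, x.2, rfl⟩)
      have hπK : Function.Injective πK := by
        rw [injective_iff_map_eq_zero]
        intro y hy
        have : π y = 0 := congrArg Subtype.val hy
        exact Subtype.ext (hKS.2 y y.2 this)
      have hzero : aeval (π β) ((P %ₘ Q).map πK) = 0 := by
        have hx1 : π (aeval β P) = 0 := hx0
        rw [← hdiv] at hx1
        rw [← hx1, aeval_def, eval₂_map, aeval_def, hom_eval₂]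
        rfl
      have hdvd := minpoly.dvd L (π β) hzero
      have hPz : (P %ₘ Q).map πK = 0 := by
        apply eq_zero_of_dvd_of_degree_lt hdvd
        rw [hmin, degree_X_pow_sub_C hp.pos]
        exact lt_of_le_of_lt degree_map_le hdeg
      have hPz' : P %ₘ Q = 0 := (Polynomial.map_eq_zero_iff hπK).mp hPz
      change aeval β P = 0
      rw [← hdiv, hPz', map_zero]
    have hle : K' ≤ K := hKmax.le_of_ge hK'S hKK'
    exact hb ⟨β, hle hβK', rfl⟩
  have hbij : Function.Bijective (π.comp K.subtype) := by
    constructor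
    · rw [injective_iff_map_eq_zero]
      intro y hy
      exact Subtype.ext (hKS.2 y y.2 hy)
    · intro x
      obtain ⟨y, hy, hyx⟩ := hsurj x
      exact ⟨⟨y, hy⟩, hyx⟩
  let e : K ≃+* k := RingEquiv.ofBijective _ hbij
  refine ⟨K.subtype.comp (e.symm : k →+* K), ?_⟩
  ext x
  exact e.apply_symm_apply x

/-- Every field of characteristic `p` is formally smooth over its prime field. -/
theorem formallySmooth_zmod (k : Type*) [Field k] (p : ℕ) [Fact p.Prime] [Algebra (ZMod p) k] :
    Algebra.FormallySmooth (ZMod p) k := by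
  let P := Algebra.Generators.self (ZMod p) k
  let f := IsScalarTower.toAlgHom (ZMod p) P.Ring k
  have hf : Function.Surjective f := P.algebraMap_surjective
  rw [Algebra.FormallySmooth.iff_split_surjection f hf]
  have hs : Function.Surjective f.kerSquareLift :=
    Ideal.Quotient.lift_surjective_of_surjective _ _ P.algebraMap_surjective
  have hsq : RingHom.ker f.kerSquareLift.toRingHom ^ 2 = ⊥ := by
    rw [AlgHom.ker_kerSquareLift, Ideal.cotangentIdeal_square]
  have hk : CharP k p := (CharP.charP_iff_prime_eq_zero Fact.out).mpr (by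
    rw [← map_natCast (algebraMap (ZMod p) k), ZMod.natCast_self, map_zero])
  have hB : CharP (P.Ring ⧸ RingHom.ker f.toRingHom ^ 2) p := by
    have hnt : Nontrivial (P.Ring ⧸ RingHom.ker f.toRingHom ^ 2) :=
      (f.kerSquareLift.toRingHom).domain_nontrivial
    exact (CharP.charP_iff_prime_eq_zero Fact.out).mpr (by
      rw [← map_natCast (algebraMap (ZMod p) _), ZMod.natCast_self, map_zero])
  obtain ⟨s, hs'⟩ := exists_section_of_sq_zero p f.kerSquareLift.toRingHom hs hsq
  refine ⟨{ s with commutes' := fun r => ?_ }, ?_⟩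
  · exact RingHom.congr_fun (Subsingleton.elim (s.comp (algebraMap (ZMod p) k))
      (algebraMap (ZMod p) _)) r
  · ext x
    exact congr($hs' x)

theorem exists_coefficientField (A : Type*) [CommRing A] [IsLocalRing A]
    (p : ℕ) [Fact p.Prime] [CharP A p] [IsAdicComplete (maximalIdeal A) A] :
    ∃ σ : ResidueField A →+* A, ∀ x, residue A (σ x) = x := by
  let algA : Algebra (ZMod p) A := ZMod.algebra A p
  have hfs : Algebra.FormallySmooth (ZMod p) (ResidueField A) :=
    formallySmooth_zmod (ResidueField A) p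
  obtain ⟨g, hg⟩ := @Algebra.FormallySmooth.exists_mkₐ_comp_eq_of_isAdicComplete
    (ZMod p) (ResidueField A) _ _ _ A _ _ hfs (maximalIdeal A) _
    (AlgHom.id (ZMod p) (ResidueField A))
  exact ⟨g.toRingHom, fun x => congr($hg x)⟩

end Vale.Agent.P177
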