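import Vale.Agent.P177.CDescend
import Vale.Agent.P177.Devissage

/-!
The dimension inequality over a regular hypersurface.
-/

namespace Vale.Agent.P177

open CategoryTheory TensorProduct Function IsLocalRing

universe u

theorem dimension_inequality_hypersurface {B A : Type u} [CommRing B] [IsRegularLocalRing B]
    [CommRing A] [IsRegularLocalRing A] [Algebra B A] {f : B} (H : IsHypersurface B A f) (d : ℕ)
    (hdB : ringKrullDim B = ((d + 1 : ℕ) : WithBot ℕ∞))
    (hdA : ringKrullDim A = (d : WithBot ℕ∞)) (hS : SerreAll B (d + 1))
    (M N : Type u) [AddCommGroup M] [Module A M] [Module.Finite A M]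
    [AddCommGroup N] [Module A N] [Module.Finite A N]
    (hlen : Module.length A (M ⊗[A] N) ≠ ⊤) (a b : ℕ)
    (ha : (a : WithBot ℕ∞) ≤ Module.supportDim A M)
    (hb : (b : WithBot ℕ∞) ≤ Module.supportDim A N) : a + b ≤ d := by
  let _ : Module B M := Module.compHom M (algebraMap B A)
  let _ : Module B N := Module.compHom N (algebraMap B A)
  have tM : IsScalarTower B A M := ⟨fun x y z => by
    rw [Algebra.smul_def, mul_smul]
    rfl⟩
  have tN : IsScalarTower B A N := ⟨fun x y z => by
    rw [Algebra.smul_def, mul_smul]
    rfl⟩
  have fA : Module.Finite B A := Module.Finite.of_surjective (Algebra.linearMap B A) H.surj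
  have fM : Module.Finite B M := Module.Finite.trans A M
  have fN : Module.Finite B N := Module.Finite.trans A N
  have hlenB : Module.length B (M ⊗[B] N) ≠ ⊤ := by
    rw [length_tensor_baseChange H.surj (isBaseChange_id_of_surjective H.surj M) N]
    exact hlen
  obtain ⟨-, h2⟩ := hS M N hlenB
  rw [← supportDim_eq_of_surjective H.surj M] at ha
  rw [← supportDim_eq_of_surjective H.surj N] at hb
  obtain ⟨h3, h4⟩ := h2 a b ha hb
  by_contra hcon
  have h5 := h4 (by omega)
  have hBv : Module.length B (TorM B (d + 1 + 1) M N) = 0 := by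
    have := regular_tor_vanish B (d + 1) hdB M N (d + 1 + 1) le_rfl
    exact Module.length_eq_zero
  have h6 := H.eulerTor_eq M N (fun n => tor_length_ne_top n M N hlen) (d + 1) hBv
  have h7 : Module.length A (TorM A (d + 1) M N) = 0 := by
    have := regular_tor_vanish A d hdA M N (d + 1) le_rfl
    exact Module.length_eq_zero
  have h8 : Module.length A (TorM A (d + 1 + 1) M N) = 0 := by
    have := regular_tor_vanish A d hdA M N (d + 1 + 1) (by omega)
    exact Module.length_eq_zero
  rw [h7, h8, sub_self, mul_zero] at h6
  rw [h6] at h5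
  exact lt_irrefl _ h5

end Vale.Agent.P177
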