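import Mathlib

/-!
Heights of primes in polynomial rings: elimination of variables.
-/

namespace Vale.Agent.P177

section step

variable {Γ : Type*} [CommRing Γ] [IsNoetherianRing Γ]

theorem height_comap_le_of_flat {R S : Type*} [CommRing R] [CommRing S] [IsNoetherianRing R]
    [IsNoetherianRing S] [Algebra R S] [Module.Flat R S] (P : Ideal S) [P.IsPrime] :
    (P.comap (algebraMap R S)).height ≤ P.height := by
  have : Algebra.HasGoingDown R S := Algebra.HasGoingDown.of_flat
  have : P.LiesOver (P.comap (algebraMap R S)) := ⟨rfl⟩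
  rw [Ideal.height_eq_height_add_of_liesOver_of_hasGoingDown (P.comap (algebraMap R S)) P]
  exact le_self_add

theorem elim_step (P : Ideal (Polynomial Γ)) [P.IsPrime] (c u : Γ)
    (hcu : Polynomial.C c - Polynomial.C u * Polynomial.X ∈ P) (hu : Polynomial.C u ∉ P) :
    (P.comap Polynomial.C).height + 1 ≤ P.height := by
  set p := P.comap Polynomial.C with hp
  have hpp : p.IsPrime := Ideal.IsPrime.comap _
  have hmp : (p.map Polynomial.C).IsPrime := Ideal.isPrime_map_C_of_isPrime
  have hle : p.map Polynomial.C ≤ P := Ideal.map_comap_le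
  have hcomap : (p.map Polynomial.C).comap Polynomial.C = p := by
    apply le_antisymm
    · exact (Ideal.comap_mono hle).trans hp.ge
    · exact Ideal.le_comap_map
  have hlt : p.map Polynomial.C < P := by
    refine lt_of_le_of_ne hle ?_
    intro h
    rw [← h] at hcu
    have h1 := Ideal.mem_map_C_iff.1 hcu 1
    simp only [Polynomial.coeff_sub, Polynomial.coeff_C_mul, Polynomial.coeff_X_one, mul_one,
      Polynomial.coeff_C_succ, zero_sub, neg_mem_iff] at h1
    exact hu h1
  have h2 := Ideal.height_add_one_le_of_lt_of_isPrime hlt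
  have h3 : p.height ≤ (p.map Polynomial.C).height := by
    have h4 := height_comap_le_of_flat (R := Γ) (S := Polynomial Γ) (p.map Polynomial.C)
    change ((p.map Polynomial.C).comap Polynomial.C).height ≤ _ at h4
    rwa [hcomap] at h4
  exact (add_le_add_left h3 1).trans h2

theorem elim_fin (n : ℕ) (Q : Ideal (MvPolynomial (Fin n) Γ)) [Q.IsPrime] (c : Fin n → Γ) (u : Γ)
    (hu : MvPolynomial.C u ∉ Q)
    (hc : ∀ i, MvPolynomial.C (c i) - MvPolynomial.C u * MvPolynomial.X i ∈ Q) :
    (Q.comap MvPolynomial.C).height + n ≤ Q.height := by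
  induction n with
  | zero =>
    have h := height_comap_le_of_flat (R := Γ) (S := MvPolynomial (Fin 0) Γ) Q
    simpa using h
  | succ n ih =>
    let e := MvPolynomial.finSuccEquiv Γ n
    let Q' : Ideal (Polynomial (MvPolynomial (Fin n) Γ)) := Q.comap (e.symm : _ →+* _)
    have hQ' : Q'.IsPrime := Ideal.IsPrime.comap _
    have hmem : ∀ x, e x ∈ Q' ↔ x ∈ Q := by
      intro x
      change e.symm (e x) ∈ Q ↔ _
      rw [AlgEquiv.symm_apply_apply]
    have hht : Q'.height = Q.height := RingEquiv.height_comap e.symm.toRingEquiv Q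
    have hP : (Q'.comap Polynomial.C).IsPrime := Ideal.IsPrime.comap _
    have h1 := elim_step Q' (MvPolynomial.C (c 0)) (MvPolynomial.C u) (by
      have := (hmem _).2 (hc 0)
      simpa [e, MvPolynomial.finSuccEquiv_apply] using this) (by
      intro h
      apply hu
      rw [← hmem]
      simpa [e, MvPolynomial.finSuccEquiv_apply] using h)
    have h2 := ih (Q'.comap Polynomial.C) (fun i => c i.succ) (by
      intro h
      apply hu
      rw [← hmem]
      rw [Ideal.mem_comap] at h
      simpa [e, MvPolynomial.finSuccEquiv_apply] using h) (by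
      intro i
      rw [Ideal.mem_comap]
      have := (hmem _).2 (hc i.succ)
      simpa [e, MvPolynomial.finSuccEquiv_apply] using this)
    have h3 : (Q'.comap Polynomial.C).comap MvPolynomial.C = Q.comap MvPolynomial.C := by
      ext x
      change Polynomial.C (MvPolynomial.C x) ∈ Q' ↔ MvPolynomial.C x ∈ Q
      have hx : e (MvPolynomial.C x) = Polynomial.C (MvPolynomial.C x) := by
        simp [e, MvPolynomial.finSuccEquiv_apply]
      rw [← hx, hmem]
    rw [h3] at h2
    rw [← hht]
    push_cast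
    rw [← add_assoc]
    exact (add_le_add_left h2 1).trans h1

theorem elim_fintype {ι : Type*} [Fintype ι] (Q : Ideal (MvPolynomial ι Γ)) [Q.IsPrime]
    (c : ι → Γ) (u : Γ) (hu : MvPolynomial.C u ∉ Q)
    (hc : ∀ i, MvPolynomial.C (c i) - MvPolynomial.C u * MvPolynomial.X i ∈ Q) :
    (Q.comap MvPolynomial.C).height + Fintype.card ι ≤ Q.height := by
  let e := MvPolynomial.renameEquiv Γ (Fintype.equivFin ι)
  let Q' : Ideal (MvPolynomial (Fin (Fintype.card ι)) Γ) := Q.comap (e.symm : _ →+* _)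
  have hQ' : Q'.IsPrime := Ideal.IsPrime.comap _
  have hmem : ∀ x, e x ∈ Q' ↔ x ∈ Q := by
    intro x
    change e.symm (e x) ∈ Q ↔ _
    rw [AlgEquiv.symm_apply_apply]
  have hht : Q'.height = Q.height := RingEquiv.height_comap e.symm.toRingEquiv Q
  have hC : ∀ x, e (MvPolynomial.C x) = MvPolynomial.C x := fun x => by
    simp [e]
  have hX : ∀ i, e (MvPolynomial.X i) = MvPolynomial.X (Fintype.equivFin ι i) := fun i => by
    simp [e]
  have h := elim_fin (Fintype.card ι) Q' (fun i => c ((Fintype.equivFin ι).symm i)) u (by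
    rwa [← hC, hmem]) (by
    intro i
    have := (hmem _).2 (hc ((Fintype.equivFin ι).symm i))
    rw [map_sub, map_mul, hC, hC, hX, Equiv.apply_symm_apply] at this
    exact this)
  have h3 : Q'.comap MvPolynomial.C = Q.comap MvPolynomial.C := by
    ext x
    change MvPolynomial.C x ∈ Q' ↔ MvPolynomial.C x ∈ Q
    rw [← hC, hmem]
  rwa [h3, hht] at h

/-- Elimination of the variables in `s`. -/
theorem elim_supported {ι : Type*} [Fintype ι] [DecidableEq ι] (s : Finset ι)
    (Q : Ideal (MvPolynomial ι Γ)) [Q.IsPrime]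
    (c : ι → MvPolynomial ι Γ) (u : Γ) (hcs : ∀ i ∈ s, c i ∈ MvPolynomial.supported Γ (sᶜ : Set ι))
    (hu : MvPolynomial.C u ∉ Q)
    (hc : ∀ i ∈ s, c i - MvPolynomial.C u * MvPolynomial.X i ∈ Q) :
    (Q.comap MvPolynomial.C).height + s.card ≤ Q.height := by
  classical
  let e₁ := MvPolynomial.renameEquiv Γ (Equiv.sumCompl (fun x => x ∈ s)).symm
  let e₂ := MvPolynomial.sumRingEquiv Γ {x // x ∈ s} {x // ¬ x ∈ s}
  let e : MvPolynomial ι Γ ≃+* MvPolynomial {x // x ∈ s} (MvPolynomial {x // ¬ x ∈ s} Γ) :=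
    e₁.toRingEquiv.trans e₂
  have he : ∀ x, e x = e₂ (e₁ x) := fun x => rfl
  let Q' : Ideal (MvPolynomial {x // x ∈ s} (MvPolynomial {x // ¬ x ∈ s} Γ)) :=
    Q.comap (e.symm : _ →+* _)
  have hQ' : Q'.IsPrime := Ideal.IsPrime.comap _
  have hmem : ∀ x, e x ∈ Q' ↔ x ∈ Q := by
    intro x
    change e.symm (e x) ∈ Q ↔ _
    rw [RingEquiv.symm_apply_apply]
  have hht : Q'.height = Q.height := RingEquiv.height_comap e.symm Q
  have hC : ∀ x, e (MvPolynomial.C x) = MvPolynomial.C (MvPolynomial.C x) := fun x => by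
    rw [he]
    simp [e₁, e₂]
  have hX : ∀ i : {x // x ∈ s}, e (MvPolynomial.X i.1) = MvPolynomial.X i := fun i => by
    rw [he]
    have : e₁ (MvPolynomial.X i.1) = MvPolynomial.X (Sum.inl i) := by
      simp [e₁, Equiv.sumCompl_symm_apply_of_pos i.2]
    rw [this]
    simp [e₂]
  have hX' : ∀ i : {x // ¬ x ∈ s}, e (MvPolynomial.X i.1) =
      MvPolynomial.C (MvPolynomial.X i) := fun i => by
    rw [he]
    have : e₁ (MvPolynomial.X i.1) = MvPolynomial.X (Sum.inr i) := by
      simp [e₁, Equiv.sumCompl_symm_apply_of_neg i.2]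
    rw [this]
    simp [e₂]
  have hsupp : ∀ i : {x // x ∈ s}, ∃ c' : MvPolynomial {x // ¬ x ∈ s} Γ,
      e (c i.1) = MvPolynomial.C c' := by
    intro i
    have h1 := hcs i.1 i.2
    rw [MvPolynomial.supported] at h1
    refine Algebra.adjoin_induction (p := fun y _ => ∃ c' : MvPolynomial {x // ¬ x ∈ s} Γ,
      e y = MvPolynomial.C c') ?_ ?_ ?_ ?_ h1
    · rintro _ ⟨j, hj, rfl⟩
      exact ⟨MvPolynomial.X ⟨j, by simpa using hj⟩, hX' ⟨j, by simpa using hj⟩⟩
    · intro r
      exact ⟨MvPolynomial.C r, hC r⟩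
    · rintro x y - - ⟨cx, hx⟩ ⟨cy, hy⟩
      exact ⟨cx + cy, by rw [map_add, hx, hy, map_add]⟩
    · rintro x y - - ⟨cx, hx⟩ ⟨cy, hy⟩
      exact ⟨cx * cy, by rw [map_mul, hx, hy, map_mul]⟩
  choose c' hc' using hsupp
  have h := elim_fintype Q' c' (MvPolynomial.C u) (by
    rwa [← hC, hmem]) (by
    intro i
    have := (hmem _).2 (hc i.1 i.2)
    rw [map_sub, map_mul, hc', hC, hX] at this
    exact this)
  have hP : (Q'.comap MvPolynomial.C).IsPrime := Ideal.IsPrime.comap _
  have h2 := height_comap_le_of_flat (R := Γ) (S := MvPolynomial {x // ¬ x ∈ s} Γ)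
    (Q'.comap MvPolynomial.C)
  have h3 : (Q'.comap MvPolynomial.C).comap (algebraMap Γ (MvPolynomial {x // ¬ x ∈ s} Γ)) =
      Q.comap MvPolynomial.C := by
    ext x
    change MvPolynomial.C (MvPolynomial.C x) ∈ Q' ↔ MvPolynomial.C x ∈ Q
    rw [← hC, hmem]
  rw [h3] at h2
  rw [hht, Fintype.card_coe] at h
  exact (add_le_add_left h2 _).trans h

end step

end Vale.Agent.P177
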