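import Vale.Agent.P177.DElim

/-!
The elements `h_i - ∑_l (A_il - A_li) u_l` and elimination of `d - 1` variables.
-/

namespace Vale.Agent.P177

open MvPolynomial

variable {Γ : Type*} [CommRing Γ] {d : ℕ}

/-- The elements `h_i - ∑_l (A_il - A_li) u_l`. -/
noncomputable def altElt (h u : Fin d → Γ) (i : Fin d) : MvPolynomial (Fin d × Fin d) Γ :=
  C (h i) - ∑ l, (X (i, l) - X (l, i)) * C (u l)

theorem sum_alt_eq_zero {S : Type*} [CommRing S] (A : Fin d × Fin d → S) (u : Fin d → S) :
    ∑ i, u i * ∑ l, (A (i, l) - A (l, i)) * u l = 0 := by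
  have h1 : ∑ i, u i * ∑ l, (A (i, l) - A (l, i)) * u l =
      ∑ i, ∑ l, A (i, l) * u i * u l - ∑ i, ∑ l, A (l, i) * u i * u l := by
    rw [← Finset.sum_sub_distrib]
    refine Finset.sum_congr rfl fun i _ => ?_
    rw [Finset.mul_sum, ← Finset.sum_sub_distrib]
    refine Finset.sum_congr rfl fun l _ => ?_
    ring
  rw [h1, sub_eq_zero]
  rw [Finset.sum_comm]
  refine Finset.sum_congr rfl fun i _ => Finset.sum_congr rfl fun l _ => ?_
  ring

theorem elim_main [IsNoetherianRing Γ] (h u : Fin d → Γ)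
    (Q : Ideal (MvPolynomial (Fin d × Fin d) Γ)) [Q.IsPrime] (hE : ∀ i, altElt h u i ∈ Q)
    (j : Fin d) (hj : C (u j) ∉ Q) : (Q.comap C).height + d ≤ Q.height + 1 := by
  classical
  let s : Finset (Fin d × Fin d) := (Finset.univ.erase j).image (fun i => (i, j))
  have hs : ∀ p, p ∈ s ↔ p.1 ≠ j ∧ p.2 = j := by
    rintro ⟨a, b⟩
    simp only [s, Finset.mem_image, Finset.mem_erase, Finset.mem_univ, and_true, Prod.mk.injEq]
    constructor
    · rintro ⟨i, hi, rfl, rfl⟩
      exact ⟨hi, rfl⟩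
    · rintro ⟨ha, rfl⟩
      exact ⟨a, ha, rfl, rfl⟩
  have hcard : s.card + 1 = d := by
    rw [Finset.card_image_of_injective _ (fun a b hab => (Prod.mk.inj hab).1),
      Finset.card_erase_of_mem (Finset.mem_univ j), Finset.card_univ, Fintype.card_fin]
    have := j.pos
    omega
  have hX : ∀ p, p ∉ s → (X p : MvPolynomial (Fin d × Fin d) Γ) ∈
      supported Γ (sᶜ : Set (Fin d × Fin d)) := by
    intro p hp
    exact Algebra.subset_adjoin ⟨p, by simpa using hp, rfl⟩
  have hC : ∀ a : Γ, (C a : MvPolynomial (Fin d × Fin d) Γ) ∈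
      supported Γ (sᶜ : Set (Fin d × Fin d)) := fun a => Subalgebra.algebraMap_mem _ a
  have h1 := elim_supported s Q (fun p => altElt h u p.1 + C (u j) * X p) (u j) (by
    intro p hp
    obtain ⟨h1, h2⟩ := (hs p).1 hp
    obtain ⟨i, j'⟩ := p
    simp only at h1 h2
    subst h2
    have h3 : altElt h u i + C (u j') * X (i, j') =
        C (h i) - ∑ l ∈ Finset.univ.erase j', (X (i, l) - X (l, i)) * C (u l) +
          X (j', i) * C (u j') := by
      rw [altElt, ← Finset.add_sum_erase Finset.univ _ (Finset.mem_univ j')]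
      ring
    simp only
    rw [h3]
    refine Subalgebra.add_mem _ (Subalgebra.sub_mem _ (hC _) (Subalgebra.sum_mem _ ?_))
      (Subalgebra.mul_mem _ (hX _ ?_) (hC _))
    · intro l hl
      refine Subalgebra.mul_mem _ (Subalgebra.sub_mem _ (hX _ ?_) (hX _ ?_)) (hC _)
      · rw [hs]
        rintro ⟨-, h⟩
        exact (Finset.mem_erase.1 hl).1 h
      · rw [hs]
        rintro ⟨-, h⟩
        exact h1 h
    · rw [hs]
      rintro ⟨-, h⟩
      exact h1 h) hj (by
    intro p hp
    rw [add_sub_cancel_right]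
    exact hE p.1)
  calc (Q.comap C).height + d = ((Q.comap C).height + s.card) + 1 := by
        rw [add_assoc]
        congr 1
        exact_mod_cast hcard.symm
    _ ≤ Q.height + 1 := add_le_add_left h1 1

end Vale.Agent.P177
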