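import Vale.Agent.P177.RegularTor
import Vale.Agent.P177.CFlatCrit

/-!
Flatness of a local map from a regular sequence generating the maximal ideal.
-/

namespace Vale.Agent.P177

open CategoryTheory TensorProduct Function IsLocalRing RingTheory.Sequence Pointwise

universe u

section

variable {B : Type u} [CommRing B]

theorem tor_vanish_of_pair (zs : List B) (Z : Type u) [AddCommGroup Z] [Module B Z]
    (hreg : IsWeaklyRegular Z zs) (W : Type u) [AddCommGroup W] [Module B W]
    (hW : IsWeaklyRegular (Z ⊗[B] W) zs)
    (h : ∀ j, 1 ≤ j → Subsingleton (TorM B j Z W)) :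
    ∀ j, 1 ≤ j → Subsingleton (TorM B j (Z ⧸ (Ideal.ofList zs • ⊤ : Submodule B Z)) W) := by
  induction zs generalizing Z with
  | nil =>
    intro j hj
    have := h j hj
    have e : (Z ⧸ (Ideal.ofList ([] : List B) • ⊤ : Submodule B Z)) ≃ₗ[B] Z :=
      Submodule.quotEquivOfEqBot _ (by simp)
    exact (torCongrLeft j e W).toEquiv.subsingleton
  | cons z zs ih =>
    intro j hj
    rw [isWeaklyRegular_cons_iff] at hreg hW
    have h1 : ∀ j, 1 ≤ j → Subsingleton (TorM B j (QuotSMulTop z Z) W) := by
      intro j hj
      obtain ⟨j, rfl⟩ : ∃ k, j = k + 1 := ⟨j - 1, by omega⟩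
      obtain ⟨f, g, hf, hi, hs, hex⟩ := quot_ses Z z hreg.1
      obtain ⟨δ, h2, h3, -⟩ := exists_torDelta f g hi hs hex W
      have h4 : Injective (torMap j f W) := by
        rcases Nat.eq_zero_or_pos j with rfl | hj
        · rw [injective_iff_map_eq_zero]
          intro x hx
          apply (torZero Z W).injective
          rw [map_zero]
          have h5 : z • torZero Z W x = 0 := by
            rw [← map_smul, ← torMap_smul_id 0 z f hf x, hx, map_zero]
          exact hW.1 (by
            change z • torZero Z W x = z • (0 : Z ⊗[B] W)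
            rw [h5, smul_zero])
        · have := h j hj
          exact injective_of_subsingleton _
      refine subsingleton_of_forall_eq 0 fun x => ?_
      have := h (j + 1) (by omega)
      have h6 : δ j x = 0 := by
        apply h4
        rw [map_zero]
        exact (h3 j).apply_apply_eq_zero x
      obtain ⟨y, rfl⟩ := (h2 j x).1 h6
      rw [Subsingleton.elim y 0, map_zero]
    have h2 := ih (QuotSMulTop z Z) hreg.2
      (((QuotSMulTop.quotSMulTopTensorEquivQuotSMulTop z W Z).isWeaklyRegular_congr zs).2 hW.2) h1 j hj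
    exact (torCongrLeft j
      (Submodule.quotOfListConsSMulTopEquivQuotSMulTopInner Z z zs) W).toEquiv.subsingleton

end

theorem flat_of_weaklyRegular {R C : Type u} [CommRing R] [IsLocalRing R] [IsNoetherianRing R]
    [CommRing C] [IsLocalRing C] [IsNoetherianRing C] [Algebra R C] [IsLocalHom (algebraMap R C)]
    (rs : List R) (hrs : Ideal.ofList rs = maximalIdeal R) (hR : IsWeaklyRegular R rs)
    (hC : IsWeaklyRegular C (rs.map (algebraMap R C))) : Module.Flat R C := by
  apply flat_of_tor_residue
  rw [isWeaklyRegular_map_algebraMap_iff] at hC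
  have h1 := tor_vanish_of_pair rs R hR C
    (((TensorProduct.lid R C).isWeaklyRegular_congr rs).2 hC) (fun j hj => by
      obtain ⟨j, rfl⟩ : ∃ k, j = k + 1 := ⟨j - 1, by omega⟩
      exact tor_subsingleton_of_flat j) 1 le_rfl
  have e : (R ⧸ maximalIdeal R) ≃ₗ[R] (R ⧸ (Ideal.ofList rs • ⊤ : Submodule R R)) :=
    Submodule.quotEquivOfEq _ _ (by rw [hrs]; simp)
  exact (torCongrLeft 1 e C).toEquiv.subsingleton

end Vale.Agent.P177
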