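import Vale.Agent.P177.DTop
import Vale.Agent.P177.CLocFour

namespace Vale.Agent.P177

open CategoryTheory TensorProduct Function IsLocalRing RingTheory.Sequence Pointwise

universe u

/-- Positivity of the Euler characteristic along two maps. -/
def PosAlong {R₁ R₂ W : Type u} [CommRing R₁] [CommRing R₂] [CommRing W] (j₁ : R₁ →+* W)
    (j₂ : R₂ →+* W) (d : ℕ) (N M : Type u) [AddCommGroup N] [Module R₁ N] [AddCommGroup M]
    [Module R₂ M] : Prop :=
  let _ : Algebra R₁ W := j₁.toAlgebra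
  let _ : Algebra R₂ W := j₂.toAlgebra
  (∀ e g : ℕ, (e : WithBot ℕ∞) ≤ Module.supportDim R₁ N →
        (g : WithBot ℕ∞) ≤ Module.supportDim R₂ M → e + g ≤ d) ∧
      0 ≤ eulerTor W (d + 1) (W ⊗[R₁] N) (W ⊗[R₂] M) ∧
      (∀ e g : ℕ, (e : WithBot ℕ∞) ≤ Module.supportDim R₁ N →
        (g : WithBot ℕ∞) ≤ Module.supportDim R₂ M → d ≤ e + g →
        0 < eulerTor W (d + 1) (W ⊗[R₁] N) (W ⊗[R₂] M))

theorem posAlong_iff {R₁ R₂ W : Type u} [CommRing R₁] [CommRing R₂] [CommRing W]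
    [a₁ : Algebra R₁ W] [a₂ : Algebra R₂ W] (j₁ : R₁ →+* W) (j₂ : R₂ →+* W)
    (h₁ : ∀ r, j₁ r = algebraMap R₁ W r) (h₂ : ∀ r, j₂ r = algebraMap R₂ W r) (d : ℕ)
    (N M : Type u) [AddCommGroup N] [Module R₁ N] [AddCommGroup M] [Module R₂ M] :
    PosAlong j₁ j₂ d N M ↔ ((∀ e g : ℕ, (e : WithBot ℕ∞) ≤ Module.supportDim R₁ N →
        (g : WithBot ℕ∞) ≤ Module.supportDim R₂ M → e + g ≤ d) ∧
      0 ≤ eulerTor W (d + 1) (W ⊗[R₁] N) (W ⊗[R₂] M) ∧
      (∀ e g : ℕ, (e : WithBot ℕ∞) ≤ Module.supportDim R₁ N →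
        (g : WithBot ℕ∞) ≤ Module.supportDim R₂ M → d ≤ e + g →
        0 < eulerTor W (d + 1) (W ⊗[R₁] N) (W ⊗[R₂] M))) := by
  have e₁ : j₁.toAlgebra = a₁ := Algebra.algebra_ext _ _ h₁
  have e₂ : j₂.toAlgebra = a₂ := Algebra.algebra_ext _ _ h₂
  subst e₁ e₂
  rfl

theorem locPosAt_top' {R₁ R₂ T : Type u} [CommRing R₁] [CommRing R₂] [CommRing T]
    [IsRegularLocalRing R₁] [IsRegularLocalRing R₂] [IsRegularLocalRing T]
    [Algebra R₁ T] [Algebra R₂ T] [Module.Flat R₁ T] [Module.Flat R₂ T]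
    (N M : Type u) [AddCommGroup N] [Module R₁ N] [Module.Finite R₁ N]
    [AddCommGroup M] [Module R₂ M] [Module.Finite R₂ M] (Q : Ideal T) [Q.IsPrime]
    (h₁ : Q.comap (algebraMap R₁ T) = maximalIdeal R₁)
    (h₂ : Q.comap (algebraMap R₂ T) = maximalIdeal R₂) (d : ℕ)
    (hd₁ : ringKrullDim R₁ = d) (hd₂ : ringKrullDim R₂ = d)
    (hdW : ringKrullDim (Localization.AtPrime Q) = d)
    (hW : PosAlong ((algebraMap T (Localization.AtPrime Q)).comp (algebraMap R₁ T))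
      ((algebraMap T (Localization.AtPrime Q)).comp (algebraMap R₂ T)) d N M) :
    LocPosAt (T := T) R₁ R₂ N M Q := by
  refine locPosAt_top N M Q h₁ h₂ d hd₁ hd₂ hdW ?_
  exact (posAlong_iff _ _ (fun r => rfl) (fun r => rfl) d N M).1 hW

theorem global_pos_at {R₁ R₂ T : Type u} [CommRing R₁] [CommRing R₂] [CommRing T]
    [IsRegularLocalRing R₁] [IsRegularLocalRing R₂] [IsRegularLocalRing T]
    [Algebra R₁ T] [Algebra R₂ T] [Module.Flat R₁ T] [Module.Flat R₂ T]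
    (μ : T →+* R₁) (hμ : ∀ s, μ (algebraMap R₁ T s) = s) (z : List T)
    (hkerμ : RingHom.ker μ = Ideal.ofList z) (hz : IsWeaklyRegular T z)
    (θ : R₂ ≃+* R₁) (hθ : ∀ s, μ (algebraMap R₂ T s) = θ s)
    (d : ℕ) (hd : ringKrullDim R₁ = d)
    (M N : Type u) [AddCommGroup M] [Module R₂ M] [Module.Finite R₂ M]
    [AddCommGroup N] [Module R₁ N] [Module R₂ N] [Module.Finite R₁ N]
    (𝔪 : Ideal T) [𝔪.IsPrime] (h𝔪₁ : 𝔪.comap (algebraMap R₁ T) = maximalIdeal R₁)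
    (h𝔪₂ : 𝔪.comap (algebraMap R₂ T) = maximalIdeal R₂)
    (hdW : ringKrullDim (Localization.AtPrime 𝔪) = d)
    (hex : ∀ (Q : Ideal T) [Q.IsPrime],
      (Module.annihilator R₁ N).map (algebraMap R₁ T) ≤ Q →
      (Module.annihilator R₂ M).map (algebraMap R₂ T) ≤ Q → 𝔪 ≤ Q ∨
      ∀ (r₁ r₂ q : ℕ), (Q.comap (algebraMap R₁ T)).height = r₁ →
      (Q.comap (algebraMap R₂ T)).height = r₂ → Q.height = q → r₁ + r₂ ≤ q + 4)
    (hW : ∀ (N' M' : Type u) [AddCommGroup N'] [Module R₁ N'] [Module.Finite R₁ N']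
      [AddCommGroup M'] [Module R₂ M'] [Module.Finite R₂ M'],
      Module.annihilator R₁ N ≤ Module.annihilator R₁ N' →
      Module.annihilator R₂ M ≤ Module.annihilator R₂ M' →
      maximalIdeal (Localization.AtPrime 𝔪) ≤ ((Module.annihilator R₁ N').map
        ((algebraMap T (Localization.AtPrime 𝔪)).comp (algebraMap R₁ T)) ⊔
        (Module.annihilator R₂ M').map
        ((algebraMap T (Localization.AtPrime 𝔪)).comp (algebraMap R₂ T))).radical →
      PosAlong ((algebraMap T (Localization.AtPrime 𝔪)).comp (algebraMap R₁ T))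
        ((algebraMap T (Localization.AtPrime 𝔪)).comp (algebraMap R₂ T)) d N' M')
    (hN : ∀ (s : R₂) (t : N), s • t = θ s • t)
    (hlen : Module.length R₂ (M ⊗[R₂] N) ≠ ⊤) :
    0 ≤ eulerTor R₂ (d + 1) M N ∧ ∀ m n : ℕ, (m : WithBot ℕ∞) ≤ Module.supportDim R₂ M →
      (n : WithBot ℕ∞) ≤ Module.supportDim R₁ N →
      (m + n ≤ d) ∧ (d ≤ m + n → 0 < eulerTor R₂ (d + 1) M N) := by
  have hd₂ : ringKrullDim R₂ = d := by rw [ringKrullDim_eq_of_ringEquiv θ, hd]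
  have key : ∀ (N' M' : Type u) [AddCommGroup N'] [Module R₁ N'] [Module.Finite R₁ N']
      [AddCommGroup M'] [Module R₂ M'] [Module.Finite R₂ M'],
      Module.annihilator R₁ N ≤ Module.annihilator R₁ N' →
      Module.annihilator R₂ M ≤ Module.annihilator R₂ M' →
      ∀ (Q : Ideal T) [Q.IsPrime], Q ∈ ((Module.annihilator R₁ N').map (algebraMap R₁ T) ⊔
      (Module.annihilator R₂ M').map (algebraMap R₂ T)).minimalPrimes →
      LocPosAt (T := T) R₁ R₂ N' M' Q := by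
    intro N' M' _ _ _ _ _ _ h1 h2 Q _ hQ
    have hQ1 := le_sup_left.trans hQ.1.2
    have hQ2 := le_sup_right.trans hQ.1.2
    rcases hex Q ((Ideal.map_mono h1).trans hQ1) ((Ideal.map_mono h2).trans hQ2) with h | h
    · have hle : (Module.annihilator R₁ N').map (algebraMap R₁ T) ⊔
          (Module.annihilator R₂ M').map (algebraMap R₂ T) ≤ 𝔪 := by
        refine sup_le ?_ ?_
        · rw [Ideal.map_le_iff_le_comap, h𝔪₁]
          refine le_maximalIdeal fun htop => ?_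
          rw [htop, Ideal.map_top] at hQ1
          exact Ideal.IsPrime.ne_top ‹_› (top_le_iff.1 hQ1)
        · rw [Ideal.map_le_iff_le_comap, h𝔪₂]
          refine le_maximalIdeal fun htop => ?_
          rw [htop, Ideal.map_top] at hQ2
          exact Ideal.IsPrime.ne_top ‹_› (top_le_iff.1 hQ2)
      have heq : Q = 𝔪 := le_antisymm (hQ.2 ⟨‹_›, hle⟩ h) h
      subst heq
      refine locPosAt_top' N' M' Q h𝔪₁ h𝔪₂ d hd hd₂ hdW (hW N' M' h1 h2 ?_)
      have h3 := maximalIdeal_le_radical_of_minimal _ Q hQ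
      rwa [Ideal.map_sup, Ideal.map_map, Ideal.map_map] at h3
    · exact locPosAt_of_locPos 4 locPos_four N' M' Q h
  refine global_pos_of_loc μ hμ z hkerμ hz θ hθ d hd M N (key N M le_rfl le_rfl) ?_ hN hlen
  intro p₁ p₂ hp₁ hp₂ Q _ hQ
  refine key (R₁ ⧸ p₁.asIdeal) (R₂ ⧸ p₂.asIdeal) ?_ ?_ Q ?_
  · rw [Ideal.annihilator_quotient]
    exact hp₁.1.2
  · rw [Ideal.annihilator_quotient]
    exact hp₂.1.2
  · rw [Ideal.annihilator_quotient, Ideal.annihilator_quotient]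
    exact hQ

/-- The same with ring homomorphisms. -/
theorem global_pos_at_hom {R₁ R₂ T : Type u} [CommRing R₁] [CommRing R₂] [CommRing T]
    [IsRegularLocalRing R₁] [IsRegularLocalRing R₂] [IsRegularLocalRing T]
    (i₁ : R₁ →+* T) (i₂ : R₂ →+* T) (f₁ : i₁.Flat) (f₂ : i₂.Flat)
    (μ : T →+* R₁) (hμ : ∀ s, μ (i₁ s) = s) (z : List T)
    (hkerμ : RingHom.ker μ = Ideal.ofList z) (hz : IsWeaklyRegular T z)
    (θ : R₂ ≃+* R₁) (hθ : ∀ s, μ (i₂ s) = θ s)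
    (d : ℕ) (hd : ringKrullDim R₁ = d)
    (M N : Type u) [AddCommGroup M] [Module R₂ M] [Module.Finite R₂ M]
    [AddCommGroup N] [Module R₁ N] [Module R₂ N] [Module.Finite R₁ N]
    (𝔪 : Ideal T) [𝔪.IsPrime] (h𝔪₁ : 𝔪.comap i₁ = maximalIdeal R₁)
    (h𝔪₂ : 𝔪.comap i₂ = maximalIdeal R₂)
    (hdW : ringKrullDim (Localization.AtPrime 𝔪) = d)
    (hex : ∀ (Q : Ideal T) [Q.IsPrime], (Module.annihilator R₁ N).map i₁ ≤ Q →
      (Module.annihilator R₂ M).map i₂ ≤ Q → 𝔪 ≤ Q ∨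
      ∀ (r₁ r₂ q : ℕ), (Q.comap i₁).height = r₁ →
      (Q.comap i₂).height = r₂ → Q.height = q → r₁ + r₂ ≤ q + 4)
    (hW : ∀ (N' M' : Type u) [AddCommGroup N'] [Module R₁ N'] [Module.Finite R₁ N']
      [AddCommGroup M'] [Module R₂ M'] [Module.Finite R₂ M'],
      Module.annihilator R₁ N ≤ Module.annihilator R₁ N' →
      Module.annihilator R₂ M ≤ Module.annihilator R₂ M' →
      maximalIdeal (Localization.AtPrime 𝔪) ≤ ((Module.annihilator R₁ N').map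
        ((algebraMap T (Localization.AtPrime 𝔪)).comp i₁) ⊔
        (Module.annihilator R₂ M').map
        ((algebraMap T (Localization.AtPrime 𝔪)).comp i₂)).radical →
      PosAlong ((algebraMap T (Localization.AtPrime 𝔪)).comp i₁)
        ((algebraMap T (Localization.AtPrime 𝔪)).comp i₂) d N' M')
    (hN : ∀ (s : R₂) (t : N), s • t = θ s • t)
    (hlen : Module.length R₂ (M ⊗[R₂] N) ≠ ⊤) :
    0 ≤ eulerTor R₂ (d + 1) M N ∧ ∀ m n : ℕ, (m : WithBot ℕ∞) ≤ Module.supportDim R₂ M →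
      (n : WithBot ℕ∞) ≤ Module.supportDim R₁ N →
      (m + n ≤ d) ∧ (d ≤ m + n → 0 < eulerTor R₂ (d + 1) M N) := by
  let _ : Algebra R₁ T := i₁.toAlgebra
  let _ : Algebra R₂ T := i₂.toAlgebra
  have : Module.Flat R₁ T := f₁
  have : Module.Flat R₂ T := f₂
  exact global_pos_at μ hμ z hkerμ hz θ hθ d hd M N 𝔪 h𝔪₁ h𝔪₂ hdW hex hW hN hlen

end Vale.Agent.P177
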