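import Vale.Agent.P177.DQD

/-!
The prime `mT`: height, contractions, and the primes containing the polar forms.
-/

namespace Vale.Agent.P177

open TensorProduct IsLocalRing MvPolynomial RingTheory.Sequence

universe u

namespace QData

variable {d : ℕ} {B Γ : Type u} [CommRing B] [IsRegularLocalRing B] [CommRing Γ]
  [IsRegularLocalRing Γ] {D : QData d B Γ}

section TD

variable {T : Type u} [CommRing T] [IsRegularLocalRing T] (t : D.TD T)

theorem TD.height_m_le : t.m.height ≤ d := by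
  classical
  have hm := t.m_prime
  have hs : t.m = Ideal.span
      (((Finset.univ : Finset (Fin d)).image (fun i => t.f (C (D.a₁ (D.x i))))) : Set T) := by
    rw [TD.m, t.ofList_i₁]
    congr 1
    simp
  have h2 : t.m ∈ (Ideal.span
      ((((Finset.univ : Finset (Fin d)).image (fun i => t.f (C (D.a₁ (D.x i))))) :
        Finset T) : Set T)).minimalPrimes := by
    rw [← hs]
    exact ⟨⟨hm, le_rfl⟩, fun q hq _ => hq.2⟩
  refine (Ideal.height_le_card_of_mem_minimalPrimes_span_finset h2).trans ?_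
  have h3 := Finset.card_image_le (s := (Finset.univ : Finset (Fin d)))
    (f := fun i => t.f (C (D.a₁ (D.x i))))
  rw [Finset.card_univ, Fintype.card_fin] at h3
  exact_mod_cast h3

theorem TD.height_m : t.m.height = d := by
  have hm := t.m_prime
  refine le_antisymm t.height_m_le ?_
  have h2 := t.ht t.m hm
  rw [t.comap_m] at h2
  have hp : ((maximalIdeal Γ).map (C : Γ →+* MvPolynomial (Fin d × Fin d) Γ)).IsPrime := by
    rw [← t.comap_m]
    exact Ideal.IsPrime.comap _
  have h4 : (2 * d + 1 : ℕ) ≤ ((maximalIdeal Γ).map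
      (C : Γ →+* MvPolynomial (Fin d × Fin d) Γ)).height := by
    have h5 := height_comap_le_of_flat (R := Γ) (S := MvPolynomial (Fin d × Fin d) Γ)
      ((maximalIdeal Γ).map C)
    have h6 : ((maximalIdeal Γ).map C).comap (algebraMap Γ (MvPolynomial (Fin d × Fin d) Γ)) =
        maximalIdeal Γ := by
      apply le_antisymm
      · apply le_maximalIdeal
        exact Ideal.comap_ne_top _ hp.ne_top
      · exact Ideal.le_comap_map
    rw [h6] at h5
    have h7 : ((maximalIdeal Γ).height : WithBot ℕ∞) = ((2 * d + 1 : ℕ) : WithBot ℕ∞) := by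
      rw [IsLocalRing.maximalIdeal_height_eq_ringKrullDim, D.dimΓ]
    have h8 : (maximalIdeal Γ).height = ((2 * d + 1 : ℕ) : ℕ∞) := WithBot.coe_injective h7
    rwa [h8] at h5
  have h5 := h4.trans h2
  have hfin : t.m.height ≠ ⊤ := Ideal.height_ne_top_of_isPrime
  obtain ⟨s, hs⟩ := ENat.ne_top_iff_exists.1 hfin
  rw [← hs] at h5 ⊢
  have h6 : 2 * d + 1 ≤ s + (d + 1) := by exact_mod_cast h5
  exact_mod_cast (by omega : d ≤ s)

theorem TD.sub_mem_m (r : B ⧸ Ideal.span {D.G}) : t.i₂ r - t.i₁ r ∈ t.m := by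
  obtain ⟨b, rfl⟩ := Ideal.Quotient.mk_surjective r
  rw [t.i₁_mk, t.i₂_mk, ← map_sub, ← map_sub]
  have h1 : Ideal.span (Set.range fun i => D.a₂ (D.x i) - D.a₁ (D.x i)) ≤
      t.m.comap (t.f.comp C) := by
    rw [Ideal.span_le]
    rintro _ ⟨i, rfl⟩
    exact t.h_mem_m i
  exact h1 (D.diag b)

theorem TD.comap_m₁ [IsLocalRing (B ⧸ Ideal.span {D.G})]
    (h : Ideal.ofList D.xs = maximalIdeal (B ⧸ Ideal.span {D.G})) :
    t.m.comap t.i₁ = maximalIdeal (B ⧸ Ideal.span {D.G}) := by
  have hm := t.m_prime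
  have hp : (t.m.comap t.i₁).IsPrime := Ideal.IsPrime.comap _
  refine le_antisymm (le_maximalIdeal hp.ne_top) ?_
  rw [← Ideal.map_le_iff_le_comap, ← h, Ideal.map_ofList]
  rfl

theorem TD.comap_m₂ [IsLocalRing (B ⧸ Ideal.span {D.G})]
    (h : Ideal.ofList D.xs = maximalIdeal (B ⧸ Ideal.span {D.G})) :
    t.m.comap t.i₂ = maximalIdeal (B ⧸ Ideal.span {D.G}) := by
  rw [← t.comap_m₁ h]
  ext r
  rw [Ideal.mem_comap, Ideal.mem_comap]
  have h1 := t.sub_mem_m r
  constructor
  · intro h2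
    have := Ideal.sub_mem _ h2 h1
    rwa [sub_sub_cancel] at this
  · intro h2
    have := Ideal.add_mem _ h1 h2
    rwa [sub_add_cancel] at this

/-- A prime containing the polar forms and the extensions of two ideals whose sum is primary to
the maximal ideal contains `mT`. -/
theorem TD.m_le_of_u_mem [IsLocalRing (B ⧸ Ideal.span {D.G})]
    (h : Ideal.ofList D.xs = maximalIdeal (B ⧸ Ideal.span {D.G}))
    (I J : Ideal (B ⧸ Ideal.span {D.G}))
    (hIJ : maximalIdeal (B ⧸ Ideal.span {D.G}) ≤ (I ⊔ J).radical)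
    (Q : Ideal T) [hQ : Q.IsPrime] (h₁ : I.map t.i₁ ≤ Q) (h₂ : J.map t.i₂ ≤ Q)
    (hu : ∀ j, t.f (C (D.u j)) ∈ Q) : t.m ≤ Q := by
  have hJ : J ≤ Q.comap t.i₁ := by
    intro r hr
    have h1 : t.i₂ r ∈ Q := h₂ (Ideal.mem_map_of_mem _ hr)
    have h2 := t.sub_mem_of_u_mem Q hu r
    have := Ideal.sub_mem _ h1 h2
    rwa [sub_sub_cancel] at this
  have hI : I ≤ Q.comap t.i₁ := Ideal.map_le_iff_le_comap.1 h₁
  have hle : maximalIdeal (B ⧸ Ideal.span {D.G}) ≤ Q.comap t.i₁ := by
    refine hIJ.trans ?_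
    rw [← (hQ.comap t.i₁).radical]
    exact Ideal.radical_mono (sup_le hI hJ)
  rw [← h, ← Ideal.map_le_iff_le_comap, Ideal.map_ofList] at hle
  exact hle

end TD

end QData

end Vale.Agent.P177
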