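import Vale.Agent.P177.CRees

/-!
Transversality of the tangent cones to a linear subspace.
-/

namespace Vale.Agent.P177

open TensorProduct IsLocalRing MvPolynomial

universe u

/-- The tangent cones of `I` and `J` meet the linear subspace `U` only in the origin. -/
def TransTo {R : Type u} [CommRing R] [IsLocalRing R] (I J U : Ideal R) : Prop :=
  ∃ n : ℕ, maximalIdeal R ^ (n + 1) ≤ (I ⊓ maximalIdeal R ^ (n + 1)) ⊔
    (J ⊓ maximalIdeal R ^ (n + 1)) ⊔ U * maximalIdeal R ^ n

theorem TransTo.mono {R : Type u} [CommRing R] [IsLocalRing R] {I J U I' J' U' : Ideal R}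
    (h : TransTo I J U) (h1 : I ≤ I') (h2 : J ≤ J') (h3 : U ≤ U') : TransTo I' J' U' := by
  obtain ⟨n, hn⟩ := h
  exact ⟨n, hn.trans (sup_le_sup (sup_le_sup (inf_le_inf_right _ h1) (inf_le_inf_right _ h2))
    (Ideal.mul_mono_left h3))⟩

theorem TransTo.symm {R : Type u} [CommRing R] [IsLocalRing R] {I J U : Ideal R}
    (h : TransTo I J U) : TransTo J I U := by
  obtain ⟨n, hn⟩ := h
  refine ⟨n, hn.trans ?_⟩
  rw [sup_comm (I ⊓ _)]

/-- Only the classes modulo the square of the maximal ideal matter. -/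
theorem TransTo.of_sup {R : Type u} [CommRing R] [IsLocalRing R] [IsNoetherianRing R]
    {I J U : Ideal R} (h : TransTo I J (U ⊔ maximalIdeal R ^ 2)) : TransTo I J U := by
  obtain ⟨n, hn⟩ := h
  refine ⟨n, ?_⟩
  have h1 : maximalIdeal R ^ (n + 1) ≤ ((I ⊓ maximalIdeal R ^ (n + 1)) ⊔
      (J ⊓ maximalIdeal R ^ (n + 1)) ⊔ U * maximalIdeal R ^ n) ⊔
        maximalIdeal R • maximalIdeal R ^ (n + 1) := by
    refine hn.trans ?_
    rw [Ideal.sup_mul, ← sup_assoc]
    refine sup_le_sup_left ?_ _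
    rw [smul_eq_mul, ← pow_succ', ← pow_add]
    exact Ideal.pow_le_pow_right (by omega)
  refine Submodule.le_of_le_smul_of_le_jacobson_bot (N' := maximalIdeal R ^ (n + 1))
    (I := maximalIdeal R) ?_ ?_ h1
  · exact IsNoetherian.noetherian _
  · exact (IsLocalRing.maximalIdeal_le_jacobson _)

/-- Extension of a transversality condition along a flat local map with trivial fibre. -/
theorem TransTo.map {R C : Type u} [CommRing R] [IsLocalRing R] [CommRing C] [IsLocalRing C]
    (φ : R →+* C) (hφ : (maximalIdeal R).map φ = maximalIdeal C) {I J U : Ideal R}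
    (h : TransTo I J U) : TransTo (I.map φ) (J.map φ) (U.map φ) := by
  obtain ⟨n, hn⟩ := h
  refine ⟨n, ?_⟩
  have h1 := Ideal.map_mono (f := φ) hn
  rw [Ideal.map_pow, hφ] at h1
  refine h1.trans ?_
  rw [Ideal.map_sup, Ideal.map_sup, Ideal.map_mul, Ideal.map_pow, hφ]
  refine sup_le_sup_right (sup_le_sup ?_ ?_) _
  · refine (Ideal.map_inf_le φ).trans ?_
    rw [Ideal.map_pow, hφ]
  · refine (Ideal.map_inf_le φ).trans ?_
    rw [Ideal.map_pow, hφ]

theorem X_mem_of_transTo {R : Type u} [CommRing R] [IsRegularLocalRing R] {d : ℕ}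
    (hd : ringKrullDim R = d) {x : Fin d → R} (hx : Ideal.span (Set.range x) = maximalIdeal R)
    (I J : Ideal R) {ι : Type} [Fintype ι] (U : ι → Fin d → R)
    (h : TransTo I J (Ideal.span (Set.range fun l => ∑ m, U l m * x m)))
    {P : Type*} [CommRing P] (j : MvPolynomial (Fin d) (ResidueField R) →+* P) (z : Ideal P)
    [z.IsPrime]
    (hI : ∀ (N : ℕ) (F : MvPolynomial (Fin d) R), F.IsHomogeneous N → eval x F ∈ I →
      j (F.map (residue R)) ∈ z)
    (hJ : ∀ (N : ℕ) (F : MvPolynomial (Fin d) R), F.IsHomogeneous N → eval x F ∈ J →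
      j (F.map (residue R)) ∈ z)
    (hU : ∀ l, ∑ m, j (C (residue R (U l m))) * j (X m) ∈ z) (i : Fin d) : j (X i) ∈ z := by
  classical
  obtain ⟨n, hn⟩ := h
  have h1 : x i ^ (n + 1) ∈ maximalIdeal R ^ (n + 1) := by
    refine Ideal.pow_mem_pow ?_ _
    rw [← hx]
    exact Ideal.subset_span ⟨i, rfl⟩
  obtain ⟨y, hy, w, hw, hyw⟩ := Submodule.mem_sup.1 (hn h1)
  obtain ⟨f, hf, g, hg, hfg⟩ := Submodule.mem_sup.1 hy
  obtain ⟨hf1, hf2⟩ := hf
  obtain ⟨hg1, hg2⟩ := hg
  rw [SetLike.mem_coe, ← hx, Ideal.mem_span_pow_iff_exists_isHomogeneous] at hf2 hg2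
  obtain ⟨F, hF, hFf⟩ := hf2
  obtain ⟨G, hG, hGg⟩ := hg2
  -- the last term
  have hw' : ∃ V : ι → MvPolynomial (Fin d) R, (∀ l, (V l).IsHomogeneous n) ∧
      w = ∑ l, (∑ m, U l m * x m) * eval x (V l) := by
    have h2 : ∃ v : ι → R, (∀ l, v l ∈ maximalIdeal R ^ n) ∧
        w = ∑ l, (∑ m, U l m * x m) * v l := by
      refine Submodule.mul_induction_on hw ?_ ?_
      · intro a ha b hb
        obtain ⟨c, hc⟩ := Ideal.mem_span_range_iff_exists_fun.1 ha
        refine ⟨fun l => c l * b, fun l => Ideal.mul_mem_left _ _ hb, ?_⟩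
        rw [← hc, Finset.sum_mul]
        refine Finset.sum_congr rfl fun l _ => ?_
        ring
      · rintro a b ⟨v, hv, rfl⟩ ⟨v', hv', rfl⟩
        refine ⟨fun l => v l + v' l, fun l => Ideal.add_mem _ (hv l) (hv' l), ?_⟩
        rw [← Finset.sum_add_distrib]
        refine Finset.sum_congr rfl fun l _ => ?_
        ring
    obtain ⟨v, hv, rfl⟩ := h2
    have h3 : ∀ l, ∃ V : MvPolynomial (Fin d) R, V.IsHomogeneous n ∧ eval x V = v l := by
      intro l
      have h4 := hv l
      rwa [← hx, Ideal.mem_span_pow_iff_exists_isHomogeneous] at h4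
    choose V hV1 hV2 using h3
    exact ⟨V, hV1, by simp only [hV2]⟩
  obtain ⟨V, hV, rfl⟩ := hw'
  let L : ι → MvPolynomial (Fin d) R := fun l => ∑ m, C (U l m) * X m
  have hL : ∀ l, (L l).IsHomogeneous 1 := by
    intro l
    refine IsHomogeneous.sum _ _ _ fun m _ => ?_
    have := (isHomogeneous_C (Fin d) (U l m)).mul (isHomogeneous_X R m)
    rwa [zero_add] at this
  have hLe : ∀ l, eval x (L l) = ∑ m, U l m * x m := by
    intro l
    simp [L]
  let Q : MvPolynomial (Fin d) R := X i ^ (n + 1) - F - G - ∑ l, L l * V l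
  have hQ : Q.IsHomogeneous (n + 1) := by
    refine ((isHomogeneous_X_pow i (n + 1)).sub hF).sub hG |>.sub ?_
    refine IsHomogeneous.sum _ _ _ fun l _ => ?_
    have := (hL l).mul (hV l)
    rwa [add_comm] at this
  have hQ0 : eval x Q ∈ maximalIdeal R ^ (n + 1 + 1) := by
    have : eval x Q = 0 := by
      simp only [Q, map_sub, map_pow, eval_X, map_sum, map_mul, hLe, hFf, hGg]
      rw [← hyw, ← hfg]
      ring
    rw [this]
    exact zero_mem _
  have h5 := map_residue_eq_zero hd hx Q (n + 1) hQ hQ0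
  have h6 : (X i : MvPolynomial (Fin d) (ResidueField R)) ^ (n + 1) =
      F.map (residue R) + G.map (residue R) + ∑ l, (L l).map (residue R) *
        (V l).map (residue R) := by
    have h7 : (Q.map (residue R)) = X i ^ (n + 1) - F.map (residue R) - G.map (residue R) -
        ∑ l, (L l).map (residue R) * (V l).map (residue R) := by
      simp only [Q, map_sub, map_pow, map_X, map_sum, map_mul]
    rw [h5] at h7
    linear_combination -h7
  have h8 : j (X i) ^ (n + 1) ∈ z := by
    rw [← map_pow, h6, map_add, map_add, map_sum]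
    refine Ideal.add_mem _ (Ideal.add_mem _ (hI (n + 1) F hF ?_) (hJ (n + 1) G hG ?_)) ?_
    · rw [hFf]
      exact hf1
    · rw [hGg]
      exact hg1
    · refine Ideal.sum_mem _ fun l _ => ?_
      rw [map_mul]
      refine Ideal.mul_mem_right _ _ ?_
      have : j ((L l).map (residue R)) = ∑ m, j (C (residue R (U l m))) * j (X m) := by
        simp only [L, map_sum, map_mul, map_C, map_X]
      rw [this]
      exact hU l
  exact Ideal.IsPrime.mem_of_pow_mem ‹_› _ h8

end Vale.Agent.P177
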