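import Vale.Agent.P177.DGa
import Vale.Agent.P177.DGb
import Vale.Agent.P177.DGc

/-!
The height inequality at the prime `mT`, in the form needed for the local theorem.
-/

namespace Vale.Agent.P177

open TensorProduct IsLocalRing MvPolynomial RingTheory.Sequence

universe u

/-- The map of polynomial rings over the residue fields induced by a linear relation. -/
noncomputable def jHom {R A : Type u} [CommRing R] [CommRing A] [IsLocalRing R] [IsLocalRing A]
    (j : R →+* A) [IsLocalHom j] {d : ℕ} (θ : Fin d → Fin d → A) :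
    MvPolynomial (Fin d) (ResidueField R) →+* MvPolynomial (Fin d) (ResidueField A) :=
  eval₂Hom (C.comp (ResidueField.map j)) (fun i => ∑ l, C (residue A (θ i l)) * X l)

theorem jHom_C {R A : Type u} [CommRing R] [CommRing A] [IsLocalRing R] [IsLocalRing A]
    (j : R →+* A) [IsLocalHom j] {d : ℕ} (θ : Fin d → Fin d → A) (r : ResidueField R) :
    jHom j θ (C r) = C (ResidueField.map j r) := by
  simp [jHom]

theorem jHom_X {R A : Type u} [CommRing R] [CommRing A] [IsLocalRing R] [IsLocalRing A]
    (j : R →+* A) [IsLocalHom j] {d : ℕ} (θ : Fin d → Fin d → A) (i : Fin d) :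
    jHom j θ (X i) = ∑ l, C (residue A (θ i l)) * X l := by
  simp [jHom]

/-- The identity matrix. -/
def idMat {A : Type u} [CommRing A] (d : ℕ) : Fin d → Fin d → A :=
  fun i l => if i = l then 1 else 0

theorem jHom_id_X {R A : Type u} [CommRing R] [CommRing A] [IsLocalRing R] [IsLocalRing A]
    (j : R →+* A) [IsLocalHom j] {d : ℕ} (i : Fin d) :
    jHom j (idMat d) (X i) = X i := by
  rw [jHom_X, Finset.sum_eq_single i]
  · simp [idMat]
  · intro l _ hl
    simp [idMat, Ne.symm hl]
  · simp

/-- The local theorem: positivity along two maps of regular local rings of the same dimension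
with the same maximal ideals, given a height inequality on the tangent space. -/
def LocStmt : Prop :=
  ∀ (R₁ R₂ W : Type u) [CommRing R₁] [CommRing R₂] [CommRing W] [IsRegularLocalRing R₁]
    [IsRegularLocalRing R₂] [IsRegularLocalRing W] (j₁ : R₁ →+* W) (j₂ : R₂ →+* W)
    [IsLocalHom j₁] [IsLocalHom j₂], j₁.Flat → j₂.Flat → Infinite (ResidueField W) →
    ∀ (d : ℕ), ringKrullDim R₁ = d → ringKrullDim R₂ = d → ringKrullDim W = d →
    ∀ (x₁ : Fin d → R₁) (x₂ : Fin d → R₂), Ideal.span (Set.range x₁) = maximalIdeal R₁ →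
    Ideal.span (Set.range x₂) = maximalIdeal R₂ → (maximalIdeal R₁).map j₁ = maximalIdeal W →
    (maximalIdeal R₂).map j₂ = maximalIdeal W →
    ∀ (θ : Fin d → Fin d → W), (∀ i, j₂ (x₂ i) = ∑ l, θ i l * j₁ (x₁ l)) →
    ∀ (E G : Type u) [AddCommGroup E] [Module R₁ E] [Module.Finite R₁ E] [AddCommGroup G]
      [Module R₂ G] [Module.Finite R₂ G],
    (∀ (z : Ideal (MvPolynomial (Fin d) (ResidueField W))) [z.IsPrime],
      (∀ f ∈ z, ∀ n, homogeneousComponent n f ∈ z) → (∃ i, X i ∉ z) →
      (∀ (n : ℕ) (F : MvPolynomial (Fin d) R₁), F.IsHomogeneous n →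
        eval x₁ F ∈ Module.annihilator R₁ E → jHom j₁ (idMat d) (F.map (residue R₁)) ∈ z) →
      (∀ (n : ℕ) (F : MvPolynomial (Fin d) R₂), F.IsHomogeneous n →
        eval x₂ F ∈ Module.annihilator R₂ G → jHom j₂ θ (F.map (residue R₂)) ∈ z) →
      (z.comap (jHom j₁ (idMat d))).height + (z.comap (jHom j₂ θ)).height ≤ z.height + 1) →
    maximalIdeal W ≤ ((Module.annihilator R₁ E).map j₁ ⊔
      (Module.annihilator R₂ G).map j₂).radical →
    (∀ e g : ℕ, (e : WithBot ℕ∞) ≤ Module.supportDim R₁ E →
      (g : WithBot ℕ∞) ≤ Module.supportDim R₂ G → e + g ≤ d) →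
    PosAlong j₁ j₂ d E G

namespace QData

variable {d : ℕ} {B Γ : Type u} [CommRing B] [IsRegularLocalRing B] [CommRing Γ]
  [IsRegularLocalRing Γ] {D : QData d B Γ}

/-- The polar forms in `B/G`. -/
noncomputable def polar (D : QData d B Γ) : Ideal (B ⧸ Ideal.span {D.G}) :=
  Ideal.span (Set.range fun l : Fin d => ∑ m, Ideal.Quotient.mk _ (D.μ (D.β l m)) *
    Ideal.Quotient.mk (Ideal.span {D.G}) (D.x m))

section TD

variable {T : Type u} [CommRing T] [IsRegularLocalRing T] (t : D.TD T)

theorem TD.m_eq_span₂ : t.m = Ideal.ofList (D.xs.map t.i₂) := by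
  obtain ⟨η, hη1, hη2, -⟩ := t.exists_η
  have hη : ∀ i m, η i m ∈ maximalIdeal T := by
    intro i m
    rw [hη2]
    exact Ideal.sum_mem _ fun l _ => Ideal.mul_mem_right _ _
      (Ideal.sub_mem _ (t.X_mem _) (t.X_mem _))
  have h1 : t.m = Ideal.span (Set.range fun i => t.f (C (D.a₁ (D.x i)))) := by
    rw [TD.m, t.ofList_i₁]
  rw [t.ofList_i₂]
  refine le_antisymm ?_ ?_
  · refine Submodule.le_of_le_smul_of_le_jacobson_bot (I := maximalIdeal T)
      (IsNoetherian.noetherian _) (IsLocalRing.maximalIdeal_le_jacobson _) ?_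
    conv_lhs => rw [h1]
    rw [Ideal.span_le]
    rintro _ ⟨i, rfl⟩
    have h2 : t.f (C (D.a₁ (D.x i))) = t.f (C (D.a₂ (D.x i))) -
        ∑ m, η i m * t.f (C (D.a₁ (D.x m))) := by
      rw [← hη1, t.a₂_eq, add_sub_cancel_right]
    simp only [SetLike.mem_coe]
    rw [h2]
    refine Ideal.sub_mem _ (Ideal.mem_sup_left (Ideal.subset_span ⟨i, rfl⟩))
      (Ideal.mem_sup_right ?_)
    exact Ideal.sum_mem _ fun m _ => Ideal.mul_mem_mul (hη i m) (t.x_mem m)
  · rw [Ideal.span_le]
    rintro _ ⟨i, rfl⟩
    simp only [SetLike.mem_coe, t.a₂_eq]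
    exact Ideal.add_mem _ (t.x_mem i) (t.h_mem_m i)

theorem TD.infinite_residue [t.m.IsPrime] (hd : 0 < d) :
    Infinite (ResidueField (Localization.AtPrime t.m)) := by
  let κ : T →+* ResidueField (Localization.AtPrime t.m) :=
    (residue _).comp (algebraMap T (Localization.AtPrime t.m))
  have hκ : ∀ y, κ y = 0 ↔ y ∈ t.m := by
    intro y
    change residue _ _ = 0 ↔ _
    rw [residue_eq_zero_iff]
    exact IsLocalization.AtPrime.to_map_mem_maximal_iff _ t.m y
  let p : Fin d × Fin d := (⟨0, hd⟩, ⟨0, hd⟩)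
  refine Infinite.of_injective (fun n : ℕ => κ (t.f (X p ^ n))) ?_
  intro n m hnm
  by_contra hne
  simp only at hnm
  rw [← sub_eq_zero, ← map_sub, ← map_sub, hκ] at hnm
  have h1 : (X p ^ n - X p ^ m : MvPolynomial (Fin d × Fin d) Γ) ∈ t.m.comap t.f := hnm
  rw [t.comap_m, MvPolynomial.mem_map_C_iff] at h1
  have h2 := h1 (Finsupp.single p n)
  rw [coeff_sub, coeff_X_pow, coeff_X_pow, if_pos rfl, if_neg, sub_zero] at h2
  · exact (Ideal.ne_top_iff_one _).1 (maximalIdeal.isMaximal Γ).ne_top h2
  · intro h3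
    apply hne
    have := congrArg (fun s => s p) h3
    simpa using this.symm

theorem TD.pos_at (hLOC : LocStmt.{u}) [hm : t.m.IsPrime]
    [hR : IsRegularLocalRing (B ⧸ Ideal.span {D.G})]
    (hxs : Ideal.ofList D.xs = maximalIdeal (B ⧸ Ideal.span {D.G}))
    (hdR : ringKrullDim (B ⧸ Ideal.span {D.G}) = (d : WithBot ℕ∞)) (hd0 : 0 < d)
    (N M : Type u) [AddCommGroup N] [Module (B ⧸ Ideal.span {D.G}) N]
    [Module.Finite (B ⧸ Ideal.span {D.G}) N] [AddCommGroup M]
    [Module (B ⧸ Ideal.span {D.G}) M] [Module.Finite (B ⧸ Ideal.span {D.G}) M]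
    (htr : TransTo (Module.annihilator (B ⧸ Ideal.span {D.G}) N)
      (Module.annihilator (B ⧸ Ideal.span {D.G}) M) D.polar)
    (hFP : maximalIdeal (Localization.AtPrime t.m) ≤
      ((Module.annihilator (B ⧸ Ideal.span {D.G}) N).map
        ((algebraMap T (Localization.AtPrime t.m)).comp t.i₁) ⊔
      (Module.annihilator (B ⧸ Ideal.span {D.G}) M).map
        ((algebraMap T (Localization.AtPrime t.m)).comp t.i₂)).radical)
    (hdims : ∀ e g : ℕ, (e : WithBot ℕ∞) ≤ Module.supportDim (B ⧸ Ideal.span {D.G}) N →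
      (g : WithBot ℕ∞) ≤ Module.supportDim (B ⧸ Ideal.span {D.G}) M → e + g ≤ d) :
    PosAlong ((algebraMap T (Localization.AtPrime t.m)).comp t.i₁)
      ((algebraMap T (Localization.AtPrime t.m)).comp t.i₂) d N M := by
  classical
  let R := B ⧸ Ideal.span {D.G}
  let W := Localization.AtPrime t.m
  have hWreg : IsRegularLocalRing W := isRegularLocalRing_localization T t.m W
  let j₁ : R →+* W := (algebraMap T W).comp t.i₁
  let j₂ : R →+* W := (algebraMap T W).comp t.i₂
  have hc₁ : (maximalIdeal W).comap j₁ = maximalIdeal R := by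
    rw [← Ideal.comap_comap, ← t.comap_m₁ hxs]
    exact congrArg (Ideal.comap t.i₁) Localization.AtPrime.under_maximalIdeal
  have hc₂ : (maximalIdeal W).comap j₂ = maximalIdeal R := by
    rw [← Ideal.comap_comap, ← t.comap_m₂ hxs]
    exact congrArg (Ideal.comap t.i₂) Localization.AtPrime.under_maximalIdeal
  have hl₁ : IsLocalHom j₁ := ((IsLocalRing.local_hom_TFAE j₁).out 0 4).mpr hc₁
  have hl₂ : IsLocalHom j₂ := ((IsLocalRing.local_hom_TFAE j₂).out 0 4).mpr hc₂
  have hfW : (algebraMap T W).Flat := by
    rw [RingHom.flat_algebraMap_iff]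
    exact IsLocalization.flat W t.m.primeCompl
  let x : Fin d → R := fun i => Ideal.Quotient.mk _ (D.x i)
  have hx : Ideal.span (Set.range x) = maximalIdeal R := by
    rw [← hxs, Ideal.ofList]
    congr 1
    ext y
    simp only [x, xs, List.mem_ofFn, Set.mem_range]
    exact Iff.rfl
  have hmW : ∀ y, algebraMap T W y ∈ maximalIdeal W ↔ y ∈ t.m := fun y =>
    IsLocalization.AtPrime.to_map_mem_maximal_iff _ t.m y
  have hmax₁ : (maximalIdeal R).map j₁ = maximalIdeal W := by
    rw [← Ideal.map_map, ← hxs, Ideal.map_ofList]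
    exact Localization.AtPrime.map_eq_maximalIdeal
  have hmax₂ : (maximalIdeal R).map j₂ = maximalIdeal W := by
    rw [← Ideal.map_map, ← hxs, Ideal.map_ofList, ← t.m_eq_span₂]
    exact Localization.AtPrime.map_eq_maximalIdeal
  obtain ⟨η, hη1, hη2, ω, hω⟩ := t.exists_η
  let θ : Fin d → Fin d → W := fun i l => (if i = l then 1 else 0) + algebraMap T W (η i l)
  have hθ : ∀ i, j₂ (x i) = ∑ l, θ i l * j₁ (x l) := by
    intro i
    change algebraMap T W (t.i₂ (Ideal.Quotient.mk _ (D.x i))) =
      ∑ l, θ i l * algebraMap T W (t.i₁ (Ideal.Quotient.mk _ (D.x l)))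
    simp only [t.i₁_mk, t.i₂_mk, θ, add_mul, Finset.sum_add_distrib, ite_mul, one_mul, zero_mul,
      Finset.sum_ite_eq, Finset.mem_univ, if_true]
    rw [t.a₂_eq, map_add, hη1, map_sum]
    simp only [map_mul]
  -- residues
  let κ : T →+* ResidueField W := (residue W).comp (algebraMap T W)
  have hκ : RingHom.ker κ = t.m := by
    ext y
    rw [RingHom.mem_ker]
    change residue W (algebraMap T W y) = 0 ↔ _
    rw [residue_eq_zero_iff, hmW]
  have hκ12 : ∀ r : R, κ (t.i₂ r) = κ (t.i₁ r) := by
    intro r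
    rw [← sub_eq_zero, ← map_sub, ← RingHom.mem_ker, hκ]
    exact t.sub_mem_m r
  have hκC : ∀ y : Γ, κ (t.f (C y)) = κ (t.i₁ (Ideal.Quotient.mk _ (D.μ y))) := by
    intro y
    rw [← sub_eq_zero, ← map_sub, ← RingHom.mem_ker, hκ]
    exact t.fC_sub_mem y
  have hres : ResidueField.map j₂ = ResidueField.map j₁ := by
    apply RingHom.ext
    intro a
    obtain ⟨r, rfl⟩ := residue_surjective a
    rw [ResidueField.map_residue, ResidueField.map_residue]
    exact hκ12 r
  refine hLOC R R W j₁ j₂ (t.flat₁.comp hfW) (t.flat₂.comp hfW) (t.infinite_residue hd0) d hdR hdR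
    (by
      rw [IsLocalization.AtPrime.ringKrullDim_eq_height t.m W, t.height_m]
      rfl) x x hx hx hmax₁ hmax₂ θ hθ N M ?_ hFP hdims
  intro z hz hhom hXz hzN hzM
  -- some polar form is not in `z`
  have hpol : ∃ l, ∑ m, C (κ (t.f (C (D.β l m)))) *
      (X m : MvPolynomial (Fin d) (ResidueField W)) ∉ z := by
    by_contra hcon
    push Not at hcon
    obtain ⟨i, hi⟩ := hXz
    apply hi
    rw [← jHom_id_X j₁ i]
    refine X_mem_of_transTo hdR hx _ _ (fun l m => Ideal.Quotient.mk _ (D.μ (D.β l m))) htr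
      (jHom j₁ (idMat d)) z hzN ?_ ?_ i
    · intro n F hF hFM
      have h1 := hzM n F hF hFM
      have h2 : (Ideal.Quotient.mk z).comp (jHom j₂ θ) =
          (Ideal.Quotient.mk z).comp (jHom j₁ (idMat d)) := by
        apply MvPolynomial.ringHom_ext
        · intro a
          rw [RingHom.comp_apply, RingHom.comp_apply, jHom_C, jHom_C, hres]
        · intro i
          rw [RingHom.comp_apply, RingHom.comp_apply, Ideal.Quotient.eq, jHom_id_X, jHom_X]
          have h3 : (∑ l, C (residue W (θ i l)) * X l - X i :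
              MvPolynomial (Fin d) (ResidueField W)) =
              ∑ s, C (κ (ω i s)) * ∑ l, C (κ (t.f (C (D.β s l)))) * X l := by
            have h4 : ∀ l, residue W (θ i l) = (if i = l then 1 else 0) + κ (η i l) := by
              intro l
              change residue W ((if i = l then 1 else 0) + algebraMap T W (η i l)) = _
              rw [map_add]
              congr 1
              split_ifs <;> simp
            simp only [h4, map_add, add_mul, Finset.sum_add_distrib]
            have h5 : ∑ l, C (if i = l then (1 : ResidueField W) else 0) *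
                (X l : MvPolynomial (Fin d) (ResidueField W)) = X i := by
              rw [Finset.sum_eq_single i]
              · simp
              · intro l _ hl
                simp [Ne.symm hl]
              · simp
            rw [h5, add_sub_cancel_left]
            simp only [hω, map_sum, map_mul, Finset.sum_mul, Finset.mul_sum]
            rw [Finset.sum_comm]
            refine Finset.sum_congr rfl fun s _ => Finset.sum_congr rfl fun l _ => ?_
            ring
          rw [h3]
          exact Ideal.sum_mem _ fun s _ => Ideal.mul_mem_left _ _ (hcon s)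
      have h3 := RingHom.congr_fun h2 (F.map (residue R))
      rw [RingHom.comp_apply, RingHom.comp_apply, Ideal.Quotient.eq] at h3
      have := Ideal.sub_mem _ h1 h3
      rwa [sub_sub_cancel] at this
    · intro l
      have h1 := hcon l
      have h2 : ∑ m, jHom j₁ (idMat d) (C (residue R (Ideal.Quotient.mk _ (D.μ (D.β l m))))) *
          jHom j₁ (idMat d) (X m) = ∑ m, C (κ (t.f (C (D.β l m)))) *
          (X m : MvPolynomial (Fin d) (ResidueField W)) := by
        refine Finset.sum_congr rfl fun m _ => ?_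
        rw [jHom_C, jHom_id_X, hκC]
        rfl
      rw [h2]
      exact h1
  -- the height inequality
  let _ : Algebra (ResidueField R) (ResidueField W) := (ResidueField.map j₁).toAlgebra
  have hK := t.height_K (k := ResidueField R) (K := ResidueField W) κ hκ (residue R)
    residue_surjective (fun r => ResidueField.map_residue j₁ r) η hη2
    (fun i m => residue W (θ i m)) (by
      intro i m
      change residue W ((if i = m then 1 else 0) + algebraMap T W (η i m)) = _
      rw [map_add]
      congr 1
      split_ifs <;> simp) z hpol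
  have e₁ : z.comap (aeval X : MvPolynomial (Fin d) (ResidueField R) →ₐ[ResidueField R]
      MvPolynomial (Fin d) (ResidueField W)) = z.comap (jHom j₁ (idMat d)) := by
    have : ((aeval X : MvPolynomial (Fin d) (ResidueField R) →ₐ[ResidueField R]
      MvPolynomial (Fin d) (ResidueField W)) : _ →+* _) = jHom j₁ (idMat d) := by
      apply MvPolynomial.ringHom_ext
      · intro a
        rw [jHom_C]
        exact aeval_C _ _
      · intro i
        rw [jHom_id_X]
        exact aeval_X _ _
    rw [← this]
    rfl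
  have e₂ : z.comap (aeval (fun i => ∑ l, C (residue W (θ i l)) * X l) :
      MvPolynomial (Fin d) (ResidueField R) →ₐ[ResidueField R]
      MvPolynomial (Fin d) (ResidueField W)) = z.comap (jHom j₂ θ) := by
    have : ((aeval (fun i => ∑ l, C (residue W (θ i l)) * X l) :
      MvPolynomial (Fin d) (ResidueField R) →ₐ[ResidueField R]
      MvPolynomial (Fin d) (ResidueField W)) : _ →+* _) = jHom j₂ θ := by
      apply MvPolynomial.ringHom_ext
      · intro a
        rw [jHom_C, hres]
        exact aeval_C _ _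
      · intro i
        rw [jHom_X]
        exact aeval_X _ _
    rw [← this]
    rfl
  rw [e₁, e₂] at hK
  exact hK

end TD

end QData

end Vale.Agent.P177
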