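import Vale.Agent.P177.DGd
import Vale.Agent.P177.DDim

/-!
Serre's statements for a pair of modules over a quadratic hypersurface.
-/

namespace Vale.Agent.P177

open TensorProduct IsLocalRing MvPolynomial RingTheory.Sequence

universe u

/-- Serre's statements for a pair of modules over a ring of dimension `d`. -/
def SerrePair (R : Type u) [CommRing R] (d : ℕ) (M N : Type u) [AddCommGroup M] [Module R M]
    [AddCommGroup N] [Module R N] : Prop :=
  0 ≤ eulerTor R (d + 1) M N ∧ ∀ m n : ℕ, (m : WithBot ℕ∞) ≤ Module.supportDim R M →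
      (n : WithBot ℕ∞) ≤ Module.supportDim R N →
      (m + n ≤ d) ∧ (d ≤ m + n → 0 < eulerTor R (d + 1) M N)

theorem length_tensor_ne_top_of_le {R : Type u} [CommRing R] [IsLocalRing R] [IsNoetherianRing R]
    (M M' N N' : Type u) [AddCommGroup M] [Module R M] [AddCommGroup M'] [Module R M']
    [AddCommGroup N] [Module R N] [AddCommGroup N'] [Module R N'] [Module.Finite R M]
    [Module.Finite R M'] [Module.Finite R N] [Module.Finite R N']
    (h : Module.length R (M ⊗[R] N) ≠ ⊤)
    (hle : Module.annihilator R M ≤ Module.annihilator R M')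
    (hle' : Module.annihilator R N ≤ Module.annihilator R N') :
    Module.length R (M' ⊗[R] N') ≠ ⊤ := by
  have h1 := length_tensor_ne_top_of_annihilator_le M M' N h hle
  rw [(TensorProduct.comm R M' N).length_eq] at h1
  have h2 := length_tensor_ne_top_of_annihilator_le N N' M' h1 hle'
  rwa [(TensorProduct.comm R N' M').length_eq] at h2

namespace QData

variable {d : ℕ} {B Γ : Type u} [CommRing B] [IsRegularLocalRing B] [CommRing Γ]
  [IsRegularLocalRing Γ]

theorem isHypersurface (D : QData d B Γ)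
    (hdR : ringKrullDim (B ⧸ Ideal.span {D.G}) = (d : WithBot ℕ∞)) :
    IsHypersurface B (B ⧸ Ideal.span {D.G}) D.G := by
  have hdom : IsDomain B := regular_isDomain B
  have hne : D.G ≠ 0 := by
    intro h0
    have h1 : Function.Injective (Ideal.Quotient.mk (Ideal.span {D.G})) := by
      rw [RingHom.injective_iff_ker_eq_bot, Ideal.mk_ker, h0]
      exact Ideal.span_singleton_eq_bot.2 rfl
    have e : B ≃+* B ⧸ Ideal.span {D.G} :=
      RingEquiv.ofBijective _ ⟨h1, Ideal.Quotient.mk_surjective⟩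
    have h2 := ringKrullDim_eq_of_ringEquiv e
    rw [hdR, D.dimB] at h2
    have h3 : d + 1 = d := by exact_mod_cast h2
    omega
  refine ⟨?_, Ideal.Quotient.mk_surjective, Ideal.mk_ker⟩
  intro a b hab
  exact mul_left_cancel₀ hne hab

theorem serrePair (hLOC : LocStmt.{u}) (D : QData d B Γ) (hB : SerreAll B (d + 1)) (hd0 : 0 < d)
    (M N : Type u) [AddCommGroup M] [Module (B ⧸ Ideal.span {D.G}) M]
    [Module.Finite (B ⧸ Ideal.span {D.G}) M] [AddCommGroup N]
    [Module (B ⧸ Ideal.span {D.G}) N] [Module.Finite (B ⧸ Ideal.span {D.G}) N]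
    (hlen : Module.length (B ⧸ Ideal.span {D.G}) (M ⊗[B ⧸ Ideal.span {D.G}] N) ≠ ⊤)
    (htr : ∀ _ : IsLocalRing (B ⧸ Ideal.span {D.G}),
      TransTo (Module.annihilator (B ⧸ Ideal.span {D.G}) M)
      (Module.annihilator (B ⧸ Ideal.span {D.G}) N) D.polar) :
    SerrePair (B ⧸ Ideal.span {D.G}) d M N := by
  obtain ⟨hR, hxs, hdR⟩ := D.quot_regular
  obtain ⟨T, _, _, ⟨t⟩⟩ := D.exists_TD
  have hm := t.m_prime
  have H := D.isHypersurface hdR
  refine global_pos_at_hom t.i₁ t.i₂ t.flat₁ t.flat₂ t.ν t.ν_i₁ t.z t.ker_ν t.z_regular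
    (RingEquiv.refl _) (fun s => t.ν_i₂ s) d hdR M N t.m (t.comap_m₁ hxs) (t.comap_m₂ hxs)
    ?_ ?_ ?_ (fun s t => rfl) hlen
  · rw [IsLocalization.AtPrime.ringKrullDim_eq_height t.m, t.height_m]
    rfl
  · intro Q hQ h1 h2
    by_cases hu : ∀ j, t.f (C (D.u j)) ∈ Q
    · left
      obtain ⟨k, hk⟩ := exists_pow_le_sup_annihilator M N hlen
      refine t.m_le_of_u_mem hxs (Module.annihilator _ N) (Module.annihilator _ M) ?_ Q h1 h2 hu
      intro a ha
      refine ⟨k, ?_⟩
      rw [sup_comm]
      exact hk (Ideal.pow_mem_pow ha k)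
    · right
      push Not at hu
      obtain ⟨j, hj⟩ := hu
      intro r₁ r₂ q hr₁ hr₂ hq
      have := t.height_le Q j hj r₁ r₂ q hr₁ hr₂ hq
      omega
  · intro N' M' _ _ _ _ _ _ hN' hM' hFP
    refine t.pos_at hLOC hxs hdR hd0 N' M' ((htr inferInstance).symm.mono hN' hM' le_rfl) hFP ?_
    intro e g he hg
    have hlen' := length_tensor_ne_top_of_le M M' N N' hlen hM' hN'
    have := dimension_inequality_hypersurface H d D.dimB hdR hB M' N' hlen' g e hg he
    omega

end QData

end Vale.Agent.P177
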