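import Vale.Agent.P177.DPoly
import Vale.Agent.P177.DGe
import Vale.Agent.P177.CDescend

/-!
Serre's statements over a hypersurface in a power series ring over a discrete valuation ring.
-/

namespace Vale.Agent.P177

open TensorProduct IsLocalRing RingTheory.Sequence Function

universe u

/-- The quotient ring. -/
abbrev QuadRing (V : Type u) [CommRing V] (ϖ : V) (d : ℕ)
    (c : Fin d → Fin d → MvPowerSeries (Fin d) V) : Type u :=
  MvPowerSeries (Fin d) V ⧸ Ideal.span {quadEq V ϖ d c}

/-- The ideal generated by the polar forms. -/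
noncomputable def polarIdeal (V : Type u) [CommRing V] (ϖ : V) (d : ℕ)
    (c : Fin d → Fin d → MvPowerSeries (Fin d) V) : Ideal (QuadRing V ϖ d c) :=
  Ideal.span (Set.range fun l : Fin d =>
    ∑ m, Ideal.Quotient.mk (Ideal.span {quadEq V ϖ d c})
      ((c l m + c m l) * MvPowerSeries.X m))

theorem quadRing_regular (V : Type u) [CommRing V] [IsRegularLocalRing V] (ϖ : V)
    (hϖ : maximalIdeal V = Ideal.span {ϖ}) (hV : ringKrullDim V = (1 : ℕ)) (d : ℕ)
    (c : Fin d → Fin d → MvPowerSeries (Fin d) V) :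
    ∃ (_ : IsRegularLocalRing (QuadRing V ϖ d c)),
    Ideal.span (Set.range (fun i => (Ideal.Quotient.mk _ (MvPowerSeries.X i) :
      QuadRing V ϖ d c))) = maximalIdeal (QuadRing V ϖ d c) ∧
    ringKrullDim (QuadRing V ϖ d c) = (d : WithBot ℕ∞) := by
  obtain ⟨h1, h2, D, hG, hx, -⟩ := exists_QData V ϖ hϖ hV d c
  have key : ∀ (g : MvPowerSeries (Fin d) V) (x : Fin d → MvPowerSeries (Fin d) V), D.G = g →
      D.x = x → ∃ (_ : IsRegularLocalRing (MvPowerSeries (Fin d) V ⧸ Ideal.span {g})),
      Ideal.span (Set.range (fun i => (Ideal.Quotient.mk (Ideal.span {g}) (x i)))) =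
        maximalIdeal (MvPowerSeries (Fin d) V ⧸ Ideal.span {g}) ∧
      ringKrullDim (MvPowerSeries (Fin d) V ⧸ Ideal.span {g}) = (d : WithBot ℕ∞) := by
    rintro g x rfl rfl
    obtain ⟨k1, k2, k3⟩ := D.quot_regular
    refine ⟨k1, ?_, k3⟩
    rw [← k2, Ideal.ofList]
    congr 1
    ext y
    simp only [QData.xs, List.mem_ofFn, Set.mem_range]
    exact Iff.rfl
  exact key _ _ hG hx

theorem serrePair_quadRing (hLOC : LocStmt.{u}) (V : Type u) [CommRing V] [IsRegularLocalRing V]
    (ϖ : V) (hϖ : maximalIdeal V = Ideal.span {ϖ}) (hV : ringKrullDim V = (1 : ℕ)) (d : ℕ)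
    (c : Fin d → Fin d → MvPowerSeries (Fin d) V) [hR : IsLocalRing (QuadRing V ϖ d c)]
    (M N : Type u) [AddCommGroup M] [Module (QuadRing V ϖ d c) M]
    [Module.Finite (QuadRing V ϖ d c) M] [AddCommGroup N] [Module (QuadRing V ϖ d c) N]
    [Module.Finite (QuadRing V ϖ d c) N]
    (hlen : Module.length (QuadRing V ϖ d c) (M ⊗[QuadRing V ϖ d c] N) ≠ ⊤)
    (htr : TransTo (Module.annihilator (QuadRing V ϖ d c) M)
      (Module.annihilator (QuadRing V ϖ d c) N) (polarIdeal V ϖ d c)) :
    SerrePair (QuadRing V ϖ d c) d M N := by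
  by_cases hd0 : 0 < d
  · obtain ⟨h1, h2, D, hG, hx, hβ⟩ := exists_QData V ϖ hϖ hV d c
    have hB : SerreAll (MvPowerSeries (Fin d) V) (d + 1) :=
      serreAll_powerSeries 4 locPos_four V (by rw [hV]; norm_num) d (d + 1) D.dimB
    have key : ∀ (g : MvPowerSeries (Fin d) V) (x : Fin d → MvPowerSeries (Fin d) V), D.G = g →
        D.x = x → ∀ [IsLocalRing (MvPowerSeries (Fin d) V ⧸ Ideal.span {g})] (M N : Type u)
        [AddCommGroup M] [Module (MvPowerSeries (Fin d) V ⧸ Ideal.span {g}) M]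
        [Module.Finite (MvPowerSeries (Fin d) V ⧸ Ideal.span {g}) M] [AddCommGroup N]
        [Module (MvPowerSeries (Fin d) V ⧸ Ideal.span {g}) N]
        [Module.Finite (MvPowerSeries (Fin d) V ⧸ Ideal.span {g}) N]
        (_ : Module.length (MvPowerSeries (Fin d) V ⧸ Ideal.span {g})
          (M ⊗[MvPowerSeries (Fin d) V ⧸ Ideal.span {g}] N) ≠ ⊤)
        (_ : TransTo (Module.annihilator (MvPowerSeries (Fin d) V ⧸ Ideal.span {g}) M)
          (Module.annihilator (MvPowerSeries (Fin d) V ⧸ Ideal.span {g}) N)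
          (Ideal.span (Set.range fun l : Fin d => ∑ m, Ideal.Quotient.mk (Ideal.span {g})
            ((c l m + c m l) * x m)))),
        SerrePair (MvPowerSeries (Fin d) V ⧸ Ideal.span {g}) d M N := by
      rintro g x rfl rfl _ M N _ _ _ _ _ _ hlen htr
      refine D.serrePair hLOC hB hd0 M N hlen fun _ => ?_
      have hmB : (maximalIdeal (MvPowerSeries (Fin d) V)).map
          (Ideal.Quotient.mk (Ideal.span {D.G})) =
          maximalIdeal (MvPowerSeries (Fin d) V ⧸ Ideal.span {D.G}) :=
        map_maximalIdeal_of_surjective _ Ideal.Quotient.mk_surjective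
      refine TransTo.of_sup (htr.mono le_rfl le_rfl ?_)
      rw [Ideal.span_le]
      rintro _ ⟨l, rfl⟩
      have e1 : ∑ m, Ideal.Quotient.mk (Ideal.span {D.G}) ((c l m + c m l) * D.x m) =
          ∑ m, Ideal.Quotient.mk _ (D.μ (D.β l m)) *
            Ideal.Quotient.mk (Ideal.span {D.G}) (D.x m) -
          ∑ m, Ideal.Quotient.mk (Ideal.span {D.G}) (D.μ (D.β l m) - polarMatrix V d c l m) *
            Ideal.Quotient.mk (Ideal.span {D.G}) (D.x m) := by
        rw [← Finset.sum_sub_distrib]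
        refine Finset.sum_congr rfl fun m _ => ?_
        rw [← map_mul, ← map_mul, ← map_sub]
        congr 1
        simp only [polarMatrix]
        ring
      simp only [SetLike.mem_coe]
      rw [e1]
      refine Ideal.sub_mem _ (Ideal.mem_sup_left (Ideal.subset_span ⟨l, rfl⟩))
        (Ideal.mem_sup_right (Ideal.sum_mem _ fun m _ => ?_))
      rw [pow_two]
      refine Ideal.mul_mem_mul ?_ ?_
      · rw [← hmB]
        exact Ideal.mem_map_of_mem _ (hβ l m)
      · rw [← hmB]
        refine Ideal.mem_map_of_mem _ ?_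
        rw [D.maxB]
        exact Ideal.mem_sup_right (Ideal.subset_span ⟨m, rfl⟩)
    exact key _ _ hG hx M N hlen htr
  · obtain ⟨k1, -, k3⟩ := quadRing_regular V ϖ hϖ hV d c
    exact serreAll_essSmooth 4 locPos_four (QuadRing V ϖ d c) (QuadRing V ϖ d c)
      (by rw [k3]; exact_mod_cast (by omega : d ≤ 4)) d k3 M N hlen

/-- The polar ideal is the maximal ideal when the polar matrix is invertible. -/
theorem transTo_of_isUnit_det (V : Type u) [CommRing V] [IsRegularLocalRing V]
    (ϖ : V) (hϖ : maximalIdeal V = Ideal.span {ϖ}) (hV : ringKrullDim V = (1 : ℕ)) (d : ℕ)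
    (c : Fin d → Fin d → MvPowerSeries (Fin d) V) (hc : IsUnit (polarMatrix V d c).det)
    [hR : IsLocalRing (QuadRing V ϖ d c)] (I J : Ideal (QuadRing V ϖ d c)) :
    TransTo I J (polarIdeal V ϖ d c) := by
  obtain ⟨k1, k2, -⟩ := quadRing_regular V ϖ hϖ hV d c
  refine ⟨0, ?_⟩
  rw [zero_add, pow_zero, mul_one, pow_one]
  refine le_sup_of_le_right ?_
  rw [← k2, Ideal.span_le]
  rintro _ ⟨i, rfl⟩
  have h4 := Matrix.nonsing_inv_mul (polarMatrix V d c) hc
  have h5 : (MvPowerSeries.X i : MvPowerSeries (Fin d) V) = ∑ l, (polarMatrix V d c)⁻¹ i l *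
      ∑ m, (c l m + c m l) * MvPowerSeries.X m := by
    simp only [Finset.mul_sum]
    rw [Finset.sum_comm]
    rw [Finset.sum_eq_single i]
    · have h6 := congrFun (congrFun h4 i) i
      rw [Matrix.mul_apply, Matrix.one_apply_eq] at h6
      simp only [← mul_assoc, ← Finset.sum_mul]
      change MvPowerSeries.X i = (∑ l, (polarMatrix V d c)⁻¹ i l * polarMatrix V d c l i) *
        MvPowerSeries.X i
      rw [h6, one_mul]
    · intro m _ hm
      have h6 := congrFun (congrFun h4 i) m
      rw [Matrix.mul_apply, Matrix.one_apply_ne (Ne.symm hm)] at h6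
      simp only [← mul_assoc, ← Finset.sum_mul]
      change (∑ l, (polarMatrix V d c)⁻¹ i l * polarMatrix V d c l m) *
        MvPowerSeries.X m = 0
      rw [h6, zero_mul]
    · simp
  simp only [SetLike.mem_coe]
  rw [h5, map_sum]
  refine Ideal.sum_mem _ fun l _ => ?_
  rw [map_mul]
  refine Ideal.mul_mem_left _ _ ?_
  rw [map_sum]
  exact Ideal.subset_span ⟨l, rfl⟩

section descend

variable {R C : Type u} [CommRing R] [CommRing C] [IsLocalRing R] [IsNoetherianRing R]
  [IsLocalRing C] [IsNoetherianRing C] [Algebra R C] [Module.Flat R C]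

theorem SerrePair.descend (hloc : (maximalIdeal R).map (algebraMap R C) = maximalIdeal C) {d : ℕ}
    (M N : Type u) [AddCommGroup M] [Module R M] [Module.Finite R M]
    [AddCommGroup N] [Module R N] [Module.Finite R N]
    (h : SerrePair C d (C ⊗[R] M) (C ⊗[R] N)) : SerrePair R d M N := by
  obtain ⟨h1, h2⟩ := h
  have heq : eulerTor C (d + 1) (C ⊗[R] M) (C ⊗[R] N) = eulerTor R (d + 1) M N := by
    unfold eulerTor
    refine Finset.sum_congr rfl fun j _ => ?_
    rw [length_tor_bc₂ (A := R) (C := C) hloc j (TensorProduct.isBaseChange R M C)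
      (TensorProduct.isBaseChange R N C)]
  rw [heq] at h1 h2
  exact ⟨h1, fun m n hm hn => h2 m n (hm.trans (supportDim_le_baseChange R C hloc M))
    (hn.trans (supportDim_le_baseChange R C hloc N))⟩

theorem length_tensor_baseChange_ne_top
    (hloc : (maximalIdeal R).map (algebraMap R C) = maximalIdeal C)
    (M N : Type u) [AddCommGroup M] [Module R M] [AddCommGroup N] [Module R N]
    (hlen : Module.length R (M ⊗[R] N) ≠ ⊤) :
    Module.length C ((C ⊗[R] M) ⊗[C] (C ⊗[R] N)) ≠ ⊤ := by
  have e : (C ⊗[R] M) ⊗[C] (C ⊗[R] N) ≃ₗ[C] C ⊗[R] (M ⊗[R] N) :=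
    (AlgebraTensorModule.distribBaseChange R C M N).symm
  rw [e.length_eq, length_baseChange' R C hloc]
  exact hlen

end descend

end Vale.Agent.P177
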