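import Vale.Agent.P177.DGf
import Vale.Agent.P177.CLocPos

/-!
The theorem on ramified hypersurface rings.
-/

namespace Vale.Agent.P177

open TensorProduct IsLocalRing RingTheory.Sequence Function

universe u

theorem locStmt : LocStmt.{u} := by
  intro R₁ R₂ W _ _ _ _ _ _ j₁ j₂ hl₁ hl₂ hf₁ hf₂ hinf d hd₁ hd₂ hd x₁ x₂ hx₁ hx₂ hm₁ hm₂ θ hθ
    E G _ _ _ _ _ _ hK hFP hdim
  let _ : Algebra R₁ W := j₁.toAlgebra
  let _ : Algebra R₂ W := j₂.toAlgebra
  have i1 : Module.Flat R₁ W := hf₁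
  have i2 : Module.Flat R₂ W := hf₂
  have i3 : IsLocalHom (algebraMap R₁ W) := hl₁
  have i4 : IsLocalHom (algebraMap R₂ W) := hl₂
  have e₁ : jHom j₁ (idMat d) = MvPolynomial.map (ResidueField.map (algebraMap R₁ W)) :=
    jMap_one (R := R₁) (A := W)
  have e₂ : jHom j₂ θ = jMap R₂ θ := rfl
  obtain ⟨h1, h2⟩ := loc_pos hd₁ hd₂ hd hx₁ hx₂ hm₁ hm₂ θ hθ E G (fun z hz hhom hX hI hJ => by
    have := hK z hhom hX (fun n F hF hFI => by
      rw [e₁]
      exact hI n F hF hFI) (fun n F hF hFJ => by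
      rw [e₂]
      exact hJ n F hF hFJ)
    rwa [e₁, e₂] at this) hFP hdim
  exact ⟨hdim, h1, h2⟩

/-- Serre's statements for a pair of modules over an arbitrary regular local ring
`V[[x_1, …, x_d]]/(ϖ - ∑ x_i c_ij x_j)`, when the tangent cones meet the radical of the polar form
only at the origin. -/
theorem serrePair_of_transTo (V : Type u) [CommRing V] [IsRegularLocalRing V]
    (ϖ : V) (hϖ : maximalIdeal V = Ideal.span {ϖ}) (hV : ringKrullDim V = (1 : ℕ)) (d : ℕ)
    (c : Fin d → Fin d → MvPowerSeries (Fin d) V) [IsLocalRing (QuadRing V ϖ d c)]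
    (M N : Type u) [AddCommGroup M] [Module (QuadRing V ϖ d c) M]
    [Module.Finite (QuadRing V ϖ d c) M] [AddCommGroup N] [Module (QuadRing V ϖ d c) N]
    [Module.Finite (QuadRing V ϖ d c) N]
    (hlen : Module.length (QuadRing V ϖ d c) (M ⊗[QuadRing V ϖ d c] N) ≠ ⊤)
    (htr : TransTo (Module.annihilator (QuadRing V ϖ d c) M)
      (Module.annihilator (QuadRing V ϖ d c) N) (polarIdeal V ϖ d c)) :
    SerrePair (QuadRing V ϖ d c) d M N :=
  serrePair_quadRing locStmt V ϖ hϖ hV d c M N hlen htr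

/-- Serre's positivity conjecture for ramified regular local rings with nondegenerate quadratic
part. -/
theorem serreAll_of_nondegenerate (V : Type u) [CommRing V] [IsRegularLocalRing V]
    (ϖ : V) (hϖ : maximalIdeal V = Ideal.span {ϖ}) (hV : ringKrullDim V = (1 : ℕ)) (d : ℕ)
    (c : Fin d → Fin d → MvPowerSeries (Fin d) V) (hc : IsUnit (polarMatrix V d c).det) :
    SerreAll (QuadRing V ϖ d c) d := by
  intro M N _ _ _ _ _ _ hlen
  obtain ⟨h1, -, -⟩ := quadRing_regular V ϖ hϖ hV d c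
  exact serrePair_of_transTo V ϖ hϖ hV d c M N hlen (transTo_of_isUnit_det V ϖ hϖ hV d c hc _ _)

end Vale.Agent.P177
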