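import Vale.Agent.P177.DElimA
import Vale.Agent.P177.HeightBound

/-!
Heights of primes in polynomial rings: upper bound and the product bound.
-/

namespace Vale.Agent.P177

open TensorProduct

universe u

theorem height_le_comap_C_add {R : Type u} [CommRing R] [IsNoetherianRing R] {σ : Type}
    [Fintype σ] (P : Ideal (MvPolynomial σ R)) [P.IsPrime] :
    P.height ≤ (P.comap MvPolynomial.C).height + Fintype.card σ := by
  let p : PrimeSpectrum R := ⟨P.comap (algebraMap R (MvPolynomial σ R)), Ideal.IsPrime.comap _⟩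
  have m₁ : (⟨P, inferInstance⟩ : PrimeSpectrum (MvPolynomial σ R)) ∈
      PrimeSpectrum.comap (algebraMap R (MvPolynomial σ R)) ⁻¹' {p} := rfl
  have i2 : P.LiesOver p.asIdeal := ⟨rfl⟩
  have h1 := Ideal.height_le_height_add_of_liesOver p.asIdeal P
  have h5 := height_quot_eq_fiber p ⟨P, inferInstance⟩ m₁
  have hG : IsNoetherianRing (p.asIdeal.Fiber (MvPolynomial σ R)) := isNoetherianRing_fiber p.asIdeal
  let e : p.asIdeal.Fiber (MvPolynomial σ R) ≃ₐ[p.asIdeal.ResidueField]
      MvPolynomial σ p.asIdeal.ResidueField := MvPolynomial.algebraTensorAlgEquiv _ _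
  have h6 : ringKrullDim (p.asIdeal.Fiber (MvPolynomial σ R)) = Fintype.card σ := by
    rw [ringKrullDim_eq_of_ringEquiv e.toRingEquiv, MvPolynomial.ringKrullDim_of_isNoetherianRing,
      ringKrullDim_eq_zero_of_field, zero_add, Nat.card_eq_fintype_card]
  have h7 : ((PrimeSpectrum.preimageOrderIsoFiber R (MvPolynomial σ R) p
      ⟨⟨P, inferInstance⟩, m₁⟩).asIdeal.height : WithBot ℕ∞) ≤ Fintype.card σ := by
    rw [← h6]
    exact Ideal.height_le_ringKrullDim_of_isPrime
  rw [← h5] at h7
  have h8 : (P.map (Ideal.Quotient.mk (p.asIdeal.map (algebraMap R (MvPolynomial σ R))))).height ≤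
      (Fintype.card σ : ℕ∞) := by exact_mod_cast h7
  exact h1.trans (add_le_add_right h8 _)

/-- The product bound for primes in a polynomial ring over a field. -/
theorem height_add_le_sum {k : Type u} [Field k] {σ τ : Type} [Fintype σ] [Fintype τ]
    (P : Ideal (MvPolynomial (σ ⊕ τ) k)) [P.IsPrime] :
    (P.comap (MvPolynomial.rename (R := k) (Sum.inl : σ → σ ⊕ τ))).height +
      (P.comap (MvPolynomial.rename (R := k) (Sum.inr : τ → σ ⊕ τ))).height ≤ P.height := by
  let e : MvPolynomial σ k ⊗[k] MvPolynomial τ k ≃ₐ[k] MvPolynomial (σ ⊕ τ) k :=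
    MvPolynomial.tensorEquivSum k σ τ k
  have hN : IsNoetherianRing (MvPolynomial σ k ⊗[k] MvPolynomial τ k) :=
    isNoetherianRing_of_ringEquiv _ e.symm.toRingEquiv
  let Q : Ideal (MvPolynomial σ k ⊗[k] MvPolynomial τ k) := P.comap (e : _ →+* _)
  have hQ : Q.IsPrime := Ideal.IsPrime.comap _
  have hht : Q.height = P.height := RingEquiv.height_comap e.toRingEquiv P
  have h := height_bound (A := k) (R₁ := MvPolynomial σ k) (R₂ := MvPolynomial τ k) Q
  have h0 : (Q.comap (algebraMap k (MvPolynomial σ k ⊗[k] MvPolynomial τ k))).height = 0 := by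
    have : (Q.comap (algebraMap k (MvPolynomial σ k ⊗[k] MvPolynomial τ k))).IsPrime :=
      Ideal.IsPrime.comap _
    rw [Ideal.eq_bot_of_prime (Q.comap (algebraMap k (MvPolynomial σ k ⊗[k] MvPolynomial τ k)))]
    exact Ideal.height_bot
  have h1 : (e : MvPolynomial σ k ⊗[k] MvPolynomial τ k →ₐ[k] MvPolynomial (σ ⊕ τ) k).comp
      (Algebra.TensorProduct.includeLeft) = MvPolynomial.rename (R := k) Sum.inl := by
    ext i
    simp [e]
  have h2 : (e : MvPolynomial σ k ⊗[k] MvPolynomial τ k →ₐ[k] MvPolynomial (σ ⊕ τ) k).comp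
      (Algebra.TensorProduct.includeRight) = MvPolynomial.rename (R := k) Sum.inr := by
    ext i
    simp [e]
  rw [h0, add_zero, hht] at h
  refine le_trans (le_of_eq ?_) h
  congr 2
  · ext x
    rw [Ideal.mem_comap, ← h1]
    rfl
  · ext x
    rw [Ideal.mem_comap, ← h2]
    rfl

end Vale.Agent.P177
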