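import Vale.Agent.P177.DHeight

/-!
The height inequality for a generic orthogonal transformation.
-/

namespace Vale.Agent.P177

open MvPolynomial TensorProduct

universe u

theorem flat_map_mvPolynomial {P K : Type u} [CommRing P] [CommRing K] [Algebra P K]
    [Module.Flat P K] (σ : Type) :
    (MvPolynomial.map (algebraMap P K) : MvPolynomial σ P →+* MvPolynomial σ K).Flat := by
  have h1 := flat_includeRight P K (MvPolynomial σ P)
  let e : K ⊗[P] MvPolynomial σ P ≃ₐ[K] MvPolynomial σ K := MvPolynomial.algebraTensorAlgEquiv P K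
  have h2 : (e : K ⊗[P] MvPolynomial σ P →+* MvPolynomial σ K).Flat :=
    RingHom.Flat.of_bijective e.bijective
  have h3 := h1.comp h2
  convert h3 using 1
  ext x
  · simp [e]
  · simp [e]

theorem flat_of_injective_field {P K : Type u} [CommRing P] [IsDomain P] [Field K] [Algebra P K]
    (h : Function.Injective (algebraMap P K)) : Module.Flat P K := by
  have : FaithfulSMul P K := (faithfulSMul_iff_algebraMap_injective P K).2 h
  let _ : Algebra (FractionRing P) K := FractionRing.liftAlgebra P K
  have : IsScalarTower P (FractionRing P) K := FractionRing.isScalarTower_liftAlgebra P K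
  have : Module.Flat P (FractionRing P) := IsLocalization.flat (FractionRing P) (nonZeroDivisors P)
  exact Module.Flat.trans P (FractionRing P) K

theorem height_orthogonal {k K : Type u} [Field k] [Field K] [Algebra k K] {d : ℕ}
    (α : Fin d × Fin d → K)
    (hα : Function.Injective (aeval α : MvPolynomial (Fin d × Fin d) k →ₐ[k] K))
    (b c : Fin d → Fin d → k)
    (θ : Fin d → Fin d → K)
    (hθ : ∀ i m, θ i m - (if i = m then 1 else 0) = ∑ l, (α (i, l) - α (l, i)) *
      (algebraMap k K (b l m) + ∑ j, algebraMap k K (c l j) *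
        (θ j m - (if j = m then 1 else 0))))
    (z : Ideal (MvPolynomial (Fin d) K)) [z.IsPrime] (hz : ∃ l,
      ∑ m, C (algebraMap k K (b l m)) * (X m : MvPolynomial (Fin d) K) ∉ z) :
    (z.comap (aeval X : MvPolynomial (Fin d) k →ₐ[k] MvPolynomial (Fin d) K)).height +
      (z.comap (aeval (fun i => ∑ l, C (θ i l) * X l) :
        MvPolynomial (Fin d) k →ₐ[k] MvPolynomial (Fin d) K)).height ≤ z.height + 1 := by
  classical
  let h : Fin d → MvPolynomial (Fin d ⊕ Fin d) k := fun i => X (Sum.inl i) - X (Sum.inr i)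
  let u : Fin d → MvPolynomial (Fin d ⊕ Fin d) k := fun l =>
    ∑ m, C (b l m) * X (Sum.inr m) + ∑ m, C (c l m) * h m
  let ψ₀ : MvPolynomial (Fin d ⊕ Fin d) k →ₐ[k] MvPolynomial (Fin d) K :=
    aeval (Sum.elim (fun i => ∑ l, C (θ i l) * X l) X)
  let ψ : MvPolynomial (Fin d × Fin d) (MvPolynomial (Fin d ⊕ Fin d) k) →+*
      MvPolynomial (Fin d) K :=
    eval₂Hom (ψ₀ : MvPolynomial (Fin d ⊕ Fin d) k →+* MvPolynomial (Fin d) K) (fun p => C (α p))
  let Φ : MvPolynomial (Fin d ⊕ Fin d) K →ₐ[K] MvPolynomial (Fin d) K :=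
    aeval (Sum.elim (fun i => ∑ l, C (θ i l) * X l) X)
  have hψl : ∀ i, ψ₀ (X (Sum.inl i)) = ∑ l, C (θ i l) * X l := fun i => aeval_X _ _
  have hψr : ∀ i, ψ₀ (X (Sum.inr i)) = X i := fun i => aeval_X _ _
  have hψC : ∀ a : k, ψ₀ (C a) = C (algebraMap k K a) := by
    intro a
    exact aeval_C _ _
  have hdelta : ∀ i : Fin d, (X i : MvPolynomial (Fin d) K) =
      ∑ m, C (if i = m then (1 : K) else 0) * X m := by
    intro i
    rw [Finset.sum_eq_single i]
    · simp
    · intro m _ hm
      simp [Ne.symm hm]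
    · simp
  have hψh : ∀ i, ψ₀ (h i) = ∑ m, C (θ i m - if i = m then 1 else 0) * X m := by
    intro i
    simp only [h, map_sub, hψl, hψr]
    conv_lhs => rw [hdelta i]
    rw [← Finset.sum_sub_distrib]
    refine Finset.sum_congr rfl fun m _ => ?_
    ring
  have hψu' : ∀ l, ψ₀ (u l) = ∑ m, C (algebraMap k K (b l m)) * X m +
        ∑ j, C (algebraMap k K (c l j)) * ψ₀ (h j) := by
    intro l
    simp only [u, map_add, map_sum, map_mul, hψC, hψr]
  have hψu : ∀ l, ψ₀ (u l) = ∑ m, C (algebraMap k K (b l m) + ∑ j, algebraMap k K (c l j) *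
      (θ j m - if j = m then 1 else 0)) * X m := by
    intro l
    rw [hψu']
    simp only [hψh, map_add, map_sum, add_mul, Finset.sum_add_distrib, Finset.mul_sum,
      Finset.sum_mul, map_mul]
    congr 1
    rw [Finset.sum_comm]
    refine Finset.sum_congr rfl fun m _ => Finset.sum_congr rfl fun j _ => ?_
    ring
  have hψE : ∀ i, ψ (altElt h u i) = ψ₀ (h i) - ∑ l, C (α (i, l) - α (l, i)) * ψ₀ (u l) := by
    intro i
    simp [ψ, altElt]
  have hE : ∀ i, ψ (altElt h u i) = 0 := by
    intro i
    rw [hψE, hψh, sub_eq_zero]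
    simp only [hψu, Finset.mul_sum]
    rw [Finset.sum_comm]
    refine Finset.sum_congr rfl fun m _ => ?_
    rw [hθ, map_sum, Finset.sum_mul]
    refine Finset.sum_congr rfl fun l _ => ?_
    rw [map_mul, mul_assoc]
  -- some `u_j` is not in `z`
  obtain ⟨j, hj⟩ : ∃ j, ψ₀ (u j) ∉ z := by
    by_contra hcon
    push Not at hcon
    obtain ⟨l, hl⟩ := hz
    apply hl
    have h1 : ∀ i, ψ₀ (h i) ∈ z := by
      intro i
      have h2 := hE i
      rw [hψE, sub_eq_zero] at h2
      rw [h2]
      exact Ideal.sum_mem _ fun l _ => Ideal.mul_mem_left _ _ (hcon l)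
    have h3 := hψu' l
    rw [← sub_eq_iff_eq_add] at h3
    rw [← h3]
    exact Ideal.sub_mem _ (hcon l) (Ideal.sum_mem _ fun l _ => Ideal.mul_mem_left _ _ (h1 l))
  -- elimination
  have hZp : (z.comap ψ).IsPrime := Ideal.IsPrime.comap _
  have hψCC : ∀ x, ψ (C x) = ψ₀ x := fun x => by simp [ψ]
  have e1 := elim_main h u (z.comap ψ) (fun i => by
    rw [Ideal.mem_comap, hE]
    exact z.zero_mem) j (by
    rw [Ideal.mem_comap, hψCC]
    exact hj)
  have hc0 : (z.comap ψ).comap C = z.comap ψ₀ := by
    ext x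
    change ψ (C x) ∈ z ↔ ψ₀ x ∈ z
    rw [hψCC]
  rw [hc0] at e1
  have hz0 : (z.comap ψ₀).IsPrime := Ideal.IsPrime.comap _
  have e2 := height_add_le_sum (z.comap ψ₀)
  have hl : (z.comap ψ₀).comap (rename (R := k) (Sum.inl : Fin d → Fin d ⊕ Fin d)) =
      z.comap (aeval (fun i => ∑ l, C (θ i l) * X l) :
        MvPolynomial (Fin d) k →ₐ[k] MvPolynomial (Fin d) K) := by
    ext x
    change ψ₀ (rename Sum.inl x) ∈ z ↔ aeval (fun i => ∑ l, C (θ i l) * X l) x ∈ z
    rw [show ψ₀ (rename Sum.inl x) = aeval (fun i => ∑ l, C (θ i l) * X l) x by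
      simp only [ψ₀, aeval_rename]
      rfl]
  have hr : (z.comap ψ₀).comap (rename (R := k) (Sum.inr : Fin d → Fin d ⊕ Fin d)) =
      z.comap (aeval X : MvPolynomial (Fin d) k →ₐ[k] MvPolynomial (Fin d) K) := by
    ext x
    change ψ₀ (rename Sum.inr x) ∈ z ↔ aeval X x ∈ z
    rw [show ψ₀ (rename Sum.inr x) = aeval X x by
      simp only [ψ₀, aeval_rename]
      rfl]
  rw [hl, hr] at e2
  -- the upper bound
  have hz' : (z.comap Φ).IsPrime := Ideal.IsPrime.comap _
  have e3 : (z.comap ψ).height ≤ (z.comap Φ).height := by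
    let _ : Algebra (MvPolynomial (Fin d × Fin d) k) K :=
      (aeval α : MvPolynomial (Fin d × Fin d) k →ₐ[k] K).toRingHom.toAlgebra
    have hf : Module.Flat (MvPolynomial (Fin d × Fin d) k) K := flat_of_injective_field hα
    have f1 := flat_map_mvPolynomial (P := MvPolynomial (Fin d × Fin d) k) (K := K)
      (Fin d ⊕ Fin d)
    have f2 : (commAlgEquiv k (Fin d × Fin d) (Fin d ⊕ Fin d) :
        MvPolynomial (Fin d × Fin d) (MvPolynomial (Fin d ⊕ Fin d) k) →+*
          MvPolynomial (Fin d ⊕ Fin d) (MvPolynomial (Fin d × Fin d) k)).Flat :=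
      RingHom.Flat.of_bijective (commAlgEquiv k (Fin d × Fin d) (Fin d ⊕ Fin d)).bijective
    have f3 := f2.comp f1
    let g := (MvPolynomial.map (algebraMap (MvPolynomial (Fin d × Fin d) k) K)).comp
      (commAlgEquiv k (Fin d × Fin d) (Fin d ⊕ Fin d) :
        MvPolynomial (Fin d × Fin d) (MvPolynomial (Fin d ⊕ Fin d) k) →+*
          MvPolynomial (Fin d ⊕ Fin d) (MvPolynomial (Fin d × Fin d) k))
    let _ : Algebra (MvPolynomial (Fin d × Fin d) (MvPolynomial (Fin d ⊕ Fin d) k))
      (MvPolynomial (Fin d ⊕ Fin d) K) := g.toAlgebra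
    have hfl : Module.Flat (MvPolynomial (Fin d × Fin d) (MvPolynomial (Fin d ⊕ Fin d) k))
      (MvPolynomial (Fin d ⊕ Fin d) K) := f3
    have h1 := height_comap_le_of_flat
      (R := MvPolynomial (Fin d × Fin d) (MvPolynomial (Fin d ⊕ Fin d) k))
      (S := MvPolynomial (Fin d ⊕ Fin d) K) (z.comap Φ)
    have hg : (Φ : MvPolynomial (Fin d ⊕ Fin d) K →+* MvPolynomial (Fin d) K).comp g = ψ := by
      apply MvPolynomial.ringHom_ext
      · intro r
        have h2 : ((Φ : MvPolynomial (Fin d ⊕ Fin d) K →+* MvPolynomial (Fin d) K).comp g).comp C =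
            (ψ₀ : MvPolynomial (Fin d ⊕ Fin d) k →+* MvPolynomial (Fin d) K) := by
          apply MvPolynomial.ringHom_ext
          · intro a
            change Φ (MvPolynomial.map _ (commAlgEquiv k _ _ (C (C a)))) = ψ₀ (C a)
            rw [hψC, commAlgEquiv_C, map_C, map_C]
            rw [show algebraMap (MvPolynomial (Fin d × Fin d) k) K (C a) =
              algebraMap k K a from aeval_C _ _]
            exact aeval_C _ _
          · intro i
            change Φ (MvPolynomial.map _ (commAlgEquiv k _ _ (C (X i)))) = ψ₀ (X i)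
            rw [commAlgEquiv_C, map_X, map_X]
            rcases i with i | i
            · rw [hψl]
              exact aeval_X _ _
            · rw [hψr]
              exact aeval_X _ _
        have h3 := RingHom.congr_fun h2 r
        rw [hψCC]
        exact h3
      · intro p
        change Φ (MvPolynomial.map _ (commAlgEquiv k _ _ (X p))) = ψ (X p)
        rw [commAlgEquiv_X, map_C]
        rw [show algebraMap (MvPolynomial (Fin d × Fin d) k) K (X p) = α p from aeval_X _ _]
        rw [show ψ (X p) = C (α p) by simp [ψ]]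
        exact aeval_C _ _
    have h2 : (z.comap Φ).comap (algebraMap
        (MvPolynomial (Fin d × Fin d) (MvPolynomial (Fin d ⊕ Fin d) k))
        (MvPolynomial (Fin d ⊕ Fin d) K)) = z.comap ψ := by
      ext x
      rw [← hg]
      rfl
    rwa [h2] at h1
  have e4 : (z.comap Φ).height ≤ z.height + d := by
    let e := sumRingEquiv K (Fin d) (Fin d)
    let e' : MvPolynomial (Fin d) (MvPolynomial (Fin d) K) →+* MvPolynomial (Fin d ⊕ Fin d) K :=
      e.symm
    have hP' : ((z.comap Φ).comap e').IsPrime := Ideal.IsPrime.comap _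
    have h1 := height_le_comap_C_add ((z.comap Φ).comap e')
    have h2 : ((z.comap Φ).comap e').height = (z.comap Φ).height :=
      RingEquiv.height_comap e.symm _
    have h3 : (Φ : MvPolynomial (Fin d ⊕ Fin d) K →+* MvPolynomial (Fin d) K).comp
        (e'.comp C) = RingHom.id _ := by
      apply MvPolynomial.ringHom_ext
      · intro a
        change Φ (e.symm (C (C a))) = C a
        rw [show e.symm (C (C a)) = C a from sumRingEquiv_symm_C_C ..]
        exact aeval_C _ _
      · intro i
        change Φ (e.symm (C (X i))) = X i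
        rw [show e.symm (C (X i)) = X (Sum.inr i) from sumRingEquiv_symm_C_X ..]
        exact aeval_X _ _
    have h4 : ((z.comap Φ).comap e').comap C = z := by
      ext x
      have := RingHom.congr_fun h3 x
      change Φ (e.symm (C x)) ∈ z ↔ x ∈ z
      change Φ (e.symm (C x)) = x at this
      rw [this]
    rwa [h2, h4, Fintype.card_fin] at h1
  have hd : (d : ℕ∞) ≠ ⊤ := ENat.natCast_ne_top d
  have e5 : (z.comap (aeval X : MvPolynomial (Fin d) k →ₐ[k] MvPolynomial (Fin d) K)).height +
      (z.comap (aeval (fun i => ∑ l, C (θ i l) * X l) :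
        MvPolynomial (Fin d) k →ₐ[k] MvPolynomial (Fin d) K)).height + d ≤
      z.height + 1 + d := by
    calc _ ≤ (z.comap ψ₀).height + d := by
          rw [add_comm (Ideal.height _) (Ideal.height _)]
          exact add_le_add_left e2 _
      _ ≤ (z.comap ψ).height + 1 := e1
      _ ≤ (z.height + d) + 1 := add_le_add_left (e3.trans e4) 1
      _ = _ := by ring
  exact (ENat.add_le_add_iff_right hd).1 e5

end Vale.Agent.P177
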