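import Vale.Agent.P177.DQ
import Vale.Agent.P177.CPsB

/-!
The data attached to a quadratic hypersurface in a power series ring over a discrete valuation
ring.
-/

namespace Vale.Agent.P177

open TensorProduct IsLocalRing RingTheory.Sequence Function

universe u

theorem exists_polar {B Γ : Type*} [CommRing B] [CommRing Γ] {d : ℕ} (a₁ a₂ : B →+* Γ)
    (x : Fin d → B) (c : Fin d → Fin d → B)
    (diag : ∀ b, a₂ b - a₁ b ∈ Ideal.span (Set.range fun i => a₂ (x i) - a₁ (x i))) :
    ∃ w : Fin d → Fin d → Γ, (∀ l m, w l m ∈ Ideal.span (Set.range fun i => a₁ (x i))) ∧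
      a₂ (∑ i, ∑ j, x i * c i j * x j) - a₁ (∑ i, ∑ j, x i * c i j * x j) =
        ∑ l, (a₂ (x l) - a₁ (x l)) * (∑ m, (a₂ (c l m) + a₂ (c m l) + w l m) * a₁ (x m) +
          ∑ m, a₂ (c l m) * (a₂ (x m) - a₁ (x m))) := by
  have h1 : ∀ i j, ∃ e : Fin d → Γ, ∑ l, e l * (a₂ (x l) - a₁ (x l)) =
      a₂ (c i j) - a₁ (c i j) := fun i j =>
    (Ideal.mem_span_range_iff_exists_fun).1 (diag (c i j))
  choose e he using h1
  refine ⟨fun l m => ∑ i, a₁ (x i) * e i m l, ?_, ?_⟩
  · intro l m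
    exact Ideal.sum_mem _ fun i _ => Ideal.mul_mem_right _ _ (Ideal.subset_span ⟨i, rfl⟩)
  · simp only [map_sum, map_mul]
    set X : Fin d → Γ := fun i => a₁ (x i) with hX
    set Y : Fin d → Γ := fun i => a₂ (x i) with hY
    have hXi : ∀ i, a₁ (x i) = X i := fun i => rfl
    have hYi : ∀ i, a₂ (x i) = Y i := fun i => rfl
    simp only [hXi, hYi] at he ⊢
    have e1 : ∀ i j, Y i * a₂ (c i j) * Y j - X i * a₁ (c i j) * X j =
        (Y i - X i) * a₂ (c i j) * X j + X i * a₂ (c i j) * (Y j - X j) +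
        (Y i - X i) * a₂ (c i j) * (Y j - X j) +
          ∑ l, X i * e i j l * (Y l - X l) * X j := by
      intro i j
      have h2 : ∑ l, X i * e i j l * (Y l - X l) * X j =
          X i * (a₂ (c i j) - a₁ (c i j)) * X j := by
        rw [← he, Finset.mul_sum, Finset.sum_mul]
        refine Finset.sum_congr rfl fun l _ => ?_
        ring
      rw [h2]
      ring
    have e2 : ∑ i, ∑ j, Y i * a₂ (c i j) * Y j - ∑ i, ∑ j, X i * a₁ (c i j) * X j =
        ∑ i, ∑ j, (Y i - X i) * a₂ (c i j) * X j + ∑ i, ∑ j, X i * a₂ (c i j) * (Y j - X j) +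
        ∑ i, ∑ j, (Y i - X i) * a₂ (c i j) * (Y j - X j) +
          ∑ i, ∑ j, ∑ l, X i * e i j l * (Y l - X l) * X j := by
      simp only [← Finset.sum_sub_distrib, ← Finset.sum_add_distrib]
      exact Finset.sum_congr rfl fun i _ => Finset.sum_congr rfl fun j _ => e1 i j
    rw [e2]
    have e3 : ∑ l, (Y l - X l) * (∑ m, (a₂ (c l m) + a₂ (c m l) + ∑ i, X i * e i m l) * X m +
        ∑ m, a₂ (c l m) * (Y m - X m)) =
        ∑ l, ∑ m, (Y l - X l) * a₂ (c l m) * X m + ∑ l, ∑ m, (Y l - X l) * a₂ (c m l) * X m +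
        ∑ l, ∑ m, (Y l - X l) * a₂ (c l m) * (Y m - X m) +
          ∑ l, ∑ m, ∑ i, X i * e i m l * (Y l - X l) * X m := by
      simp only [← Finset.sum_add_distrib]
      refine Finset.sum_congr rfl fun l _ => ?_
      rw [Finset.mul_sum]
      refine Finset.sum_congr rfl fun m _ => ?_
      have h2 : ∑ i, X i * e i m l * (Y l - X l) * X m =
          (Y l - X l) * (∑ i, X i * e i m l) * X m := by
        rw [Finset.mul_sum, Finset.sum_mul]
        refine Finset.sum_congr rfl fun i _ => ?_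
        ring
      rw [h2]
      ring
    rw [e3]
    congr 1
    · congr 1
      congr 1
      rw [Finset.sum_comm]
      refine Finset.sum_congr rfl fun l _ => Finset.sum_congr rfl fun m _ => ?_
      ring
    · symm
      calc ∑ l, ∑ m, ∑ i, X i * e i m l * (Y l - X l) * X m =
          ∑ m, ∑ l, ∑ i, X i * e i m l * (Y l - X l) * X m := Finset.sum_comm
        _ = ∑ m, ∑ i, ∑ l, X i * e i m l * (Y l - X l) * X m :=
          Finset.sum_congr rfl fun m _ => Finset.sum_comm
        _ = _ := Finset.sum_comm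

theorem ker_rename_elim (A : Type*) [CommRing A] [IsRegularLocalRing A] (n : ℕ) :
    RingHom.ker (MvPowerSeries.rename (R := A)
      (Sum.elim id id : Fin n ⊕ Fin n → Fin n)).toRingHom = Ideal.ofList (diagListGen A n) := by
  obtain ⟨a', ha'⟩ := QData.exists_nat_ringKrullDim A
  obtain ⟨hregT, hdimT⟩ :=
    mvPowerSeries_regular (A := A) (n + n) (finSumFinEquiv (m := n) (n := n)) ha'
  have hcomp : IsAdicComplete (Ideal.span (Set.range MvPowerSeries.X) :
    Ideal (MvPowerSeries (Fin n) A)) (MvPowerSeries (Fin n) A) := inferInstance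
  refine ker_le_of_retraction_ideal (Ideal.span (Set.range MvPowerSeries.X))
    (MvPowerSeries.rename (R := A) (Embedding.inl : Fin n ↪ Fin n ⊕ Fin n)).toRingHom
    _ ?_ (Ideal.ofList (diagListGen A n)) (Ideal.span (Set.range MvPowerSeries.X)) ?_ ?_ ?_ ?_
  · ext1 p
    change MvPowerSeries.rename (Sum.elim id id) (MvPowerSeries.rename
      (Function.Embedding.inl : Fin n ↪ Fin n ⊕ Fin n) p) = p
    rw [MvPowerSeries.rename_rename]
    exact MvPowerSeries.rename_id_apply p
  · rw [ofList_diagListGen, Ideal.span_le]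
    rintro _ ⟨j, rfl⟩
    change MvPowerSeries.rename (Sum.elim id id) _ = 0
    rw [map_sub, MvPowerSeries.rename_X, MvPowerSeries.rename_X]
    simp
  · rw [mvPowerSeries_maximalIdeal_gen]
    exact le_sup_right
  · rw [map_idealX_rename, idealX_eq_sup']
    rfl
  · intro b
    refine ⟨MvPowerSeries.C (MvPowerSeries.constantCoeff b), ?_⟩
    have h1 : (MvPowerSeries.rename (R := A)
        (Function.Embedding.inl : Fin n ↪ Fin n ⊕ Fin n)).toRingHom
        (MvPowerSeries.C (MvPowerSeries.constantCoeff b)) =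
        MvPowerSeries.C (MvPowerSeries.constantCoeff b) := MvPowerSeries.rename_C _ _
    rw [h1]
    exact sub_C_mem_gen A _ b

section mk

variable (V : Type u) [CommRing V] [IsRegularLocalRing V] (ϖ : V)
  (hϖ : maximalIdeal V = Ideal.span {ϖ}) (hV : ringKrullDim V = (1 : ℕ)) (d : ℕ)
  (c : Fin d → Fin d → MvPowerSeries (Fin d) V)

/-- The equation `ϖ - ∑ x_i c_ij x_j`. -/
noncomputable def quadEq : MvPowerSeries (Fin d) V :=
  MvPowerSeries.C ϖ - ∑ i, ∑ j, MvPowerSeries.X i * c i j * MvPowerSeries.X j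

/-- The polar matrix. -/
noncomputable def polarMatrix : Matrix (Fin d) (Fin d) (MvPowerSeries (Fin d) V) :=
  fun i j => c i j + c j i

include hϖ hV in
theorem exists_QData :
    ∃ (_ : IsRegularLocalRing (MvPowerSeries (Fin d) V))
      (_ : IsRegularLocalRing (MvPowerSeries (Fin d ⊕ Fin d) V))
      (D : QData d (MvPowerSeries (Fin d) V) (MvPowerSeries (Fin d ⊕ Fin d) V)),
      D.G = quadEq V ϖ d c ∧ D.x = MvPowerSeries.X ∧
      ∀ l m, D.μ (D.β l m) - polarMatrix V d c l m ∈
        maximalIdeal (MvPowerSeries (Fin d) V) := by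
  obtain ⟨hregB, hdimB⟩ := mvPowerSeries_regular (A := V) d (Equiv.refl (Fin d)) hV
  obtain ⟨hregΓ, hdimΓ⟩ :=
    mvPowerSeries_regular (A := V) (d + d) (finSumFinEquiv (m := d) (n := d)) hV
  let a₁ : MvPowerSeries (Fin d) V →+* MvPowerSeries (Fin d ⊕ Fin d) V :=
    (MvPowerSeries.rename (R := V) (Embedding.inl : Fin d ↪ Fin d ⊕ Fin d)).toRingHom
  let a₂ : MvPowerSeries (Fin d) V →+* MvPowerSeries (Fin d ⊕ Fin d) V :=
    (MvPowerSeries.rename (R := V) (Embedding.inr : Fin d ↪ Fin d ⊕ Fin d)).toRingHom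
  let μ : MvPowerSeries (Fin d ⊕ Fin d) V →+* MvPowerSeries (Fin d) V :=
    (MvPowerSeries.rename (R := V) (Sum.elim id id : Fin d ⊕ Fin d → Fin d)).toRingHom
  have hμ₁ : ∀ b, μ (a₁ b) = b := by
    intro p
    change MvPowerSeries.rename (Sum.elim id id) (MvPowerSeries.rename
      (Function.Embedding.inl : Fin d ↪ Fin d ⊕ Fin d) p) = p
    rw [MvPowerSeries.rename_rename]
    exact MvPowerSeries.rename_id_apply p
  have hμ₂ : ∀ b, μ (a₂ b) = b := by
    intro p
    change MvPowerSeries.rename (Sum.elim id id) (MvPowerSeries.rename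
      (Function.Embedding.inr : Fin d ↪ Fin d ⊕ Fin d) p) = p
    rw [MvPowerSeries.rename_rename]
    exact MvPowerSeries.rename_id_apply p
  have hX₁ : ∀ i, a₁ (MvPowerSeries.X i) = MvPowerSeries.X (Sum.inl i) := fun i =>
    MvPowerSeries.rename_X _ _
  have hX₂ : ∀ i, a₂ (MvPowerSeries.X i) = MvPowerSeries.X (Sum.inr i) := fun i =>
    MvPowerSeries.rename_X _ _
  have hC₁ : ∀ v, a₁ (MvPowerSeries.C v) = MvPowerSeries.C v := fun v =>
    MvPowerSeries.rename_C _ _
  have hC₂ : ∀ v, a₂ (MvPowerSeries.C v) = MvPowerSeries.C v := fun v =>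
    MvPowerSeries.rename_C _ _
  have hdiag : ∀ b, a₂ b - a₁ b ∈ Ideal.span (Set.range fun i =>
      a₂ (MvPowerSeries.X i) - a₁ (MvPowerSeries.X i)) := by
    intro b
    have h1 : a₂ b - a₁ b ∈ RingHom.ker μ := by
      rw [RingHom.mem_ker, map_sub, hμ₁, hμ₂, sub_self]
    rw [ker_rename_elim, ofList_diagListGen] at h1
    have h2 : Ideal.span (Set.range (fun j : Fin d =>
        (MvPowerSeries.X (Sum.inl j) - MvPowerSeries.X (Sum.inr j) :
        MvPowerSeries (Fin d ⊕ Fin d) V))) ≤ Ideal.span (Set.range fun i =>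
          a₂ (MvPowerSeries.X i) - a₁ (MvPowerSeries.X i)) := by
      rw [Ideal.span_le]
      rintro _ ⟨i, rfl⟩
      rw [SetLike.mem_coe, ← neg_mem_iff, neg_sub, ← hX₁, ← hX₂]
      exact Ideal.subset_span ⟨i, rfl⟩
    exact h2 h1
  obtain ⟨w, hw1, hw2⟩ := exists_polar a₁ a₂ MvPowerSeries.X c hdiag
  have hmaxB : maximalIdeal (MvPowerSeries (Fin d) V) = Ideal.span {MvPowerSeries.C ϖ} ⊔
      Ideal.span (Set.range MvPowerSeries.X) := by
    rw [mvPowerSeries_maximalIdeal_gen, hϖ, Ideal.map_span, Set.image_singleton]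
  have hgX : ∑ i, ∑ j, MvPowerSeries.X i * c i j * MvPowerSeries.X j ∈
      (Ideal.span (Set.range MvPowerSeries.X) : Ideal (MvPowerSeries (Fin d) V)) :=
    Ideal.sum_mem _ fun i _ => Ideal.sum_mem _ fun j _ =>
      Ideal.mul_mem_left _ _ (Ideal.subset_span ⟨j, rfl⟩)
  let β : Matrix (Fin d) (Fin d) (MvPowerSeries (Fin d ⊕ Fin d) V) := fun l m =>
    a₂ (c l m) + a₂ (c m l) + w l m
  have hβ : ∀ l m, μ (β l m) - polarMatrix V d c l m ∈
      maximalIdeal (MvPowerSeries (Fin d) V) := by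
    intro l m
    have h1 : μ (β l m) - polarMatrix V d c l m = μ (w l m) := by
      change μ (a₂ (c l m) + a₂ (c m l) + w l m) - (c l m + c m l) = _
      rw [map_add μ, map_add μ, hμ₂, hμ₂]
      ring
    rw [h1, hmaxB]
    apply Ideal.mem_sup_right
    have h3 : Ideal.span (Set.range fun i => a₁ (MvPowerSeries.X i)) ≤
        (Ideal.span (Set.range MvPowerSeries.X) :
          Ideal (MvPowerSeries (Fin d) V)).comap μ := by
      rw [Ideal.span_le]
      rintro _ ⟨i, rfl⟩
      rw [SetLike.mem_coe, Ideal.mem_comap, hμ₁]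
      exact Ideal.subset_span ⟨i, rfl⟩
    exact h3 (hw1 l m)
  refine ⟨hregB, hregΓ, {
    a₁ := a₁
    a₂ := a₂
    μ := μ
    μ₁ := hμ₁
    μ₂ := hμ₂
    x := MvPowerSeries.X
    G := quadEq V ϖ d c
    u := fun l => ∑ m, (a₂ (c l m) + a₂ (c m l) + w l m) * a₁ (MvPowerSeries.X m) +
          ∑ m, a₂ (c l m) * (a₂ (MvPowerSeries.X m) - a₁ (MvPowerSeries.X m))
    β := β
    γ := fun l m => a₂ (c l m)
    dimB := by rw [hdimB]; congr 1; omega
    dimΓ := by rw [hdimΓ]; congr 1; omega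
    maxB := ?_
    maxΓ := ?_
    hG := ?_
    hu := fun i => rfl
    diag := hdiag }, rfl, rfl, hβ⟩
  · rw [hmaxB]
    apply le_antisymm
    · refine sup_le ?_ le_sup_right
      rw [Ideal.span_singleton_le_iff_mem]
      have h1 : MvPowerSeries.C ϖ = quadEq V ϖ d c +
          ∑ i, ∑ j, MvPowerSeries.X i * c i j * MvPowerSeries.X j := by
        rw [quadEq, sub_add_cancel]
      rw [h1]
      exact Ideal.add_mem _ (Ideal.mem_sup_left (Ideal.subset_span rfl))
        (Ideal.mem_sup_right hgX)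
    · refine sup_le ?_ le_sup_right
      rw [Ideal.span_singleton_le_iff_mem, quadEq]
      exact Ideal.sub_mem _ (Ideal.mem_sup_left (Ideal.subset_span rfl))
        (Ideal.mem_sup_right hgX)
  · have hg₁ : a₁ (∑ i, ∑ j, MvPowerSeries.X i * c i j * MvPowerSeries.X j) ∈
        Ideal.span (Set.range fun i => a₁ (MvPowerSeries.X i)) := by
      rw [map_sum]
      refine Ideal.sum_mem _ fun i _ => ?_
      rw [map_sum]
      refine Ideal.sum_mem _ fun j _ => ?_
      rw [map_mul]
      exact Ideal.mul_mem_left _ _ (Ideal.subset_span ⟨j, rfl⟩)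
    rw [mvPowerSeries_maximalIdeal_gen, hϖ, Ideal.map_span, Set.image_singleton]
    apply le_antisymm
    · refine sup_le ?_ ?_
      · rw [Ideal.span_singleton_le_iff_mem]
        have h1 : MvPowerSeries.C ϖ = a₁ (quadEq V ϖ d c) +
            a₁ (∑ i, ∑ j, MvPowerSeries.X i * c i j * MvPowerSeries.X j) := by
          rw [← map_add, quadEq, sub_add_cancel, hC₁]
        rw [h1]
        exact Ideal.mem_sup_left (Ideal.add_mem _ (Ideal.mem_sup_left (Ideal.subset_span rfl))
          (Ideal.mem_sup_right hg₁))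
      · rw [Ideal.span_le]
        rintro _ ⟨i | i, rfl⟩
        · rw [SetLike.mem_coe, ← hX₁]
          exact Ideal.mem_sup_left (Ideal.mem_sup_right (Ideal.subset_span ⟨i, rfl⟩))
        · rw [SetLike.mem_coe, ← hX₂]
          have h1 : a₂ (MvPowerSeries.X i) = a₁ (MvPowerSeries.X i) +
              (a₂ (MvPowerSeries.X i) - a₁ (MvPowerSeries.X i)) := by ring
          rw [h1]
          exact Ideal.add_mem _
            (Ideal.mem_sup_left (Ideal.mem_sup_right (Ideal.subset_span ⟨i, rfl⟩)))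
            (Ideal.mem_sup_right (Ideal.subset_span ⟨i, rfl⟩))
    · have hle : Ideal.span (Set.range fun i => a₁ (MvPowerSeries.X i)) ≤
          (Ideal.span {MvPowerSeries.C ϖ} ⊔ Ideal.span (Set.range MvPowerSeries.X) :
            Ideal (MvPowerSeries (Fin d ⊕ Fin d) V)) := by
        rw [Ideal.span_le]
        rintro _ ⟨i, rfl⟩
        simp only [hX₁]
        exact Ideal.mem_sup_right (Ideal.subset_span ⟨_, rfl⟩)
      refine sup_le (sup_le ?_ hle) ?_
      · rw [Ideal.span_singleton_le_iff_mem, quadEq, map_sub, hC₁]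
        exact Ideal.sub_mem _ (Ideal.mem_sup_left (Ideal.subset_span rfl)) (hle hg₁)
      · rw [Ideal.span_le]
        rintro _ ⟨i, rfl⟩
        simp only [hX₁, hX₂]
        exact Ideal.sub_mem _ (Ideal.mem_sup_right (Ideal.subset_span ⟨_, rfl⟩))
          (Ideal.mem_sup_right (Ideal.subset_span ⟨_, rfl⟩))
  · rw [quadEq, map_sub, map_sub, hC₁, hC₂]
    rw [← hw2]
    ring

end mk

end Vale.Agent.P177
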