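import Vale.Agent.P177.DT
import Vale.Agent.P177.CPs

/-!
The ring `T` attached to a quadratic hypersurface.
-/

namespace Vale.Agent.P177

open TensorProduct IsLocalRing MvPolynomial RingTheory.Sequence

universe u

/-- The data attached to a hypersurface `G` in a regular local ring `B`. -/
structure QData (d : ℕ) (B Γ : Type u) [CommRing B] [IsRegularLocalRing B] [CommRing Γ]
    [IsRegularLocalRing Γ] where
  a₁ : B →+* Γ
  a₂ : B →+* Γ
  μ : Γ →+* B
  μ₁ : ∀ b, μ (a₁ b) = b
  μ₂ : ∀ b, μ (a₂ b) = b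
  x : Fin d → B
  G : B
  u : Fin d → Γ
  β : Matrix (Fin d) (Fin d) Γ
  γ : Matrix (Fin d) (Fin d) Γ
  dimB : ringKrullDim B = ((d + 1 : ℕ) : WithBot ℕ∞)
  dimΓ : ringKrullDim Γ = ((2 * d + 1 : ℕ) : WithBot ℕ∞)
  maxB : maximalIdeal B = Ideal.span {G} ⊔ Ideal.span (Set.range x)
  maxΓ : maximalIdeal Γ = Ideal.span {a₁ G} ⊔ Ideal.span (Set.range fun i => a₁ (x i)) ⊔
    Ideal.span (Set.range fun i => a₂ (x i) - a₁ (x i))
  hG : a₂ G = a₁ G - ∑ i, (a₂ (x i) - a₁ (x i)) * u i
  hu : ∀ i, u i = ∑ m, β i m * a₁ (x m) + ∑ m, γ i m * (a₂ (x m) - a₁ (x m))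
  diag : ∀ b, a₂ b - a₁ b ∈ Ideal.span (Set.range fun i => a₂ (x i) - a₁ (x i))

namespace QData

variable {d : ℕ} {B Γ : Type u} [CommRing B] [IsRegularLocalRing B] [CommRing Γ]
  [IsRegularLocalRing Γ] (D : QData d B Γ)

/-- The elements generating the diagonal ideal. -/
def h (i : Fin d) : Γ := D.a₂ (D.x i) - D.a₁ (D.x i)

/-- The data of the ring `T`. -/
structure TD (T : Type u) [CommRing T] [IsRegularLocalRing T] where
  f : MvPolynomial (Fin d × Fin d) Γ →+* T
  hE : ∀ i, f (altElt D.h D.u i) = 0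
  hG : f (C (D.a₁ D.G)) = 0
  maxT : maximalIdeal T = Ideal.span (Set.range fun i => f (C (D.a₁ (D.x i)))) ⊔
    Ideal.span (Set.range fun p => f (X p))
  dimT : ringKrullDim T = ((d + d * d : ℕ) : WithBot ℕ∞)
  ht : ∀ Q : Ideal T, Q.IsPrime → (Q.comap f).height ≤ Q.height + ((d + 1 : ℕ) : ℕ∞)
  ν : T →+* B ⧸ Ideal.span {D.G}
  hν : ∀ y, ν (f (C y)) = Ideal.Quotient.mk _ (D.μ y)
  hνX : ∀ p, ν (f (X p)) = 0

theorem h_eq {T : Type*} [CommRing T] (f : MvPolynomial (Fin d × Fin d) Γ →+* T)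
    (hE : ∀ i, f (altElt D.h D.u i) = 0) (i : Fin d) :
    f (C (D.h i)) = ∑ l, (f (X (i, l)) - f (X (l, i))) * f (C (D.u l)) := by
  have h1 := hE i
  rw [altElt, map_sub, sub_eq_zero, map_sum] at h1
  rw [h1]
  refine Finset.sum_congr rfl fun l _ => ?_
  rw [map_mul, map_sub]

theorem exists_nat_ringKrullDim (T : Type*) [CommRing T] [IsLocalRing T] [IsNoetherianRing T] :
    ∃ t : ℕ, ringKrullDim T = (t : WithBot ℕ∞) := by
  have h1 := Ideal.height_ne_top_of_isPrime (I := maximalIdeal T)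
  lift (maximalIdeal T).height to ℕ using h1 with t ht
  refine ⟨t, ?_⟩
  rw [← IsLocalRing.maximalIdeal_height_eq_ringKrullDim, ← ht]
  rfl

theorem exists_TD : ∃ (T : Type u) (_ : CommRing T) (_ : IsRegularLocalRing T),
    Nonempty (D.TD T) := by
  let E : Fin (d + 1) → MvPolynomial (Fin d × Fin d) Γ :=
    Fin.cons (C (D.a₁ D.G)) (altElt D.h D.u)
  have hE0 : E 0 = C (D.a₁ D.G) := rfl
  have hEs : ∀ i : Fin d, E i.succ = altElt D.h D.u i := fun i => rfl
  have hh : ∀ i, D.h i ∈ maximalIdeal Γ := by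
    intro i
    rw [D.maxΓ]
    exact Ideal.mem_sup_right (Ideal.subset_span ⟨i, rfl⟩)
  have hcE : ∀ i, constantCoeff (altElt D.h D.u i) = D.h i := by
    intro i
    simp [altElt]
  obtain ⟨T, _, _, _, f, h1, h2, h3, h4, h5⟩ := exists_local_quotient (Γ := Γ) (Fin d × Fin d)
    (2 * d + 1) D.dimΓ (d + 1) E (by
      intro i
      refine Fin.cases ?_ (fun i => ?_) i
      · rw [hE0, constantCoeff_C, D.maxΓ]
        exact Ideal.mem_sup_left (Ideal.mem_sup_left (Ideal.subset_span rfl))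
      · rw [hEs, hcE]
        exact hh i)
  have fG : f (C (D.a₁ D.G)) = 0 := h1 0
  have fE : ∀ i, f (altElt D.h D.u i) = 0 := fun i => h1 i.succ
  have hmax : maximalIdeal T = Ideal.span (Set.range fun i => f (C (D.a₁ (D.x i)))) ⊔
      Ideal.span (Set.range fun p => f (X p)) := by
    rw [h2, D.maxΓ, Ideal.map_sup, Ideal.map_sup, Ideal.map_span, Ideal.map_span, Ideal.map_span,
      Set.image_singleton, RingHom.comp_apply, fG, Ideal.span_singleton_eq_bot.2 rfl, bot_sup_eq,
      ← Set.range_comp, ← Set.range_comp]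
    refine le_antisymm ?_ ?_
    · refine sup_le (sup_le ?_ ?_) le_sup_right
      · exact le_sup_left
      · refine le_sup_of_le_right ?_
        rw [Ideal.span_le]
        rintro _ ⟨i, rfl⟩
        change f (C (D.h i)) ∈ _
        rw [D.h_eq f fE i]
        exact Ideal.sum_mem _ fun l _ => Ideal.mul_mem_right _ _
          (Ideal.sub_mem _ (Ideal.subset_span ⟨_, rfl⟩) (Ideal.subset_span ⟨_, rfl⟩))
    · exact sup_le_sup_right le_sup_left _
  obtain ⟨t, ht⟩ := exists_nat_ringKrullDim T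
  have hcard : Fintype.card (Fin d × Fin d) = d * d := by simp
  rw [ht, hcard] at h3
  have h3' : 2 * d + 1 + d * d ≤ t + (d + 1) := by exact_mod_cast h3
  let rs : List T := List.ofFn (fun i => f (C (D.a₁ (D.x i)))) ++
    (Finset.univ : Finset (Fin d × Fin d)).toList.map (fun p => f (X p))
  have hrs : Ideal.ofList rs = maximalIdeal T := by
    rw [Ideal.ofList_append, hmax]
    congr 1
    · rw [Ideal.ofList]
      congr 1
      ext y
      simp [List.mem_ofFn]
    · rw [Ideal.ofList]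
      congr 1
      ext y
      simp
  have hrl : rs.length = d + d * d := by
    simp [rs]
  obtain ⟨hreg, hdim⟩ := isRegularLocalRing_of_list rs hrs (by
    rw [ht, hrl]
    exact_mod_cast (by omega : d + d * d ≤ t))
  let φ : MvPolynomial (Fin d × Fin d) Γ →+* B ⧸ Ideal.span {D.G} :=
    eval₂Hom ((Ideal.Quotient.mk _).comp D.μ) (fun _ => 0)
  have hφ : ∀ p, φ p = Ideal.Quotient.mk _ (D.μ (constantCoeff p)) := by
    intro p
    have h6 : φ = ((Ideal.Quotient.mk _).comp D.μ).comp constantCoeff := by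
      apply MvPolynomial.ringHom_ext
      · intro a
        simp [φ]
      · intro p
        simp [φ]
    rw [h6]
    rfl
  obtain ⟨ν, hν⟩ := h5 (B ⧸ Ideal.span {D.G}) φ (by
    intro i
    rw [hφ]
    refine Fin.cases ?_ (fun i => ?_) i
    · rw [hE0, constantCoeff_C, D.μ₁]
      exact Ideal.Quotient.eq_zero_iff_mem.2 (Ideal.subset_span rfl)
    · rw [hEs, hcE, QData.h, map_sub, D.μ₁, D.μ₂, sub_self, map_zero]) (by
    intro p hp
    rw [hφ]
    rw [mem_maximalIdeal, mem_nonunits_iff, not_not] at hp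
    exact (hp.map D.μ).map _)
  refine ⟨T, inferInstance, hreg, ⟨{
    f := f
    hE := fE
    hG := fG
    maxT := hmax
    dimT := by rw [hdim, hrl]
    ht := h4
    ν := ν
    hν := fun y => ?_
    hνX := fun p => ?_ }⟩⟩
  · have := RingHom.congr_fun hν (C y)
    rw [RingHom.comp_apply, hφ, constantCoeff_C] at this
    exact this
  · have := RingHom.congr_fun hν (X p)
    rw [RingHom.comp_apply, hφ, constantCoeff_X, map_zero, map_zero] at this
    exact this

end QData

end Vale.Agent.P177
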