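import Vale.Agent.P177.DQ
import Vale.Agent.P177.CPsA
import Vale.Agent.P177.GlobalPos

/-!
Properties of the ring `T` attached to a quadratic hypersurface.
-/

namespace Vale.Agent.P177

open TensorProduct IsLocalRing MvPolynomial RingTheory.Sequence

universe u

namespace QData

variable {d : ℕ} {B Γ : Type u} [CommRing B] [IsRegularLocalRing B] [CommRing Γ]
  [IsRegularLocalRing Γ] (D : QData d B Γ)

theorem G_mem : D.G ∈ maximalIdeal B := by
  rw [D.maxB]
  exact Ideal.mem_sup_left (Ideal.subset_span rfl)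

/-- The list of parameters of `B/G`. -/
noncomputable def xs : List (B ⧸ Ideal.span {D.G}) :=
  List.ofFn (fun i => Ideal.Quotient.mk (Ideal.span {D.G}) (D.x i))

theorem nontrivial_quot : Nontrivial (B ⧸ Ideal.span {D.G}) := by
  apply Ideal.Quotient.nontrivial_iff.2
  rw [Ne, Ideal.span_singleton_eq_top]
  exact D.G_mem

theorem isLocal_quot : IsLocalRing (B ⧸ Ideal.span {D.G}) :=
  have := D.nontrivial_quot
  .of_surjective' (Ideal.Quotient.mk _) Ideal.Quotient.mk_surjective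

theorem quot_regular : ∃ (_ : IsRegularLocalRing (B ⧸ Ideal.span {D.G})),
    Ideal.ofList D.xs = maximalIdeal (B ⧸ Ideal.span {D.G}) ∧
    ringKrullDim (B ⧸ Ideal.span {D.G}) = (d : WithBot ℕ∞) := by
  have h0 := D.nontrivial_quot
  have h1 := D.isLocal_quot
  have hm : (maximalIdeal B).map (Ideal.Quotient.mk (Ideal.span {D.G})) =
      maximalIdeal (B ⧸ Ideal.span {D.G}) :=
    map_maximalIdeal_of_surjective _ Ideal.Quotient.mk_surjective
  have h2 : Ideal.ofList D.xs = maximalIdeal (B ⧸ Ideal.span {D.G}) := by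
    rw [← hm, D.maxB, Ideal.map_sup, Ideal.map_quotient_self, bot_sup_eq, Ideal.map_span,
      ← Set.range_comp, Ideal.ofList]
    congr 1
    ext y
    simp [xs, List.mem_ofFn]
  obtain ⟨t, ht⟩ := exists_nat_ringKrullDim (B ⧸ Ideal.span {D.G})
  have h3 := ringKrullDim_le_ringKrullDim_quotient_add_card ({D.G} : Finset B) (by
    rw [IsLocalRing.ringJacobson_eq_maximalIdeal]
    simpa using D.G_mem)
  rw [Finset.coe_singleton, D.dimB, ht, Finset.card_singleton] at h3
  have h4 : d + 1 ≤ t + 1 := by exact_mod_cast h3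
  have hlen : D.xs.length = d := by simp [xs]
  obtain ⟨h5, h6⟩ := isRegularLocalRing_of_list D.xs h2 (by
    rw [ht, hlen]
    exact_mod_cast (by omega : d ≤ t))
  refine ⟨h5, h2, ?_⟩
  rw [h6, hlen]

theorem height_comap_mk (p : Ideal (B ⧸ Ideal.span {D.G})) [p.IsPrime] (r s : ℕ)
    (hr : p.height = r) (hs : (p.comap (Ideal.Quotient.mk (Ideal.span {D.G}))).height = s) :
    r + 1 ≤ s := by
  obtain ⟨h1, -, h2⟩ := D.quot_regular
  obtain ⟨r', hr', hle, h3⟩ := supportDim_prime_eq h2 p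
  obtain ⟨s', hs', hle', h4⟩ := supportDim_prime_eq D.dimB
    (p.comap (Ideal.Quotient.mk (Ideal.span {D.G})))
  rw [hr] at hr'
  rw [hs] at hs'
  have e1 : r = r' := by exact_mod_cast hr'
  have e2 : s = s' := by exact_mod_cast hs'
  rw [Module.supportDim_quotient_eq_ringKrullDim] at h3 h4
  have h5 : ringKrullDim (B ⧸ p.comap (Ideal.Quotient.mk (Ideal.span {D.G}))) =
      ringKrullDim ((B ⧸ Ideal.span {D.G}) ⧸ p) := by
    apply ringKrullDim_eq_of_ringEquiv
    have hs : Function.Surjective ((Ideal.Quotient.mk p).comp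
        (Ideal.Quotient.mk (Ideal.span {D.G}))) :=
      Ideal.Quotient.mk_surjective.comp Ideal.Quotient.mk_surjective
    refine (Ideal.quotEquivOfEq ?_).trans (RingHom.quotientKerEquivOfSurjective hs)
    ext y
    rw [RingHom.mem_ker, RingHom.comp_apply, Ideal.Quotient.eq_zero_iff_mem, Ideal.mem_comap]
  rw [h3, h4] at h5
  have h6 : d + 1 - s' = d - r' := by exact_mod_cast h5
  omega

section TD

variable {D} {T : Type u} [CommRing T] [IsRegularLocalRing T] (t : D.TD T)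

theorem TD.f_a₂G : t.f (C (D.a₂ D.G)) = 0 := by
  rw [D.hG, map_sub, map_sub, t.hG, zero_sub, neg_eq_zero, map_sum, map_sum]
  have h1 : ∀ i, t.f (C ((D.a₂ (D.x i) - D.a₁ (D.x i)) * D.u i)) =
      t.f (C (D.u i)) * ∑ l, (t.f (X (i, l)) - t.f (X (l, i))) * t.f (C (D.u l)) := by
    intro i
    rw [map_mul, map_mul, ← D.h_eq t.f t.hE i, mul_comm]
    rfl
  rw [Finset.sum_congr rfl fun i _ => h1 i]
  exact sum_alt_eq_zero (fun p => t.f (X p)) (fun i => t.f (C (D.u i)))

/-- The first map. -/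
noncomputable def TD.i₁ : B ⧸ Ideal.span {D.G} →+* T :=
  Ideal.Quotient.lift _ ((t.f.comp C).comp D.a₁) (fun a ha => by
    have h1 : Ideal.span {D.G} ≤ RingHom.ker ((t.f.comp C).comp D.a₁) := by
      rw [Ideal.span_singleton_le_iff_mem, RingHom.mem_ker]
      exact t.hG
    exact h1 ha)

/-- The second map. -/
noncomputable def TD.i₂ : B ⧸ Ideal.span {D.G} →+* T :=
  Ideal.Quotient.lift _ ((t.f.comp C).comp D.a₂) (fun a ha => by
    have h1 : Ideal.span {D.G} ≤ RingHom.ker ((t.f.comp C).comp D.a₂) := by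
      rw [Ideal.span_singleton_le_iff_mem, RingHom.mem_ker]
      exact t.f_a₂G
    exact h1 ha)

theorem TD.i₁_mk (b : B) : t.i₁ (Ideal.Quotient.mk _ b) = t.f (C (D.a₁ b)) :=
  Ideal.Quotient.lift_mk _ _ _

theorem TD.i₂_mk (b : B) : t.i₂ (Ideal.Quotient.mk _ b) = t.f (C (D.a₂ b)) :=
  Ideal.Quotient.lift_mk _ _ _

theorem TD.ν_i₁ (r : B ⧸ Ideal.span {D.G}) : t.ν (t.i₁ r) = r := by
  obtain ⟨b, rfl⟩ := Ideal.Quotient.mk_surjective r
  rw [t.i₁_mk, t.hν, D.μ₁]

theorem TD.ν_i₂ (r : B ⧸ Ideal.span {D.G}) : t.ν (t.i₂ r) = r := by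
  obtain ⟨b, rfl⟩ := Ideal.Quotient.mk_surjective r
  rw [t.i₂_mk, t.hν, D.μ₂]

theorem TD.isLocalHom₁ : IsLocalHom t.i₁ := ⟨fun s hs => by
    have := hs.map t.ν
    rwa [t.ν_i₁] at this⟩

theorem TD.isLocalHom₂ : IsLocalHom t.i₂ := ⟨fun s hs => by
    have := hs.map t.ν
    rwa [t.ν_i₂] at this⟩

/-- The list of the variables. -/
noncomputable def TD.z : List T :=
  (Finset.univ : Finset (Fin d × Fin d)).toList.map (fun p => t.f (X p))

theorem TD.length_z : t.z.length = d * d := by simp [TD.z]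

theorem TD.ofList_z : Ideal.ofList t.z = Ideal.span (Set.range fun p => t.f (X p)) := by
  rw [Ideal.ofList]
  congr 1
  ext y
  simp [TD.z]

theorem TD.h_mem (i : Fin d) : t.f (C (D.h i)) ∈ Ideal.ofList t.z := by
  rw [D.h_eq t.f t.hE i, t.ofList_z]
  exact Ideal.sum_mem _ fun l _ => Ideal.mul_mem_right _ _
    (Ideal.sub_mem _ (Ideal.subset_span ⟨_, rfl⟩) (Ideal.subset_span ⟨_, rfl⟩))

theorem TD.ofList_i₁ : Ideal.ofList (D.xs.map t.i₁) =
    Ideal.span (Set.range fun i => t.f (C (D.a₁ (D.x i)))) := by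
  rw [Ideal.ofList]
  congr 1
  ext y
  simp only [xs, List.map_ofFn, List.mem_ofFn, Set.mem_ofPred_eq, Set.mem_range, Function.comp_apply,
    t.i₁_mk]

theorem TD.ofList_i₂ : Ideal.ofList (D.xs.map t.i₂) =
    Ideal.span (Set.range fun i => t.f (C (D.a₂ (D.x i)))) := by
  rw [Ideal.ofList]
  congr 1
  ext y
  simp only [xs, List.map_ofFn, List.mem_ofFn, Set.mem_ofPred_eq, Set.mem_range, Function.comp_apply,
    t.i₂_mk]

theorem TD.max₁ : Ideal.ofList (D.xs.map t.i₁) ⊔ Ideal.ofList t.z = maximalIdeal T := by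
  rw [t.maxT, t.ofList_z, t.ofList_i₁]

theorem TD.a₂_eq (i : Fin d) : t.f (C (D.a₂ (D.x i))) = t.f (C (D.a₁ (D.x i))) +
    t.f (C (D.h i)) := by
  rw [← map_add, ← map_add, QData.h, add_sub_cancel]

theorem TD.max₂ : Ideal.ofList (D.xs.map t.i₂) ⊔ Ideal.ofList t.z = maximalIdeal T := by
  rw [← t.max₁, t.ofList_i₁, t.ofList_i₂]
  apply le_antisymm
  · refine sup_le (Ideal.span_le.2 ?_) le_sup_right
    rintro _ ⟨i, rfl⟩
    simp only [t.a₂_eq]
    exact Ideal.add_mem _ (Ideal.mem_sup_left (Ideal.subset_span ⟨i, rfl⟩))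
      (Ideal.mem_sup_right (t.h_mem i))
  · refine sup_le (Ideal.span_le.2 ?_) le_sup_right
    rintro _ ⟨i, rfl⟩
    have h1 : t.f (C (D.a₁ (D.x i))) = t.f (C (D.a₂ (D.x i))) - t.f (C (D.h i)) := by
      rw [t.a₂_eq, add_sub_cancel_right]
    simp only [h1]
    exact Ideal.sub_mem _ (Ideal.mem_sup_left (Ideal.subset_span ⟨i, rfl⟩))
      (Ideal.mem_sup_right (t.h_mem i))

theorem TD.isRegular_append (rs : List T) (hrs : Ideal.ofList rs ⊔ Ideal.ofList t.z =
    maximalIdeal T) (hlen : rs.length = d) :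
    IsWeaklyRegular T (rs ++ t.z) ∧ IsWeaklyRegular T (t.z ++ rs) := by
  constructor
  · refine (isRegular_of_ofList_eq_maximalIdeal T (rs ++ t.z) ?_ ?_).toIsWeaklyRegular
    · rw [Ideal.ofList_append, hrs]
    · rw [t.dimT, List.length_append, hlen, t.length_z]
  · refine (isRegular_of_ofList_eq_maximalIdeal T (t.z ++ rs) ?_ ?_).toIsWeaklyRegular
    · rw [Ideal.ofList_append, sup_comm, hrs]
    · rw [t.dimT, List.length_append, hlen, t.length_z, add_comm]

theorem TD.length_xs_map (i : B ⧸ Ideal.span {D.G} →+* T) : (D.xs.map i).length = d := by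
  simp [xs]

theorem TD.z_regular : IsWeaklyRegular T t.z :=
  ((isWeaklyRegular_append_iff _ _ _).mp
    (t.isRegular_append _ t.max₁ (TD.length_xs_map _)).2).1

theorem TD.flat₁ : t.i₁.Flat := by
  obtain ⟨h1, h2, h3⟩ := D.quot_regular
  let _ : Algebra (B ⧸ Ideal.span {D.G}) T := t.i₁.toAlgebra
  have hl : IsLocalHom (algebraMap (B ⧸ Ideal.span {D.G}) T) := t.isLocalHom₁
  refine flat_of_weaklyRegular D.xs h2 (isRegular_of_ofList_eq_maximalIdeal _ D.xs h2 ?_).toIsWeaklyRegular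
    ((isWeaklyRegular_append_iff _ _ _).mp
      (t.isRegular_append _ t.max₁ (TD.length_xs_map _)).1).1
  rw [h3]
  simp [xs]

theorem TD.flat₂ : t.i₂.Flat := by
  obtain ⟨h1, h2, h3⟩ := D.quot_regular
  let _ : Algebra (B ⧸ Ideal.span {D.G}) T := t.i₂.toAlgebra
  have hl : IsLocalHom (algebraMap (B ⧸ Ideal.span {D.G}) T) := t.isLocalHom₂
  refine flat_of_weaklyRegular D.xs h2 (isRegular_of_ofList_eq_maximalIdeal _ D.xs h2 ?_).toIsWeaklyRegular
    ((isWeaklyRegular_append_iff _ _ _).mp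
      (t.isRegular_append _ t.max₂ (TD.length_xs_map _)).1).1
  rw [h3]
  simp [xs]

end TD

end QData

end Vale.Agent.P177
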