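import Vale.Agent.P177.DQA

/-!
Height inequality and minimal primes for the ring `T` attached to a quadratic hypersurface.
-/

namespace Vale.Agent.P177

open TensorProduct IsLocalRing MvPolynomial RingTheory.Sequence

universe u

/-- A surjection between local rings of the same dimension, the source being a domain, is
injective. -/
theorem injective_of_surjective_of_dim {S R : Type*} [CommRing S] [CommRing R] [IsDomain S]
    (g : S →+* R) (hg : Function.Surjective g) (n : ℕ) (hS : ringKrullDim S = n)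
    (hR : ringKrullDim R = n) : Function.Injective g := by
  rw [injective_iff_map_eq_zero]
  intro a ha
  by_contra hne
  have h1 := ringKrullDim_quotient_succ_le_of_nonZeroDivisor
    (mem_nonZeroDivisors_of_ne_zero hne)
  let g' : S ⧸ Ideal.span {a} →+* R := Ideal.Quotient.lift _ g (by
    intro b hb
    have h2 : Ideal.span {a} ≤ RingHom.ker g := by
      rw [Ideal.span_singleton_le_iff_mem, RingHom.mem_ker, ha]
    exact h2 hb)
  have hg' : Function.Surjective g' := Ideal.Quotient.lift_surjective_of_surjective _ _ hg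
  have h2 := ringKrullDim_le_of_surjective g' hg'
  rw [hR] at h2
  rw [hS] at h1
  have h3 : ((n : ℕ) : WithBot ℕ∞) + 1 ≤ (n : ℕ) := le_trans (by gcongr) h1
  have h4 : n + 1 ≤ n := by exact_mod_cast h3
  omega

namespace QData

variable {d : ℕ} {B Γ : Type u} [CommRing B] [IsRegularLocalRing B] [CommRing Γ]
  [IsRegularLocalRing Γ] {D : QData d B Γ}

section TD

variable {T : Type u} [CommRing T] [IsRegularLocalRing T] (t : D.TD T)

theorem TD.quot_z : ∃ (_ : IsRegularLocalRing (T ⧸ Ideal.ofList t.z)),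
    ringKrullDim (T ⧸ Ideal.ofList t.z) = (d : WithBot ℕ∞) := by
  have hzm : Ideal.ofList t.z ≤ maximalIdeal T := by
    rw [← t.max₁]
    exact le_sup_right
  have h0 : Nontrivial (T ⧸ Ideal.ofList t.z) := Ideal.Quotient.nontrivial_iff.2
    (fun h => (maximalIdeal.isMaximal T).ne_top (top_le_iff.1 (h ▸ hzm)))
  have h1 : IsLocalRing (T ⧸ Ideal.ofList t.z) :=
    .of_surjective' (Ideal.Quotient.mk _) Ideal.Quotient.mk_surjective
  have hm : (maximalIdeal T).map (Ideal.Quotient.mk (Ideal.ofList t.z)) =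
      maximalIdeal (T ⧸ Ideal.ofList t.z) :=
    map_maximalIdeal_of_surjective _ Ideal.Quotient.mk_surjective
  have h2 : Ideal.ofList ((D.xs.map t.i₁).map (Ideal.Quotient.mk (Ideal.ofList t.z))) =
      maximalIdeal (T ⧸ Ideal.ofList t.z) := by
    rw [← hm, ← t.max₁, Ideal.map_sup, Ideal.map_quotient_self, sup_bot_eq, Ideal.map_ofList]
  have h3 : ringKrullDim (T ⧸ Ideal.ofList t.z) = (d : WithBot ℕ∞) := by
    have hreg : IsRegular T t.z := by
      refine ⟨t.z_regular, ?_⟩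
      intro h
      have h1 : (Ideal.ofList t.z • ⊤ : Ideal T) ≤ maximalIdeal T := by
        rw [smul_eq_mul, Ideal.mul_top]
        exact hzm
      rw [← h] at h1
      exact (maximalIdeal.isMaximal T).ne_top (top_le_iff.1 h1)
    have h2 := ringKrullDim_add_length_eq_ringKrullDim_of_isRegular _ hreg
    rw [t.dimT, t.length_z] at h2
    obtain ⟨e, he⟩ := exists_nat_ringKrullDim (T ⧸ Ideal.ofList t.z)
    rw [he] at h2 ⊢
    have h3 : e + d * d = d + d * d := by exact_mod_cast h2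
    have h4 : e = d := by omega
    rw [h4]
  obtain ⟨h5, h6⟩ := isRegularLocalRing_of_list _ h2 (by
    rw [h3, List.length_map, TD.length_xs_map])
  exact ⟨h5, h3⟩

theorem TD.ker_ν : RingHom.ker t.ν = Ideal.ofList t.z := by
  have hz : Ideal.ofList t.z ≤ RingHom.ker t.ν := by
    rw [t.ofList_z, Ideal.span_le]
    rintro _ ⟨p, rfl⟩
    exact t.hνX p
  obtain ⟨h1, h2⟩ := t.quot_z
  have hdom : IsDomain (T ⧸ Ideal.ofList t.z) := regular_isDomain _
  obtain ⟨-, -, h3⟩ := D.quot_regular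
  let g : T ⧸ Ideal.ofList t.z →+* B ⧸ Ideal.span {D.G} :=
    Ideal.Quotient.lift _ t.ν (fun a ha => hz ha)
  have hg : Function.Surjective g := Ideal.Quotient.lift_surjective_of_surjective _ _
    (fun r => ⟨t.i₁ r, t.ν_i₁ r⟩)
  have hinj := injective_of_surjective_of_dim g hg d h2 h3
  refine le_antisymm ?_ hz
  intro a ha
  rw [← Ideal.Quotient.eq_zero_iff_mem]
  apply hinj
  rw [map_zero]
  exact ha

theorem TD.height_le (Q : Ideal T) [Q.IsPrime] (j : Fin d) (hj : t.f (C (D.u j)) ∉ Q)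
    (r₁ r₂ q : ℕ) (h₁ : (Q.comap t.i₁).height = r₁) (h₂ : (Q.comap t.i₂).height = r₂)
    (hq : Q.height = q) : r₁ + r₂ ≤ q + 1 := by
  have hQp : (Q.comap t.f).IsPrime := Ideal.IsPrime.comap _
  have hrp : ((Q.comap t.f).comap C).IsPrime := Ideal.IsPrime.comap _
  have e1 := elim_main D.h D.u (Q.comap t.f) (fun i => by
    rw [Ideal.mem_comap, t.hE]
    exact Q.zero_mem) j hj
  have e2 := t.ht Q inferInstance
  have hfin : ((Q.comap t.f).comap C).height ≠ ⊤ := Ideal.height_ne_top_of_isPrime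
  have hfin2 : (Q.comap t.f).height ≠ ⊤ := Ideal.height_ne_top_of_isPrime
  have hf1 : (((Q.comap t.f).comap C).comap D.a₁).IsPrime := Ideal.IsPrime.comap _
  have hf2 : (((Q.comap t.f).comap C).comap D.a₂).IsPrime := Ideal.IsPrime.comap _
  obtain ⟨s, hs⟩ := ENat.ne_top_iff_exists.1 hfin
  obtain ⟨v, hv⟩ := ENat.ne_top_iff_exists.1 hfin2
  obtain ⟨s₁, hs₁⟩ := ENat.ne_top_iff_exists.1
    (Ideal.height_ne_top_of_isPrime (I := ((Q.comap t.f).comap C).comap D.a₁))
  obtain ⟨s₂, hs₂⟩ := ENat.ne_top_iff_exists.1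
    (Ideal.height_ne_top_of_isPrime (I := ((Q.comap t.f).comap C).comap D.a₂))
  rw [← hs, ← hv] at e1
  rw [← hv, hq] at e2
  have e1' : s + d ≤ v + 1 := by exact_mod_cast e1
  have e2' : v ≤ q + (d + 1) := by exact_mod_cast e2
  have hsup : (maximalIdeal B).map D.a₁ ⊔ (maximalIdeal B).map D.a₂ = maximalIdeal Γ := by
    have hloc₁ : IsLocalHom D.a₁ := ⟨fun s hs => by
      have := hs.map D.μ
      rwa [D.μ₁] at this⟩
    have hloc₂ : IsLocalHom D.a₂ := ⟨fun s hs => by
      have := hs.map D.μ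
      rwa [D.μ₂] at this⟩
    apply le_antisymm
    · exact sup_le (((IsLocalRing.local_hom_TFAE D.a₁).out 0 2).mp hloc₁)
        (((IsLocalRing.local_hom_TFAE D.a₂).out 0 2).mp hloc₂)
    · rw [D.maxΓ]
      have hx : ∀ i, D.x i ∈ maximalIdeal B := fun i => by
        rw [D.maxB]
        exact Ideal.mem_sup_right (Ideal.subset_span ⟨i, rfl⟩)
      refine sup_le (sup_le ?_ ?_) ?_
      · rw [Ideal.span_singleton_le_iff_mem]
        exact Ideal.mem_sup_left (Ideal.mem_map_of_mem _ D.G_mem)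
      · rw [Ideal.span_le]
        rintro _ ⟨i, rfl⟩
        exact Ideal.mem_sup_left (Ideal.mem_map_of_mem _ (hx i))
      · rw [Ideal.span_le]
        rintro _ ⟨i, rfl⟩
        exact Ideal.sub_mem _ (Ideal.mem_sup_right (Ideal.mem_map_of_mem _ (hx i)))
          (Ideal.mem_sup_left (Ideal.mem_map_of_mem _ (hx i)))
  have e3 := height_le_of_sup D.a₁ D.a₂ D.dimB D.dimΓ hsup (a := 1) (by omega)
    ((Q.comap t.f).comap C) s₁ s₂ s hs₁.symm hs₂.symm hs.symm
  have k₁ : (Q.comap t.i₁).comap (Ideal.Quotient.mk (Ideal.span {D.G})) =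
      ((Q.comap t.f).comap C).comap D.a₁ := by
    ext b
    change t.i₁ (Ideal.Quotient.mk _ b) ∈ Q ↔ t.f (C (D.a₁ b)) ∈ Q
    rw [t.i₁_mk]
  have k₂ : (Q.comap t.i₂).comap (Ideal.Quotient.mk (Ideal.span {D.G})) =
      ((Q.comap t.f).comap C).comap D.a₂ := by
    ext b
    change t.i₂ (Ideal.Quotient.mk _ b) ∈ Q ↔ t.f (C (D.a₂ b)) ∈ Q
    rw [t.i₂_mk]
  have hq1 : (Q.comap t.i₁).IsPrime := Ideal.IsPrime.comap _
  have hq2 : (Q.comap t.i₂).IsPrime := Ideal.IsPrime.comap _
  have e4 := D.height_comap_mk (Q.comap t.i₁) r₁ s₁ h₁ (by rw [k₁, ← hs₁])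
  have e5 := D.height_comap_mk (Q.comap t.i₂) r₂ s₂ h₂ (by rw [k₂, ← hs₂])
  omega

/-- If all `u_j` are in `Q` then the two maps agree modulo `Q`. -/
theorem TD.sub_mem_of_u_mem (Q : Ideal T)
    (hu : ∀ j, t.f (C (D.u j)) ∈ Q) (r : B ⧸ Ideal.span {D.G}) : t.i₂ r - t.i₁ r ∈ Q := by
  have hh : ∀ i, t.f (C (D.h i)) ∈ Q := by
    intro i
    rw [D.h_eq t.f t.hE i]
    exact Ideal.sum_mem _ fun l _ => Ideal.mul_mem_left _ _ (hu l)
  obtain ⟨b, rfl⟩ := Ideal.Quotient.mk_surjective r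
  rw [t.i₁_mk, t.i₂_mk, ← map_sub, ← map_sub]
  have h1 : Ideal.span (Set.range fun i => D.a₂ (D.x i) - D.a₁ (D.x i)) ≤
      Q.comap (t.f.comp C) := by
    rw [Ideal.span_le]
    rintro _ ⟨i, rfl⟩
    exact hh i
  exact h1 (D.diag b)

end TD

end QData

end Vale.Agent.P177
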