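import Vale.Agent.P177.DQB

/-!
The prime `mT` and the linear relation between the two maps.
-/

namespace Vale.Agent.P177

open TensorProduct IsLocalRing MvPolynomial RingTheory.Sequence

universe u

namespace QData

variable {d : ℕ} {B Γ : Type u} [CommRing B] [IsRegularLocalRing B] [CommRing Γ]
  [IsRegularLocalRing Γ] {D : QData d B Γ}

section TD

variable {T : Type u} [CommRing T] [IsRegularLocalRing T] (t : D.TD T)

/-- The prime ideal `mT`. -/
noncomputable def TD.m : Ideal T := Ideal.ofList (D.xs.map t.i₁)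

theorem TD.m_le : t.m ≤ maximalIdeal T := by
  rw [← t.max₁]
  exact le_sup_left

theorem TD.m_prime : t.m.IsPrime := by
  have hzm : t.m ≤ maximalIdeal T := t.m_le
  have h0 : Nontrivial (T ⧸ t.m) := Ideal.Quotient.nontrivial_iff.2
    (fun h => (maximalIdeal.isMaximal T).ne_top (top_le_iff.1 (h ▸ hzm)))
  have h1 : IsLocalRing (T ⧸ t.m) :=
    .of_surjective' (Ideal.Quotient.mk _) Ideal.Quotient.mk_surjective
  have hm : (maximalIdeal T).map (Ideal.Quotient.mk t.m) = maximalIdeal (T ⧸ t.m) :=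
    map_maximalIdeal_of_surjective _ Ideal.Quotient.mk_surjective
  have h2 : Ideal.ofList (t.z.map (Ideal.Quotient.mk t.m)) = maximalIdeal (T ⧸ t.m) := by
    rw [← hm, ← t.max₁, Ideal.map_sup, show Ideal.ofList (D.xs.map t.i₁) = t.m from rfl,
      Ideal.map_quotient_self, bot_sup_eq, Ideal.map_ofList]
  have h3 : ringKrullDim (T ⧸ t.m) = ((d * d : ℕ) : WithBot ℕ∞) := by
    have hreg : IsRegular T (D.xs.map t.i₁) := by
      refine ⟨((isWeaklyRegular_append_iff _ _ _).mp
        (t.isRegular_append _ t.max₁ (TD.length_xs_map _)).1).1, ?_⟩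
      intro h
      have h1 : (Ideal.ofList (D.xs.map t.i₁) • ⊤ : Ideal T) ≤ maximalIdeal T := by
        rw [smul_eq_mul, Ideal.mul_top]
        exact hzm
      rw [← h] at h1
      exact (maximalIdeal.isMaximal T).ne_top (top_le_iff.1 h1)
    have h2 := ringKrullDim_add_length_eq_ringKrullDim_of_isRegular _ hreg
    rw [t.dimT, TD.length_xs_map] at h2
    change ringKrullDim (T ⧸ t.m) + _ = _ at h2
    obtain ⟨e, he⟩ := exists_nat_ringKrullDim (T ⧸ t.m)
    rw [he] at h2 ⊢
    have h3 : e + d = d + d * d := by exact_mod_cast h2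
    have h4 : e = d * d := by omega
    rw [h4]
  obtain ⟨h5, h6⟩ := isRegularLocalRing_of_list _ h2 (by
    rw [h3, List.length_map, t.length_z])
  have h7 : IsDomain (T ⧸ t.m) := regular_isDomain _
  exact (Ideal.Quotient.isDomain_iff_prime _).1 h7

theorem TD.X_mem (p : Fin d × Fin d) : t.f (X p) ∈ maximalIdeal T := by
  rw [← t.max₁, t.ofList_z]
  exact Ideal.mem_sup_right (Ideal.subset_span ⟨p, rfl⟩)

theorem TD.exists_η : ∃ η : Matrix (Fin d) (Fin d) T,
    (∀ i, t.f (C (D.h i)) = ∑ m, η i m * t.f (C (D.a₁ (D.x m)))) ∧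
    (∀ i m, η i m = ∑ l, (t.f (X (i, l)) - t.f (X (l, i))) *
      (t.f (C (D.β l m)) + ∑ j, t.f (C (D.γ l j)) * η j m)) ∧
    ∃ ω : Fin d → Fin d → T, ∀ i m, η i m = ∑ l, ω i l * t.f (C (D.β l m)) := by
  classical
  let Λ : Matrix (Fin d) (Fin d) T := fun i l => t.f (X (i, l)) - t.f (X (l, i))
  let βT : Matrix (Fin d) (Fin d) T := fun i l => t.f (C (D.β i l))
  let γT : Matrix (Fin d) (Fin d) T := fun i l => t.f (C (D.γ i l))
  let hv : Fin d → T := fun i => t.f (C (D.h i))
  let Xv : Fin d → T := fun i => t.f (C (D.a₁ (D.x i)))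
  let uv : Fin d → T := fun i => t.f (C (D.u i))
  have e1 : hv = Λ.mulVec uv := by
    funext i
    exact D.h_eq t.f t.hE i
  have e2 : uv = βT.mulVec Xv + γT.mulVec hv := by
    funext i
    change t.f (C (D.u i)) = ∑ m, t.f (C (D.β i m)) * t.f (C (D.a₁ (D.x m))) +
      ∑ m, t.f (C (D.γ i m)) * t.f (C (D.h m))
    rw [D.hu, map_add, map_add, map_sum, map_sum, map_sum, map_sum]
    simp only [map_mul]
    rfl
  let M₁ : Matrix (Fin d) (Fin d) T := 1 - Λ * γT
  have hdet : IsUnit M₁.det := by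
    have h2 : ∀ p, residue T (t.f (X p)) = 0 := fun p => (residue_eq_zero_iff _).2 (t.X_mem p)
    have hΛ : (residue T).mapMatrix Λ = 0 := by
      ext i l
      change residue T (t.f (X (i, l)) - t.f (X (l, i))) = 0
      rw [map_sub, h2, h2, sub_zero]
    have h1 : (residue T).mapMatrix M₁ = 1 := by
      rw [show M₁ = 1 - Λ * γT from rfl, map_sub, map_one, map_mul, hΛ, zero_mul, sub_zero]
    have h2 : residue T M₁.det = 1 := by
      rw [RingHom.map_det, h1, Matrix.det_one]
    by_contra hcon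
    have h3 : residue T M₁.det = 0 := (residue_eq_zero_iff _).2 ((mem_maximalIdeal _).2 hcon)
    rw [h2] at h3
    exact one_ne_zero h3
  let η : Matrix (Fin d) (Fin d) T := M₁⁻¹ * (Λ * βT)
  have e3 : M₁ * η = Λ * βT := by
    rw [← Matrix.mul_assoc, Matrix.mul_nonsing_inv _ hdet, Matrix.one_mul]
  have e4 : η = Λ * (βT + γT * η) := by
    have h1 : η - Λ * γT * η = Λ * βT := by
      rw [← e3]
      simp only [M₁, Matrix.sub_mul, Matrix.one_mul]
    rw [Matrix.mul_add, ← Matrix.mul_assoc, ← h1]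
    abel
  have e5 : M₁.mulVec hv = (Λ * βT).mulVec Xv := by
    have h1 : hv = (Λ * βT).mulVec Xv + (Λ * γT).mulVec hv := by
      conv_lhs => rw [e1, e2]
      rw [Matrix.mulVec_add, Matrix.mulVec_mulVec, Matrix.mulVec_mulVec]
    rw [show M₁ = 1 - Λ * γT from rfl, Matrix.sub_mulVec, Matrix.one_mulVec, sub_eq_iff_eq_add]
    exact h1
  have e6 : hv = η.mulVec Xv := by
    have h1 : M₁⁻¹.mulVec (M₁.mulVec hv) = M₁⁻¹.mulVec ((Λ * βT).mulVec Xv) := by rw [e5]
    rw [Matrix.mulVec_mulVec, Matrix.mulVec_mulVec, Matrix.nonsing_inv_mul _ hdet,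
      Matrix.one_mulVec] at h1
    exact h1
  refine ⟨η, fun i => congrFun e6 i, fun i m => ?_, fun i l => (M₁⁻¹ * Λ) i l, fun i m => ?_⟩
  · have h1 := congrFun (congrFun e4 i) m
    rw [Matrix.mul_apply] at h1
    exact h1
  · have h1 : η = M₁⁻¹ * Λ * βT := by rw [Matrix.mul_assoc]
    have h2 := congrFun (congrFun h1 i) m
    rw [Matrix.mul_apply] at h2
    exact h2

end TD

end QData

end Vale.Agent.P177
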