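import Vale.Agent.P177.DQC
import Vale.Agent.P177.DK2

/-!
The height inequality over the residue field of the prime `mT`.
-/

namespace Vale.Agent.P177

open TensorProduct IsLocalRing MvPolynomial RingTheory.Sequence

universe u

namespace QData

variable {d : ℕ} {B Γ : Type u} [CommRing B] [IsRegularLocalRing B] [CommRing Γ]
  [IsRegularLocalRing Γ] {D : QData d B Γ}

section TD

variable {T : Type u} [CommRing T] [IsRegularLocalRing T] (t : D.TD T)

theorem TD.x_mem (i : Fin d) : t.f (C (D.a₁ (D.x i))) ∈ t.m := by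
  rw [TD.m, t.ofList_i₁]
  exact Ideal.subset_span ⟨i, rfl⟩

theorem TD.h_mem_m (i : Fin d) : t.f (C (D.h i)) ∈ t.m := by
  obtain ⟨η, h1, -, -⟩ := t.exists_η
  rw [h1]
  exact Ideal.sum_mem _ fun m _ => Ideal.mul_mem_left _ _ (t.x_mem m)

theorem TD.fC_mem (y : Γ) (hy : y ∈ maximalIdeal Γ) : t.f (C y) ∈ t.m := by
  have h1 : maximalIdeal Γ ≤ t.m.comap (t.f.comp C) := by
    rw [D.maxΓ]
    refine sup_le (sup_le ?_ ?_) ?_
    · rw [Ideal.span_singleton_le_iff_mem]
      change t.f (C (D.a₁ D.G)) ∈ t.m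
      rw [t.hG]
      exact t.m.zero_mem
    · rw [Ideal.span_le]
      rintro _ ⟨i, rfl⟩
      exact t.x_mem i
    · rw [Ideal.span_le]
      rintro _ ⟨i, rfl⟩
      exact t.h_mem_m i
  exact h1 hy

theorem TD.fC_sub_mem (y : Γ) : t.f (C y) - t.i₁ (Ideal.Quotient.mk _ (D.μ y)) ∈ t.m := by
  rw [t.i₁_mk, ← map_sub, ← map_sub]
  apply t.fC_mem
  rw [mem_maximalIdeal, mem_nonunits_iff]
  intro hu
  have h1 := hu.map D.μ
  rw [map_sub, D.μ₁, sub_self] at h1
  exact not_isUnit_zero h1

theorem TD.comap_m : t.m.comap t.f = (maximalIdeal Γ).map C := by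
  classical
  have hm := t.m_prime
  have hp : ((maximalIdeal Γ).map (C : Γ →+* MvPolynomial (Fin d × Fin d) Γ)).IsPrime := by
    have e := MvPolynomial.quotientEquivQuotientMvPolynomial (σ := Fin d × Fin d) (maximalIdeal Γ)
    have hdom : IsDomain (MvPolynomial (Fin d × Fin d) Γ ⧸ (maximalIdeal Γ).map C) :=
      e.symm.toMulEquiv.isDomain _
    exact (Ideal.Quotient.isDomain_iff_prime _).1 hdom
  have hQ : (t.m.comap t.f).IsPrime := Ideal.IsPrime.comap _
  have hle : (maximalIdeal Γ).map C ≤ t.m.comap t.f := by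
    rw [Ideal.map_le_iff_le_comap]
    intro y hy
    exact t.fC_mem y hy
  have h1 : t.m.height ≤ d := by
    have hs : t.m = Ideal.span
        (((Finset.univ : Finset (Fin d)).image (fun i => t.f (C (D.a₁ (D.x i))))) : Set T) := by
      rw [TD.m, t.ofList_i₁]
      congr 1
      simp
    have h2 : t.m ∈ (Ideal.span
        ((((Finset.univ : Finset (Fin d)).image (fun i => t.f (C (D.a₁ (D.x i))))) :
          Finset T) : Set T)).minimalPrimes := by
      rw [← hs]
      exact ⟨⟨hm, le_rfl⟩, fun q hq _ => hq.2⟩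
    refine (Ideal.height_le_card_of_mem_minimalPrimes_span_finset h2).trans ?_
    have h3 := Finset.card_image_le (s := (Finset.univ : Finset (Fin d)))
      (f := fun i => t.f (C (D.a₁ (D.x i))))
    rw [Finset.card_univ, Fintype.card_fin] at h3
    exact_mod_cast h3
  have h2 := t.ht t.m hm
  by_contra hne
  have hlt : (maximalIdeal Γ).map C < t.m.comap t.f := lt_of_le_of_ne hle (Ne.symm hne)
  have h3 := Ideal.height_add_one_le_of_lt_of_isPrime hlt
  have h4 : (2 * d + 1 : ℕ) ≤ ((maximalIdeal Γ).map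
      (C : Γ →+* MvPolynomial (Fin d × Fin d) Γ)).height := by
    have h5 := height_comap_le_of_flat (R := Γ) (S := MvPolynomial (Fin d × Fin d) Γ)
      ((maximalIdeal Γ).map C)
    have h6 : ((maximalIdeal Γ).map C).comap (algebraMap Γ (MvPolynomial (Fin d × Fin d) Γ)) =
        maximalIdeal Γ := by
      apply le_antisymm
      · apply le_maximalIdeal
        exact Ideal.comap_ne_top _ hp.ne_top
      · exact Ideal.le_comap_map
    rw [h6] at h5
    have h7 : ((maximalIdeal Γ).height : WithBot ℕ∞) = ((2 * d + 1 : ℕ) : WithBot ℕ∞) := by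
      rw [IsLocalRing.maximalIdeal_height_eq_ringKrullDim, D.dimΓ]
    have h8 : (maximalIdeal Γ).height = ((2 * d + 1 : ℕ) : ℕ∞) := WithBot.coe_injective h7
    rwa [h8] at h5
  have h5 : ((2 * d + 1 : ℕ) : ℕ∞) + 1 ≤ (d : ℕ∞) + ((d + 1 : ℕ) : ℕ∞) :=
    (add_le_add_left h4 1).trans (h3.trans (h2.trans (add_le_add_left h1 _)))
  have h6 : 2 * d + 1 + 1 ≤ d + (d + 1) := by exact_mod_cast h5
  omega

theorem TD.height_K {k K : Type u} [Field k] [Field K] [Algebra k K] (κ : T →+* K)
    (hκ : RingHom.ker κ = t.m) (ρ : B ⧸ Ideal.span {D.G} →+* k) (hρs : Function.Surjective ρ)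
    (hρ : ∀ r, algebraMap k K (ρ r) = κ (t.i₁ r)) (η : Matrix (Fin d) (Fin d) T)
    (hη : ∀ i m, η i m = ∑ l, (t.f (X (i, l)) - t.f (X (l, i))) *
      (t.f (C (D.β l m)) + ∑ j, t.f (C (D.γ l j)) * η j m))
    (θ : Fin d → Fin d → K) (hθ : ∀ i m, θ i m = (if i = m then 1 else 0) + κ (η i m))
    (z : Ideal (MvPolynomial (Fin d) K)) [z.IsPrime] (hz : ∃ l,
      ∑ m, C (κ (t.f (C (D.β l m)))) * (X m : MvPolynomial (Fin d) K) ∉ z) :
    (z.comap (aeval X : MvPolynomial (Fin d) k →ₐ[k] MvPolynomial (Fin d) K)).height +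
      (z.comap (aeval (fun i => ∑ l, C (θ i l) * X l) :
        MvPolynomial (Fin d) k →ₐ[k] MvPolynomial (Fin d) K)).height ≤ z.height + 1 := by
  have hκm : ∀ y ∈ t.m, κ y = 0 := fun y hy => by
    rw [← hκ] at hy
    exact hy
  let τ : Γ →+* k := (ρ.comp (Ideal.Quotient.mk _)).comp D.μ
  have hκC : ∀ y : Γ, κ (t.f (C y)) = algebraMap k K (τ y) := by
    intro y
    have h1 := hκm _ (t.fC_sub_mem y)
    rw [map_sub, sub_eq_zero] at h1
    rw [h1, ← hρ]
    rfl
  have hτs : Function.Surjective τ := by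
    intro a
    obtain ⟨r, rfl⟩ := hρs a
    obtain ⟨b, rfl⟩ := Ideal.Quotient.mk_surjective r
    exact ⟨D.a₁ b, by simp [τ, D.μ₁]⟩
  refine height_orthogonal (k := k) (K := K) (fun p => κ (t.f (X p))) ?_
    (fun l m => τ (D.β l m)) (fun l m => τ (D.γ l m)) θ ?_ z
    (by simpa only [hκC] using hz)
  · rw [injective_iff_map_eq_zero]
    intro p hp
    obtain ⟨q, rfl⟩ := MvPolynomial.map_surjective τ hτs p
    have h1 : κ (t.f q) = 0 := by
      have h2 : (κ.comp t.f) = ((aeval (fun p => κ (t.f (X p))) :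
          MvPolynomial (Fin d × Fin d) k →ₐ[k] K) : MvPolynomial (Fin d × Fin d) k →+* K).comp
            (MvPolynomial.map τ) := by
        apply MvPolynomial.ringHom_ext
        · intro y
          simp [hκC]
        · intro p
          simp
      have h3 := RingHom.congr_fun h2 q
      rw [RingHom.comp_apply] at h3
      rw [h3]
      exact hp
    have h2 : q ∈ t.m.comap t.f := by
      rw [Ideal.mem_comap, ← hκ]
      exact h1
    rw [t.comap_m, MvPolynomial.mem_map_C_iff] at h2
    ext m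
    rw [MvPolynomial.coeff_map, MvPolynomial.coeff_zero]
    have h3 := h2 m
    by_contra hne
    -- `τ` kills the maximal ideal
    have h5 : ¬ IsUnit (coeff m q) := (mem_maximalIdeal _).1 h3
    apply h5
    have hμ : IsUnit (D.μ (coeff m q)) := by
      by_contra hcon
      apply hne
      have h6 : D.μ (coeff m q) ∈ maximalIdeal B := (mem_maximalIdeal _).2 hcon
      have hkerρ : RingHom.ker (ρ.comp (Ideal.Quotient.mk (Ideal.span {D.G}))) =
          maximalIdeal B := by
        apply IsLocalRing.eq_maximalIdeal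
        exact RingHom.ker_isMaximal_of_surjective _
          (hρs.comp Ideal.Quotient.mk_surjective)
      have h7 : D.μ (coeff m q) ∈ RingHom.ker (ρ.comp (Ideal.Quotient.mk (Ideal.span {D.G}))) := by
        rw [hkerρ]
        exact h6
      exact h7
    have hloc : IsLocalHom D.μ :=
      IsLocalHom.of_surjective D.μ (fun b => ⟨D.a₁ b, D.μ₁ b⟩)
    exact isUnit_of_map_unit D.μ _ hμ
  · intro i m
    have h1 : ∀ i m, θ i m - (if i = m then 1 else 0) = κ (η i m) := by
      intro i m
      rw [hθ, add_sub_cancel_left]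
    rw [h1, hη, map_sum]
    refine Finset.sum_congr rfl fun l _ => ?_
    rw [map_mul, map_sub, map_add, map_sum, hκC]
    simp only [h1, map_mul, hκC]

end TD

end QData

end Vale.Agent.P177
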