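import Vale.Agent.P177.DHeight
import Vale.Agent.P177.DFlat

/-!
Quotients of the localization of a polynomial ring over a local ring at the origin.
-/

namespace Vale.Agent.P177

open TensorProduct IsLocalRing MvPolynomial

universe u

theorem sub_C_constantCoeff_mem {ι : Type*} {Γ : Type*} [CommRing Γ] (p : MvPolynomial ι Γ) :
    p - C (constantCoeff p) ∈ Ideal.span (Set.range (X : ι → MvPolynomial ι Γ)) := by
  induction p using MvPolynomial.induction_on with
  | C a => simp
  | add p q hp hq =>
    have := Ideal.add_mem _ hp hq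
    rw [map_add, map_add]
    convert this using 1
    ring
  | mul_X p i _ =>
    rw [map_mul, constantCoeff_X, mul_zero, map_zero, sub_zero]
    exact Ideal.mul_mem_left _ _ (Ideal.subset_span ⟨i, rfl⟩)

theorem comap_constantCoeff_eq {ι : Type*} {Γ : Type*} [CommRing Γ] (I : Ideal Γ) :
    I.comap (constantCoeff : MvPolynomial ι Γ →+* Γ) =
      I.map C ⊔ Ideal.span (Set.range (X : ι → MvPolynomial ι Γ)) := by
  apply le_antisymm
  · intro p hp
    rw [Ideal.mem_comap] at hp
    have h1 := Ideal.add_mem _ (Ideal.mem_sup_right (sub_C_constantCoeff_mem p))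
      (Ideal.mem_sup_left (Ideal.mem_map_of_mem (C : Γ →+* MvPolynomial ι Γ) hp))
    rwa [sub_add_cancel] at h1
  · refine sup_le ?_ ?_
    · rw [Ideal.map_le_iff_le_comap]
      intro a ha
      rw [Ideal.mem_comap, Ideal.mem_comap, constantCoeff_C]
      exact ha
    · rw [Ideal.span_le]
      rintro _ ⟨i, rfl⟩
      rw [SetLike.mem_coe, Ideal.mem_comap, constantCoeff_X]
      exact I.zero_mem

theorem exists_local_quotient {Γ : Type u} [CommRing Γ] [IsLocalRing Γ] [IsNoetherianRing Γ]
    (ι : Type) [Fintype ι] (g : ℕ) (hg : ringKrullDim Γ = (g : WithBot ℕ∞)) (n : ℕ)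
    (E : Fin n → MvPolynomial ι Γ) (hE : ∀ i, constantCoeff (E i) ∈ maximalIdeal Γ) :
    ∃ (T : Type u) (_ : CommRing T) (_ : IsLocalRing T) (_ : IsNoetherianRing T)
      (f : MvPolynomial ι Γ →+* T),
      (∀ i, f (E i) = 0) ∧
      maximalIdeal T = (maximalIdeal Γ).map (f.comp C) ⊔
        Ideal.span (Set.range (fun i => f (X i))) ∧
      ((g + Fintype.card ι : ℕ) : WithBot ℕ∞) ≤ ringKrullDim T + n ∧
      (∀ Q : Ideal T, Q.IsPrime → (Q.comap f).height ≤ Q.height + n) ∧
      (∀ (R' : Type u) [CommRing R'] (φ : MvPolynomial ι Γ →+* R'), (∀ i, φ (E i) = 0) →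
        (∀ p, constantCoeff p ∉ maximalIdeal Γ → IsUnit (φ p)) →
        ∃ ν : T →+* R', ν.comp f = φ) := by
  classical
  let P := MvPolynomial ι Γ
  let 𝔐 : Ideal P := (maximalIdeal Γ).comap constantCoeff
  have hM : 𝔐.IsPrime := Ideal.IsPrime.comap _
  let S := Localization.AtPrime 𝔐
  have hSN : IsNoetherianRing S := IsLocalization.isNoetherianRing 𝔐.primeCompl S inferInstance
  have hms : maximalIdeal S = 𝔐.map (algebraMap P S) :=
    (IsLocalization.AtPrime.map_eq_maximalIdeal 𝔐 S).symm
  let s : Finset S := Finset.univ.image (fun i => algebraMap P S (E i))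
  have hcard : s.card ≤ n := by
    refine Finset.card_image_le.trans ?_
    simp
  let J : Ideal S := Ideal.span (s : Set S)
  have hsm : (s : Set S) ⊆ maximalIdeal S := by
    intro y hy
    simp only [s, Finset.coe_image, Finset.coe_univ, Set.image_univ, Set.mem_range] at hy
    obtain ⟨i, rfl⟩ := hy
    rw [hms]
    exact Ideal.mem_map_of_mem _ (hE i)
  have hJ : J ≤ maximalIdeal S := Ideal.span_le.2 hsm
  have hJtop : J ≠ ⊤ := fun h => (maximalIdeal.isMaximal S).ne_top (top_le_iff.1 (h ▸ hJ))
  have hnt : Nontrivial (S ⧸ J) := Ideal.Quotient.nontrivial_iff.2 hJtop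
  have hloc : IsLocalRing (S ⧸ J) :=
    .of_surjective' (Ideal.Quotient.mk J) Ideal.Quotient.mk_surjective
  let f : P →+* S ⧸ J := (Ideal.Quotient.mk J).comp (algebraMap P S)
  refine ⟨S ⧸ J, inferInstance, hloc, inferInstance, f, ?_, ?_, ?_, ?_, ?_⟩
  · intro i
    apply Ideal.Quotient.eq_zero_iff_mem.2
    apply Ideal.subset_span
    simp only [s, Finset.coe_image, Finset.coe_univ, Set.image_univ]
    exact ⟨i, rfl⟩
  · have hmT : (maximalIdeal S).map (Ideal.Quotient.mk J) = maximalIdeal (S ⧸ J) :=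
      map_maximalIdeal_of_surjective _ Ideal.Quotient.mk_surjective
    rw [← hmT, hms, Ideal.map_map]
    change Ideal.map f 𝔐 = _
    have h1 : Ideal.map f 𝔐 = Ideal.map f ((maximalIdeal Γ).map C ⊔
        Ideal.span (Set.range (X : ι → MvPolynomial ι Γ))) :=
      congrArg (Ideal.map f) (comap_constantCoeff_eq (maximalIdeal Γ))
    rw [h1, Ideal.map_sup, Ideal.map_map, Ideal.map_span, ← Set.range_comp]
    rfl
  · have h1 : ((g + Fintype.card ι : ℕ) : ℕ∞) ≤ 𝔐.height := by
      have h2 := elim_fintype 𝔐 (fun _ => 0) 1 (by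
        change constantCoeff (C 1) ∉ maximalIdeal Γ
        rw [constantCoeff_C]
        exact (Ideal.ne_top_iff_one _).1 (maximalIdeal.isMaximal Γ).ne_top) (fun i => by
        change constantCoeff (C 0 - C 1 * X i) ∈ maximalIdeal Γ
        simp)
      have h3 : 𝔐.comap C = maximalIdeal Γ := by
        ext a
        change constantCoeff (C a) ∈ maximalIdeal Γ ↔ _
        rw [constantCoeff_C]
      rw [h3] at h2
      have h4 : ((maximalIdeal Γ).height : WithBot ℕ∞) = (g : WithBot ℕ∞) := by
        rw [IsLocalRing.maximalIdeal_height_eq_ringKrullDim, hg]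
      have h5 : (maximalIdeal Γ).height = (g : ℕ∞) := by exact_mod_cast h4
      rw [h5] at h2
      exact_mod_cast h2
    have h2 : ringKrullDim S = 𝔐.height := IsLocalization.AtPrime.ringKrullDim_eq_height 𝔐 S
    have h3 := ringKrullDim_le_ringKrullDim_quotient_add_card s (by
      rw [IsLocalRing.ringJacobson_eq_maximalIdeal]
      exact hsm)
    rw [h2] at h3
    calc ((g + Fintype.card ι : ℕ) : WithBot ℕ∞) ≤ (𝔐.height : WithBot ℕ∞) := by
          exact_mod_cast h1
      _ ≤ ringKrullDim (S ⧸ J) + s.card := h3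
      _ ≤ ringKrullDim (S ⧸ J) + n := by
          gcongr
  · intro Q hQ
    have hQS : (Q.comap (Ideal.Quotient.mk J)).IsPrime := Ideal.IsPrime.comap _
    have h1 := Ideal.height_le_height_add_encard_of_subset (s : Set S)
      (p := Q.comap (Ideal.Quotient.mk J)) (by
        intro y hy
        rw [SetLike.mem_coe, Ideal.mem_comap, Ideal.Quotient.eq_zero_iff_mem.2
          (Ideal.subset_span hy)]
        exact Q.zero_mem)
    have h2 : (Q.comap (Ideal.Quotient.mk J)).map (Ideal.Quotient.mk J) = Q :=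
      Ideal.map_comap_of_surjective _ Ideal.Quotient.mk_surjective _
    have h3 : ((Q.comap (Ideal.Quotient.mk J)).under P).height =
        (Q.comap (Ideal.Quotient.mk J)).height :=
      IsLocalization.height_under 𝔐.primeCompl _
    have h4 : (Q.comap (Ideal.Quotient.mk J)).under P = Q.comap f := rfl
    rw [← h4, h3]
    refine h1.trans ?_
    have h5 : (s : Set S).encard ≤ n := by
      rw [Set.encard_coe_eq_coe_finsetCard]
      exact_mod_cast hcard
    change ((Q.comap (Ideal.Quotient.mk J)).map (Ideal.Quotient.mk J)).height + _ ≤ _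
    rw [h2]
    exact add_le_add_right h5 _
  · intro R' _ φ hφ hu
    let ψ : S →+* R' := IsLocalization.lift (M := 𝔐.primeCompl) (g := φ) (fun y => hu y.1 y.2)
    have hψ : ∀ p, ψ (algebraMap P S p) = φ p := fun p => IsLocalization.lift_eq _ p
    have hJψ : ∀ a ∈ J, ψ a = 0 := by
      intro a ha
      have h1 : J ≤ RingHom.ker ψ := by
        rw [Ideal.span_le]
        intro y hy
        simp only [s, Finset.coe_image, Finset.coe_univ, Set.image_univ, Set.mem_range] at hy
        obtain ⟨i, rfl⟩ := hy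
        rw [SetLike.mem_coe, RingHom.mem_ker, hψ, hφ]
      exact h1 ha
    refine ⟨Ideal.Quotient.lift J ψ hJψ, ?_⟩
    apply RingHom.ext
    intro p
    change Ideal.Quotient.lift J ψ hJψ (Ideal.Quotient.mk J (algebraMap P S p)) = φ p
    rw [Ideal.Quotient.lift_mk, hψ]

end Vale.Agent.P177
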