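import Vale.Agent.P177.GlobalPosLoc

/-!
Local positivity at a prime lying over the maximal ideals.
-/

namespace Vale.Agent.P177

open CategoryTheory TensorProduct Function IsLocalRing RingTheory.Sequence Pointwise

universe u

section

theorem supportDim_atUnits {R L : Type u} [CommRing R] [CommRing L] [Algebra R L]
    (e : R ≃ₐ[R] L) (N : Type u) [AddCommGroup N] [Module R N] [Module.Finite R N] :
    Module.supportDim L (L ⊗[R] N) = Module.supportDim R N := by
  have hs : Surjective (algebraMap R L) := fun y => ⟨e.symm y, by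
    have := e.commutes (e.symm y)
    rw [← this]
    simp⟩
  let f : N ≃ₗ[R] L ⊗[R] N := (TensorProduct.lid R N).symm ≪≫ₗ
    TensorProduct.congr e.toLinearEquiv (LinearEquiv.refl R N)
  have hfin : Module.Finite R (L ⊗[R] N) := Module.Finite.equiv f
  rw [← supportDim_eq_of_surjective hs, ← Module.supportDim_eq_of_equiv f]

variable {R₁ R₂ T : Type u} [CommRing R₁] [CommRing R₂] [CommRing T]
    [IsRegularLocalRing R₁] [IsRegularLocalRing R₂] [IsRegularLocalRing T]
    [Algebra R₁ T] [Algebra R₂ T] [Module.Flat R₁ T] [Module.Flat R₂ T]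

theorem locPosAt_top (N M : Type u) [AddCommGroup N] [Module R₁ N] [Module.Finite R₁ N]
    [AddCommGroup M] [Module R₂ M] [Module.Finite R₂ M] (Q : Ideal T) [Q.IsPrime]
    (h₁ : Q.comap (algebraMap R₁ T) = maximalIdeal R₁)
    (h₂ : Q.comap (algebraMap R₂ T) = maximalIdeal R₂) (d : ℕ)
    (hd₁ : ringKrullDim R₁ = d) (hd₂ : ringKrullDim R₂ = d)
    (hdW : ringKrullDim (Localization.AtPrime Q) = d)
    (hW : (∀ e g : ℕ, (e : WithBot ℕ∞) ≤ Module.supportDim R₁ N →
        (g : WithBot ℕ∞) ≤ Module.supportDim R₂ M → e + g ≤ d) ∧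
      0 ≤ eulerTor (Localization.AtPrime Q) (d + 1) (Localization.AtPrime Q ⊗[R₁] N)
        (Localization.AtPrime Q ⊗[R₂] M) ∧
      (∀ e g : ℕ, (e : WithBot ℕ∞) ≤ Module.supportDim R₁ N →
        (g : WithBot ℕ∞) ≤ Module.supportDim R₂ M → d ≤ e + g →
        0 < eulerTor (Localization.AtPrime Q) (d + 1) (Localization.AtPrime Q ⊗[R₁] N)
          (Localization.AtPrime Q ⊗[R₂] M))) :
    LocPosAt (T := T) R₁ R₂ N M Q := by
  intro L₁ L₂ _ _ _ _ _ _ D₁ D₂ r₁ r₂ q b k₁ k₂ kq hrb _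
  have i1 := D₁.isloc
  have i2 := D₂.isloc
  have i3 := D₁.tower
  have i4 := D₂.tower
  have u₁ : (Q.comap (algebraMap R₁ T)).primeCompl ≤ IsUnit.submonoid R₁ := by
    intro x hx
    by_contra hcon
    apply hx
    change x ∈ Q.comap (algebraMap R₁ T)
    rw [h₁]
    exact (mem_maximalIdeal _).2 hcon
  have u₂ : (Q.comap (algebraMap R₂ T)).primeCompl ≤ IsUnit.submonoid R₂ := by
    intro x hx
    by_contra hcon
    apply hx
    change x ∈ Q.comap (algebraMap R₂ T)
    rw [h₂]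
    exact (mem_maximalIdeal _).2 hcon
  let e₁ : R₁ ≃ₐ[R₁] L₁ := IsLocalization.atUnits R₁ _ u₁
  let e₂ : R₂ ≃ₐ[R₂] L₂ := IsLocalization.atUnits R₂ _ u₂
  have s₁ : Module.supportDim L₁ (L₁ ⊗[R₁] N) = Module.supportDim R₁ N := supportDim_atUnits e₁ N
  have s₂ : Module.supportDim L₂ (L₂ ⊗[R₂] M) = Module.supportDim R₂ M := supportDim_atUnits e₂ M
  have g₁ : r₁ = d := by
    rw [← ringKrullDim_eq_of_ringEquiv e₁.toRingEquiv, hd₁] at k₁
    exact_mod_cast k₁.symm
  have g₂ : r₂ = d := by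
    rw [← ringKrullDim_eq_of_ringEquiv e₂.toRingEquiv, hd₂] at k₂
    exact_mod_cast k₂.symm
  have g₃ : q = d := by
    rw [hdW] at kq
    exact_mod_cast kq.symm
  have g₄ : b = d := by omega
  subst g₃ g₄
  let c₁ : (Localization.AtPrime Q ⊗[L₁] (L₁ ⊗[R₁] N)) ≃ₗ[Localization.AtPrime Q]
      (Localization.AtPrime Q ⊗[R₁] N) :=
    AlgebraTensorModule.cancelBaseChange R₁ L₁ (Localization.AtPrime Q) (Localization.AtPrime Q) N
  let c₂ : (Localization.AtPrime Q ⊗[L₂] (L₂ ⊗[R₂] M)) ≃ₗ[Localization.AtPrime Q]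
      (Localization.AtPrime Q ⊗[R₂] M) :=
    AlgebraTensorModule.cancelBaseChange R₂ L₂ (Localization.AtPrime Q) (Localization.AtPrime Q) M
  rw [s₁, s₂, eulerTor_congr c₁ c₂]
  exact hW

end

end Vale.Agent.P177
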