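import Vale.Agent.P177.CFlatCrit

/-!
Flatness of a noetherian completion of a flat algebra.
-/

namespace Vale.Agent.P177

open IsLocalRing Function TensorProduct

universe u

section approx

variable {R A S : Type u} [CommRing R] [IsLocalRing R] [IsNoetherianRing R] [CommRing A]
  [Algebra R A] [Module.Flat R A] [CommRing S] [IsLocalRing S] [IsNoetherianRing S]
  [Algebra A S] [Algebra R S] [IsScalarTower R A S] {d : ℕ} {x : Fin d → R}

omit [IsNoetherianRing R] in
theorem exists_sum_tmul (hx : ∀ i, x i ∈ maximalIdeal R)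
    (hspan : Ideal.span (Set.range x) = maximalIdeal R) (N : Type u) [AddCommGroup N] [Module R N]
    (ξ : N ⊗[R] maximalIdeal R) :
    ∃ s : Fin d → N, ξ = ∑ i, s i ⊗ₜ[R] (⟨x i, hx i⟩ : maximalIdeal R) := by
  induction ξ with
  | zero => exact ⟨0, by simp⟩
  | add a b ha hb =>
    obtain ⟨s, rfl⟩ := ha
    obtain ⟨t, rfl⟩ := hb
    refine ⟨s + t, ?_⟩
    rw [← Finset.sum_add_distrib]
    exact Finset.sum_congr rfl fun i _ => by rw [Pi.add_apply, add_tmul]
  | tmul n m =>
    have hm : (m : R) ∈ Ideal.span (Set.range x) := by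
      rw [hspan]
      exact m.2
    rw [Ideal.mem_span_range_iff_exists_fun] at hm
    obtain ⟨c, hc⟩ := hm
    refine ⟨fun i => c i • n, ?_⟩
    have h1 : m = ∑ i, c i • (⟨x i, hx i⟩ : maximalIdeal R) := by
      apply Subtype.ext
      rw [← hc, AddSubmonoidClass.coe_finsetSum]
      rfl
    calc n ⊗ₜ[R] m = n ⊗ₜ[R] ∑ i, c i • (⟨x i, hx i⟩ : maximalIdeal R) := by rw [← h1]
      _ = _ := by
        rw [tmul_sum]
        refine Finset.sum_congr rfl fun i _ => ?_
        rw [tmul_smul, smul_tmul']

omit [IsNoetherianRing R] [Module.Flat R A] in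
theorem sum_mem_pow_succ (hspan : Ideal.span (Set.range x) = maximalIdeal R) (n : ℕ) (y : A)
    (hy : y ∈ ((maximalIdeal R) ^ (n + 1)).map (algebraMap R A)) :
    ∃ b : Fin d → A, (∀ i, b i ∈ ((maximalIdeal R) ^ n).map (algebraMap R A)) ∧
      y = ∑ i, x i • b i := by
  rw [pow_succ', Ideal.map_mul] at hy
  have h1 : (maximalIdeal R).map (algebraMap R A) =
      Ideal.span (Set.range fun i => algebraMap R A (x i)) := by
    rw [← hspan, Ideal.map_span, ← Set.range_comp]
    rfl
  rw [h1] at hy
  refine Submodule.mul_induction_on hy ?_ ?_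
  · intro a ha b hb
    rw [Ideal.mem_span_range_iff_exists_fun] at ha
    obtain ⟨c, rfl⟩ := ha
    refine ⟨fun i => c i * b, fun i => Ideal.mul_mem_left _ _ hb, ?_⟩
    rw [Finset.sum_mul]
    refine Finset.sum_congr rfl fun i _ => ?_
    rw [Algebra.smul_def]
    ring
  · rintro a b ⟨f, hf, rfl⟩ ⟨g, hg, rfl⟩
    refine ⟨f + g, fun i => add_mem (hf i) (hg i), ?_⟩
    rw [← Finset.sum_add_distrib]
    exact Finset.sum_congr rfl fun i _ => by rw [Pi.add_apply, smul_add]

theorem flat_of_approx (hspan : Ideal.span (Set.range x) = maximalIdeal R)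
    (hm : (maximalIdeal R).map (algebraMap R S) = maximalIdeal S)
    (happ : ∀ (n : ℕ) (s : S), ∃ a : A, s - algebraMap A S a ∈
      ((maximalIdeal R) ^ n).map (algebraMap R S))
    (hcl : ∀ (n : ℕ) (a : A), algebraMap A S a ∈ ((maximalIdeal R) ^ n).map (algebraMap R S) →
      a ∈ ((maximalIdeal R) ^ n).map (algebraMap R A)) : Module.Flat R S := by
  have hx : ∀ i, x i ∈ maximalIdeal R := fun i => hspan ▸ Ideal.subset_span ⟨i, rfl⟩
  have hl : IsLocalHom (algebraMap R S) :=
    ((IsLocalRing.local_hom_TFAE (algebraMap R S)).out 0 2).2 hm.le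
  apply flat_of_tor_residue
  have hex : Exact (maximalIdeal R).subtype (maximalIdeal R).mkQ := by
    intro y
    rw [Submodule.mkQ_apply, Submodule.Quotient.mk_eq_zero]
    simp
  obtain ⟨e1⟩ := tor_one (maximalIdeal R).subtype (maximalIdeal R).mkQ
    (Submodule.injective_subtype _) (Submodule.mkQ_surjective _) hex S
  obtain ⟨e2⟩ := ker_comm (N := S) (maximalIdeal R).subtype
  have hinj : ∀ ξ : S ⊗[R] maximalIdeal R,
      (maximalIdeal R).subtype.lTensor S ξ = 0 → ξ = 0 := by
    intro ξ hξ
    obtain ⟨s, rfl⟩ := exists_sum_tmul hx hspan S ξ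
    have h0 : ∑ i, x i • s i = 0 := by
      have h1 := congrArg (TensorProduct.rid R S) hξ
      rw [map_zero, map_sum, map_sum] at h1
      rw [← h1]
      refine Finset.sum_congr rfl fun i _ => ?_
      rw [LinearMap.lTensor_tmul, TensorProduct.rid_tmul]
      rfl
    have key : ∀ n : ℕ, (∑ i, s i ⊗ₜ[R] (⟨x i, hx i⟩ : maximalIdeal R)) ∈
        (maximalIdeal S ^ n • ⊤ : Submodule S (S ⊗[R] maximalIdeal R)) := by
      intro n
      choose a ha using fun i => happ n (s i)
      have h1 : algebraMap A S (∑ i, x i • a i) ∈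
          ((maximalIdeal R) ^ (n + 1)).map (algebraMap R S) := by
        have h2 : algebraMap A S (∑ i, x i • a i) =
            - ∑ i, algebraMap R S (x i) * (s i - algebraMap A S (a i)) := by
          have h3 : ∑ i, algebraMap R S (x i) * s i = 0 := by
            rw [← h0]
            exact Finset.sum_congr rfl fun i _ => by rw [Algebra.smul_def]
          simp only [mul_sub, Finset.sum_sub_distrib]
          rw [h3, zero_sub, neg_neg, map_sum]
          refine Finset.sum_congr rfl fun i _ => ?_
          rw [Algebra.smul_def, map_mul, ← IsScalarTower.algebraMap_apply]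
        rw [h2]
        refine neg_mem (Ideal.sum_mem _ fun i _ => ?_)
        rw [pow_succ', Ideal.map_mul]
        exact Ideal.mul_mem_mul (Ideal.mem_map_of_mem _ (hx i)) (ha i)
      obtain ⟨b, hb, h2⟩ := sum_mem_pow_succ hspan n _ (hcl (n + 1) _ h1)
      have h3 : ∑ i, (a i - b i) ⊗ₜ[R] (⟨x i, hx i⟩ : maximalIdeal R) = 0 := by
        have h4 : Injective ((maximalIdeal R).subtype.lTensor A) :=
          Module.Flat.lTensor_preserves_injective_linearMap _ (Submodule.injective_subtype _)
        apply h4
        apply (TensorProduct.rid R A).injective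
        rw [map_zero, map_zero, map_sum, map_sum]
        have h5 : ∑ i, x i • (a i - b i) = 0 := by
          simp only [smul_sub, Finset.sum_sub_distrib]
          rw [h2, sub_self]
        rw [← h5]
        refine Finset.sum_congr rfl fun i _ => ?_
        rw [LinearMap.lTensor_tmul, TensorProduct.rid_tmul]
        rfl
      have h4 : ∑ i, algebraMap A S (a i - b i) ⊗ₜ[R] (⟨x i, hx i⟩ : maximalIdeal R) = 0 := by
        have h5 := congrArg ((Algebra.linearMap A S).restrictScalars R |>.rTensor
          (maximalIdeal R)) h3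
        rw [map_zero, map_sum] at h5
        exact h5
      have h5 : (∑ i, s i ⊗ₜ[R] (⟨x i, hx i⟩ : maximalIdeal R)) =
          ∑ i, (s i - algebraMap A S (a i - b i)) ⊗ₜ[R] (⟨x i, hx i⟩ : maximalIdeal R) := by
        simp only [sub_tmul, Finset.sum_sub_distrib]
        rw [h4, sub_zero]
      rw [h5]
      refine Submodule.sum_mem _ fun i _ => ?_
      have h6 : (s i - algebraMap A S (a i - b i)) ⊗ₜ[R] (⟨x i, hx i⟩ : maximalIdeal R) =
          (s i - algebraMap A S (a i - b i)) •
            ((1 : S) ⊗ₜ[R] (⟨x i, hx i⟩ : maximalIdeal R)) := by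
        rw [smul_tmul', smul_eq_mul, mul_one]
      rw [h6]
      refine Submodule.smul_mem_smul ?_ Submodule.mem_top
      have h7 : s i - algebraMap A S (a i - b i) =
          (s i - algebraMap A S (a i)) + algebraMap A S (b i) := by
        rw [map_sub]
        ring
      rw [h7, ← hm, ← Ideal.map_pow]
      refine add_mem (ha i) ?_
      have h8 := Ideal.mem_map_of_mem (algebraMap A S) (hb i)
      rw [Ideal.map_map, ← IsScalarTower.algebraMap_eq] at h8
      exact h8
    have hfin : Module.Finite S (S ⊗[R] maximalIdeal R) := inferInstance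
    have hH : IsHausdorff (maximalIdeal S) (S ⊗[R] maximalIdeal R) := inferInstance
    apply hH.haus
    intro n
    rw [SModEq.zero]
    exact key n
  have hsub : Subsingleton (LinearMap.ker ((maximalIdeal R).subtype.lTensor S)) := by
    refine ⟨fun u v => ?_⟩
    apply Subtype.ext
    rw [hinj u.1 u.2, hinj v.1 v.2]
  exact (e1 ≪≫ₗ e2).toEquiv.subsingleton

end approx

end Vale.Agent.P177
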