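import Vale.Agent.P177.EQuot

/-!
Serre's statements for modules over a regular quotient of a regular local ring: induction on the
codimension.
-/

namespace Vale.Agent.P177

open CategoryTheory TensorProduct Function IsLocalRing
open scoped Pointwise

universe u

section ker

variable {R R' : Type u} [CommRing R] [IsRegularLocalRing R] [CommRing R'] [IsRegularLocalRing R']

theorem exists_mem_ker_notMem_sq (φ : R →+* R') (hφ : Surjective φ)
    (h : ringKrullDim R' < ringKrullDim R) :
    ∃ f ∈ RingHom.ker φ, f ∈ maximalIdeal R ∧ f ∉ maximalIdeal R ^ 2 := by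
  classical
  by_contra hcon
  push Not at hcon
  have hkm : RingHom.ker φ ≤ maximalIdeal R := le_maximalIdeal (RingHom.ker_ne_top φ)
  have hk2 : RingHom.ker φ ≤ maximalIdeal R ^ 2 := fun f hf => hcon f hf (hkm hf)
  obtain ⟨s, hcard, hs⟩ := Submodule.FG.exists_span_finset_card_eq_spanFinrank
    ((maximalIdeal R').fg_of_isNoetherianRing)
  change Ideal.span (s : Set R') = maximalIdeal R' at hs
  choose g hg using hφ
  have hloc : maximalIdeal R = (maximalIdeal R').comap φ := by
    have : IsLocalHom φ := .of_surjective φ (fun y => ⟨g y, hg y⟩)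
    have h9 : (maximalIdeal R').comap φ = maximalIdeal R :=
      ((IsLocalRing.local_hom_TFAE φ).out 0 4).1 this
    exact h9.symm
  have hle : maximalIdeal R ≤ Ideal.span ((s.image g : Finset R) : Set R) ⊔
      maximalIdeal R • maximalIdeal R := by
    intro x hx
    rw [hloc, Ideal.mem_comap, ← hs] at hx
    have hmap : (Ideal.span ((s.image g : Finset R) : Set R)).map φ =
        Ideal.span (s : Set R') := by
      rw [Ideal.map_span, Finset.coe_image, ← Set.image_comp]
      congr 1
      ext y
      constructor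
      · rintro ⟨z, hz, rfl⟩
        rw [Function.comp_apply, hg]
        exact hz
      · intro hy
        exact ⟨y, hy, hg y⟩
    rw [← hmap] at hx
    obtain ⟨y, hy, hyx⟩ := (Ideal.mem_map_iff_of_surjective φ (fun y => ⟨g y, hg y⟩)).1 hx
    have h1 : x - y ∈ RingHom.ker φ := by
      rw [RingHom.mem_ker, map_sub, hyx, sub_self]
    have h3 : x = y + (x - y) := by ring
    rw [h3]
    refine Submodule.add_mem_sup hy ?_
    rw [smul_eq_mul, ← pow_two]
    exact hk2 h1
  have hle2 : maximalIdeal R ≤ Ideal.span ((s.image g : Finset R) : Set R) :=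
    Submodule.le_of_le_smul_of_le_jacobson_bot ((maximalIdeal R).fg_of_isNoetherianRing)
      (IsLocalRing.maximalIdeal_le_jacobson ⊥) hle
  have hge : Ideal.span ((s.image g : Finset R) : Set R) ≤ maximalIdeal R := by
    rw [Ideal.span_le]
    intro x hx
    rw [Finset.coe_image] at hx
    obtain ⟨y, hy, rfl⟩ := hx
    change g y ∈ maximalIdeal R
    rw [hloc, Ideal.mem_comap, hg, ← hs]
    exact Ideal.subset_span hy
  have heq : Ideal.span ((s.image g : Finset R) : Set R) = maximalIdeal R :=
    le_antisymm hge hle2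
  have h5 : (maximalIdeal R).spanFinrank ≤ (s.image g).card := by
    rw [← heq]
    exact (Submodule.spanFinrank_span_le_ncard_of_finite (Finset.finite_toSet _)).trans
      (by rw [Set.ncard_coe_finset])
  have h6 : (s.image g).card ≤ (maximalIdeal R').spanFinrank := hcard ▸ Finset.card_image_le
  rw [exists_nat_ringKrullDim R, exists_nat_ringKrullDim R'] at h
  have h7 : (maximalIdeal R').spanFinrank < (maximalIdeal R).spanFinrank := by exact_mod_cast h
  omega

omit [IsRegularLocalRing R'] in
theorem ker_eq_bot_of_dim_eq (φ : R →+* R') (hφ : Surjective φ)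
    (h : ringKrullDim R' = ringKrullDim R) : RingHom.ker φ = ⊥ := by
  have hdom : IsDomain R := regular_isDomain R
  by_contra hne
  obtain ⟨f, hf, hf0⟩ := Submodule.exists_mem_ne_zero_of_ne_bot hne
  have h1 : ringKrullDim (R ⧸ Ideal.span {f}) + 1 ≤ ringKrullDim R :=
    ringKrullDim_quotient_succ_le_of_nonZeroDivisor (mem_nonZeroDivisors_of_ne_zero hf0)
  have h2 : ringKrullDim R' ≤ ringKrullDim (R ⧸ Ideal.span {f}) := by
    refine ringKrullDim_le_of_surjective (Ideal.Quotient.lift (Ideal.span {f}) φ ?_) ?_
    · intro a ha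
      have : Ideal.span {f} ≤ RingHom.ker φ := by
        rw [Ideal.span_singleton_le_iff_mem]
        exact hf
      exact this ha
    · intro y
      obtain ⟨x, rfl⟩ := hφ y
      exact ⟨Ideal.Quotient.mk _ x, rfl⟩
  rw [h] at h2
  obtain ⟨n, hn⟩ := exists_nat_eq_ringKrullDim R
  have h3 := (add_le_add_left h2 1).trans h1
  rw [hn] at h3
  have h4 : n + 1 ≤ n := by exact_mod_cast h3
  omega

end ker

section main

/-- The case of a bijection. -/
theorem sp_of_bijective {R R' : Type u} [CommRing R] [IsRegularLocalRing R] [CommRing R']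
    [IsRegularLocalRing R'] [Algebra R R'] (hb : Bijective (algebraMap R R')) (d : ℕ)
    (M : Type u) [AddCommGroup M] [Module R M] [Module R' M] [IsScalarTower R R' M]
    [Module.Finite R' M]
    (hM : ∀ (N' : Type u) [AddCommGroup N'] [Module R' N'] [Module.Finite R' N'],
      Module.length R' (N' ⊗[R'] M) ≠ ⊤ → SP R' d N' M)
    (N : Type u) [AddCommGroup N] [Module R N] [Module.Finite R N]
    (hlen : Module.length R (N ⊗[R] M) ≠ ⊤) : SP R d N M := by
  let e : R ≃ₗ[R] R' := LinearEquiv.ofBijective (Algebra.linearMap R R') hb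
  have hflat : Module.Flat R R' := Module.Flat.of_linearEquiv e.symm
  have hloc : (maximalIdeal R).map (algebraMap R R') = maximalIdeal R' :=
    map_maximalIdeal_of_surjective _ hb.2
  have hN : ∀ b : R', ∃ s : R, ∀ t : M, b • t = s • t := fun b => by
    obtain ⟨s, rfl⟩ := hb.2 b
    exact ⟨s, fun t => algebraMap_smul R' s t⟩
  have hfin : Module.Finite R R' := Module.Finite.of_surjective (Algebra.linearMap R R') hb.2
  have hfinN : Module.Finite R (R' ⊗[R] N) := Module.Finite.trans R' _
  have hfinM : Module.Finite R M := Module.Finite.trans R' _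
  have hbc := TensorProduct.isBaseChange R N R'
  have heq : eulerTor R (d + 1) N M = eulerTor R' (d + 1) (R' ⊗[R] N) M := by
    unfold eulerTor
    refine Finset.sum_congr rfl fun i _ => ?_
    rw [length_tor_bc i hbc M hN]
  have hl : Module.length R' ((R' ⊗[R] N) ⊗[R'] M) ≠ ⊤ := by
    rw [← length_tensor_baseChange hb.2 hbc M]
    exact hlen
  have h := hM (R' ⊗[R] N) hl
  have hd1 : Module.supportDim R' (R' ⊗[R] N) = Module.supportDim R N := by
    rw [← supportDim_eq_of_surjective hb.2 (R' ⊗[R] N)]
    refine (Module.supportDim_eq_of_equiv ?_).symm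
    exact (TensorProduct.lid R N).symm.trans (TensorProduct.congr e (LinearEquiv.refl R N))
  have hd2 : Module.supportDim R M = Module.supportDim R' M := supportDim_eq_of_surjective hb.2 M
  unfold SP at h ⊢
  rw [heq, hd2, ← hd1]
  exact h

/-- Serre's statements for a module over a regular quotient, against all modules. -/
theorem sp_of_regular_quotient (k : ℕ) : ∀ {R R' : Type u} [CommRing R] [IsRegularLocalRing R]
    [CommRing R'] [IsRegularLocalRing R'] [Algebra R R'] (_ : Surjective (algebraMap R R'))
    {d' : ℕ} (_ : ringKrullDim R = ((d' + k : ℕ) : WithBot ℕ∞)) (_ : ringKrullDim R' = d')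
    (M : Type u) [AddCommGroup M] [Module R M] [Module R' M] [IsScalarTower R R' M]
    [Module.Finite R' M]
    (_ : ∀ (N' : Type u) [AddCommGroup N'] [Module R' N'] [Module.Finite R' N'],
      Module.length R' (N' ⊗[R'] M) ≠ ⊤ → SP R' d' N' M)
    (N : Type u) [AddCommGroup N] [Module R N] [Module.Finite R N]
    (_ : Module.length R (N ⊗[R] M) ≠ ⊤), SP R (d' + k) N M := by
  induction k with
  | zero =>
    intro R R' _ _ _ _ _ hs d' hd hd' M _ _ _ _ _ hM N _ _ _ hlen
    have hinj : Injective (algebraMap R R') := by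
      rw [RingHom.injective_iff_ker_eq_bot]
      refine ker_eq_bot_of_dim_eq (algebraMap R R') hs ?_
      rw [hd, hd', add_zero]
    exact sp_of_bijective ⟨hinj, hs⟩ d' M hM N hlen
  | succ k ih =>
    intro R R' _ _ _ _ _ hs d' hd hd' M _ _ _ _ _ hM N _ _ _ hlen
    obtain ⟨f, hfk, hfm, hf2⟩ := exists_mem_ker_notMem_sq (algebraMap R R') hs (by
      rw [hd, hd']
      exact_mod_cast (by omega : d' < d' + (k + 1)))
    obtain ⟨hreg, hdim⟩ := regular_quotient R f hfm hf2
    have hdom : IsDomain R := regular_isDomain R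
    have hf0 : f ≠ 0 := fun h => hf2 (h ▸ zero_mem _)
    have hdimA : ringKrullDim (R ⧸ Ideal.span {f}) = ((d' + k : ℕ) : WithBot ℕ∞) := by
      obtain ⟨n, hn⟩ := exists_nat_eq_ringKrullDim (R ⧸ Ideal.span {f})
      rw [hn, hd] at hdim
      have h4 : n + 1 = d' + (k + 1) := by exact_mod_cast hdim
      rw [hn]
      exact_mod_cast (by omega : n = d' + k)
    have hle : ∀ a ∈ Ideal.span {f}, algebraMap R R' a = 0 := by
      intro a ha
      have : Ideal.span {f} ≤ RingHom.ker (algebraMap R R') := by
        rw [Ideal.span_singleton_le_iff_mem]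
        exact hfk
      exact this ha
    let ψ : (R ⧸ Ideal.span {f}) →+* R' := Ideal.Quotient.lift (Ideal.span {f})
      (algebraMap R R') hle
    let : Algebra (R ⧸ Ideal.span {f}) R' := ψ.toAlgebra
    let : Module (R ⧸ Ideal.span {f}) M := Module.compHom M ψ
    have ht1 : IsScalarTower (R ⧸ Ideal.span {f}) R' M := ⟨fun a b m => by
      change (ψ a * b) • m = ψ a • (b • m)
      rw [mul_smul]⟩
    have ht2 : IsScalarTower R (R ⧸ Ideal.span {f}) M := ⟨fun a b m => by
      obtain ⟨b, rfl⟩ := Ideal.Quotient.mk_surjective b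
      change (algebraMap R R' (a * b)) • m = a • (algebraMap R R' b • m)
      rw [map_mul, mul_smul, algebraMap_smul R' a]⟩
    have hs' : Surjective (algebraMap (R ⧸ Ideal.span {f}) R') := fun y => by
      obtain ⟨x, hx⟩ := hs y
      exact ⟨Ideal.Quotient.mk _ x, hx⟩
    have H : IsHypersurface R (R ⧸ Ideal.span {f}) f :=
      ⟨(IsRegular.of_ne_zero hf0).left.isSMulRegular, Ideal.Quotient.mk_surjective,
        Ideal.mk_ker⟩
    have hfinR' : Module.Finite R R' := Module.Finite.of_surjective (Algebra.linearMap R R') hs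
    have hfinM : Module.Finite R M := Module.Finite.trans R' _
    have hfinA : Module.Finite (R ⧸ Ideal.span {f}) R' :=
      Module.Finite.of_surjective (Algebra.linearMap (R ⧸ Ideal.span {f}) R') hs'
    have hfinM' : Module.Finite (R ⧸ Ideal.span {f}) M := Module.Finite.trans R' _
    exact sp_step H (d := d' + k) hd hdimA M
      (fun N' _ _ _ hlen' => ih hs' hdimA hd' M hM N' hlen') N hlen

/-- **Serre's statements over a regular quotient.** Let `R → R'` be a surjection of regular local
rings and `M` a finitely generated `R'`-module for which Serre's statements hold over `R'` against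
all finitely generated `R'`-modules. Then they hold over `R` for `M` against all finitely
generated `R`-modules. -/
theorem serre_of_regular_quotient {R R' : Type u} [CommRing R] [IsRegularLocalRing R]
    [CommRing R'] [IsRegularLocalRing R'] [Algebra R R'] (hs : Surjective (algebraMap R R'))
    {d d' : ℕ} (hd : ringKrullDim R = d) (hd' : ringKrullDim R' = d')
    (M : Type u) [AddCommGroup M] [Module R M] [Module R' M] [IsScalarTower R R' M]
    [Module.Finite R' M]
    (hM : ∀ (N' : Type u) [AddCommGroup N'] [Module R' N'] [Module.Finite R' N'],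
      Module.length R' (M ⊗[R'] N') ≠ ⊤ →
      0 ≤ eulerTor R' (d' + 1) M N' ∧
        ∀ m n : ℕ, (m : WithBot ℕ∞) ≤ Module.supportDim R' M →
          (n : WithBot ℕ∞) ≤ Module.supportDim R' N' →
          (m + n ≤ d') ∧ (d' ≤ m + n → 0 < eulerTor R' (d' + 1) M N'))
    (N : Type u) [AddCommGroup N] [Module R N] [Module.Finite R N]
    (hlen : Module.length R (M ⊗[R] N) ≠ ⊤) :
    0 ≤ eulerTor R (d + 1) M N ∧
      ∀ m n : ℕ, (m : WithBot ℕ∞) ≤ Module.supportDim R M →
        (n : WithBot ℕ∞) ≤ Module.supportDim R N →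
        (m + n ≤ d) ∧ (d ≤ m + n → 0 < eulerTor R (d + 1) M N) := by
  have hle : ringKrullDim R' ≤ ringKrullDim R := ringKrullDim_le_of_surjective _ hs
  rw [hd, hd'] at hle
  have hle' : d' ≤ d := by exact_mod_cast hle
  obtain ⟨k, rfl⟩ := Nat.exists_eq_add_of_le hle'
  refine SP.symm (sp_of_regular_quotient k hs hd hd' M (fun N' _ _ _ hlen' => ?_) N ?_)
  · refine SP.symm (hM N' ?_)
    rw [(TensorProduct.comm R' M N').length_eq]
    exact hlen'
  · rw [(TensorProduct.comm R N M).length_eq]
    exact hlen

end main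

end Vale.Agent.P177
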