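import Vale.Agent.P177.EWitt
import Vale.Agent.P177.EQuotB
import Vale.Agent.P177.DGf
import Vale.Agent.P177.CComplete

/-!
Presentation of a complete regular local ring with perfect residue field as a quotient of a power
series ring over the Witt vectors.
-/

namespace Vale.Agent.P177

open TensorProduct IsLocalRing RingTheory.Sequence Function

universe u

theorem exists_evalHom_surjective {ι A R : Type*} [Finite ι] [CommRing A] [IsLocalRing A]
    [IsAdicComplete (maximalIdeal A) A] [CommRing R] (σ : R →+* A)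
    (hσ : Function.Surjective (fun x => residue A (σ x))) (x : ι → A)
    (hx : Ideal.span (Set.range x) = maximalIdeal A) :
    ∃ φ : MvPowerSeries ι R →+* A, Function.Surjective φ ∧ (∀ r, φ (MvPowerSeries.C r) = σ r) ∧
      ∀ i, φ (MvPowerSeries.X i) = x i := by
  obtain ⟨φ, hφ⟩ := exists_evalHom (maximalIdeal A) σ x
    (fun i => hx ▸ Ideal.subset_span ⟨i, rfl⟩)
  have hC : ∀ r, φ (MvPowerSeries.C r) = σ r := by
    intro r
    rw [← MvPolynomial.coe_C, hφ]
    simp
  have hX : ∀ i, φ (MvPowerSeries.X i) = x i := by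
    intro i
    rw [← MvPolynomial.coe_X, hφ]
    simp
  refine ⟨φ, ?_, hC, hX⟩
  have hmap : (Ideal.span (Set.range MvPowerSeries.X) : Ideal (MvPowerSeries ι R)).map φ =
      maximalIdeal A := by
    rw [Ideal.map_span, ← Set.range_comp, ← hx]
    congr 2
    ext i
    exact hX i
  have hH : IsHausdorff ((Ideal.span (Set.range MvPowerSeries.X) :
      Ideal (MvPowerSeries ι R)).map φ) A := by
    rw [hmap]
    infer_instance
  apply surjective_of_mk_map_comp_surjective (I := Ideal.span (Set.range MvPowerSeries.X)) φ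
  intro y
  obtain ⟨a, rfl⟩ := Ideal.Quotient.mk_surjective y
  obtain ⟨c, hc⟩ := hσ (residue A a)
  refine ⟨MvPowerSeries.C c, ?_⟩
  rw [RingHom.comp_apply, hC]
  rw [Ideal.Quotient.mk_eq_mk_iff_sub_mem, hmap]
  rw [← Ideal.Quotient.mk_eq_mk_iff_sub_mem]
  exact hc

/-- Presentation over a one-dimensional regular local ring with the same residue field. -/
theorem exists_quadRing_equiv_of_hom {S : Type u} [CommRing S] [IsRegularLocalRing S]
    [IsAdicComplete (maximalIdeal S) S] {d : ℕ} (hd : ringKrullDim S = d) (x : Fin d → S)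
    (hx : Ideal.span (Set.range x) = maximalIdeal S) (c : Fin d → Fin d → S)
    (V : Type u) [CommRing V] [IsRegularLocalRing V] (ϖ : V)
    (hϖ : maximalIdeal V = Ideal.span {ϖ}) (hV : ringKrullDim V = (1 : ℕ)) (σ : V →+* S)
    (hσ : Function.Surjective (fun v => residue S (σ v)))
    (hc : σ ϖ = ∑ i, ∑ j, x i * c i j * x j) :
    ∃ (c' : Fin d → Fin d → MvPowerSeries (Fin d) V) (e : QuadRing V ϖ d c' ≃+* S),
      (∀ i, e (Ideal.Quotient.mk _ (MvPowerSeries.X i)) = x i) ∧
      ∀ i j, e (Ideal.Quotient.mk _ (c' i j)) = c i j := by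
  obtain ⟨φ, hφ, hC, hX⟩ := exists_evalHom_surjective σ hσ x hx
  choose g hg using hφ
  let c' : Fin d → Fin d → MvPowerSeries (Fin d) V := fun i j => g (c i j)
  have hq : ∀ a ∈ Ideal.span {quadEq V ϖ d c'}, φ a = 0 := by
    intro a ha
    have h1 : Ideal.span {quadEq V ϖ d c'} ≤ RingHom.ker φ := by
      rw [Ideal.span_singleton_le_iff_mem, RingHom.mem_ker, quadEq, map_sub, hC, hc, map_sum,
        sub_eq_zero]
      refine Finset.sum_congr rfl fun i _ => ?_
      rw [map_sum]
      refine Finset.sum_congr rfl fun j _ => ?_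
      rw [map_mul, map_mul, hX, hX, hg]
    exact h1 ha
  obtain ⟨hR, -, hdR⟩ := quadRing_regular V ϖ hϖ hV d c'
  let ψ : QuadRing V ϖ d c' →+* S := Ideal.Quotient.lift _ φ hq
  have hψ : Surjective ψ := fun s => ⟨Ideal.Quotient.mk _ (g s), hg s⟩
  have hinj : Injective ψ := by
    rw [RingHom.injective_iff_ker_eq_bot]
    refine ker_eq_bot_of_dim_eq ψ hψ ?_
    rw [hd, hdR]
  exact ⟨c', RingEquiv.ofBijective ψ ⟨hinj, hψ⟩, fun i => hX i, fun i j => hg _⟩

theorem exists_completion_residue (R : Type u) [CommRing R] [IsRegularLocalRing R] {r : ℕ}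
    (hr : ringKrullDim R = r) :
    ∃ (S : Type u) (_ : CommRing S) (_ : IsRegularLocalRing S) (_ : Algebra R S),
      Module.Flat R S ∧ (maximalIdeal R).map (algebraMap R S) = maximalIdeal S ∧
      ringKrullDim S = r ∧ IsAdicComplete (maximalIdeal S) S ∧
      Surjective (fun z => residue S (algebraMap R S z)) := by
  have hN := isNoetherianRing_adicCompletion R
  have hdim := ringKrullDim_adicCompletion R hr
  refine ⟨AdicCompletion (maximalIdeal R) R, inferInstance, ?_, inferInstance, inferInstance,
    AdicCompletion.maximalIdeal_eq_map.symm, hdim, inferInstance, ?_⟩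
  · apply IsRegularLocalRing.of_spanFinrank_maximalIdeal_le
    rw [AdicCompletion.spanFinrank_maximalIdeal_eq, IsRegularLocalRing.spanFinrank_maximalIdeal,
      hr, hdim]
  · intro y
    obtain ⟨z, hz⟩ := (AdicCompletion.residueField_map_bijective R).2 y
    obtain ⟨z, rfl⟩ := residue_surjective z
    exact ⟨z, hz⟩

theorem witt_dim_one (k : Type u) [Field k] (p : ℕ) [Fact p.Prime] [CharP k p]
    [PerfectRing k p] : ∃ _ : IsRegularLocalRing (WittVector p k),
      maximalIdeal (WittVector p k) = Ideal.span {(p : WittVector p k)} ∧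
      ringKrullDim (WittVector p k) = (1 : ℕ) := by
  refine ⟨inferInstance, (WittVector.irreducible p).maximalIdeal_eq, ?_⟩
  rw [IsDiscreteValuationRing.ringKrullDim_eq_one]
  rfl

/-- Presentation after a flat local extension with perfect residue field. -/
theorem exists_presentation_of_flat {R S : Type u} [CommRing R] [IsRegularLocalRing R]
    [CommRing S] [IsRegularLocalRing S] [Algebra R S] [Module.Flat R S]
    (hm : (maximalIdeal R).map (algebraMap R S) = maximalIdeal S)
    [IsAdicComplete (maximalIdeal S) S] (p : ℕ) [Fact p.Prime] [CharP (ResidueField S) p]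
    [PerfectRing (ResidueField S) p] {d : ℕ} (hd : ringKrullDim S = d) (x : Fin d → R)
    (hx : Ideal.span (Set.range x) = maximalIdeal R) (c : Fin d → Fin d → R)
    (hc : (p : R) = ∑ i, ∑ j, x i * c i j * x j) :
    ∃ (V : Type u) (_ : CommRing V) (_ : IsRegularLocalRing V) (ϖ : V)
      (_ : maximalIdeal V = Ideal.span {ϖ}) (_ : ringKrullDim V = (1 : ℕ))
      (c' : Fin d → Fin d → MvPowerSeries (Fin d) V)
      (_ : IsLocalRing (QuadRing V ϖ d c')) (φ : R →+* QuadRing V ϖ d c'), φ.Flat ∧
      (maximalIdeal R).map φ = maximalIdeal (QuadRing V ϖ d c') ∧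
      (∀ i, φ (x i) = Ideal.Quotient.mk _ (MvPowerSeries.X i)) ∧
      ∀ i j, φ (c i j) = Ideal.Quotient.mk _ (c' i j) := by
  obtain ⟨hV1, hV2, hV3⟩ := witt_dim_one (ResidueField S) p
  obtain ⟨σ, hσ⟩ := exists_witt_hom (S := S) p
  have hx' : Ideal.span (Set.range (fun i => algebraMap R S (x i))) = maximalIdeal S := by
    rw [← hm, ← hx, Ideal.map_span, ← Set.range_comp]
    rfl
  obtain ⟨c', e, he1, he2⟩ := exists_quadRing_equiv_of_hom hd (fun i => algebraMap R S (x i)) hx'
    (fun i j => algebraMap R S (c i j)) (WittVector p (ResidueField S)) (p : _) hV2 hV3 σ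
    (fun y => ⟨WittVector.teichmuller p y, by
      change residue S (σ (WittVector.teichmuller p y)) = y
      rw [hσ, WittVector.teichmuller_coeff_zero]⟩) (by
      rw [map_natCast, ← map_natCast (algebraMap R S), hc, map_sum]
      refine Finset.sum_congr rfl fun i _ => ?_
      rw [map_sum]
      refine Finset.sum_congr rfl fun j _ => ?_
      rw [map_mul, map_mul])
  obtain ⟨hR, -, -⟩ := quadRing_regular (WittVector p (ResidueField S)) _ hV2 hV3 d c'
  let ε : S →+* QuadRing (WittVector p (ResidueField S)) (p : _) d c' := e.symm.toRingHom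
  have hε : Bijective ε := e.symm.bijective
  refine ⟨WittVector p (ResidueField S), inferInstance, hV1, _, hV2, hV3, c', inferInstance,
    ε.comp (algebraMap R S), ?_, ?_, fun i => ?_, fun i j => ?_⟩
  · have h1 : (algebraMap R S).Flat := RingHom.flat_algebraMap_iff.2 inferInstance
    have h2 : ε.Flat := RingHom.Flat.of_bijective hε
    exact RingHom.Flat.comp h1 h2
  · rw [← Ideal.map_map, hm]
    exact map_maximalIdeal_of_surjective _ hε.2
  · rw [RingHom.comp_apply]
    change e.symm _ = _
    rw [← he1, e.symm_apply_apply]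
  · rw [RingHom.comp_apply]
    change e.symm _ = _
    rw [← he2, e.symm_apply_apply]

/-- Presentation of a regular local ring with perfect residue field, up to completion. -/
theorem exists_presentation_of_perfect {R : Type u} [CommRing R] [IsRegularLocalRing R]
    (p : ℕ) [Fact p.Prime] [CharP (ResidueField R) p]
    [PerfectRing (ResidueField R) p] {d : ℕ} (hd : ringKrullDim R = d) (x : Fin d → R)
    (hx : Ideal.span (Set.range x) = maximalIdeal R) (c : Fin d → Fin d → R)
    (hc : (p : R) = ∑ i, ∑ j, x i * c i j * x j) :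
    ∃ (V : Type u) (_ : CommRing V) (_ : IsRegularLocalRing V) (ϖ : V)
      (_ : maximalIdeal V = Ideal.span {ϖ}) (_ : ringKrullDim V = (1 : ℕ))
      (c' : Fin d → Fin d → MvPowerSeries (Fin d) V)
      (_ : IsLocalRing (QuadRing V ϖ d c')) (φ : R →+* QuadRing V ϖ d c'), φ.Flat ∧
      (maximalIdeal R).map φ = maximalIdeal (QuadRing V ϖ d c') ∧
      (∀ i, φ (x i) = Ideal.Quotient.mk _ (MvPowerSeries.X i)) ∧
      ∀ i j, φ (c i j) = Ideal.Quotient.mk _ (c' i j) := by
  obtain ⟨S, _, _, _, hflat, hm, hdS, hcomp, hres⟩ := exists_completion_residue R hd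
  let f : ResidueField R →+* S ⧸ maximalIdeal S := Ideal.quotientMap (maximalIdeal S)
    (algebraMap R S) (Ideal.map_le_iff_le_comap.1 hm.le)
  have hf : Surjective f := fun y => by
    obtain ⟨z, hz⟩ := hres y
    exact ⟨residue R z, hz⟩
  let f' : ResidueField R →+* ResidueField S := f
  have hf' : Surjective f' := hf
  have hch : CharP (ResidueField S) p := charP_of_injective_ringHom f'.injective p
  have hpr : PerfectRing (ResidueField S) p := PerfectRing.ofSurjective _ p fun y => by
    obtain ⟨z, rfl⟩ := hf' y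
    obtain ⟨w, rfl⟩ := surjective_frobenius (ResidueField R) p z
    exact ⟨f' w, by rw [frobenius_def, frobenius_def, map_pow]⟩
  exact exists_presentation_of_flat hm p hdS x hx c hc

end Vale.Agent.P177
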