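import Vale.Agent.P177.EGonfB
import Vale.Agent.P177.EGonfC
import Vale.Agent.P177.EPres

/-!
Flat extension of a regular local ring to a complete one with perfect residue field, and the
presentation theorem.
-/

namespace Vale.Agent.P177

open IsLocalRing Function TensorProduct

universe u

section completion

variable {A : Type u} [CommRing A] [IsLocalRing A] (fg : (maximalIdeal A).FG)

include fg in
theorem adic_approx (n : ℕ) (s : AdicCompletion (maximalIdeal A) A) :
    ∃ a : A, s - algebraMap A (AdicCompletion (maximalIdeal A) A) a ∈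
      ((maximalIdeal A) ^ n).map (algebraMap A (AdicCompletion (maximalIdeal A) A)) := by
  obtain ⟨a, ha⟩ := Ideal.Quotient.mk_surjective (s.1 n)
  refine ⟨a, ?_⟩
  rw [← Submodule.restrictScalars_mem A, ← Ideal.smul_top_eq_map,
    AdicCompletion.pow_smul_top_eq_ker_eval fg, LinearMap.mem_ker, map_sub, sub_eq_zero]
  exact ha.symm

include fg in
theorem adic_closed (n : ℕ) (a : A) (ha : algebraMap A (AdicCompletion (maximalIdeal A) A) a ∈
      ((maximalIdeal A) ^ n).map (algebraMap A (AdicCompletion (maximalIdeal A) A))) :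
    a ∈ (maximalIdeal A) ^ n := by
  rw [← Submodule.restrictScalars_mem A, ← Ideal.smul_top_eq_map,
    AdicCompletion.pow_smul_top_eq_ker_eval fg, LinearMap.mem_ker] at ha
  have h1 : (Submodule.Quotient.mk a : A ⧸ (maximalIdeal A ^ n • ⊤ : Submodule A A)) = 0 := ha
  rw [Submodule.Quotient.mk_eq_zero, smul_eq_mul, Ideal.mul_top] at h1
  exact h1

end completion

/-- Every regular local ring with residue characteristic `p` has a flat complete extension, with
the same parameters and with perfect residue field. -/
theorem exists_gonflement (R : Type u) [CommRing R] [IsRegularLocalRing R] (p : ℕ) [Fact p.Prime]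
    [CharP (ResidueField R) p] {d : ℕ} (hd : ringKrullDim R = d) :
    ∃ (S : Type u) (_ : CommRing S) (_ : IsRegularLocalRing S) (_ : Algebra R S),
      Module.Flat R S ∧ (maximalIdeal R).map (algebraMap R S) = maximalIdeal S ∧
      ringKrullDim S = d ∧ IsAdicComplete (maximalIdeal S) S ∧
      CharP (ResidueField S) p ∧ PerfectRing (ResidueField S) p := by
  have hdom : IsDomain R := regular_isDomain R
  obtain ⟨rs, hrs, hlen⟩ := exists_list_maximalIdeal R
  have hl : rs.length = d := by
    rw [hd] at hlen
    exact_mod_cast hlen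
  subst hl
  let x : Fin rs.length → R := fun i => rs.get i
  have hx : Ideal.span (Set.range x) = maximalIdeal R := by
    rw [← hrs, Ideal.ofList]
    congr 1
    ext y
    simp only [x, Set.mem_range, Set.mem_ofPred_eq, List.mem_iff_get]
  let Ω := AlgebraicClosure (FractionRing R)
  have hinj : Injective (algebraMap R Ω) := by
    rw [IsScalarTower.algebraMap_eq R (FractionRing R) Ω]
    exact (algebraMap (FractionRing R) Ω).injective.comp (IsFractionRing.injective R _)
  obtain ⟨A, hA, hroot⟩ := exists_locUnion_perfect (Ω := Ω) hx p Fact.out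
  have hint : Algebra.IsIntegral R A := hA.isIntegral
  have hflat : Module.Flat R A := hA.flat hx hd hinj
  obtain ⟨hloc, hm⟩ := isLocalRing_of_integral_map (hA.isMaximal hx)
  have fg : (maximalIdeal A).FG := by
    rw [← hm]
    exact ((maximalIdeal R).fg_of_isNoetherianRing).map _
  let S := AdicCompletion (maximalIdeal A) A
  have hlS : IsLocalRing S := AdicCompletion.isLocalRing_of_fg fg
  have hmS : maximalIdeal S = (maximalIdeal A).map (algebraMap A S) :=
    AdicCompletion.maximalIdeal_eq_map_of_fg fg
  have hcS : IsAdicComplete (maximalIdeal S) S := AdicCompletion.isAdicComplete_of_fg fg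
  have htow : IsScalarTower R A S := inferInstance
  have hmRS : (maximalIdeal R).map (algebraMap R S) = maximalIdeal S := by
    rw [IsScalarTower.algebraMap_eq R A S, ← Ideal.map_map, hm, hmS]
  have hpow : ∀ n, ((maximalIdeal R) ^ n).map (algebraMap R S) =
      ((maximalIdeal A) ^ n).map (algebraMap A S) := fun n => by
    rw [IsScalarTower.algebraMap_eq R A S, ← Ideal.map_map, Ideal.map_pow (algebraMap R A), hm]
  have happ : ∀ (n : ℕ) (s : S), ∃ a : A, s - algebraMap A S a ∈
      ((maximalIdeal R) ^ n).map (algebraMap R S) := fun n s => by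
    rw [hpow]
    exact adic_approx fg n s
  have hcl : ∀ (n : ℕ) (a : A), algebraMap A S a ∈ ((maximalIdeal R) ^ n).map (algebraMap R S) →
      a ∈ ((maximalIdeal R) ^ n).map (algebraMap R A) := fun n a ha => by
    rw [hpow] at ha
    rw [Ideal.map_pow, hm]
    exact adic_closed fg n a ha
  let f : ResidueField R →+* ResidueField S := Ideal.quotientMap (maximalIdeal S)
    (algebraMap R S) (Ideal.map_le_iff_le_comap.1 hmRS.le)
  have hch : CharP (ResidueField S) p := charP_of_injective_ringHom f.injective p
  have hpr : PerfectRing (ResidueField S) p := PerfectRing.ofSurjective _ p fun y => by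
    obtain ⟨s, rfl⟩ := residue_surjective y
    obtain ⟨a, ha⟩ := happ 1 s
    obtain ⟨b, hb, h1⟩ := hroot a a.2
    have h2 : (⟨b, hb⟩ : A) ^ p - a ∈ maximalIdeal A := by
      rw [← hm]
      exact (mem_map_iff hx A _).2 h1
    refine ⟨residue S (algebraMap A S ⟨b, hb⟩), ?_⟩
    rw [frobenius_def, ← map_pow, ← sub_eq_zero, ← map_sub, residue_eq_zero_iff]
    have h3 : algebraMap A S ⟨b, hb⟩ ^ p - s =
        algebraMap A S (⟨b, hb⟩ ^ p - a) - (s - algebraMap A S a) := by
      rw [map_sub, map_pow]
      ring
    rw [h3]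
    refine sub_mem ?_ ?_
    · rw [hmS]
      exact Ideal.mem_map_of_mem _ h2
    · rw [pow_one, hmRS] at ha
      exact ha
  have hxS : Ideal.span (Set.range fun i => algebraMap R S (x i)) = maximalIdeal S := by
    rw [← hmRS, ← hx, Ideal.map_span, ← Set.range_comp]
    rfl
  have hNS : IsNoetherianRing S := by
    obtain ⟨σ, hσ⟩ := exists_witt_hom (S := S) p
    obtain ⟨φ, hφ, -⟩ := exists_evalHom_surjective σ (fun y =>
      ⟨WittVector.teichmuller p y, by
        change residue S (σ (WittVector.teichmuller p y)) = y
        rw [hσ, WittVector.teichmuller_coeff_zero]⟩) (fun i => algebraMap R S (x i)) hxS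
    exact isNoetherianRing_of_surjective _ _ φ hφ
  have hfS : Module.Flat R S := flat_of_approx hx hmRS happ hcl
  have hdS : ringKrullDim S = rs.length := by
    rw [ringKrullDim_eq_of_flat hmRS, hd]
  have hrS := (isRegularLocalRing_of_list (B := S) (rs.map (algebraMap R S)) (by
    rw [← Ideal.map_ofList, hrs, hmRS]) (by rw [List.length_map, hdS])).1
  exact ⟨S, inferInstance, hrS, inferInstance, hfS, hmRS, hdS, hcS, hch, hpr⟩

/-- **Presentation.** Every regular local ring with residue characteristic `p` and with
`p = ∑ x_i c_ij x_j` has a flat extension, with the same parameters, of the form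
`V[[x_1, …, x_d]]/(p - ∑ x_i c'_ij x_j)`. -/
theorem exists_presentation {R : Type u} [CommRing R] [IsRegularLocalRing R]
    (p : ℕ) [Fact p.Prime] [CharP (ResidueField R) p] {d : ℕ} (hd : ringKrullDim R = d)
    (x : Fin d → R) (hx : Ideal.span (Set.range x) = maximalIdeal R) (c : Fin d → Fin d → R)
    (hc : (p : R) = ∑ i, ∑ j, x i * c i j * x j) :
    ∃ (V : Type u) (_ : CommRing V) (_ : IsRegularLocalRing V) (ϖ : V)
      (_ : maximalIdeal V = Ideal.span {ϖ}) (_ : ringKrullDim V = (1 : ℕ))
      (c' : Fin d → Fin d → MvPowerSeries (Fin d) V)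
      (_ : IsLocalRing (QuadRing V ϖ d c')) (φ : R →+* QuadRing V ϖ d c'), φ.Flat ∧
      (maximalIdeal R).map φ = maximalIdeal (QuadRing V ϖ d c') ∧
      (∀ i, φ (x i) = Ideal.Quotient.mk _ (MvPowerSeries.X i)) ∧
      ∀ i j, φ (c i j) = Ideal.Quotient.mk _ (c' i j) := by
  obtain ⟨S, _, _, _, hflat, hm, hdS, hcomp, hch, hpr⟩ := exists_gonflement R p hd
  exact exists_presentation_of_flat hm p hdS x hx c hc

end Vale.Agent.P177
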