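import Mathlib

/-!
Finite local subalgebras of an algebraically closed field with a prescribed maximal ideal, and
adjunction of roots to the residue field.
-/

namespace Vale.Agent.P177

open IsLocalRing Function

universe u

section mA

variable {R : Type u} [CommRing R] {Ω : Type u} [Field Ω] [Algebra R Ω] {d : ℕ}
  (x : Fin d → R)

/-- The elements of the ideal generated by the elements `x` in a subalgebra. -/
def InM (A : Subalgebra R Ω) (y : Ω) : Prop :=
  ∃ a : Fin d → Ω, (∀ i, a i ∈ A) ∧ y = ∑ i, algebraMap R Ω (x i) * a i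

variable {x}

theorem InM.mono {A B : Subalgebra R Ω} (h : A ≤ B) {y : Ω} (hy : InM x A y) : InM x B y := by
  obtain ⟨a, ha, hy⟩ := hy
  exact ⟨a, fun i => h (ha i), hy⟩

variable (x)

/-- Finite subalgebras in which the elements `x` generate a maximal ideal. -/
structure FinMax (A : Subalgebra R Ω) : Prop where
  finite : Module.Finite R A
  inv : ∀ y ∈ A, ¬ InM x A y → ∃ z ∈ A, InM x A (y * z - 1)

/-- Directed unions of such subalgebras. -/
def LocUnion (A : Subalgebra R Ω) : Prop :=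
  ∀ F : Finset Ω, (∀ y ∈ F, y ∈ A) → ∃ A₀ : Subalgebra R Ω, A₀ ≤ A ∧ (∀ y ∈ F, y ∈ A₀) ∧ FinMax x A₀

variable {x}

theorem mem_map_iff [IsLocalRing R] (hx : Ideal.span (Set.range x) = maximalIdeal R)
    (A : Subalgebra R Ω) (y : A) :
    y ∈ (maximalIdeal R).map (algebraMap R A) ↔ InM x A (y : Ω) := by
  have h1 : (maximalIdeal R).map (algebraMap R A) =
      Ideal.span (Set.range fun i => algebraMap R A (x i)) := by
    rw [← hx, Ideal.map_span, ← Set.range_comp]
    rfl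
  rw [h1, Ideal.mem_span_range_iff_exists_fun]
  constructor
  · rintro ⟨c, hc⟩
    refine ⟨fun i => (c i : Ω), fun i => (c i).2, ?_⟩
    rw [← hc, AddSubmonoidClass.coe_finsetSum]
    refine Finset.sum_congr rfl fun i _ => ?_
    rw [mul_comm]
    rfl
  · rintro ⟨a, ha, hy⟩
    refine ⟨fun i => ⟨a i, ha i⟩, ?_⟩
    apply Subtype.ext
    rw [hy, AddSubmonoidClass.coe_finsetSum]
    refine Finset.sum_congr rfl fun i _ => ?_
    rw [mul_comm]
    rfl

theorem not_inM_one [IsLocalRing R] (hx : Ideal.span (Set.range x) = maximalIdeal R)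
    (A : Subalgebra R Ω) (hA : Module.Finite R A) : ¬ InM x A 1 := by
  intro h
  have h1 : (1 : A) ∈ (maximalIdeal R).map (algebraMap R A) := (mem_map_iff hx A 1).2 h
  have h2 : (⊤ : Submodule R A) ≤ maximalIdeal R • ⊤ := by
    rw [Ideal.smul_top_eq_map]
    intro y _
    have h3 : (maximalIdeal R).map (algebraMap R A) = ⊤ := (Ideal.eq_top_iff_one _).2 h1
    change y ∈ (maximalIdeal R).map (algebraMap R A)
    rw [h3]
    exact Submodule.mem_top
  have h4 : (⊤ : Submodule R A) = ⊥ :=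
    Submodule.eq_bot_of_le_smul_of_le_jacobson_bot (maximalIdeal R) ⊤ Module.Finite.fg_top h2
      (IsLocalRing.maximalIdeal_le_jacobson ⊥)
  have h5 : (1 : A) ∈ (⊤ : Submodule R A) := Submodule.mem_top
  rw [h4, Submodule.mem_bot] at h5
  exact one_ne_zero h5

theorem isMaximal_iff_inv [IsLocalRing R] (hx : Ideal.span (Set.range x) = maximalIdeal R)
    (A : Subalgebra R Ω) : ((maximalIdeal R).map (algebraMap R A)).IsMaximal ↔
      ¬ InM x A 1 ∧ ∀ y ∈ A, ¬ InM x A y → ∃ z ∈ A, InM x A (y * z - 1) := by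
  constructor
  · intro h
    refine ⟨fun h1 => ?_, fun y hy hy' => ?_⟩
    · exact h.ne_top ((Ideal.eq_top_iff_one _).2 ((mem_map_iff hx A 1).2 h1))
    · obtain ⟨z, i, hi, hz⟩ := h.exists_inv (x := (⟨y, hy⟩ : A))
        (fun h2 => hy' ((mem_map_iff hx A _).1 h2))
      refine ⟨z, z.2, ?_⟩
      have h3 : (⟨y, hy⟩ : A) * z - 1 = - i := by
        rw [← hz]
        ring
      have h4 : (⟨y, hy⟩ : A) * z - 1 ∈ (maximalIdeal R).map (algebraMap R A) := by
        rw [h3]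
        exact neg_mem hi
      exact (mem_map_iff hx A _).1 h4
  · rintro ⟨h1, h2⟩
    rw [Ideal.isMaximal_iff]
    refine ⟨fun h3 => h1 ((mem_map_iff hx A 1).1 h3), fun J y hJ hy hyJ => ?_⟩
    obtain ⟨z, hz, h3⟩ := h2 y y.2 (fun h4 => hy ((mem_map_iff hx A _).2 h4))
    have h4 : y * ⟨z, hz⟩ - 1 ∈ J := hJ ((mem_map_iff hx A (y * ⟨z, hz⟩ - 1)).2 h3)
    have h5 : (1 : A) = y * ⟨z, hz⟩ - (y * ⟨z, hz⟩ - 1) := by ring
    rw [h5]
    exact J.sub_mem (J.mul_mem_right _ hyJ) h4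

theorem FinMax.isMaximal [IsLocalRing R] (hx : Ideal.span (Set.range x) = maximalIdeal R)
    {A : Subalgebra R Ω} (hA : FinMax x A) :
    ((maximalIdeal R).map (algebraMap R A)).IsMaximal :=
  (isMaximal_iff_inv hx A).2 ⟨not_inM_one hx A hA.finite, hA.inv⟩

theorem finMax_bot [IsLocalRing R] (hx : Ideal.span (Set.range x) = maximalIdeal R) :
    FinMax x (⊥ : Subalgebra R Ω) := by
  refine ⟨inferInstance, fun y hy hy' => ?_⟩
  obtain ⟨r, rfl⟩ := Algebra.mem_bot.1 hy
  have hr : r ∉ maximalIdeal R := by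
    intro hr
    rw [← hx, Ideal.mem_span_range_iff_exists_fun] at hr
    obtain ⟨c, rfl⟩ := hr
    apply hy'
    refine ⟨fun i => algebraMap R Ω (c i), fun i => Algebra.mem_bot.2 ⟨c i, rfl⟩, ?_⟩
    rw [map_sum]
    refine Finset.sum_congr rfl fun i _ => ?_
    rw [map_mul, mul_comm]
  rw [mem_maximalIdeal, mem_nonunits_iff, not_not] at hr
  obtain ⟨s, hs⟩ := hr.exists_right_inv
  refine ⟨algebraMap R Ω s, Algebra.mem_bot.2 ⟨s, rfl⟩, ?_⟩
  rw [← map_mul, hs, map_one, sub_self]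
  exact ⟨fun _ => 0, fun _ => zero_mem _, by simp⟩

theorem locUnion_bot [IsLocalRing R] (hx : Ideal.span (Set.range x) = maximalIdeal R) :
    LocUnion x (⊥ : Subalgebra R Ω) :=
  fun _ hF => ⟨⊥, le_rfl, hF, finMax_bot hx⟩

theorem LocUnion.exists_inM {A : Subalgebra R Ω} (hA : LocUnion x A) {y : Ω} (hy : InM x A y)
    (F : Finset Ω) (hF : ∀ y ∈ F, y ∈ A) :
    ∃ A₀ : Subalgebra R Ω, A₀ ≤ A ∧ (∀ y ∈ F, y ∈ A₀) ∧ FinMax x A₀ ∧ InM x A₀ y := by
  classical
  obtain ⟨a, ha, hy⟩ := hy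
  obtain ⟨A₀, h1, h2, h3⟩ := hA (F ∪ Finset.univ.image a) (by
    intro z hz
    rw [Finset.mem_union] at hz
    rcases hz with hz | hz
    · exact hF z hz
    · rw [Finset.mem_image] at hz
      obtain ⟨i, -, rfl⟩ := hz
      exact ha i)
  refine ⟨A₀, h1, fun z hz => h2 z (Finset.mem_union_left _ hz), h3, a, fun i => ?_, hy⟩
  exact h2 _ (Finset.mem_union_right _ (Finset.mem_image_of_mem a (Finset.mem_univ i)))

theorem LocUnion.isMaximal [IsLocalRing R] (hx : Ideal.span (Set.range x) = maximalIdeal R)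
    {A : Subalgebra R Ω} (hA : LocUnion x A) :
    ((maximalIdeal R).map (algebraMap R A)).IsMaximal := by
  rw [isMaximal_iff_inv hx A]
  constructor
  · intro h
    obtain ⟨A₀, -, -, h3, h4⟩ := hA.exists_inM h ∅ (by simp)
    exact not_inM_one hx A₀ h3.finite h4
  · intro y hy hy'
    obtain ⟨A₀, h1, h2, h3⟩ := hA {y} (by simpa using hy)
    obtain ⟨z, hz, h4⟩ := h3.inv y (h2 y (Finset.mem_singleton_self y))
      (fun h => hy' (h.mono h1))
    exact ⟨z, h1 hz, h4.mono h1⟩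

theorem isField_quotient_of_surjective {K B : Type u} [Field K] [CommRing B] [Nontrivial B]
    (ψ : Polynomial K →+* B) (hψ : Surjective ψ) (f : Polynomial K) (hf : Irreducible f)
    (h0 : ψ f = 0) : IsField B := by
  have h1 : (Ideal.span {f}).IsMaximal := PrincipalIdealRing.isMaximal_of_irreducible hf
  have h2 : Ideal.span {f} = RingHom.ker ψ := h1.eq_of_le (RingHom.ker_ne_top ψ) (by
    rw [Ideal.span_singleton_le_iff_mem]
    exact h0)
  rw [h2] at h1
  exact (RingHom.quotientKerEquivOfSurjective hψ).symm.toMulEquiv.isField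
    ((Ideal.Quotient.maximal_ideal_iff_isField_quotient _).1 h1)

theorem FinMax.adjoin [IsLocalRing R] (hx : Ideal.span (Set.range x) = maximalIdeal R)
    {A : Subalgebra R Ω} (hA : FinMax x A) (p : ℕ) (hp : p.Prime) (a β : Ω) (ha : a ∈ A)
    (hβ : β ^ p = a) (hr : ∀ b ∈ A, ¬ InM x A (b ^ p - a)) :
    FinMax x (A ⊔ Algebra.adjoin R {β}) := by
  have hAf : Module.Finite R A := hA.finite
  have hAint : Algebra.IsIntegral R A := inferInstance
  have hai : IsIntegral R a := by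
    have := Algebra.IsIntegral.isIntegral (R := R) (⟨a, ha⟩ : A)
    exact this.map A.val
  have hβi : IsIntegral R β := by
    apply IsIntegral.of_pow hp.pos
    rw [hβ]
    exact hai
  have hadj : Module.Finite R (Algebra.adjoin R {β}) :=
    Module.Finite.iff_fg.2 hβi.fg_adjoin_singleton
  have hfin : Module.Finite R ↥(A ⊔ Algebra.adjoin R {β}) :=
    Subalgebra.finite_sup A (Algebra.adjoin R {β})
  refine ⟨hfin, ?_⟩
  set B := A ⊔ Algebra.adjoin R {β} with hB
  have hβB : β ∈ B := (le_sup_right : Algebra.adjoin R {β} ≤ B)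
    (Algebra.subset_adjoin (Set.mem_singleton β))
  have hAB : A ≤ B := le_sup_left
  let 𝔫 : Ideal A := (maximalIdeal R).map (algebraMap R A)
  let 𝔫' : Ideal B := (maximalIdeal R).map (algebraMap R B)
  have hmax : 𝔫.IsMaximal := hA.isMaximal hx
  have hne : 𝔫' ≠ ⊤ := by
    intro h
    exact not_inM_one hx B hfin ((mem_map_iff hx B 1).1 ((Ideal.eq_top_iff_one _).1 h))
  have hle : 𝔫 ≤ 𝔫'.comap (Subalgebra.inclusion hAB : A →+* B) := by
    rw [← Ideal.map_le_iff_le_comap, Ideal.map_map]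
    exact le_of_eq rfl
  let K := A ⧸ 𝔫
  let _ : Field K := Ideal.Quotient.field 𝔫
  have hnt : Nontrivial (B ⧸ 𝔫') := Ideal.Quotient.nontrivial_iff.2 hne
  let f₀ : K →+* B ⧸ 𝔫' := Ideal.quotientMap 𝔫' (Subalgebra.inclusion hAB : A →+* B) hle
  let ψ : Polynomial K →+* B ⧸ 𝔫' := Polynomial.eval₂RingHom f₀ (Ideal.Quotient.mk 𝔫' ⟨β, hβB⟩)
  have hψC : ∀ y : A, ψ (Polynomial.C (Ideal.Quotient.mk 𝔫 y)) =
      Ideal.Quotient.mk 𝔫' ⟨y, hAB y.2⟩ := fun y => by
    simp only [ψ, Polynomial.coe_eval₂RingHom, Polynomial.eval₂_C]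
    rfl
  have hψX : ψ Polynomial.X = Ideal.Quotient.mk 𝔫' ⟨β, hβB⟩ := by
    simp only [ψ, Polynomial.coe_eval₂RingHom, Polynomial.eval₂_X]
  have hsurj : Surjective ψ := by
    let T : Subalgebra R B :=
      { carrier := {y | Ideal.Quotient.mk 𝔫' y ∈ ψ.range}
        mul_mem' := fun {a b} ha hb => by
          simp only [Set.mem_ofPred_eq, map_mul] at ha hb ⊢
          exact mul_mem ha hb
        add_mem' := fun {a b} ha hb => by
          simp only [Set.mem_ofPred_eq, map_add] at ha hb ⊢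
          exact add_mem ha hb
        algebraMap_mem' := fun r => by
          refine ⟨Polynomial.C (Ideal.Quotient.mk 𝔫 (algebraMap R A r)), ?_⟩
          rw [hψC]
          rfl }
    have hT : B ≤ T.map B.val := by
      refine sup_le ?_ ?_
      · intro y hy
        exact ⟨⟨y, hAB hy⟩, ⟨_, hψC ⟨y, hy⟩⟩, rfl⟩
      · rw [Algebra.adjoin_le_iff]
        rintro _ rfl
        exact ⟨⟨_, hβB⟩, ⟨_, hψX⟩, rfl⟩
    intro y
    obtain ⟨y, rfl⟩ := Ideal.Quotient.mk_surjective y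
    obtain ⟨z, hz, hzy⟩ := hT y.2
    have : z = y := Subtype.ext hzy
    rw [← this]
    exact hz
  have hirr : Irreducible (Polynomial.X ^ p - Polynomial.C (Ideal.Quotient.mk 𝔫 ⟨a, ha⟩) :
      Polynomial K) := by
    apply X_pow_sub_C_irreducible_of_prime hp
    intro b
    obtain ⟨b, rfl⟩ := Ideal.Quotient.mk_surjective b
    rw [← map_pow, Ne, Ideal.Quotient.mk_eq_mk_iff_sub_mem]
    intro h
    exact hr b b.2 ((mem_map_iff hx A _).1 h)
  have hF : IsField (B ⧸ 𝔫') := by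
    refine isField_quotient_of_surjective ψ hsurj _ hirr ?_
    rw [map_sub, map_pow, hψX, hψC, ← map_pow, ← map_sub]
    have : (⟨β, hβB⟩ : B) ^ p - ⟨a, hAB ha⟩ = 0 := by
      apply Subtype.ext
      change β ^ p - a = 0
      rw [hβ, sub_self]
    rw [this, map_zero]
  have hmax' : 𝔫'.IsMaximal := Ideal.Quotient.maximal_of_isField _ hF
  exact ((isMaximal_iff_inv hx B).1 hmax').2

theorem exists_finset_sup (A : Subalgebra R Ω) (β y : Ω) (hy : y ∈ A ⊔ Algebra.adjoin R {β}) :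
    ∃ F : Finset Ω, (∀ z ∈ F, z ∈ A) ∧ ∀ A₀ : Subalgebra R Ω, (∀ z ∈ F, z ∈ A₀) →
      y ∈ A₀ ⊔ Algebra.adjoin R {β} := by
  classical
  let T : Subalgebra R Ω :=
    { carrier := {y | ∃ F : Finset Ω, (∀ z ∈ F, z ∈ A) ∧
        ∀ A₀ : Subalgebra R Ω, (∀ z ∈ F, z ∈ A₀) → y ∈ A₀ ⊔ Algebra.adjoin R {β}}
      mul_mem' := by
        rintro a b ⟨F, hF, h1⟩ ⟨G, hG, h2⟩
        refine ⟨F ∪ G, fun z hz => ?_, fun A₀ hA₀ => ?_⟩
        · rcases Finset.mem_union.1 hz with h | h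
          · exact hF z h
          · exact hG z h
        · exact mul_mem (h1 A₀ fun z hz => hA₀ z (Finset.mem_union_left _ hz))
            (h2 A₀ fun z hz => hA₀ z (Finset.mem_union_right _ hz))
      add_mem' := by
        rintro a b ⟨F, hF, h1⟩ ⟨G, hG, h2⟩
        refine ⟨F ∪ G, fun z hz => ?_, fun A₀ hA₀ => ?_⟩
        · rcases Finset.mem_union.1 hz with h | h
          · exact hF z h
          · exact hG z h
        · exact add_mem (h1 A₀ fun z hz => hA₀ z (Finset.mem_union_left _ hz))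
            (h2 A₀ fun z hz => hA₀ z (Finset.mem_union_right _ hz))
      algebraMap_mem' := fun r => ⟨∅, by simp, fun A₀ _ => Subalgebra.algebraMap_mem _ r⟩ }
  have hT : A ⊔ Algebra.adjoin R {β} ≤ T := by
    refine sup_le ?_ ?_
    · intro z hz
      exact ⟨{z}, by simpa using hz, fun A₀ hA₀ =>
        (le_sup_left : A₀ ≤ A₀ ⊔ _) (hA₀ z (Finset.mem_singleton_self z))⟩
    · rw [Algebra.adjoin_le_iff]
      rintro _ rfl
      exact ⟨∅, by simp, fun A₀ _ => (le_sup_right : Algebra.adjoin R _ ≤ A₀ ⊔ _)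
        (Algebra.subset_adjoin (Set.mem_singleton _))⟩
  exact hT hy

theorem LocUnion.adjoin [IsLocalRing R] (hx : Ideal.span (Set.range x) = maximalIdeal R)
    {A : Subalgebra R Ω} (hA : LocUnion x A) (p : ℕ) (hp : p.Prime) (a β : Ω) (ha : a ∈ A)
    (hβ : β ^ p = a) (hr : ∀ b ∈ A, ¬ InM x A (b ^ p - a)) :
    LocUnion x (A ⊔ Algebra.adjoin R {β}) := by
  classical
  intro F hF
  have h1 : ∀ y : F, ∃ G : Finset Ω, (∀ z ∈ G, z ∈ A) ∧ ∀ A₀ : Subalgebra R Ω,
      (∀ z ∈ G, z ∈ A₀) → (y : Ω) ∈ A₀ ⊔ Algebra.adjoin R {β} := fun y =>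
    exists_finset_sup A β y (hF y y.2)
  choose G hG hG' using h1
  obtain ⟨A₀, h2, h3, h4⟩ := hA (insert a (Finset.univ.biUnion G)) (by
    intro y hy
    rw [Finset.mem_insert, Finset.mem_biUnion] at hy
    rcases hy with rfl | ⟨z, -, hz⟩
    · exact ha
    · exact hG z y hz)
  refine ⟨A₀ ⊔ Algebra.adjoin R {β}, sup_le_sup_right h2 _, fun y hy => ?_, ?_⟩
  · refine hG' ⟨y, hy⟩ A₀ fun z hz => h3 z ?_
    rw [Finset.mem_insert, Finset.mem_biUnion]
    exact Or.inr ⟨_, Finset.mem_univ _, hz⟩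
  · exact h4.adjoin hx p hp a β (h3 a (Finset.mem_insert_self _ _)) hβ fun b hb h =>
      hr b (h2 hb) (h.mono h2)

theorem locUnion_sSup (c : Set (Subalgebra R Ω)) (hc : ∀ A ∈ c, LocUnion x A)
    (hch : IsChain (· ≤ ·) c) (hne : c.Nonempty) : LocUnion x (sSup c) := by
  classical
  intro F hF
  have hdir : DirectedOn (· ≤ ·) c := hch.directedOn
  have h1 : ∃ A ∈ c, ∀ y ∈ F, y ∈ A := by
    induction F using Finset.induction with
    | empty =>
      obtain ⟨A, hA⟩ := hne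
      exact ⟨A, hA, by simp⟩
    | insert z F _ ih =>
      obtain ⟨A, hA, h2⟩ := ih fun y hy => hF y (Finset.mem_insert_of_mem hy)
      have hne' : Nonempty c := hne.to_subtype
      have h4 : z ∈ ⨆ B : c, (B : Subalgebra R Ω) := by
        rw [← sSup_eq_iSup']
        exact hF z (Finset.mem_insert_self _ _)
      rw [← SetLike.mem_coe, Subalgebra.coe_iSup_of_directed hdir.directed_val,
        Set.mem_iUnion] at h4
      obtain ⟨⟨B, hB⟩, h3⟩ := h4
      obtain ⟨C, hC, hAC, hBC⟩ := hdir A hA B hB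
      refine ⟨C, hC, fun y hy => ?_⟩
      rcases Finset.mem_insert.1 hy with rfl | hy
      · exact hBC h3
      · exact hAC (h2 y hy)
  obtain ⟨A, hA, h2⟩ := h1
  obtain ⟨A₀, h3, h4, h5⟩ := hc A hA F h2
  exact ⟨A₀, h3.trans (le_sSup hA), h4, h5⟩

/-- A maximal directed union has a perfect residue ring. -/
theorem exists_locUnion_perfect [IsLocalRing R] [IsAlgClosed Ω]
    (hx : Ideal.span (Set.range x) = maximalIdeal R) (p : ℕ) (hp : p.Prime) :
    ∃ A : Subalgebra R Ω, LocUnion x A ∧ ∀ a ∈ A, ∃ b ∈ A, InM x A (b ^ p - a) := by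
  obtain ⟨A, -, hA⟩ := zorn_le_nonempty₀ {A : Subalgebra R Ω | LocUnion x A} (fun c hc hch y hy =>
    ⟨sSup c, locUnion_sSup c hc hch ⟨y, hy⟩, fun z hz => le_sSup hz⟩) ⊥ (locUnion_bot hx)
  refine ⟨A, hA.prop, fun a ha => ?_⟩
  by_contra hcon
  push Not at hcon
  obtain ⟨β, hβ⟩ := IsAlgClosed.exists_pow_nat_eq a hp.pos
  have h1 : LocUnion x (A ⊔ Algebra.adjoin R {β}) := LocUnion.adjoin hx hA.prop p hp a β ha hβ hcon
  have h2 : A ⊔ Algebra.adjoin R {β} ≤ A := hA.le_of_ge h1 le_sup_left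
  have h3 : β ∈ A := h2 ((le_sup_right : Algebra.adjoin R {β} ≤ A ⊔ _)
    (Algebra.subset_adjoin (Set.mem_singleton β)))
  apply hcon β h3
  rw [hβ, sub_self]
  exact ⟨fun _ => 0, fun _ => zero_mem _, by simp⟩

end mA

end Vale.Agent.P177
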