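import Vale.Agent.P177.EGonfA
import Vale.Agent.P177.DFlat
import Vale.Agent.P177.CPs

/-!
Flatness of the directed unions of finite local subalgebras.
-/

namespace Vale.Agent.P177

open IsLocalRing Function RingTheory.Sequence

universe u

theorem isLocalRing_of_integral_map {R A : Type u} [CommRing R] [IsLocalRing R] [CommRing A]
    [Algebra R A] [Algebra.IsIntegral R A]
    (h : ((maximalIdeal R).map (algebraMap R A)).IsMaximal) :
    ∃ _ : IsLocalRing A, (maximalIdeal R).map (algebraMap R A) = maximalIdeal A := by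
  have h1 : IsLocalRing A := IsLocalRing.of_unique_max_ideal
    ⟨(maximalIdeal R).map (algebraMap R A), h, fun M hM => by
      have h2 : (M.comap (algebraMap R A)).IsMaximal :=
        Ideal.isMaximal_comap_of_isIntegral_of_isMaximal M
      have h3 : M.comap (algebraMap R A) = maximalIdeal R := IsLocalRing.eq_maximalIdeal h2
      have h4 : (maximalIdeal R).map (algebraMap R A) ≤ M := by
        rw [Ideal.map_le_iff_le_comap, h3]
      exact (h.eq_of_le hM.ne_top h4).symm⟩
  exact ⟨h1, IsLocalRing.eq_maximalIdeal h⟩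

theorem ringKrullDim_le_of_integral {R A : Type u} [CommRing R] [CommRing A]
    [Algebra R A] [Algebra.IsIntegral R A] (hinj : Injective (algebraMap R A)) :
    ringKrullDim R ≤ ringKrullDim A := by
  refine iSup_le fun l => ?_
  obtain ⟨P, hP⟩ := (algebraMap_isIntegral_iff.2 ‹Algebra.IsIntegral R A›).comap_surjective hinj
    l.head
  have hlo : P.asIdeal.LiesOver l.head.asIdeal := ⟨by rw [← hP]; rfl⟩
  obtain ⟨L, hL, -⟩ := Ideal.exists_ltSeries_of_hasGoingUp l P.asIdeal
  rw [← hL]
  exact Order.LTSeries.length_le_krullDim L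

section flat

variable {R : Type u} [CommRing R] [IsRegularLocalRing R] {Ω : Type u} [Field Ω] [Algebra R Ω]
  {d : ℕ} {x : Fin d → R} (hx : Ideal.span (Set.range x) = maximalIdeal R)
  (hd : ringKrullDim R = d) (hinj : Injective (algebraMap R Ω))

include hx hd hinj in
theorem FinMax.flat {A : Subalgebra R Ω} (hA : FinMax x A) : Module.Flat R A := by
  have hfin : Module.Finite R A := hA.finite
  obtain ⟨hloc, hm⟩ := isLocalRing_of_integral_map (hA.isMaximal hx)
  have hN : IsNoetherianRing A := by
    have : IsNoetherian R A := isNoetherian_of_isNoetherianRing_of_finite R A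
    exact isNoetherian_of_tower R this
  have hinj' : Injective (algebraMap R A) := fun a b hab => hinj (by
    have := congrArg (Subtype.val : A → Ω) hab
    exact this)
  have hdim : ringKrullDim R ≤ ringKrullDim A := ringKrullDim_le_of_integral hinj'
  let rs : List R := List.ofFn x
  have hrs : Ideal.ofList rs = maximalIdeal R := by
    rw [← hx, Ideal.ofList]
    congr 1
    ext y
    simp [rs, List.mem_ofFn]
  have hrl : rs.length = d := by simp [rs]
  have hrsA : Ideal.ofList (rs.map (algebraMap R A)) = maximalIdeal A := by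
    rw [← Ideal.map_ofList, hrs, hm]
  obtain ⟨hreg, hdA⟩ := isRegularLocalRing_of_list (rs.map (algebraMap R A)) hrsA (by
    rw [List.length_map, hrl, ← hd]
    exact hdim)
  have hl : IsLocalHom (algebraMap R A) :=
    ((IsLocalRing.local_hom_TFAE (algebraMap R A)).out 0 2).2 hm.le
  refine flat_of_weaklyRegular rs hrs
    (isRegular_of_ofList_eq_maximalIdeal R rs hrs (by rw [hd, hrl])).toIsWeaklyRegular
    (isRegular_of_ofList_eq_maximalIdeal A (rs.map (algebraMap R A)) hrsA
      hdA.symm).toIsWeaklyRegular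

include hx hd hinj in
theorem LocUnion.flat {A : Subalgebra R Ω} (hA : LocUnion x A) : Module.Flat R A := by
  classical
  apply Module.Flat.of_forall_isTrivialRelation
  intro l f y h
  obtain ⟨A₀, h1, h2, h3⟩ := hA (Finset.univ.image fun i => (y i : Ω)) (by
    intro z hz
    obtain ⟨i, -, rfl⟩ := Finset.mem_image.1 hz
    exact (y i).2)
  have h4 : ∀ i, (y i : Ω) ∈ A₀ := fun i =>
    h2 _ (Finset.mem_image_of_mem _ (Finset.mem_univ i))
  have hfl : Module.Flat R A₀ := h3.flat hx hd hinj
  have h5 : ∑ i, f i • (⟨y i, h4 i⟩ : A₀) = 0 := by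
    apply Subtype.ext
    have h6 := congrArg (Subtype.val : A → Ω) h
    rw [AddSubmonoidClass.coe_finsetSum] at h6 ⊢
    exact h6
  obtain ⟨k, a, z, h6, h7⟩ := Module.Flat.isTrivialRelation_of_sum_smul_eq_zero h5
  refine ⟨k, a, fun j => ⟨z j, h1 (z j).2⟩, fun i => ?_, h7⟩
  apply Subtype.ext
  have h8 := congrArg (Subtype.val : A₀ → Ω) (h6 i)
  rw [AddSubmonoidClass.coe_finsetSum] at h8 ⊢
  exact h8

omit [IsRegularLocalRing R] in
theorem LocUnion.isIntegral {A : Subalgebra R Ω} (hA : LocUnion x A) : Algebra.IsIntegral R A := by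
  refine ⟨fun y => ?_⟩
  obtain ⟨A₀, h1, h2, h3⟩ := hA {(y : Ω)} (by simp)
  have hfin : Module.Finite R A₀ := h3.finite
  have h4 := Algebra.IsIntegral.isIntegral (R := R)
    (⟨y, h2 _ (Finset.mem_singleton_self _)⟩ : A₀)
  have h5 := h4.map (Subalgebra.inclusion h1)
  exact h5

end flat

end Vale.Agent.P177
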