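import Vale.Agent.P177.CDescend
import Vale.Agent.P177.Devissage
import Vale.Agent.P177.CLocQ
import Mathlib.RingTheory.Ideal.AssociatedPrime.Finiteness

/-!
Serre's statements for modules over a regular quotient of a regular local ring.
-/

namespace Vale.Agent.P177

open CategoryTheory TensorProduct Function IsLocalRing
open scoped Pointwise

universe u

/-- Serre's statements for a pair of modules over a ring of dimension `d`. -/
def SP (R : Type u) [CommRing R] (d : ℕ) (M N : Type u) [AddCommGroup M] [Module R M]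
    [AddCommGroup N] [Module R N] : Prop :=
  0 ≤ eulerTor R (d + 1) M N ∧ ∀ m n : ℕ, (m : WithBot ℕ∞) ≤ Module.supportDim R M →
      (n : WithBot ℕ∞) ≤ Module.supportDim R N →
      (m + n ≤ d) ∧ (d ≤ m + n → 0 < eulerTor R (d + 1) M N)

section basic

variable {R : Type u} [CommRing R] {d : ℕ}

theorem SP.symm {M N : Type u} [AddCommGroup M] [Module R M] [AddCommGroup N] [Module R N]
    (h : SP R d M N) : SP R d N M := by
  unfold SP at h ⊢
  rw [eulerTor_symm]
  refine ⟨h.1, fun m n hm hn => ?_⟩
  obtain ⟨h1, h2⟩ := h.2 n m hn hm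
  exact ⟨by omega, fun hd => h2 (by omega)⟩

theorem SP.congr {M N M' N' : Type u} [AddCommGroup M] [Module R M] [AddCommGroup N]
    [Module R N] [AddCommGroup M'] [Module R M'] [AddCommGroup N'] [Module R N']
    (e : M ≃ₗ[R] M') (e' : N ≃ₗ[R] N') (h : SP R d M N) : SP R d M' N' := by
  unfold SP at h ⊢
  rw [← eulerTor_congr e e', ← Module.supportDim_eq_of_equiv e,
    ← Module.supportDim_eq_of_equiv e']
  exact h

theorem SP.of_subsingleton {M N : Type u} [AddCommGroup M] [Module R M] [AddCommGroup N]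
    [Module R N] (hM : Subsingleton M) : SP R d M N := by
  refine ⟨(eulerTor_left_zero _ _ _ hM).ge, fun m n hm _ => ?_⟩
  rw [Module.supportDim_eq_bot_of_subsingleton] at hm
  exact absurd (le_bot_iff.1 hm) (WithBot.coe_ne_bot)

theorem SP.of_exact [IsRegularLocalRing R] (hd : ringKrullDim R = d)
    {M' M M'' N : Type u} [AddCommGroup M'] [Module R M']
    [AddCommGroup M] [Module R M] [AddCommGroup M''] [Module R M''] [Module.Finite R M']
    [Module.Finite R M] [Module.Finite R M'']
    [AddCommGroup N] [Module R N] [Module.Finite R N]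
    (f : M' →ₗ[R] M) (g : M →ₗ[R] M'') (hf : Injective f) (hg : Surjective g) (h : Exact f g)
    (hlen : Module.length R (M ⊗[R] N) ≠ ⊤) (h1 : SP R d M' N) (h3 : SP R d M'' N) :
    SP R d M N := by
  have hlen' : Module.length R (M' ⊗[R] N) ≠ ⊤ :=
    length_tensor_ne_top_of_annihilator_le M M' N hlen (LinearMap.annihilator_le_of_injective f hf)
  have hv : Module.length R (TorM R (d + 1) M'' N) = 0 := by
    have := regular_tor_vanish R d hd M'' N (d + 1) le_rfl
    exact Module.length_eq_zero
  have hadd := eulerTor_add_aux f g hf hg h N (fun i => tor_length_ne_top i M' N hlen')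
    (fun i => tor_length_ne_top i M N hlen) (d + 1) hv
  unfold SP
  rw [hadd]
  refine ⟨add_nonneg h1.1 h3.1, fun m n hm hn => ?_⟩
  rcases le_supportDim_of_exact f g hf hg h m hm with hm' | hm'
  · obtain ⟨k1, k2⟩ := h1.2 m n hm' hn
    exact ⟨k1, fun hh => add_pos_of_pos_of_nonneg (k2 hh) h3.1⟩
  · obtain ⟨k1, k2⟩ := h3.2 m n hm' hn
    exact ⟨k1, fun hh => add_pos_of_nonneg_of_pos h1.1 (k2 hh)⟩

end basic

section step

variable {B A : Type u} [CommRing B] [IsRegularLocalRing B] [CommRing A] [IsRegularLocalRing A]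
  [Algebra B A] {f : B}

omit [IsRegularLocalRing B] [IsRegularLocalRing A] in
theorem exists_quotHyp_equiv (H : IsHypersurface B A f) (N : Type u) [AddCommGroup N] [Module B N] :
    Nonempty (QuotSMulTop f N ≃ₗ[B] A ⊗[B] N) := by
  let e1 : (B ⧸ Ideal.span {f}) ≃ₗ[B] A :=
    ((Ideal.quotientEquivAlgOfEq B H.ker.symm).trans
      (Ideal.quotientKerAlgEquivOfSurjective (f := Algebra.ofId B A) H.surj)).toLinearEquiv
  exact ⟨(QuotSMulTop.equivQuotTensor f N).trans
    (TensorProduct.congr e1 (LinearEquiv.refl B N))⟩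

theorem IsHypersurface.mem (H : IsHypersurface B A f) : f ∈ maximalIdeal B := by
  rw [mem_maximalIdeal, mem_nonunits_iff]
  intro hu
  have h1 := hu.map (algebraMap B A)
  rw [H.algebraMap_f] at h1
  exact not_isUnit_zero h1

variable {d : ℕ} (H : IsHypersurface B A f)
  (hdB : ringKrullDim B = ((d + 1 : ℕ) : WithBot ℕ∞)) (hdA : ringKrullDim A = d)
  (M : Type u) [AddCommGroup M] [Module B M] [Module A M] [IsScalarTower B A M]
  [Module.Finite A M] [Module.Finite B M]
  (hA : ∀ (N' : Type u) [AddCommGroup N'] [Module A N'] [Module.Finite A N'],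
    Module.length A (N' ⊗[A] M) ≠ ⊤ → SP A d N' M)

include H hdA hA in
theorem sp_step_regular (N : Type u) [AddCommGroup N] [Module B N] [Module.Finite B N]
    (hN : IsSMulRegular N f) (hlen : Module.length B (N ⊗[B] M) ≠ ⊤) : SP B (d + 1) N M := by
  have hbc := TensorProduct.isBaseChange B N A
  have hX : Module.Finite A (A ⊗[B] N) := inferInstance
  rw [length_tensor_baseChange H.surj hbc M] at hlen
  obtain ⟨h1, h2⟩ := hA (A ⊗[B] N) hlen
  have heq : eulerTor B (d + 1 + 1) N M = eulerTor A (d + 1) (A ⊗[B] N) M := by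
    rw [← eulerTor_of_vanish (T := A) (A ⊗[B] N) M (d + 1) (d + 1 + 1) (Nat.le_succ _)
      (fun j hj => regular_tor_vanish A d hdA (A ⊗[B] N) M j hj)]
    unfold eulerTor
    refine Finset.sum_congr rfl fun i _ => ?_
    rw [H.length_tor_baseChange i hbc hN M]
  have hfinB : Module.Finite B (A ⊗[B] N) := by
    have : Module.Finite B A := Module.Finite.of_surjective (Algebra.linearMap B A) H.surj
    exact Module.Finite.trans A _
  have hdimX : Module.supportDim A (A ⊗[B] N) + 1 = Module.supportDim B N := by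
    obtain ⟨e⟩ := exists_quotHyp_equiv H N
    rw [← supportDim_eq_of_surjective H.surj (A ⊗[B] N), ← Module.supportDim_eq_of_equiv e]
    exact Module.supportDim_quotSMulTop_succ_eq_supportDim hN H.mem
  unfold SP
  rw [heq]
  refine ⟨h1, fun n m hn hm => ?_⟩
  rw [supportDim_eq_of_surjective H.surj M] at hm
  rw [← hdimX] at hn
  have hnb : Module.supportDim A (A ⊗[B] N) ≠ ⊥ := by
    intro hb
    rw [hb] at hn
    simp at hn
  have h0 : ((0 : ℕ) : WithBot ℕ∞) ≤ Module.supportDim A (A ⊗[B] N) := by
    generalize Module.supportDim A (A ⊗[B] N) = a at hnb ⊢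
    induction a using WithBot.recBotCoe with
    | bot => exact absurd rfl hnb
    | coe a => exact_mod_cast (bot_le : (0 : ℕ∞) ≤ a)
  obtain ⟨k1, k2⟩ := h2 0 m h0 hm
  rcases n with _ | n
  · exact ⟨by omega, fun hh => by omega⟩
  · have hn' : (n : WithBot ℕ∞) ≤ Module.supportDim A (A ⊗[B] N) := by
      generalize Module.supportDim A (A ⊗[B] N) = a at hn ⊢
      push_cast at hn
      induction a using WithBot.recBotCoe with
      | bot => simp at hn
      | coe a =>
        have h7 : ((n : ℕ∞) + 1) ≤ a + 1 := by exact_mod_cast hn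
        have h8 : (n : ℕ∞) ≤ a := (ENat.add_le_add_iff_right (by simp)).1 h7
        exact_mod_cast h8
    obtain ⟨k3, k4⟩ := h2 n m hn' hm
    exact ⟨by omega, fun hh => k4 (by omega)⟩

include H hdB hdA hA in
theorem sp_step_killed (N : Type u) [AddCommGroup N] [Module B N] [Module.Finite B N]
    (hN : ∀ v : N, f • v = 0) (hlen : Module.length B (N ⊗[B] M) ≠ ⊤) : SP B (d + 1) N M := by
  have hbot : f • (⊤ : Submodule B N) = ⊥ := by
    rw [eq_bot_iff]
    rintro _ ⟨v, -, rfl⟩
    exact hN v
  have hfinB : Module.Finite B (A ⊗[B] N) := by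
    have : Module.Finite B A := Module.Finite.of_surjective (Algebra.linearMap B A) H.surj
    exact Module.Finite.trans A _
  obtain ⟨e⟩ := exists_quotHyp_equiv H N
  let e' : N ≃ₗ[B] A ⊗[B] N := (Submodule.quotEquivOfEqBot _ hbot).symm.trans e
  refine SP.congr e'.symm (LinearEquiv.refl B M) ?_
  have hlenX : Module.length B ((A ⊗[B] N) ⊗[B] M) ≠ ⊤ := by
    rw [← (TensorProduct.congr e' (LinearEquiv.refl B M)).length_eq]
    exact hlen
  have hlenA : Module.length A ((A ⊗[B] N) ⊗[A] M) ≠ ⊤ := by
    rw [← length_tensor_baseChange H.surj (isBaseChange_id_of_surjective H.surj (A ⊗[B] N)) M]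
    exact hlenX
  obtain ⟨-, h2⟩ := hA (A ⊗[B] N) hlenA
  have hBv : Module.length B (TorM B (d + 1 + 1) (A ⊗[B] N) M) = 0 := by
    have := regular_tor_vanish B (d + 1) hdB (A ⊗[B] N) M (d + 1 + 1) le_rfl
    exact Module.length_eq_zero
  have h6 := H.eulerTor_eq (A ⊗[B] N) M (fun n => tor_length_ne_top n _ M hlenA) (d + 1) hBv
  have h7 : Module.length A (TorM A (d + 1) (A ⊗[B] N) M) = 0 := by
    have := regular_tor_vanish A d hdA (A ⊗[B] N) M (d + 1) le_rfl
    exact Module.length_eq_zero
  have h8 : Module.length A (TorM A (d + 1 + 1) (A ⊗[B] N) M) = 0 := by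
    have := regular_tor_vanish A d hdA (A ⊗[B] N) M (d + 1 + 1) (by omega)
    exact Module.length_eq_zero
  rw [h7, h8, sub_self, mul_zero] at h6
  unfold SP
  rw [h6]
  refine ⟨le_rfl, fun n m hn hm => ?_⟩
  rw [supportDim_eq_of_surjective H.surj M] at hm
  rw [supportDim_eq_of_surjective H.surj (A ⊗[B] N)] at hn
  obtain ⟨k1, -⟩ := h2 n m hn hm
  exact ⟨by omega, fun hh => by omega⟩

include H hdB hdA hA in
/-- Passage from a regular hypersurface to the ambient ring. -/
theorem sp_step (N : Type u) [AddCommGroup N] [Module B N] [Module.Finite B N]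
    (hlen : Module.length B (N ⊗[B] M) ≠ ⊤) : SP B (d + 1) N M := by
  refine IsNoetherianRing.induction_on_isQuotientEquivQuotientPrime B (M := N) inferInstance
    (motive := fun N => Module.length B (N ⊗[B] M) ≠ ⊤ → SP B (d + 1) N M) ?_ ?_ ?_ hlen
  · intro N _ _ _ hN _
    exact SP.of_subsingleton hN
  · intro N _ _ _ q e hlen
    by_cases hf : f ∈ q.1
    · refine sp_step_killed H hdB hdA M hA N (fun v => ?_) hlen
      apply e.injective
      rw [map_smul, map_zero]
      obtain ⟨b, hb⟩ := Ideal.Quotient.mk_surjective (e v)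
      rw [← hb]
      change Ideal.Quotient.mk q.1 (f * b) = 0
      rw [Ideal.Quotient.eq_zero_iff_mem]
      exact Ideal.mul_mem_right _ _ hf
    · refine sp_step_regular H hdA M hA N ?_ hlen
      rw [isSMulRegular_iff_right_eq_zero_of_smul]
      intro v hv
      apply e.injective
      rw [map_zero]
      have h1 : f • e v = 0 := by rw [← map_smul, hv, map_zero]
      obtain ⟨b, hb⟩ := Ideal.Quotient.mk_surjective (e v)
      rw [← hb] at h1 ⊢
      have h2 : Ideal.Quotient.mk q.1 (f * b) = 0 := h1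
      rw [Ideal.Quotient.eq_zero_iff_mem] at h2 ⊢
      exact (q.2.mem_or_mem h2).resolve_left hf
  · intro N₁ _ _ _ N₂ _ _ _ N₃ _ _ _ i g hi hg hex h1 h3 hlen
    refine SP.of_exact hdB i g hi hg hex hlen (h1 ?_) (h3 ?_)
    · exact length_tensor_ne_top_of_annihilator_le N₂ N₁ M hlen
        (LinearMap.annihilator_le_of_injective i hi)
    · exact length_tensor_ne_top_of_annihilator_le N₂ N₃ M hlen
        (LinearMap.annihilator_le_of_surjective g hg)

end step

end Vale.Agent.P177
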