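import Mathlib

/-!
The canonical map from the Witt vectors of a perfect residue field to a complete local ring.
-/

namespace Vale.Agent.P177

open IsLocalRing Ideal Function

universe u

section witt

variable {S : Type u} [CommRing S] [IsLocalRing S] (p : ℕ) [Fact p.Prime]

theorem mk_ghostComponent_eq_zero (hp : (p : S) ∈ maximalIdeal S) (n : ℕ) (x : WittVector p S)
    (hx : WittVector.map (residue S) x = 0) :
    Ideal.Quotient.mk (maximalIdeal S ^ (n + 1)) (WittVector.ghostComponent n x) = 0 := by
  have hc : ∀ i, x.coeff i ∈ maximalIdeal S := by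
    intro i
    have h1 := congrArg (fun y => WittVector.coeff y i) hx
    simp only [WittVector.map_coeff, WittVector.zero_coeff] at h1
    exact (residue_eq_zero_iff _).1 h1
  rw [Ideal.Quotient.eq_zero_iff_mem, WittVector.ghostComponent_apply, aeval_wittPolynomial]
  refine Ideal.sum_mem _ fun i hi => ?_
  have hi' : i ≤ n := Nat.lt_succ_iff.1 (Finset.mem_range.1 hi)
  have h2 : n + 1 ≤ i + p ^ (n - i) := by
    have := Nat.lt_pow_self (Fact.out (p := p.Prime)).one_lt (n := n - i)
    omega
  have h3 : (p : S) ^ i * x.coeff i ^ p ^ (n - i) ∈ maximalIdeal S ^ (i + p ^ (n - i)) := by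
    rw [pow_add]
    exact Ideal.mul_mem_mul (Ideal.pow_mem_pow hp i) (Ideal.pow_mem_pow (hc i) _)
  exact Ideal.pow_le_pow_right h2 h3

/-- The `n`-th ghost component modulo a power of the maximal ideal. -/
noncomputable def ghostMod (hp : (p : S) ∈ maximalIdeal S) (n : ℕ) :
    WittVector p (ResidueField S) →+* S ⧸ maximalIdeal S ^ (n + 1) :=
  RingHom.liftOfSurjective (WittVector.map (residue S))
    (WittVector.map_surjective _ residue_surjective)
    ⟨(Ideal.Quotient.mk (maximalIdeal S ^ (n + 1))).comp (WittVector.ghostComponent n),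
      fun x hx => mk_ghostComponent_eq_zero p hp n x hx⟩

theorem ghostMod_map (hp : (p : S) ∈ maximalIdeal S) (n : ℕ) (x : WittVector p S) :
    ghostMod p hp n (WittVector.map (residue S) x) =
      Ideal.Quotient.mk (maximalIdeal S ^ (n + 1)) (WittVector.ghostComponent n x) :=
  RingHom.liftOfSurjective_comp_apply ..

variable [CharP (ResidueField S) p] [PerfectRing (ResidueField S) p]

/-- The inverse of the Frobenius map. -/
noncomputable def rootHom (k : Type u) [Field k] [CharP k p] [PerfectRing k p] : k →+* k :=
  ((frobeniusEquiv k p).symm : k →+* k)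

/-- The canonical map modulo a power of the maximal ideal. -/
noncomputable def wittMod (hp : (p : S) ∈ maximalIdeal S) (n : ℕ) :
    WittVector p (ResidueField S) →+* S ⧸ maximalIdeal S ^ (n + 1) :=
  (ghostMod p hp n).comp (WittVector.map (rootHom p (ResidueField S) ^ n))

theorem wittMod_teichmuller (hp : (p : S) ∈ maximalIdeal S) (n : ℕ) (a : ResidueField S) (b : S)
    (hb : residue S b = (rootHom p (ResidueField S) ^ n) a) :
    wittMod p hp n (WittVector.teichmuller p a) =
      Ideal.Quotient.mk (maximalIdeal S ^ (n + 1)) (b ^ p ^ n) := by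
  rw [wittMod, RingHom.comp_apply, WittVector.map_teichmuller, ← hb,
    ← WittVector.map_teichmuller, ghostMod_map, WittVector.ghostComponent_teichmuller]

theorem factorPowSucc_comp_wittMod (hp : (p : S) ∈ maximalIdeal S) (n : ℕ) :
    (Ideal.Quotient.factorPowSucc (maximalIdeal S) (n + 1)).comp (wittMod p hp (n + 1)) =
      wittMod p hp n := by
  apply WittVector.eq_of_apply_teichmuller_eq
  · refine ⟨n + 1, ?_⟩
    rw [← map_natCast (Ideal.Quotient.mk (maximalIdeal S ^ (n + 1))), ← map_pow,
      Ideal.Quotient.eq_zero_iff_mem]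
    exact Ideal.pow_mem_pow hp _
  · intro a
    obtain ⟨b, hb⟩ := residue_surjective ((rootHom p (ResidueField S) ^ (n + 1)) a)
    have hb' : residue S (b ^ p) = (rootHom p (ResidueField S) ^ n) a := by
      rw [map_pow, hb]
      have h1 : (rootHom p (ResidueField S) ^ (n + 1)) a =
          rootHom p (ResidueField S) ((rootHom p (ResidueField S) ^ n) a) := by
        rw [pow_succ']
        rfl
      rw [h1]
      exact frobeniusEquiv_symm_pow_p _ _ _
    rw [RingHom.comp_apply, wittMod_teichmuller p hp (n + 1) a b hb,
      wittMod_teichmuller p hp n a (b ^ p) hb']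
    rw [← pow_mul, ← pow_succ']
    rfl

theorem exists_witt_hom [IsAdicComplete (maximalIdeal S) S] :
    ∃ σ : WittVector p (ResidueField S) →+* S, ∀ w, residue S (σ w) = w.coeff 0 := by
  have hp : (p : S) ∈ maximalIdeal S := by
    rw [← residue_eq_zero_iff, map_natCast]
    exact CharP.cast_eq_zero _ _
  refine ⟨IsAdicComplete.StrictMono.liftRingHom (maximalIdeal S) Order.succ_strictMono
    (fun n => wittMod p hp n) (factorPowSucc_comp_wittMod p hp _), fun w => ?_⟩
  have h1 := IsAdicComplete.StrictMono.mk_liftRingHom (maximalIdeal S) Order.succ_strictMono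
    (fun n => wittMod p hp n) (factorPowSucc_comp_wittMod p hp _) (n := 0) w
  obtain ⟨x, rfl⟩ := WittVector.map_surjective (p := p) _ (residue_surjective (R := S)) w
  set y := IsAdicComplete.StrictMono.liftRingHom (maximalIdeal S) Order.succ_strictMono
    (fun n => wittMod p hp n) (factorPowSucc_comp_wittMod p hp _)
    (WittVector.map (residue S) x)
  have h2 : wittMod p hp 0 (WittVector.map (residue S) x) =
      Ideal.Quotient.mk (maximalIdeal S ^ (0 + 1)) (x.coeff 0) := by
    have h3 : wittMod p hp 0 (WittVector.map (residue S) x) =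
        ghostMod p hp 0 (WittVector.map (residue S) x) := by
      rw [wittMod, RingHom.comp_apply]
      congr 1
    rw [h3, ghostMod_map]
    congr 1
    rw [WittVector.ghostComponent_apply, aeval_wittPolynomial]
    simp
  have h4 : Ideal.Quotient.mk (maximalIdeal S ^ (0 + 1)) y =
      Ideal.Quotient.mk (maximalIdeal S ^ (0 + 1)) (x.coeff 0) := h1.trans h2
  rw [Ideal.Quotient.mk_eq_mk_iff_sub_mem, zero_add, pow_one] at h4
  rw [WittVector.map_coeff, ← sub_eq_zero, ← map_sub, residue_eq_zero_iff]
  exact h4

end witt

end Vale.Agent.P177
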