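import Vale.Agent.P177.HeightBound

/-!
Minimal primes of `I₁ ⊗ R₂ + R₁ ⊗ I₂` contract to minimal primes in the fibre.
-/

namespace Vale.Agent.P177

open Function IsLocalRing TensorProduct

universe u

section

variable {A R₁ R₂ : Type u} [CommRing A] [CommRing R₁] [CommRing R₂] [Algebra A R₁]
  [Algebra A R₂]

theorem mem_fiber_iff {R S : Type u} [CommRing R] [CommRing S] [Algebra R S] (p : PrimeSpectrum R)
    (P : PrimeSpectrum (p.asIdeal.Fiber S)) (x : S) :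
    x ∈ (((PrimeSpectrum.preimageOrderIsoFiber R S p).symm P).1).asIdeal ↔
      ((1 : p.asIdeal.ResidueField) ⊗ₜ x) ∈ P.asIdeal := Iff.rfl

theorem comap_mem_minimalPrimes (I₁ : Ideal R₁) (I₂ : Ideal R₂) (Q : Ideal (R₁ ⊗[A] R₂))
    [Q.IsPrime] (hQ : Q ∈ (I₁.map (algebraMap R₁ (R₁ ⊗[A] R₂)) ⊔
      I₂.map (Algebra.TensorProduct.includeRight : R₂ →ₐ[A] R₁ ⊗[A] R₂)).minimalPrimes) :
    Q.comap (Algebra.TensorProduct.includeRight : R₂ →ₐ[A] R₁ ⊗[A] R₂) ∈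
      (I₂ ⊔ (Q.comap (algebraMap A (R₁ ⊗[A] R₂))).map (algebraMap A R₂)).minimalPrimes := by
  let P₁ : PrimeSpectrum R₁ := ⟨Q.comap (algebraMap R₁ (R₁ ⊗[A] R₂)), Ideal.IsPrime.comap _⟩
  let P₂ : PrimeSpectrum R₂ :=
    ⟨Q.comap (Algebra.TensorProduct.includeRight : R₂ →ₐ[A] R₁ ⊗[A] R₂), Ideal.IsPrime.comap _⟩
  let q : PrimeSpectrum A := ⟨Q.comap (algebraMap A (R₁ ⊗[A] R₂)), Ideal.IsPrime.comap _⟩
  have hP₁ : q = PrimeSpectrum.comap (algebraMap A R₁) P₁ := by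
    apply PrimeSpectrum.ext
    change Q.comap _ = (Q.comap _).comap _
    rw [Ideal.comap_comap, ← IsScalarTower.algebraMap_eq]
  have hP₂ : q = PrimeSpectrum.comap (algebraMap A R₂) P₂ := by
    apply PrimeSpectrum.ext
    ext x
    change algebraMap A (R₁ ⊗[A] R₂) x ∈ Q ↔
      (Algebra.TensorProduct.includeRight : R₂ →ₐ[A] R₁ ⊗[A] R₂) (algebraMap A R₂ x) ∈ Q
    rw [AlgHom.commutes]
  let φ₀ : q.asIdeal.ResidueField →ₐ[A] P₁.asIdeal.ResidueField :=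
    Ideal.ResidueField.mapₐ q.asIdeal P₁.asIdeal (Algebra.ofId _ _)
      (congrArg PrimeSpectrum.asIdeal hP₁)
  let _ : Algebra q.asIdeal.ResidueField P₁.asIdeal.ResidueField := φ₀.toRingHom.toAlgebra
  have htow : IsScalarTower A q.asIdeal.ResidueField P₁.asIdeal.ResidueField :=
    IsScalarTower.of_algebraMap_eq fun x => (φ₀.commutes x).symm
  obtain ⟨φ, hφflat, hφ⟩ := exists_flat_map A R₁ R₂ q.asIdeal.ResidueField
    P₁.asIdeal.ResidueField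
  let _ : Algebra (q.asIdeal.Fiber R₂) (P₁.asIdeal.Fiber (R₁ ⊗[A] R₂)) := φ.toAlgebra
  have : Module.Flat (q.asIdeal.Fiber R₂) (P₁.asIdeal.Fiber (R₁ ⊗[A] R₂)) := hφflat
  have : Algebra.HasGoingDown (q.asIdeal.Fiber R₂) (P₁.asIdeal.Fiber (R₁ ⊗[A] R₂)) :=
    Algebra.HasGoingDown.of_flat
  have m₂ : P₂ ∈ PrimeSpectrum.comap (algebraMap A R₂) ⁻¹' {q} := hP₂.symm
  have m₁ : (⟨Q, inferInstance⟩ : PrimeSpectrum (R₁ ⊗[A] R₂)) ∈
      PrimeSpectrum.comap (algebraMap R₁ (R₁ ⊗[A] R₂)) ⁻¹' {P₁} := rfl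
  refine ⟨⟨P₂.isPrime, ?_⟩, ?_⟩
  · refine sup_le ?_ ?_
    · have h1 := le_sup_right.trans hQ.1.2
      rwa [Ideal.map_le_iff_le_comap] at h1
    · rw [Ideal.map_le_iff_le_comap]
      exact (congrArg PrimeSpectrum.asIdeal hP₂).le
  · rintro P' ⟨hP'p, hP'⟩ hle
    have m' : (⟨P', hP'p⟩ : PrimeSpectrum R₂) ∈ PrimeSpectrum.comap (algebraMap A R₂) ⁻¹' {q} := by
      simp only [Set.mem_preimage, Set.mem_singleton_iff]
      apply PrimeSpectrum.ext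
      apply le_antisymm
      · refine (Ideal.comap_mono hle).trans ?_
        exact (congrArg PrimeSpectrum.asIdeal hP₂).ge
      · rw [PrimeSpectrum.comap_asIdeal, ← Ideal.map_le_iff_le_comap]
        exact le_sup_right.trans hP'
    let PF := PrimeSpectrum.preimageOrderIsoFiber A R₂ q ⟨P₂, m₂⟩
    let PF' := PrimeSpectrum.preimageOrderIsoFiber A R₂ q ⟨_, m'⟩
    let QG := PrimeSpectrum.preimageOrderIsoFiber R₁ (R₁ ⊗[A] R₂) P₁ ⟨_, m₁⟩
    have hPF : PF' ≤ PF := (PrimeSpectrum.preimageOrderIsoFiber A R₂ q).monotone hle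
    have hsQG : ((PrimeSpectrum.preimageOrderIsoFiber R₁ (R₁ ⊗[A] R₂) P₁).symm QG) = ⟨_, m₁⟩ :=
      OrderIso.symm_apply_apply _ _
    have hcom : PrimeSpectrum.comap φ QG = PF := by
      apply (PrimeSpectrum.preimageOrderIsoFiber A R₂ q).symm.injective
      rw [OrderIso.symm_apply_apply]
      apply Subtype.ext
      apply PrimeSpectrum.ext
      ext r
      have h1 : r ∈ (((PrimeSpectrum.preimageOrderIsoFiber A R₂ q).symm
          (PrimeSpectrum.comap φ QG)).1).asIdeal ↔ φ (1 ⊗ₜ r) ∈ QG.asIdeal := Iff.rfl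
      have h3 : ∀ x : R₁ ⊗[A] R₂, x ∈ Q ↔ ((1 : P₁.asIdeal.ResidueField) ⊗ₜ x) ∈ QG.asIdeal := by
        intro x
        have h4 := mem_fiber_iff P₁ QG x
        rw [hsQG] at h4
        exact h4
      rw [h1, hφ, ← h3]
      rfl
    have i3 : QG.asIdeal.LiesOver PF.asIdeal := ⟨(congrArg PrimeSpectrum.asIdeal hcom).symm⟩
    have hPF2 : PF'.asIdeal ≤ PF.asIdeal := hPF
    obtain ⟨Q'', hQ''le, hQ''p, hQ''l⟩ := Ideal.exists_ideal_le_liesOver_of_le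
      (S := P₁.asIdeal.Fiber (R₁ ⊗[A] R₂)) QG.asIdeal hPF2
    let X := (PrimeSpectrum.preimageOrderIsoFiber R₁ (R₁ ⊗[A] R₂) P₁).symm ⟨Q'', hQ''p⟩
    have hX1 : X.1.asIdeal ≤ Q := by
      have h5 : X ≤ (PrimeSpectrum.preimageOrderIsoFiber R₁ (R₁ ⊗[A] R₂) P₁).symm QG :=
        (PrimeSpectrum.preimageOrderIsoFiber R₁ (R₁ ⊗[A] R₂) P₁).symm.monotone hQ''le
      rw [hsQG] at h5
      exact h5
    have hX2 : ∀ r : R₂, (Algebra.TensorProduct.includeRight : R₂ →ₐ[A] R₁ ⊗[A] R₂) r ∈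
        X.1.asIdeal ↔ r ∈ P' := by
      intro r
      have h1 : (Algebra.TensorProduct.includeRight : R₂ →ₐ[A] R₁ ⊗[A] R₂) r ∈
        X.1.asIdeal ↔ ((1 : P₁.asIdeal.ResidueField) ⊗ₜ ((1 : R₁) ⊗ₜ r)) ∈ Q'' := Iff.rfl
      rw [h1, ← hφ]
      have h2 : φ (1 ⊗ₜ r) ∈ Q'' ↔ (1 ⊗ₜ r) ∈ PF'.asIdeal := by
        rw [hQ''l.over]
        rfl
      rw [h2]
      have h3 := mem_fiber_iff q PF' r
      have h4 : (PrimeSpectrum.preimageOrderIsoFiber A R₂ q).symm PF' = ⟨_, m'⟩ :=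
        OrderIso.symm_apply_apply _ _
      rw [h4] at h3
      exact h3.symm
    have hX3 : PrimeSpectrum.comap (algebraMap R₁ (R₁ ⊗[A] R₂)) X.1 = P₁ := X.2
    have hX4 : I₁.map (algebraMap R₁ (R₁ ⊗[A] R₂)) ⊔
        I₂.map (Algebra.TensorProduct.includeRight : R₂ →ₐ[A] R₁ ⊗[A] R₂) ≤ X.1.asIdeal := by
      refine sup_le ?_ ?_
      · rw [Ideal.map_le_iff_le_comap]
        have h1 := le_sup_left.trans hQ.1.2
        rw [Ideal.map_le_iff_le_comap] at h1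
        exact h1.trans (congrArg PrimeSpectrum.asIdeal hX3).ge
      · rw [Ideal.map_le_iff_le_comap]
        intro r hr
        exact (hX2 r).2 (hP' (Ideal.mem_sup_left hr))
    have hX5 : Q ≤ X.1.asIdeal := hQ.2 ⟨X.1.isPrime, hX4⟩ hX1
    intro r hr
    exact (hX2 r).1 (hX5 hr)

end

end Vale.Agent.P177
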