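import Vale.Agent.P177.GlobalPosLoc
import Vale.Agent.P177.FibreMinimal
import Vale.Agent.P177.EssSmooth
import Vale.Agent.P177.CLocFour

/-!
Positivity for essentially smooth algebras over a regular local ring of arbitrary dimension, for
pairs of modules one of which has fibres of codimension at most one over the primes of height at
least five.
-/

namespace Vale.Agent.P177

open CategoryTheory TensorProduct Function IsLocalRing RingTheory.Sequence Pointwise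

universe u

/-- Every component of the fibre over `q` of every irreducible component of the support of `X` has
codimension at most one in that component. -/
def FibreCodimLeOne (A R X : Type u) [CommRing A] [CommRing R] [Algebra A R] [AddCommGroup X]
    [Module R X] (q : Ideal A) : Prop :=
  ∀ p ∈ (Module.annihilator R X).minimalPrimes,
    ∀ P ∈ (p ⊔ q.map (algebraMap A R)).minimalPrimes, P.comap (algebraMap A R) = q →
      ∀ p' : Ideal R, p'.IsPrime → p < p' → ¬ p' < P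

section

variable {A R₁ R₂ : Type u} [CommRing A] [CommRing R₁] [CommRing R₂] [Algebra A R₁]
  [Algebra A R₂]

theorem comap_mem_minimalPrimes_left (I₁ : Ideal R₁) (I₂ : Ideal R₂) (Q : Ideal (R₁ ⊗[A] R₂))
    [Q.IsPrime] (hQ : Q ∈ (I₁.map (algebraMap R₁ (R₁ ⊗[A] R₂)) ⊔
      I₂.map (Algebra.TensorProduct.includeRight : R₂ →ₐ[A] R₁ ⊗[A] R₂)).minimalPrimes) :
    Q.comap (algebraMap R₁ (R₁ ⊗[A] R₂)) ∈
      (I₁ ⊔ (Q.comap (algebraMap A (R₁ ⊗[A] R₂))).map (algebraMap A R₁)).minimalPrimes := by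
  let e : R₂ ⊗[A] R₁ ≃ₐ[A] R₁ ⊗[A] R₂ := Algebra.TensorProduct.comm A R₂ R₁
  have hs : Surjective (e : R₂ ⊗[A] R₁ →+* R₁ ⊗[A] R₂) := e.surjective
  have h1 := Ideal.comap_minimalPrimes_eq_of_surjective hs
    (I₁.map (algebraMap R₁ (R₁ ⊗[A] R₂)) ⊔
      I₂.map (Algebra.TensorProduct.includeRight : R₂ →ₐ[A] R₁ ⊗[A] R₂))
  have hcom : (I₁.map (algebraMap R₁ (R₁ ⊗[A] R₂)) ⊔
      I₂.map (Algebra.TensorProduct.includeRight : R₂ →ₐ[A] R₁ ⊗[A] R₂)).comap
        (e : R₂ ⊗[A] R₁ →+* R₁ ⊗[A] R₂) = I₂.map (algebraMap R₂ (R₂ ⊗[A] R₁)) ⊔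
      I₁.map (Algebra.TensorProduct.includeRight : R₁ →ₐ[A] R₂ ⊗[A] R₁) := by
    have h2 : (I₂.map (algebraMap R₂ (R₂ ⊗[A] R₁)) ⊔
      I₁.map (Algebra.TensorProduct.includeRight : R₁ →ₐ[A] R₂ ⊗[A] R₁)).map
        (e : R₂ ⊗[A] R₁ →+* R₁ ⊗[A] R₂) = I₁.map (algebraMap R₁ (R₁ ⊗[A] R₂)) ⊔
      I₂.map (Algebra.TensorProduct.includeRight : R₂ →ₐ[A] R₁ ⊗[A] R₂) := by
      rw [Ideal.map_sup, sup_comm]
      congr 1
      · rw [← Ideal.map_coe (Algebra.TensorProduct.includeRight : R₁ →ₐ[A] R₂ ⊗[A] R₁),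
          Ideal.map_map]
        congr 1
      · rw [← Ideal.map_coe (Algebra.TensorProduct.includeRight : R₂ →ₐ[A] R₁ ⊗[A] R₂),
          Ideal.map_map]
        congr 1
    rw [← h2]
    exact Ideal.comap_map_of_bijective _ e.bijective
  have hQ' : (Q.comap (e : R₂ ⊗[A] R₁ →+* R₁ ⊗[A] R₂)) ∈
      (I₂.map (algebraMap R₂ (R₂ ⊗[A] R₁)) ⊔
      I₁.map (Algebra.TensorProduct.includeRight : R₁ →ₐ[A] R₂ ⊗[A] R₁)).minimalPrimes := by
    rw [← hcom, h1]
    exact ⟨Q, hQ, rfl⟩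
  have : (Q.comap (e : R₂ ⊗[A] R₁ →+* R₁ ⊗[A] R₂)).IsPrime := Ideal.IsPrime.comap _
  have h3 := comap_mem_minimalPrimes I₂ I₁ (Q.comap (e : R₂ ⊗[A] R₁ →+* R₁ ⊗[A] R₂)) hQ'
  have h4 : (Q.comap (e : R₂ ⊗[A] R₁ →+* R₁ ⊗[A] R₂)).comap
      (Algebra.TensorProduct.includeRight : R₁ →ₐ[A] R₂ ⊗[A] R₁) =
      Q.comap (algebraMap R₁ (R₁ ⊗[A] R₂)) := by
    ext x
    change Algebra.TensorProduct.comm A R₂ R₁ (1 ⊗ₜ x) ∈ Q ↔ _
    rw [Algebra.TensorProduct.comm_tmul]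
    rfl
  have h5 : (Q.comap (e : R₂ ⊗[A] R₁ →+* R₁ ⊗[A] R₂)).comap (algebraMap A (R₂ ⊗[A] R₁)) =
      Q.comap (algebraMap A (R₁ ⊗[A] R₂)) := by
    ext x
    change e (algebraMap A _ x) ∈ Q ↔ _
    rw [AlgEquiv.commutes]
    rfl
  rw [h4, h5] at h3
  exact h3

end

/-- A bound for the dimension of a localized module from a chain condition. -/
theorem supportDim_loc_le_one {R : Type u} [CommRing R] (P : Ideal R) [P.IsPrime] (L : Type u)
    [CommRing L] [Algebra R L] [IsLocalization.AtPrime L P] (X : Type u) [AddCommGroup X]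
    [Module R X] (h : ∀ p₀ p₁ : Ideal R, p₀.IsPrime → p₁.IsPrime → Module.annihilator R X ≤ p₀ →
      p₀ < p₁ → ¬ p₁ < P) :
    Module.supportDim L (L ⊗[R] X) ≤ ((1 : ℕ) : WithBot ℕ∞) := by
  by_contra hcon
  rw [not_le] at hcon
  have h2 := succ_le_of_lt_withBot hcon
  unfold Module.supportDim at h2
  obtain ⟨l, hl⟩ := Order.le_krullDim_iff.1 h2
  have hlt : ∀ i j : Fin (l.length + 1), i < j → (l i).1.asIdeal < (l j).1.asIdeal :=
    fun i j hij => l.strictMono hij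
  have hl' : l.length = 2 := hl
  have hcl : ∀ q q' : Ideal L, q.IsPrime → q'.IsPrime → q < q' →
      q.comap (algebraMap R L) < q'.comap (algebraMap R L) := by
    intro q q' _ _ hqq
    refine lt_of_le_of_ne (Ideal.comap_mono hqq.le) fun heq => hqq.ne ?_
    rw [← IsLocalization.map_under P.primeCompl L q, ← IsLocalization.map_under P.primeCompl L q',
      Ideal.under, Ideal.under, heq]
  refine h ((l ⟨0, by omega⟩).1.asIdeal.comap (algebraMap R L))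
    ((l ⟨1, by omega⟩).1.asIdeal.comap (algebraMap R L)) (Ideal.IsPrime.comap _)
    (Ideal.IsPrime.comap _) ?_ ?_ ?_
  · rw [← Ideal.map_le_iff_le_comap]
    refine (map_annihilator_le X).trans ?_
    exact Module.annihilator_le_of_mem_support (l ⟨0, by omega⟩).2
  · exact hcl _ _ (l ⟨0, by omega⟩).1.isPrime (l ⟨1, by omega⟩).1.isPrime
      (hlt _ _ (Fin.mk_lt_mk.2 (by omega)))
  · have h3 := hcl _ _ (l ⟨1, by omega⟩).1.isPrime (l ⟨2, by omega⟩).1.isPrime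
      (hlt ⟨1, by omega⟩ ⟨2, by omega⟩ (Fin.mk_lt_mk.2 (by omega)))
    refine lt_of_lt_of_le h3 ?_
    have hdisj := (IsLocalization.isPrime_iff_isPrime_disjoint P.primeCompl L
      (l ⟨2, by omega⟩).1.asIdeal).1 (l ⟨2, by omega⟩).1.isPrime
    intro x hx
    by_contra hxP
    exact Set.disjoint_left.1 hdisj.2 hxP hx

/-- The chain condition at a minimal prime of the fibre. -/
theorem chain_of_fibre {A R X : Type u} [CommRing A] [CommRing R] [Algebra A R] [AddCommGroup X]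
    [Module R X] (q : Ideal A) (h : FibreCodimLeOne A R X q) (I : Ideal R)
    (hI : Module.annihilator R X ≤ I) (hI' : I = Module.annihilator R X ∨
      I ∈ (Module.annihilator R X).minimalPrimes) (P : Ideal R)
    (hP : P ∈ (I ⊔ q.map (algebraMap A R)).minimalPrimes) (hPq : P.comap (algebraMap A R) = q)
    (p₀ p₁ : Ideal R) (h₀ : p₀.IsPrime) (h₁ : p₁.IsPrime) (hp₀ : I ≤ p₀) (h01 : p₀ < p₁) :
    ¬ p₁ < P := by
  intro hlt
  rcases hI' with rfl | hI'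
  · obtain ⟨p, hp, hpp⟩ := Ideal.exists_minimalPrimes_le hp₀
    refine h p hp P ⟨⟨hP.1.1, sup_le ?_ (le_sup_right.trans hP.1.2)⟩, ?_⟩ hPq p₁ h₁
      (lt_of_le_of_lt hpp h01) hlt
    · exact hpp.trans (h01.le.trans hlt.le)
    · rintro P' ⟨hP', hle'⟩ hle
      exact hP.2 ⟨hP', (sup_le_sup_right hp.1.2 _).trans hle'⟩ hle
  · exact h I hI' P hP hPq p₁ h₁ (lt_of_le_of_lt hp₀ h01) hlt

section

variable {A R₁ R₂ T : Type u} [CommRing A] [IsNoetherianRing A] [CommRing R₁] [CommRing R₂]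
  [Algebra A R₁] [Algebra A R₂]
  [CommRing T] [IsRegularLocalRing R₁] [IsRegularLocalRing R₂] [IsRegularLocalRing T]
  [Module.Flat A R₁] [Module.Flat A R₂] [IsNoetherianRing (R₁ ⊗[A] R₂)]
  [Algebra R₁ T] [Algebra R₂ T] [Module.Flat R₁ T] [Module.Flat R₂ T]
  [Algebra (R₁ ⊗[A] R₂) T]

omit [Module.Flat A R₁] in
theorem locPosAt_essSmooth (S : Submonoid (R₁ ⊗[A] R₂)) [IsLocalization S T]
    (hT₁ : algebraMap R₁ T = (algebraMap (R₁ ⊗[A] R₂) T).comp (algebraMap R₁ (R₁ ⊗[A] R₂)))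
    (hT₂ : algebraMap R₂ T = (algebraMap (R₁ ⊗[A] R₂) T).comp
      ((Algebra.TensorProduct.includeRight : R₂ →ₐ[A] R₁ ⊗[A] R₂) : R₂ →+* R₁ ⊗[A] R₂))
    (M N M' N' : Type u) [AddCommGroup M] [Module R₂ M] [Module.Finite R₂ M] [AddCommGroup N]
    [Module R₁ N] [Module.Finite R₁ N] [AddCommGroup M'] [Module R₂ M'] [Module.Finite R₂ M']
    [AddCommGroup N'] [Module R₁ N'] [Module.Finite R₁ N']
    (hM' : Module.annihilator R₂ M ≤ Module.annihilator R₂ M')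
    (hM'' : Module.annihilator R₂ M' = Module.annihilator R₂ M ∨
      Module.annihilator R₂ M' ∈ (Module.annihilator R₂ M).minimalPrimes)
    (hN' : Module.annihilator R₁ N ≤ Module.annihilator R₁ N')
    (hN'' : Module.annihilator R₁ N' = Module.annihilator R₁ N ∨
      Module.annihilator R₁ N' ∈ (Module.annihilator R₁ N).minimalPrimes)
    (hcond : ∀ q : Ideal A, q.IsPrime → 5 ≤ q.height →
      FibreCodimLeOne A R₂ M q ∨ FibreCodimLeOne A R₁ N q)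
    (Q : Ideal T) [Q.IsPrime]
    (hQ : Q ∈ ((Module.annihilator R₁ N').map (algebraMap R₁ T) ⊔
      (Module.annihilator R₂ M').map (algebraMap R₂ T)).minimalPrimes) :
    LocPosAt (T := T) R₁ R₂ N' M' Q := by
  let Q' : Ideal (R₁ ⊗[A] R₂) := Q.comap (algebraMap (R₁ ⊗[A] R₂) T)
  have hQ' : Q'.IsPrime := Ideal.IsPrime.comap _
  have hQm : Q' ∈ ((Module.annihilator R₁ N').map (algebraMap R₁ (R₁ ⊗[A] R₂)) ⊔
      (Module.annihilator R₂ M').map
        (Algebra.TensorProduct.includeRight : R₂ →ₐ[A] R₁ ⊗[A] R₂)).minimalPrimes := by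
    have h1 := IsLocalization.minimalPrimes_map S T
      ((Module.annihilator R₁ N').map (algebraMap R₁ (R₁ ⊗[A] R₂)) ⊔
      (Module.annihilator R₂ M').map
        (Algebra.TensorProduct.includeRight : R₂ →ₐ[A] R₁ ⊗[A] R₂))
    rw [Ideal.map_sup, Ideal.map_map, ← hT₁,
      ← Ideal.map_coe (Algebra.TensorProduct.includeRight : R₂ →ₐ[A] R₁ ⊗[A] R₂), Ideal.map_map,
      ← hT₂] at h1
    rw [h1] at hQ
    exact hQ
  let q : Ideal A := Q'.comap (algebraMap A (R₁ ⊗[A] R₂))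
  have hq : q.IsPrime := Ideal.IsPrime.comap _
  have e₁ : Q.comap (algebraMap R₁ T) = Q'.comap (algebraMap R₁ (R₁ ⊗[A] R₂)) := by
    rw [hT₁, ← Ideal.comap_comap]
  have e₂ : Q.comap (algebraMap R₂ T) = Q'.comap
      (Algebra.TensorProduct.includeRight : R₂ →ₐ[A] R₁ ⊗[A] R₂) := by
    rw [hT₂, ← Ideal.comap_comap]
    rfl
  by_cases h5 : 5 ≤ q.height
  · intro L₁ L₂ _ _ _ _ _ _ D₁ D₂ r₁ r₂ t b h₁ h₂ ht hrb hFP
    have i0 : IsRegularLocalRing (Localization.AtPrime Q) :=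
      isRegularLocalRing_localization T Q (Localization.AtPrime Q)
    have i1 := D₁.reg
    have i2 := D₂.reg
    have i3 := D₁.flat
    have i4 := D₂.flat
    have i5 := D₁.loc
    have i6 := D₂.loc
    have i7 := D₁.isloc
    have i8 := D₂.isloc
    have hpos : Pos L₁ L₂ (Localization.AtPrime Q) t b (L₁ ⊗[R₁] N') (L₂ ⊗[R₂] M') := by
      rcases hcond q hq h5 with hc | hc
      · have h6 : Module.supportDim L₂ (L₂ ⊗[R₂] M') ≤ ((1 : ℕ) : WithBot ℕ∞) := by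
          refine supportDim_loc_le_one (Q.comap (algebraMap R₂ T)) L₂ M' ?_
          intro p₀ p₁ k₀ k₁ k2 k3
          refine chain_of_fibre q hc (Module.annihilator R₂ M') hM' hM'' _ ?_ ?_ p₀ p₁ k₀ k₁ k2 k3
          · rw [e₂]
            exact comap_mem_minimalPrimes _ _ Q' hQm
          · rw [e₂]
            ext x
            change (Algebra.TensorProduct.includeRight : R₂ →ₐ[A] R₁ ⊗[A] R₂)
              (algebraMap A R₂ x) ∈ Q' ↔ algebraMap A (R₁ ⊗[A] R₂) x ∈ Q'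
            rw [AlgHom.commutes]
        exact (pos_dim_le_one h₂ h₁ ht (by omega) (L₁ ⊗[R₁] N') (L₂ ⊗[R₂] M') h6 hFP.symm).symm
      · have h6 : Module.supportDim L₁ (L₁ ⊗[R₁] N') ≤ ((1 : ℕ) : WithBot ℕ∞) := by
          refine supportDim_loc_le_one (Q.comap (algebraMap R₁ T)) L₁ N' ?_
          intro p₀ p₁ k₀ k₁ k2 k3
          refine chain_of_fibre q hc (Module.annihilator R₁ N') hN' hN'' _ ?_ ?_ p₀ p₁ k₀ k₁ k2 k3
          · rw [e₁]
            exact comap_mem_minimalPrimes_left _ _ Q' hQm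
          · rw [e₁, Ideal.comap_comap, ← IsScalarTower.algebraMap_eq]
        exact pos_dim_le_one h₁ h₂ ht hrb (L₂ ⊗[R₂] M') (L₁ ⊗[R₁] N') h6 hFP
    exact ⟨hpos.dim_le, hpos.nonneg, hpos.pos⟩
  · refine locPosAt_of_locPos 4 locPos_four N' M' Q ?_
    intro r₁ r₂ t h₁ h₂ ht
    have h7 := height_bound Q'
    have h8 : Q'.height = t := by
      rw [← ht]
      exact IsLocalization.height_under S Q
    rw [e₁] at h₁
    rw [e₂] at h₂
    have h9 : q.height ≤ ((4 : ℕ) : ℕ∞) := by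
      rw [not_le] at h5
      exact Order.le_of_lt_add_one h5
    rw [h8, h₁, h₂] at h7
    have h12 : ((r₁ : ℕ∞) + r₂) ≤ t + (4 : ℕ) := h7.trans (by gcongr)
    exact_mod_cast h12

end


section

variable {A R₁ R₂ : Type u} [CommRing A] [IsRegularLocalRing A] [CommRing R₁] [IsLocalRing R₁]
  [Algebra A R₁] [Algebra.EssFiniteType A R₁] [Algebra.FormallySmooth A R₁] [CommRing R₂]
  [IsLocalRing R₂] [Algebra A R₂] [Algebra.EssFiniteType A R₂] [Algebra.FormallySmooth A R₂]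

theorem serre_essSmooth_loc₂ (θ : R₂ ≃ₐ[A] R₁) (d : ℕ) (hd : ringKrullDim R₁ = d)
    (M N : Type u) [AddCommGroup M] [Module R₂ M] [Module.Finite R₂ M]
    [AddCommGroup N] [Module R₁ N] [Module R₂ N] [Module.Finite R₁ N]
    (hcond : ∀ q : Ideal A, q.IsPrime → 5 ≤ q.height →
      FibreCodimLeOne A R₂ M q ∨ FibreCodimLeOne A R₁ N q)
    (hN : ∀ (s : R₂) (t : N), s • t = θ s • t)
    (hlen : Module.length R₂ (M ⊗[R₂] N) ≠ ⊤) :
    0 ≤ eulerTor R₂ (d + 1) M N ∧ ∀ m n : ℕ, (m : WithBot ℕ∞) ≤ Module.supportDim R₂ M →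
      (n : WithBot ℕ∞) ≤ Module.supportDim R₁ N →
      (m + n ≤ d) ∧ (d ≤ m + n → 0 < eulerTor R₂ (d + 1) M N) := by
  obtain ⟨hR₁, hflat₁⟩ := regular_flat_of_essSmooth A R₁
  obtain ⟨hR₂, hflat₂⟩ := regular_flat_of_essSmooth A R₂
  let μ₀ : R₁ ⊗[A] R₂ →ₐ[R₁] R₁ := Algebra.TensorProduct.lift (AlgHom.id R₁ R₁)
    (θ : R₂ →ₐ[A] R₁) (fun x y => mul_comm _ _)
  have hμ₀ : ∀ x y, μ₀ (x ⊗ₜ y) = x * θ y := fun x y => Algebra.TensorProduct.lift_tmul _ _ _ _ _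
  let 𝔐 : Ideal (R₁ ⊗[A] R₂) := (maximalIdeal R₁).comap μ₀
  have h𝔐 : 𝔐.IsPrime := Ideal.IsPrime.comap _
  let T := Localization.AtPrime 𝔐
  have hunit : ∀ y : 𝔐.primeCompl, IsUnit (μ₀ y) := by
    intro y
    by_contra hcon
    exact y.2 ((mem_maximalIdeal _).2 hcon)
  let μ : T →ₐ[R₁] R₁ := IsLocalization.liftAlgHom (M := 𝔐.primeCompl)
    (S := T) (f := μ₀) hunit
  have hμ : ∀ x, μ (algebraMap _ _ x) = μ₀ x := by
    intro x
    exact IsLocalization.lift_eq (S := T) (g := (μ₀ : _ →+* R₁)) hunit x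
  have hμs : Surjective μ := fun s => ⟨algebraMap R₁ _ s, μ.commutes s⟩
  have f1 : Algebra.FormallySmooth (R₁ ⊗[A] R₂) T :=
    Algebra.FormallySmooth.of_isLocalization 𝔐.primeCompl
  have f2 : Algebra.FormallySmooth R₁ T :=
    Algebra.FormallySmooth.comp R₁ (R₁ ⊗[A] R₂) T
  obtain ⟨hT, hTflat⟩ := regular_flat_of_essSmooth R₁ T
  obtain ⟨-, z, hz1, hz2⟩ := exists_regular_list_of_formallySmooth R₁ T R₁ μ
    hμs
  have hN1 : IsNoetherianRing (R₁ ⊗[A] R₂) :=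
    Algebra.EssFiniteType.isNoetherianRing R₁ (R₁ ⊗[A] R₂)
  let i₂ : R₂ →+* T := (algebraMap (R₁ ⊗[A] R₂) T).comp
      ((Algebra.TensorProduct.includeRight : R₂ →ₐ[A] R₁ ⊗[A] R₂) : R₂ →+* R₁ ⊗[A] R₂)
  let _ : Algebra R₂ T := i₂.toAlgebra
  have hflat2 : Module.Flat R₂ T := by
    have : i₂.Flat := by
      refine (flat_includeRight A R₁ R₂).comp ?_
      rw [RingHom.flat_algebraMap_iff]
      exact IsLocalization.flat _ 𝔐.primeCompl
    exact this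
  have hT₁ : algebraMap R₁ T = (algebraMap (R₁ ⊗[A] R₂) T).comp
      (algebraMap R₁ (R₁ ⊗[A] R₂)) := IsScalarTower.algebraMap_eq _ _ _
  have hT₂ : algebraMap R₂ T = (algebraMap (R₁ ⊗[A] R₂) T).comp
      ((Algebra.TensorProduct.includeRight : R₂ →ₐ[A] R₁ ⊗[A] R₂) : R₂ →+* R₁ ⊗[A] R₂) := rfl
  refine global_pos_of_loc (μ : T →+* R₁) (fun s => μ.commutes s) z hz1.symm hz2
    (θ : R₂ ≃+* R₁) ?_ d hd M N ?_ ?_ hN hlen
  · intro s
    change μ (algebraMap (R₁ ⊗[A] R₂) _ (1 ⊗ₜ s)) = θ s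
    rw [hμ, hμ₀, one_mul]
  · intro Q _ hQ
    exact locPosAt_essSmooth 𝔐.primeCompl hT₁ hT₂ M N M N le_rfl (Or.inl rfl) le_rfl (Or.inl rfl)
      hcond Q hQ
  · intro p₁ p₂ hp₁ hp₂ Q _ hQ
    have k₁ : Module.annihilator R₁ (R₁ ⧸ p₁.asIdeal) = p₁.asIdeal := Ideal.annihilator_quotient
    have k₂ : Module.annihilator R₂ (R₂ ⧸ p₂.asIdeal) = p₂.asIdeal := Ideal.annihilator_quotient
    refine locPosAt_essSmooth 𝔐.primeCompl hT₁ hT₂ M N (R₂ ⧸ p₂.asIdeal) (R₁ ⧸ p₁.asIdeal)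
      ?_ ?_ ?_ ?_ hcond Q ?_
    · rw [k₂]; exact hp₂.1.2
    · rw [k₂]; exact Or.inr hp₂
    · rw [k₁]; exact hp₁.1.2
    · rw [k₁]; exact Or.inr hp₁
    · rw [k₁, k₂]; exact hQ

end

theorem serre_essSmooth_loc (A R : Type u) [CommRing A]
    [IsRegularLocalRing A] [CommRing R] [IsLocalRing R] [Algebra A R]
    [Algebra.EssFiniteType A R] [Algebra.FormallySmooth A R] (d : ℕ) (hd : ringKrullDim R = d)
    (M N : Type u) [AddCommGroup M] [Module R M] [Module.Finite R M]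
    [AddCommGroup N] [Module R N] [Module.Finite R N]
    (hcond : ∀ q : Ideal A, q.IsPrime → 5 ≤ q.height →
      FibreCodimLeOne A R M q ∨ FibreCodimLeOne A R N q)
    (hlen : Module.length R (M ⊗[R] N) ≠ ⊤) :
    0 ≤ eulerTor R (d + 1) M N ∧ ∀ m n : ℕ, (m : WithBot ℕ∞) ≤ Module.supportDim R M →
      (n : WithBot ℕ∞) ≤ Module.supportDim R N →
      (m + n ≤ d) ∧ (d ≤ m + n → 0 < eulerTor R (d + 1) M N) :=
  serre_essSmooth_loc₂ (AlgEquiv.refl : R ≃ₐ[A] R) d hd M N hcond (fun _ _ => rfl) hlen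

end Vale.Agent.P177
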