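import Vale.Agent.P177.RegularTor

/-!
The recursive (Koszul) Euler characteristic: additivity and positivity.
-/

namespace Vale.Agent.P177

open CategoryTheory TensorProduct Function IsLocalRing RingTheory.Sequence Pointwise

universe u

section

variable {B : Type u} [CommRing B]

/-- Recursive Koszul Euler characteristic of a list of elements. -/
noncomputable def eul : List B → ∀ (X : Type u) [AddCommGroup X] [Module B X], ℤ
  | [], X, _, _ => ((Module.length B X).toNat : ℤ)
  | z :: zs, X, _, _ => eul zs (QuotSMulTop z X) - eul zs (Submodule.torsionBy B X z)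

theorem torsionBy_equiv {X Y : Type u} [AddCommGroup X] [Module B X] [AddCommGroup Y]
    [Module B Y] (z : B) (e : X ≃ₗ[B] Y) :
    Nonempty (Submodule.torsionBy B X z ≃ₗ[B] Submodule.torsionBy B Y z) := by
  refine ⟨LinearEquiv.ofSubmodules e _ _ ?_⟩
  ext y
  simp only [Submodule.mem_map, Submodule.mem_torsionBy_iff]
  constructor
  · rintro ⟨x, hx, rfl⟩
    change z • e x = 0
    rw [← map_smul, hx, map_zero]
  · intro hy
    refine ⟨e.symm y, ?_, by simp⟩
    rw [← map_smul, hy, map_zero]

theorem eul_congr (zs : List B) {X Y : Type u} [AddCommGroup X] [Module B X] [AddCommGroup Y]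
    [Module B Y] (e : X ≃ₗ[B] Y) : eul zs X = eul zs Y := by
  induction zs generalizing X Y with
  | nil =>
    unfold eul
    rw [e.length_eq]
  | cons z zs ih =>
    unfold eul
    obtain ⟨e2⟩ := torsionBy_equiv z e
    rw [ih (QuotSMulTop.congr z e), ih e2]

theorem eul_subsingleton (zs : List B) (X : Type u) [AddCommGroup X] [Module B X]
    [Subsingleton X] : eul zs X = 0 := by
  induction zs generalizing X with
  | nil =>
    unfold eul
    rw [Module.length_eq_zero]
    rfl
  | cons z zs ih =>
    unfold eul
    have : Subsingleton (QuotSMulTop z X) := (Submodule.mkQ_surjective _).subsingleton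
    rw [ih, ih, sub_zero]

/-- The six term kernel-cokernel sequence for multiplication by `z`. -/
theorem six_term (z : B) {X' X X'' : Type u} [AddCommGroup X'] [Module B X']
    [AddCommGroup X] [Module B X] [AddCommGroup X''] [Module B X'']
    (f : X' →ₗ[B] X) (g : X →ₗ[B] X'') (hf : Injective f) (hg : Surjective g) (h : Exact f g) :
    ∃ (k1 : Submodule.torsionBy B X' z →ₗ[B] Submodule.torsionBy B X z)
      (k2 : Submodule.torsionBy B X z →ₗ[B] Submodule.torsionBy B X'' z)
      (δ : Submodule.torsionBy B X'' z →ₗ[B] QuotSMulTop z X')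
      (c1 : QuotSMulTop z X' →ₗ[B] QuotSMulTop z X)
      (c2 : QuotSMulTop z X →ₗ[B] QuotSMulTop z X''),
      Injective k1 ∧ Exact k1 k2 ∧ Exact k2 δ ∧ Exact δ c1 ∧ Exact c1 c2 ∧ Surjective c2 := by
  have hk1 : ∀ x ∈ Submodule.torsionBy B X' z, f x ∈ Submodule.torsionBy B X z := by
    intro x hx
    rw [Submodule.mem_torsionBy_iff] at hx ⊢
    rw [← map_smul, hx, map_zero]
  have hk2 : ∀ x ∈ Submodule.torsionBy B X z, g x ∈ Submodule.torsionBy B X'' z := by
    intro x hx
    rw [Submodule.mem_torsionBy_iff] at hx ⊢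
    rw [← map_smul, hx, map_zero]
  let k1 := f.restrict hk1
  let k2 := g.restrict hk2
  have hex : ∀ (Y : Type u) [AddCommGroup Y] [Module B Y],
      Exact (Submodule.torsionBy B Y z).subtype (LinearMap.lsmul B Y z) := by
    intro Y _ _ y
    simp
  have hex' : ∀ (Y : Type u) [AddCommGroup Y] [Module B Y],
      Exact (LinearMap.lsmul B Y z) (Submodule.mkQ (z • (⊤ : Submodule B Y)) :
        Y →ₗ[B] QuotSMulTop z Y) := by
    intro Y _ _ y
    rw [Submodule.mkQ_apply, Submodule.Quotient.mk_eq_zero]
    rw [Submodule.mem_smul_pointwise_iff_exists]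
    simp
  have h1 : f.comp (LinearMap.lsmul B X' z) = (LinearMap.lsmul B X z).comp f := by
    ext x
    simp
  have h2 : g.comp (LinearMap.lsmul B X z) = (LinearMap.lsmul B X'' z).comp g := by
    ext x
    simp
  refine ⟨k1, k2, SnakeLemma.δ' (LinearMap.lsmul B X' z) (LinearMap.lsmul B X z)
    (LinearMap.lsmul B X'' z) f g h f g h h1 h2 (Submodule.torsionBy B X'' z).subtype
    (hex X'') (Submodule.mkQ _) (hex' X') hg hf, QuotSMulTop.map z f, QuotSMulTop.map z g,
    ?_, ?_, ?_, ?_, ?_, ?_⟩
  · intro x y hxy
    apply Subtype.ext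
    apply hf
    exact congrArg Subtype.val hxy
  · rintro ⟨x, hx⟩
    constructor
    · intro hgx
      have hgx' : g x = 0 := congrArg Subtype.val hgx
      obtain ⟨y, rfl⟩ := (h x).1 hgx'
      refine ⟨⟨y, ?_⟩, rfl⟩
      rw [Submodule.mem_torsionBy_iff] at hx ⊢
      apply hf
      rw [map_smul, hx, map_zero]
    · rintro ⟨⟨y, hy⟩, hyx⟩
      have hyx' : f y = x := congrArg Subtype.val hyx
      apply Subtype.ext
      change g x = 0
      rw [← hyx']
      exact (h _).2 ⟨y, rfl⟩
  · exact SnakeLemma.exact_δ'_right _ _ _ _ _ _ _ _ _ _ _ (Submodule.torsionBy B X z).subtype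
      (hex X) _ _ _ _ _ _ k2 rfl (Submodule.injective_subtype _)
  · exact SnakeLemma.exact_δ'_left _ _ _ _ _ _ _ _ _ _ _ _ _ _ _ (Submodule.mkQ _)
      (hex' X) _ _ (QuotSMulTop.map z f) rfl (Submodule.mkQ_surjective _)
  · exact QuotSMulTop.map_exact z h hg
  · exact QuotSMulTop.map_surjective z hg

end

section FL

variable {B : Type u} [CommRing B] [IsLocalRing B]

/-- `X` has finite length modulo `zs` (in terms of annihilators). -/
def FL (zs : List B) (X : Type u) [AddCommGroup X] [Module B X] : Prop :=
  maximalIdeal B ≤ (Module.annihilator B X ⊔ Ideal.ofList zs).radical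

theorem FL.mono {ws zs : List B} {X Y : Type u} [AddCommGroup X] [Module B X] [AddCommGroup Y]
    [Module B Y] (hX : FL ws X)
    (h : Module.annihilator B X ⊔ Ideal.ofList ws ≤ Module.annihilator B Y ⊔ Ideal.ofList zs) :
    FL zs Y := hX.trans (Ideal.radical_mono h)

theorem FL.of_injective {zs : List B} {X Y : Type u} [AddCommGroup X] [Module B X]
    [AddCommGroup Y] [Module B Y] (hX : FL zs X) (f : Y →ₗ[B] X) (hf : Injective f) : FL zs Y :=
  hX.mono (sup_le_sup_right (LinearMap.annihilator_le_of_injective f hf) _)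

theorem FL.of_surjective {zs : List B} {X Y : Type u} [AddCommGroup X] [Module B X]
    [AddCommGroup Y] [Module B Y] (hX : FL zs X) (f : X →ₗ[B] Y) (hf : Surjective f) : FL zs Y :=
  hX.mono (sup_le_sup_right (LinearMap.annihilator_le_of_surjective f hf) _)

theorem FL.quot {z : B} {zs : List B} {X : Type u} [AddCommGroup X] [Module B X]
    (hX : FL (z :: zs) X) : FL zs (QuotSMulTop z X) := by
  refine hX.mono ?_
  rw [Ideal.ofList_cons, ← sup_assoc]
  refine sup_le_sup_right (sup_le ?_ ?_) _
  · exact LinearMap.annihilator_le_of_surjective _ (Submodule.mkQ_surjective _)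
  · rw [Ideal.span_singleton_le_iff_mem]
    exact QuotSMulTop.mem_annihilator X z

theorem FL.torsionBy {z : B} {zs : List B} {X : Type u} [AddCommGroup X] [Module B X]
    (hX : FL (z :: zs) X) : FL zs (Submodule.torsionBy B X z) := by
  refine hX.mono ?_
  rw [Ideal.ofList_cons, ← sup_assoc]
  refine sup_le_sup_right (sup_le ?_ ?_) _
  · exact LinearMap.annihilator_le_of_injective _ (Submodule.injective_subtype _)
  · rw [Ideal.span_singleton_le_iff_mem, Module.mem_annihilator]
    rintro ⟨x, hx⟩
    apply Subtype.ext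
    exact hx

variable [IsNoetherianRing B]

theorem FL.length_ne_top {X : Type u} [AddCommGroup X] [Module B X] [Module.Finite B X]
    (hX : FL ([] : List B) X) : Module.length B X ≠ ⊤ := by
  unfold FL at hX
  rw [Ideal.ofList_nil, sup_bot_eq] at hX
  obtain ⟨k, hk⟩ := Ideal.exists_pow_le_of_le_radical_of_fg hX (IsNoetherian.noetherian _)
  rw [Module.length_ne_top_iff]
  exact isFiniteLength_of_pow_smul_eq_zero k (fun a ha x => Module.mem_annihilator.1 (hk ha) x)

/-- additivity of `eul` -/
theorem eul_add (zs : List B) {X' X X'' : Type u} [AddCommGroup X'] [Module B X']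
    [AddCommGroup X] [Module B X] [AddCommGroup X''] [Module B X''] [Module.Finite B X']
    [Module.Finite B X] [Module.Finite B X'']
    (f : X' →ₗ[B] X) (g : X →ₗ[B] X'') (hf : Injective f) (hg : Surjective g) (h : Exact f g)
    (hX : FL zs X) : eul zs X = eul zs X' + eul zs X'' := by
  induction zs generalizing X' X X'' with
  | nil =>
    unfold eul
    rw [Module.length_eq_add_of_exact f g hf hg h, ENat.toNat_add
      (hX.of_injective f hf).length_ne_top (hX.of_surjective g hg).length_ne_top]
    push_cast
    ring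
  | cons z zs ih =>
    obtain ⟨k1, k2, δ, c1, c2, e1, e2, e3, e4, e5, e6⟩ := six_term z f g hf hg h
    have key : ∀ {Y Z : Type u} [AddCommGroup Y] [Module B Y] [AddCommGroup Z] [Module B Z]
        [Module.Finite B Y] [Module.Finite B Z] (φ : Y →ₗ[B] Z), FL zs Y →
        eul zs Y = eul zs (LinearMap.ker φ) + eul zs (LinearMap.range φ) := by
      intro Y Z _ _ _ _ _ _ φ hY
      exact ih (LinearMap.ker φ).subtype φ.rangeRestrict (Submodule.injective_subtype _)
        (LinearMap.surjective_rangeRestrict φ) (by
          intro x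
          rw [Subtype.ext_iff]
          simp) hY
    have hX' := hX.of_injective f hf
    have hX'' := hX.of_surjective g hg
    unfold eul
    have a1 := key k1 hX'.torsionBy
    have a2 := key k2 hX.torsionBy
    have a3 := key δ hX''.torsionBy
    have a4 := key c1 hX'.quot
    have a5 := key c2 hX.quot
    have a6 : eul zs (QuotSMulTop z X'') = eul zs (LinearMap.range c2) := by
      rw [LinearMap.range_eq_top.2 e6]
      exact eul_congr zs (Submodule.topEquiv).symm
    have a7 : eul zs (LinearMap.ker k1) = 0 := by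
      rw [LinearMap.ker_eq_bot.2 e1]
      exact eul_subsingleton zs _
    rw [LinearMap.exact_iff.1 e2] at a2
    rw [LinearMap.exact_iff.1 e3] at a3
    rw [LinearMap.exact_iff.1 e4] at a4
    rw [LinearMap.exact_iff.1 e5] at a5
    linarith

theorem eul_ker_add_range (zs : List B) {Y Z : Type u} [AddCommGroup Y] [Module B Y]
    [AddCommGroup Z] [Module B Z] [Module.Finite B Y] [Module.Finite B Z] (φ : Y →ₗ[B] Z)
    (hY : FL zs Y) : eul zs Y = eul zs (LinearMap.ker φ) + eul zs (LinearMap.range φ) :=
  eul_add zs (LinearMap.ker φ).subtype φ.rangeRestrict (Submodule.injective_subtype _)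
    (LinearMap.surjective_rangeRestrict φ) (by
      intro x
      rw [Subtype.ext_iff]
      simp) hY

/-- If `X` already has finite length modulo `zs` then `eul (z :: zs) X = 0`. -/
theorem eul_cons_eq_zero (z : B) (zs : List B) (X : Type u) [AddCommGroup X] [Module B X]
    [Module.Finite B X] (hX : FL zs X) : eul (z :: zs) X = 0 := by
  have h1 := eul_ker_add_range zs (LinearMap.lsmul B X z) hX
  have h2 : eul zs X = eul zs (LinearMap.range (LinearMap.lsmul B X z)) +
      eul zs (QuotSMulTop z X) := by
    refine eul_add zs (LinearMap.range (LinearMap.lsmul B X z)).subtype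
      (Submodule.mkQ _) (Submodule.injective_subtype _) (Submodule.mkQ_surjective _) ?_ hX
    intro x
    rw [Submodule.mkQ_apply, Submodule.Quotient.mk_eq_zero,
      Submodule.mem_smul_pointwise_iff_exists]
    simp
  have h3 : eul zs (LinearMap.ker (LinearMap.lsmul B X z)) =
      eul zs (Submodule.torsionBy B X z) := rfl
  unfold eul
  rw [h3] at h1
  linarith

omit [IsNoetherianRing B] in
/-- `z`-power torsion has finite length modulo `zs`. -/
theorem FL.of_pow {z : B} {zs : List B} {X : Type u} [AddCommGroup X] [Module B X]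
    (hX : FL (z :: zs) X) (n : ℕ) (hz : z ^ n ∈ Module.annihilator B X) : FL zs X := by
  unfold FL at hX ⊢
  rw [Ideal.ofList_cons, ← sup_assoc] at hX
  refine hX.trans ?_
  rw [← Ideal.radical_idem (Module.annihilator B X ⊔ Ideal.ofList zs)]
  apply Ideal.radical_mono
  refine sup_le (sup_le ?_ ?_) ?_
  · exact le_sup_left.trans Ideal.le_radical
  · rw [Ideal.span_singleton_le_iff_mem]
    exact ⟨n, Ideal.mem_sup_left hz⟩
  · exact le_sup_right.trans Ideal.le_radical

theorem supportDim_le_length (zs : List B) (hzs : ∀ z ∈ zs, z ∈ maximalIdeal B) (X : Type u)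
    [AddCommGroup X] [Module B X] [Module.Finite B X] (hX : FL zs X) :
    Module.supportDim B X ≤ zs.length := by
  induction zs generalizing X with
  | nil =>
    unfold FL at hX
    rw [Ideal.ofList_nil, sup_bot_eq] at hX
    unfold Module.supportDim
    rw [List.length_nil, Nat.cast_zero, Order.krullDim_nonpos_iff_forall_isMax]
    rintro ⟨P, hP⟩ ⟨Q, hQ⟩ hPQ
    have h1 : P.asIdeal = maximalIdeal B := by
      apply le_antisymm (le_maximalIdeal P.2.ne_top)
      refine hX.trans ?_
      rw [P.2.radical_le_iff]
      exact Module.annihilator_le_of_mem_support hP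
    change Q.asIdeal ≤ P.asIdeal
    rw [h1]
    exact le_maximalIdeal Q.2.ne_top
  | cons z zs ih =>
    have h1 := ih (fun y hy => hzs y (List.mem_cons_of_mem _ hy)) (QuotSMulTop z X) hX.quot
    have h2 := Module.supportDim_le_supportDim_quotSMulTop_succ (M := X)
      (hzs z List.mem_cons_self)
    refine h2.trans ?_
    rw [List.length_cons]
    push_cast
    gcongr

end FL

end Vale.Agent.P177
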