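import Vale.Agent.P177.Eul

/-!
Positivity of the recursive Euler characteristic.
-/

namespace Vale.Agent.P177

open CategoryTheory TensorProduct Function IsLocalRing RingTheory.Sequence Pointwise

universe u

section dim

variable {B : Type u} [CommRing B]

theorem le_supportDim_of_exact {X' X X'' : Type u} [AddCommGroup X'] [Module B X']
    [AddCommGroup X] [Module B X] [AddCommGroup X''] [Module B X'']
    (f : X' →ₗ[B] X) (g : X →ₗ[B] X'') (hf : Injective f) (hg : Surjective g) (h : Exact f g)
    (n : ℕ) (hn : (n : WithBot ℕ∞) ≤ Module.supportDim B X) :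
    (n : WithBot ℕ∞) ≤ Module.supportDim B X' ∨ (n : WithBot ℕ∞) ≤ Module.supportDim B X'' := by
  unfold Module.supportDim at hn ⊢
  obtain ⟨l, hl⟩ := Order.le_krullDim_iff.1 hn
  have h0 : ∀ x : PrimeSpectrum B, x ∈ Module.support B X →
      x ∈ Module.support B X' ∨ x ∈ Module.support B X'' := by
    intro x hx
    rw [Module.support_of_exact h hf hg] at hx
    exact hx
  rcases h0 _ l.head.2 with h1 | h1
  · left
    rw [Order.le_krullDim_iff]
    let L : LTSeries (Module.support B X') :=
      { length := l.length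
        toFun := fun i => ⟨(l i).1, Module.mem_support_mono
          (show (l.head).1 ≤ (l i).1 from l.head_le i) h1⟩
        step := fun i => l.step i }
    exact ⟨L, hl⟩
  · right
    rw [Order.le_krullDim_iff]
    let L : LTSeries (Module.support B X'') :=
      { length := l.length
        toFun := fun i => ⟨(l i).1, Module.mem_support_mono
          (show (l.head).1 ≤ (l i).1 from l.head_le i) h1⟩
        step := fun i => l.step i }
    exact ⟨L, hl⟩

/-- The `z`-power torsion. -/
theorem exists_torsion_pow [IsNoetherianRing B] (X : Type u) [AddCommGroup X] [Module B X]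
    [Module.Finite B X] (z : B) :
    ∃ (n : ℕ) (Γ : Submodule B X), z ^ n ∈ Module.annihilator B Γ ∧ IsSMulRegular (X ⧸ Γ) z := by
  let f : ℕ →o Submodule B X :=
    { toFun := fun n => Submodule.torsionBy B X (z ^ n)
      monotone' := by
        intro a b hab x hx
        rw [Submodule.mem_torsionBy_iff] at hx ⊢
        obtain ⟨c, rfl⟩ := Nat.exists_eq_add_of_le hab
        rw [pow_add, mul_comm, mul_smul, hx, smul_zero] }
  obtain ⟨n, hn⟩ := monotone_stabilizes_iff_noetherian.2 (inferInstance : IsNoetherian B X) f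
  refine ⟨n, f n, ?_, ?_⟩
  · rw [Module.mem_annihilator]
    rintro ⟨x, hx⟩
    apply Subtype.ext
    exact hx
  · rw [isSMulRegular_iff_right_eq_zero_of_smul]
    intro x hx
    obtain ⟨x, rfl⟩ := Submodule.mkQ_surjective _ x
    rw [← map_smul, Submodule.mkQ_apply, Submodule.Quotient.mk_eq_zero] at hx
    rw [Submodule.mkQ_apply, Submodule.Quotient.mk_eq_zero, hn (n + 1) (Nat.le_succ n)]
    have hx' : z ^ n • (z • x) = 0 := hx
    change z ^ (n + 1) • x = 0
    rw [pow_succ, mul_smul, hx']

end dim

section

variable {B : Type u} [CommRing B] [IsLocalRing B] [IsNoetherianRing B]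

theorem eul_nonneg_pos (zs : List B) (hzs : ∀ z ∈ zs, z ∈ maximalIdeal B) (X : Type u)
    [AddCommGroup X] [Module B X] [Module.Finite B X] (hX : FL zs X) :
    0 ≤ eul zs X ∧ ((zs.length : WithBot ℕ∞) ≤ Module.supportDim B X → 0 < eul zs X) := by
  induction zs generalizing X with
  | nil =>
    unfold eul
    refine ⟨Nat.cast_nonneg _, ?_⟩
    intro h
    have hnt : Nontrivial X := by
      rw [← Module.supportDim_ne_bot_iff_nontrivial B X]
      intro hb
      rw [hb] at h
      simp at h
    have h1 := hX.length_ne_top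
    have h2 : Module.length B X ≠ 0 := by
      rw [← pos_iff_ne_zero, Module.length_pos_iff]
      exact hnt
    have h3 : (Module.length B X).toNat ≠ 0 := by
      rw [ne_eq, ENat.toNat_eq_zero]
      exact fun h => h.elim h2 h1
    exact_mod_cast Nat.pos_of_ne_zero h3
  | cons z zs ih =>
    obtain ⟨n, Γ, hΓ, hreg⟩ := exists_torsion_pow X z
    have hzs' : ∀ y ∈ zs, y ∈ maximalIdeal B := fun y hy => hzs y (List.mem_cons_of_mem _ hy)
    have hex : Exact Γ.subtype Γ.mkQ := by
      intro x
      simp
    have hadd := eul_add (z :: zs) Γ.subtype Γ.mkQ (Submodule.injective_subtype _)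
      (Submodule.mkQ_surjective _) hex hX
    have hFLΓ : FL (z :: zs) Γ := hX.of_injective Γ.subtype (Submodule.injective_subtype _)
    have hFLΓ' : FL zs Γ := hFLΓ.of_pow n hΓ
    have hFLQ : FL (z :: zs) (X ⧸ Γ) := hX.of_surjective Γ.mkQ (Submodule.mkQ_surjective _)
    rw [eul_cons_eq_zero z zs Γ hFLΓ', zero_add] at hadd
    have htors : Subsingleton (Submodule.torsionBy B (X ⧸ Γ) z) := by
      refine subsingleton_of_forall_eq 0 ?_
      rintro ⟨x, hx⟩
      apply Subtype.ext
      rw [isSMulRegular_iff_right_eq_zero_of_smul] at hreg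
      exact hreg x hx
    have h2 : eul (z :: zs) (X ⧸ Γ) = eul zs (QuotSMulTop z (X ⧸ Γ)) := by
      change eul zs (QuotSMulTop z (X ⧸ Γ)) - eul zs (Submodule.torsionBy B (X ⧸ Γ) z) = _
      rw [eul_subsingleton zs (Submodule.torsionBy B (X ⧸ Γ) z), sub_zero]
    rw [hadd, h2]
    obtain ⟨i1, i2⟩ := ih hzs' (QuotSMulTop z (X ⧸ Γ)) hFLQ.quot
    refine ⟨i1, ?_⟩
    intro hd
    apply i2
    have h3 := Module.supportDim_quotSMulTop_succ_eq_supportDim hreg (hzs z List.mem_cons_self)
    rcases le_supportDim_of_exact Γ.subtype Γ.mkQ (Submodule.injective_subtype _)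
      (Submodule.mkQ_surjective _) hex _ hd with h4 | h4
    · exfalso
      have h5 := h4.trans (supportDim_le_length zs hzs' Γ hFLΓ')
      rw [List.length_cons] at h5
      have h6 : zs.length + 1 ≤ zs.length := by exact_mod_cast h5
      omega
    · rw [← h3, List.length_cons] at h4
      push_cast at h4
      generalize Module.supportDim B (QuotSMulTop z (X ⧸ Γ)) = a at h4 ⊢
      induction a using WithBot.recBotCoe with
      | bot => 
        exfalso
        simp at h4
      | coe a => 
        have h7 : ((zs.length : ℕ∞) + 1) ≤ a + 1 := by exact_mod_cast h4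
        have h8 : (zs.length : ℕ∞) ≤ a := (ENat.add_le_add_iff_right (by simp)).1 h7
        exact_mod_cast h8

end

end Vale.Agent.P177
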