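import Vale.Agent.P177.ChangeRings

/-!
The change of rings numerics: relation between `Tor^R` and `Tor^A`, for `A = R/(f)`.
-/

namespace Vale.Agent.P177

open TensorProduct Function

universe u

/-- The key exact sequence `0 → M → X → Y → M → 0` where `X`, `Y` are base changes. -/
theorem IsHypersurface.exists_jm {R A : Type u} [CommRing R] [CommRing A] [Algebra R A] {f : R}
    (H : IsHypersurface R A f)
    {M F M1 X Y : Type u} [AddCommGroup M] [Module R M] [Module A M] [IsScalarTower R A M]
    [AddCommGroup F] [Module R F] [Module.Flat R F] [AddCommGroup M1] [Module R M1]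
    [AddCommGroup X] [Module R X] [Module A X] [IsScalarTower R A X]
    [AddCommGroup Y] [Module R Y] [Module A Y] [IsScalarTower R A Y]
    (i : M1 →ₗ[R] F) (g : F →ₗ[R] M) (hi : Injective i) (hg : Surjective g) (h : Exact i g)
    {φ : M1 →ₗ[R] X} (hφ : IsBaseChange A φ) {ψ : F →ₗ[R] Y} (hψ : IsBaseChange A ψ)
    (j : X →ₗ[A] Y) (hj : ∀ k, j (φ k) = ψ (i k)) :
    ∃ jm : M →ₗ[A] X, Injective jm ∧ Exact jm j := by
  have hFr : IsSMulRegular F f := H.regular_of_flat F
  have hgf : ∀ y, g (f • y) = 0 := fun y => by rw [map_smul, H.smul_eq_zero]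
  have hex : ∀ y, ∃ k, i k = f • y := fun y => (h _).1 (hgf y)
  choose s0 hs0 using hex
  let s : F →ₗ[R] M1 :=
    { toFun := s0
      map_add' := fun x y => hi (by rw [map_add, hs0, hs0, hs0, smul_add])
      map_smul' := fun r x => hi (by
        rw [map_smul, hs0, hs0, RingHom.id_apply, smul_comm]) }
  have hs : ∀ y, i (s y) = f • y := hs0
  have hker : LinearMap.ker g ≤ LinearMap.ker (φ ∘ₗ s) := by
    intro y hy
    obtain ⟨k, rfl⟩ := (h y).1 hy
    have h1 : s (i k) = f • k := hi (by rw [hs, map_smul])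
    rw [LinearMap.mem_ker, LinearMap.comp_apply, h1, H.baseChange_smul]
  let t : M →ₗ[R] X := (LinearMap.ker g).liftQ (φ ∘ₗ s) hker ∘ₗ
    (g.quotKerEquivOfSurjective hg).symm.toLinearMap
  have ht : ∀ y, t (g y) = φ (s y) := by
    intro y
    have h1 : (g.quotKerEquivOfSurjective hg).symm (g y) = (LinearMap.ker g).mkQ y := by
      rw [LinearEquiv.symm_apply_eq]
      rfl
    change (LinearMap.ker g).liftQ (φ ∘ₗ s) hker
      ((g.quotKerEquivOfSurjective hg).symm (g y)) = _
    rw [h1, Submodule.mkQ_apply, Submodule.liftQ_apply]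
    rfl
  refine ⟨t.extendScalarsOfSurjective H.surj, ?_, ?_⟩
  · rw [injective_iff_map_eq_zero]
    intro m hm
    obtain ⟨y, rfl⟩ := hg m
    have hm' : φ (s y) = 0 := by rw [← ht]; exact hm
    obtain ⟨k', hk'⟩ := H.baseChange_eq_zero hφ _ hm'
    have h2 : f • y = f • i k' := by rw [← hs, hk', map_smul]
    rw [hFr h2]
    exact (h _).2 ⟨k', rfl⟩
  · intro x
    constructor
    · intro hx
      obtain ⟨k, rfl⟩ := H.baseChange_surj hφ x
      rw [hj] at hx
      obtain ⟨y, hy⟩ := H.baseChange_eq_zero hψ _ hx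
      have h3 : k = s y := hi (by rw [hs, hy])
      refine ⟨g y, ?_⟩
      change t (g y) = _
      rw [ht, h3]
    · rintro ⟨m, rfl⟩
      obtain ⟨y, rfl⟩ := hg m
      change j (t (g y)) = 0
      rw [ht, hj, hs, H.baseChange_smul]

/-- A module over a quotient is its own base change. -/
theorem isBaseChange_id_of_surjective {R A : Type u} [CommRing R] [CommRing A] [Algebra R A]
    (hsurj : Function.Surjective (algebraMap R A))
    (M : Type u) [AddCommGroup M] [Module R M] [Module A M] [IsScalarTower R A M] :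
    IsBaseChange A (LinearMap.id : M →ₗ[R] M) := by
  refine IsBaseChange.of_lift_unique _ ?_
  intro Q _ _ _ _ g
  refine ⟨g.extendScalarsOfSurjective hsurj, ?_, ?_⟩
  · ext x
    rfl
  · intro g' hg'
    ext x
    rw [← hg']
    rfl

/-- length of the kernel of a composite, the first map being surjective -/
theorem length_ker_comp {A : Type*} [Ring A] {X Y Z : Type*} [AddCommGroup X] [Module A X]
    [AddCommGroup Y] [Module A Y] [AddCommGroup Z] [Module A Z] (u : X →ₗ[A] Y) (v : Y →ₗ[A] Z)
    (hu : Surjective u) :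
    Module.length A (LinearMap.ker (v ∘ₗ u)) =
      Module.length A (LinearMap.ker u) + Module.length A (LinearMap.ker v) := by
  have hle : LinearMap.ker u ≤ LinearMap.ker (v ∘ₗ u) := LinearMap.ker_le_ker_comp u v
  have hres : ∀ x ∈ LinearMap.ker (v ∘ₗ u), u x ∈ LinearMap.ker v := fun x hx => hx
  refine Module.length_eq_add_of_exact (Submodule.inclusion hle) (u.restrict hres)
    (Submodule.inclusion_injective hle) ?_ ?_
  · rintro ⟨y, hy⟩
    obtain ⟨x, rfl⟩ := hu y
    exact ⟨⟨x, hy⟩, rfl⟩
  · rintro ⟨x, hx⟩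
    constructor
    · intro h
      have h' : u x = 0 := congrArg Subtype.val h
      exact ⟨⟨x, h'⟩, rfl⟩
    · rintro ⟨⟨y, hy⟩, hyx⟩
      apply Subtype.ext
      have h1 : y = x := congrArg Subtype.val hyx
      subst h1
      exact hy

/-- **Change of rings**, numerical form. -/
theorem IsHypersurface.exists_rho {R A : Type u} [CommRing R] [CommRing A] [Algebra R A] {f : R}
    (H : IsHypersurface R A f)
    (M N : Type u) [AddCommGroup M] [Module R M] [Module A M] [IsScalarTower R A M]
    [AddCommGroup N] [Module R N] [Module A N] [IsScalarTower R A N] :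
    ∃ ρ a b : ℕ → ℕ∞, ρ 0 = 0 ∧
      Module.length R (TorM R 0 M N) = Module.length A (TorM A 0 M N) ∧
      (∀ n, Module.length A (TorM A n M N) = ρ (n + 1) + a n) ∧
      (∀ n, Module.length R (TorM R (n + 1) M N) = a n + b n) ∧
      (∀ n, Module.length A (TorM A (n + 1) M N) = b n + ρ n) := by
  obtain ⟨F, M1, _, _, _, _, i, g, hF, hi, hg, h⟩ := exists_cover R M
  obtain ⟨Y, _, _, _, _, ψ, hψ⟩ := exists_baseChange (R := R) A F
  obtain ⟨X, _, _, _, _, φ, hφ⟩ := exists_baseChange (R := R) A M1
  let j : X →ₗ[A] Y := hφ.lift (ψ ∘ₗ i)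
  have hj : ∀ k, j (φ k) = ψ (i k) := fun k => hφ.lift_eq _ k
  let q : Y →ₗ[A] M := hψ.lift g
  have hq : ∀ y, q (ψ y) = g y := fun y => hψ.lift_eq _ y
  obtain ⟨jm, hjm, hjmj⟩ := H.exists_jm i g hi hg h hφ hψ j hj
  have hYflat : Module.Flat A Y := Module.Flat.isBaseChange R A F Y hψ
  have hFr : IsSMulRegular F f := H.regular_of_flat F
  have hM1r : IsSMulRegular M1 f := by
    intro a b hab
    apply hi
    apply hFr
    simpa using congrArg i hab
  have hqs : Surjective q := by
    intro m
    obtain ⟨y, rfl⟩ := hg m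
    exact ⟨ψ y, hq y⟩
  have hqj : ∀ x, q (j x) = 0 := by
    intro x
    obtain ⟨k, rfl⟩ := H.baseChange_surj hφ x
    rw [hj, hq]
    exact (h _).2 ⟨k, rfl⟩
  let u : X →ₗ[A] LinearMap.ker q := j.codRestrict _ hqj
  have hus : Surjective u := by
    rintro ⟨y, hy⟩
    obtain ⟨y', rfl⟩ := H.baseChange_surj hψ y
    rw [LinearMap.mem_ker, hq] at hy
    obtain ⟨k, rfl⟩ := (h _).1 hy
    exact ⟨φ k, Subtype.ext (hj k)⟩
  have hujm : Exact jm u := by
    intro x
    rw [← hjmj x]
    exact ⟨fun hx => congrArg Subtype.val hx, fun hx => Subtype.ext hx⟩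
  have hKY : Exact (LinearMap.ker q).subtype q := by
    intro y
    simp
  obtain ⟨δ, h1, h2, h3⟩ := exists_torDelta jm u hjm hus hujm N
  have hX : ∀ n, Module.length A (TorM A (n + 1) X N) = Module.length R (TorM R (n + 2) M N) := by
    intro n
    obtain ⟨e⟩ := tor_shift i g hi hg h N n
    rw [e.length_eq]
    exact (H.length_tor_baseChange (n + 1) hφ hM1r N).symm
  have hK : ∀ n, Module.length A (TorM A (n + 2) M N) =
      Module.length A (TorM A (n + 1) (LinearMap.ker q) N) := by
    intro n
    obtain ⟨e⟩ := tor_shift (LinearMap.ker q).subtype q (Submodule.injective_subtype _) hqs hKY N n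
    exact e.length_eq
  refine ⟨fun n => Nat.casesOn n 0 (fun n => Module.length A (LinearMap.range (δ n))),
    fun n => Module.length A (LinearMap.range (torMap n jm N)),
    fun n => Nat.casesOn n (Module.length A (TorM A 1 M N))
      (fun n => Module.length A (LinearMap.range (torMap (n + 1) u N))), rfl, ?_, ?_, ?_, ?_⟩
  · have hid : IsBaseChange A (LinearMap.id : M →ₗ[R] M) :=
      isBaseChange_id_of_surjective H.surj M
    rw [(torZero M N).length_eq, length_tensor_baseChange H.surj hid N, (torZero M N).length_eq]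
  · intro n
    rw [length_ker_add_range (torMap n jm N), LinearMap.exact_iff.1 (h2 n)]
  · intro n
    cases n with
    | zero =>
      obtain ⟨e1⟩ := tor_one i g hi hg h N
      obtain ⟨e2⟩ := tor_one (LinearMap.ker q).subtype q (Submodule.injective_subtype _) hqs hKY N
      rw [e1.length_eq, length_ker_baseChange H.surj hφ hψ i j hj N]
      change _ = Module.length A (LinearMap.range (torMap 0 jm N)) +
        Module.length A (TorM A 1 M N)
      have h5 : Module.length A (TorM A 1 M N) =
          Module.length A (LinearMap.ker ((LinearMap.ker q).subtype.rTensor N)) :=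
        LinearEquiv.length_eq e2
      rw [h5, ← LinearMap.exact_iff.1 (h3 0)]
      obtain ⟨e3⟩ := ker_equiv (torZero X N) (torZero _ N) (torMap 0 u N) (u.rTensor N)
        (fun x => (torZero_naturality u x).symm)
      have h6 : Module.length A (LinearMap.ker (torMap 0 u N)) = _ := e3.length_eq
      rw [h6]
      have hju : j = (LinearMap.ker q).subtype ∘ₗ u := rfl
      rw [hju, LinearMap.rTensor_comp]
      exact length_ker_comp _ _ (LinearMap.rTensor_surjective N hus)
    | succ n =>
      rw [← hX n, length_ker_add_range (torMap (n + 1) u N), LinearMap.exact_iff.1 (h3 (n + 1))]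
  · intro n
    cases n with
    | zero =>
      change _ = Module.length A (TorM A 1 M N) + 0
      rw [add_zero]
    | succ n =>
      rw [hK n, length_ker_add_range (δ n), LinearMap.exact_iff.1 (h1 n)]

end Vale.Agent.P177
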