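import Vale.Agent.P177.FBadR

/-!
The blow-up step for ring homomorphisms.
-/

namespace Vale.Agent.P177

open IsLocalRing Function TensorProduct

universe u

/-- Nonnegativity and positivity of the Euler characteristic along two maps. -/
def EulAlong {R₁ R₂ W : Type u} [CommRing R₁] [CommRing R₂] [CommRing W] (j₁ : R₁ →+* W)
    (j₂ : R₂ →+* W) (d : ℕ) (N M : Type u) [AddCommGroup N] [Module R₁ N] [AddCommGroup M]
    [Module R₂ M] : Prop :=
  let _ : Algebra R₁ W := j₁.toAlgebra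
  let _ : Algebra R₂ W := j₂.toAlgebra
  IsFiniteLength W ((W ⊗[R₁] N) ⊗[W] (W ⊗[R₂] M)) →
    0 ≤ eulerTor W (d + 1) (W ⊗[R₁] N) (W ⊗[R₂] M) ∧
    (∀ e g : ℕ, (e : WithBot ℕ∞) ≤ Module.supportDim R₁ N →
      (g : WithBot ℕ∞) ≤ Module.supportDim R₂ M → d ≤ e + g →
      0 < eulerTor W (d + 1) (W ⊗[R₁] N) (W ⊗[R₂] M))

/-- The data at the bad point. -/
structure BadData {R₁ R₂ A : Type u} [CommRing R₁] [CommRing R₂] [CommRing A]
    [IsRegularLocalRing R₁] [IsRegularLocalRing R₂] [IsRegularLocalRing A]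
    (j₁ : R₁ →+* A) (j₂ : R₂ →+* A) {r : ℕ} {x₁ : Fin (r + 1) → R₁} {x₂ : Fin (r + 1) → R₂}
    (hx₁ : Ideal.span (Set.range x₁) = maximalIdeal R₁)
    (hx₂ : Ideal.span (Set.range x₂) = maximalIdeal R₂) (θ : Fin r → Fin r → A)
    (Ω : Type u) [CommRing Ω] [IsRegularLocalRing Ω] where
  a : A →+* Ω
  a_local : IsLocalHom a
  k₁ : BadRing hx₁ →+* Ω
  k₂ : BadRing hx₂ →+* Ω
  l₁ : IsLocalHom k₁
  l₂ : IsLocalHom k₂
  f₁ : k₁.Flat
  f₂ : k₂.Flat
  dimΩ : ringKrullDim Ω = ((r + 1 : ℕ) : WithBot ℕ∞)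
  comp₁ : ∀ c, k₁ (algebraMap R₁ _ c) = a (j₁ c)
  comp₂ : ∀ c, k₂ (algebraMap R₂ _ c) = a (j₂ c)
  hT : k₁ (xBad hx₁ 0) = k₂ (xBad hx₂ 0)
  hY : k₁ (algebraMap (ERees x₁) _ (eY x₁ 0)) = k₂ (algebraMap (ERees x₂) _ (eY x₂ 0))
  hθ : ∀ i, k₂ (xBad hx₂ i.succ) = ∑ l : Fin r, a (θ i l) * k₁ (xBad hx₁ l.succ)
  m₁ : (maximalIdeal (BadRing hx₁)).map k₁ = maximalIdeal Ω
  m₂ : (maximalIdeal (BadRing hx₂)).map k₂ = maximalIdeal Ω
  inj : Injective (Polynomial.eval₂RingHom (ResidueField.map a)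
    (residue Ω (k₁ (algebraMap (ERees x₁) _ (eY x₁ 0)))))

/-- The blow-up step for ring homomorphisms. -/
theorem step_along {R₁ R₂ A : Type u} [CommRing R₁] [CommRing R₂] [CommRing A]
    [IsRegularLocalRing R₁] [IsRegularLocalRing R₂] [IsRegularLocalRing A]
    (j₁ : R₁ →+* A) (j₂ : R₂ →+* A) [hl₁ : IsLocalHom j₁] [hl₂ : IsLocalHom j₂]
    (hj₁ : j₁.Flat) (hj₂ : j₂.Flat) {r : ℕ}
    (hd₁ : ringKrullDim R₁ = ((r + 1 : ℕ) : WithBot ℕ∞))
    (hd₂ : ringKrullDim R₂ = ((r + 1 : ℕ) : WithBot ℕ∞))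
    (hd : ringKrullDim A = ((r + 1 : ℕ) : WithBot ℕ∞))
    {x₁ : Fin (r + 1) → R₁} {x₂ : Fin (r + 1) → R₂}
    (hx₁ : Ideal.span (Set.range x₁) = maximalIdeal R₁)
    (hx₂ : Ideal.span (Set.range x₂) = maximalIdeal R₂)
    (hxA : (maximalIdeal R₁).map j₁ = maximalIdeal A)
    (hyA : (maximalIdeal R₂).map j₂ = maximalIdeal A)
    (h0 : j₁ (x₁ 0) = j₂ (x₂ 0)) (θ : Fin r → Fin r → A)
    (hθ : ∀ i, j₂ (x₂ i.succ) = ∑ l, θ i l * j₁ (x₁ l.succ))
    (M N : Type u) [AddCommGroup M] [Module R₁ M] [Module.Finite R₁ M]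
    [AddCommGroup N] [Module R₂ N] [Module.Finite R₂ N]
    (hK : ∀ (z : Ideal (MvPolynomial (Fin (r + 1)) (ResidueField A))) [z.IsPrime],
      (∀ f ∈ z, ∀ n, MvPolynomial.homogeneousComponent n f ∈ z) →
      MvPolynomial.X 0 ∉ z → (∃ i : Fin r, MvPolynomial.X i.succ ∉ z) →
      (z.comap (jFun (ResidueField.map j₁)
          (fun i l => if i = l then (1 : ResidueField A) else 0))).height +
        (z.comap (jFun (ResidueField.map j₂) (extM fun i l => residue A (θ i l)))).height ≤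
          z.height + 1)
    (hN : ∀ (z : Ideal (MvPolynomial (Fin (r + 1)) (ResidueField A))) [z.IsPrime],
      (∀ f ∈ z, ∀ n, MvPolynomial.homogeneousComponent n f ∈ z) →
      MvPolynomial.X 0 ∈ z → (∃ i, MvPolynomial.X i ∉ z) →
      InForm x₁ (Module.annihilator R₁ M) (z.comap (jFun (ResidueField.map j₁)
          (fun i l => if i = l then (1 : ResidueField A) else 0))) →
      InForm x₂ (Module.annihilator R₂ N) (z.comap (jFun (ResidueField.map j₂)
        (extM fun i l => residue A (θ i l)))) → False)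
    (hbad : ∀ (Ω : Type u) [CommRing Ω] [IsRegularLocalRing Ω]
      (D : BadData j₁ j₂ hx₁ hx₂ θ Ω),
      NonnegAlong D.k₁ D.k₂ (r + 1 + 1)
        (St (xBad hx₁ 0) (BadRing hx₁ ⊗[R₁] M)) (St (xBad hx₂ 0) (BadRing hx₂ ⊗[R₂] N))) :
    EulAlong j₁ j₂ (r + 1) M N := by
  let _ : Algebra R₁ A := j₁.toAlgebra
  let _ : Algebra R₂ A := j₂.toAlgebra
  intro hlen
  have hff₁ : Module.Flat R₁ A := RingHom.flat_algebraMap_iff.1 hj₁
  have hff₂ : Module.Flat R₂ A := RingHom.flat_algebraMap_iff.1 hj₂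
  have hll₁ : IsLocalHom (algebraMap R₁ A) := hl₁
  have hll₂ : IsLocalHom (algebraMap R₂ A) := hl₂
  let x : Fin (r + 1) → A := fun l => algebraMap R₁ A (x₁ l)
  have hx : Ideal.span (Set.range x) = maximalIdeal A := by
    rw [← hxA, ← hx₁, Ideal.map_span, ← Set.range_comp]
    rfl
  have hy : Ideal.span (Set.range fun l => algebraMap R₂ A (x₂ l)) = maximalIdeal A := by
    rw [← hyA, ← hx₂, Ideal.map_span, ← Set.range_comp]
    rfl
  let θ₁ : Fin (r + 1) → Fin (r + 1) → A := fun i l => if i = l then 1 else 0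
  have hθ₁ : ∀ i, algebraMap R₁ A (x₁ i) = ∑ l, θ₁ i l * x l := fun i =>
    (sum_ite_mul i x).symm
  let θ₂ : Fin (r + 1) → Fin (r + 1) → A := extM θ
  have hθ₂ : ∀ i, algebraMap R₂ A (x₂ i) = ∑ l, θ₂ i l * x l := by
    intro i
    rw [Fin.sum_univ_succ]
    refine Fin.cases ?_ (fun i => ?_) i
    · simp only [θ₂, extM_zero_zero, extM_zero_succ, one_mul, zero_mul, Finset.sum_const_zero,
        add_zero]
      exact h0.symm
    · simp only [θ₂, extM_succ_zero, extM_succ_succ, zero_mul, zero_add]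
      exact hθ i
  have hone : ∀ i l, ∑ m, θ₁ i m * θ₁ m l = if i = l then 1 else 0 := fun i l =>
    sum_ite_mul i fun m => θ₁ m l
  have hf₁ : (eMap θ₁ hθ₁).Flat := eMap_flat θ₁ hθ₁ θ₁ hθ₁ hone hone
  obtain ⟨θ', h1, h2, h3⟩ := exists_inverse hd hx hy θ₂ hθ₂
  have hf₂ : (eMap θ₂ hθ₂).Flat := eMap_flat θ₂ hθ₂ θ' h1 h2 h3
  have hJ₁ : jMap R₁ θ₁ = jFun (ResidueField.map j₁)
      (fun i l => if i = l then (1 : ResidueField A) else 0) := by
    apply MvPolynomial.ringHom_ext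
    · intro c
      rw [jMap_C, jFun_C]
      rfl
    · intro i
      rw [jMap_X, jFun_X]
      refine Finset.sum_congr rfl fun l _ => ?_
      congr 2
      simp only [θ₁]
      split_ifs <;> simp
  have hJ₂ : jMap R₂ θ₂ = jFun (ResidueField.map j₂) (extM fun i l => residue A (θ i l)) := by
    apply MvPolynomial.ringHom_ext
    · intro c
      rw [jMap_C, jFun_C]
      rfl
    · intro i
      rw [jMap_X, jFun_X]
      refine Finset.sum_congr rfl fun l _ => ?_
      congr 2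
      refine Fin.cases ?_ (fun i => ?_) i
      · refine Fin.cases ?_ (fun l => ?_) l
        · simp [θ₂]
        · simp [θ₂]
      · refine Fin.cases ?_ (fun l => ?_) l
        · simp [θ₂]
        · simp [θ₂]
  refine step_pos hd₁ hd₂ hd hx₁ hx₂ hx hxA hyA θ₁ θ₂ hθ₁ hθ₂ (by simp [θ₁])
    (fun i => by simp [θ₁, Fin.succ_ne_zero]) rfl (fun i => rfl) hf₁ hf₂ M N ?_ ?_ ?_
    (fp_of_length (R₁ := R₁) (R₂ := R₂) (T := A) M N hlen)
  · intro z hz hhom hz0 hX
    rw [hJ₁, hJ₂]
    exact hK z hhom hz0 hX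
  · intro z hz hhom hz0 hX
    rw [hJ₁, hJ₂]
    exact hN z hhom hz0 hX
  · intro Ω _ _ ρ hρf hΩ hcomap hmap k₁ k₂ hk₁ hk₂ hkf₁ hkf₂ hσ₁ hσ₂
    have e₁ : ∀ i, k₁ (algebraMap (ERees x₁) _ (eY x₁ i)) = ρ (eY x i) := by
      intro i
      rw [hσ₁, eMap_eY]
      congr 1
      rw [Finset.sum_eq_single i]
      · simp [θ₁]
      · intro l _ hl
        simp [θ₁, Ne.symm hl]
      · simp
    have e₂ : ∀ i, k₂ (algebraMap (ERees x₂) _ (eY x₂ i)) =
        ∑ l, ρ (algebraMap A _ (θ₂ i l)) * ρ (eY x l) := by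
      intro i
      rw [hσ₂, eMap_eY, map_sum]
      exact Finset.sum_congr rfl fun l _ => map_mul _ _ _
    let a : A →+* Ω := ρ.comp (algebraMap A (ERees x))
    have hcomap' : (maximalIdeal Ω).comap a = maximalIdeal A := by
      rw [← Ideal.comap_comap, hcomap]
      ext c
      change eRes hx (algebraMap A _ c) ∈ zBad (ResidueField A) r ↔ _
      rw [eRes_algebraMap, mem_zBad, badHom_C, Polynomial.C_eq_zero, residue_eq_zero_iff]
    have hal : IsLocalHom a := ((IsLocalRing.local_hom_TFAE a).out 0 4).mpr hcomap'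
    have hmΩ : Ideal.span {ρ (eT x)} ⊔ Ideal.span (Set.range fun i : Fin r => ρ (eY x i.succ)) =
        maximalIdeal Ω := by
      rw [← hmap, badPrime_eq, Ideal.map_sup, Ideal.map_span, Ideal.map_span,
        Set.image_singleton, ← Set.range_comp]
      rfl
    have hT₁ : k₁ (xBad hx₁ 0) = ρ (eT x) := by rw [xBad_zero, hσ₁, eMap_eT]
    have hT₂ : k₂ (xBad hx₂ 0) = ρ (eT x) := by rw [xBad_zero, hσ₂, eMap_eT]
    have hY₂ : k₂ (algebraMap (ERees x₂) _ (eY x₂ 0)) = ρ (eY x 0) := by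
      rw [e₂, Fin.sum_univ_succ]
      simp [θ₂]
    have hS₂ : ∀ i : Fin r, k₂ (xBad hx₂ i.succ) = ∑ l : Fin r, a (θ i l) * ρ (eY x l.succ) := by
      intro i
      rw [xBad_succ, e₂, Fin.sum_univ_succ]
      simp only [θ₂, extM_succ_zero, extM_succ_succ, map_zero, zero_mul, zero_add]
      rfl
    refine hbad Ω ⟨a, hal, k₁, k₂, hk₁, hk₂, hkf₁, hkf₂, hΩ, ?_, ?_, ?_, ?_, ?_, ?_, ?_, ?_⟩
    · intro c
      rw [algebraMap_bad, hσ₁, eMap_algebraMap]
      rfl
    · intro c
      rw [algebraMap_bad, hσ₂, eMap_algebraMap]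
      rfl
    · rw [hT₁, hT₂]
    · rw [e₁, hY₂]
    · intro i
      rw [hS₂]
      refine Finset.sum_congr rfl fun l _ => ?_
      rw [xBad_succ, e₁]
    · rw [← span_xBad, Ideal.map_span, ← Set.range_comp, ← span_tail]
      rw [← hmΩ]
      have e₃ : (k₁ ∘ xBad hx₁) 0 = ρ (eT x) := hT₁
      have e₄ : (fun i : Fin r => (k₁ ∘ xBad hx₁) i.succ) = fun i => ρ (eY x i.succ) := by
        funext i
        change k₁ (xBad hx₁ i.succ) = _
        rw [xBad_succ, e₁]
      rw [e₃, e₄]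
    · refine le_antisymm (((IsLocalRing.local_hom_TFAE k₂).out 0 2).mp hk₂) ?_
      rw [← hmΩ]
      have hxm : ∀ i, k₂ (xBad hx₂ i) ∈ (maximalIdeal (BadRing hx₂)).map k₂ := fun i =>
        Ideal.mem_map_of_mem _ (by
          rw [← span_xBad]
          exact Ideal.subset_span ⟨i, rfl⟩)
      refine sup_le ?_ ?_
      · rw [Ideal.span_singleton_le_iff_mem, ← hT₂]
        exact hxm 0
      · rw [Ideal.span_le]
        rintro _ ⟨i, rfl⟩
        simp only [SetLike.mem_coe]
        have hz0 : θ' i.succ 0 = 0 := by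
          have := h3 i.succ 0
          rw [Fin.sum_univ_succ] at this
          simpa [θ₂, Fin.succ_ne_zero] using this
        have h4 : ρ (eY x i.succ) = ∑ m : Fin r, a (θ' i.succ m.succ) * k₂ (xBad hx₂ m.succ) := by
          have h5 : ρ (eY x i.succ) = ∑ l, (if i.succ = l then (1 : Ω) else 0) * ρ (eY x l) := by
            rw [Finset.sum_eq_single i.succ]
            · simp
            · intro l _ hl
              simp [Ne.symm hl]
            · simp
          have h6 : ∀ l, (if i.succ = l then (1 : Ω) else 0) =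
              ∑ m, a (θ' i.succ m) * a (θ₂ m l) := by
            intro l
            have h7 := congrArg a (h3 i.succ l)
            rw [map_sum] at h7
            simp only [map_mul] at h7
            rw [h7]
            split_ifs <;> simp
          rw [h5]
          simp only [h6, Finset.sum_mul]
          rw [Finset.sum_comm]
          have h8 : ∀ m, ∑ l, a (θ' i.succ m) * a (θ₂ m l) * ρ (eY x l) =
              a (θ' i.succ m) * k₂ (algebraMap (ERees x₂) _ (eY x₂ m)) := by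
            intro m
            rw [e₂, Finset.mul_sum]
            exact Finset.sum_congr rfl fun l _ => mul_assoc _ _ _
          rw [Finset.sum_congr rfl fun m _ => h8 m, Fin.sum_univ_succ, hz0, map_zero, zero_mul,
            zero_add]
          rfl
        rw [h4]
        exact Ideal.sum_mem _ fun m _ => Ideal.mul_mem_left _ _ (hxm _)
    · rw [injective_iff_map_eq_zero]
      intro g hg
      obtain ⟨G, rfl⟩ := Polynomial.map_surjective (residue A) residue_surjective g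
      have h4 : Polynomial.eval₂RingHom (ResidueField.map a)
          (residue Ω (k₁ (algebraMap (ERees x₁) _ (eY x₁ 0)))) (G.map (residue A)) =
          residue Ω (ρ (Polynomial.eval₂ (algebraMap A (ERees x)) (eY x 0) G)) := by
        rw [Polynomial.coe_eval₂RingHom, Polynomial.eval₂_map, Polynomial.hom_eval₂,
          Polynomial.hom_eval₂, e₁]
        rfl
      rw [h4, residue_eq_zero_iff] at hg
      have h5 : Polynomial.eval₂ (algebraMap A (ERees x)) (eY x 0) G ∈ badPrime hx := by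
        rw [← hcomap]
        exact hg
      rw [mem_badPrime, Polynomial.hom_eval₂, Polynomial.hom_eval₂, eRes_eY, badHom_X_zero] at h5
      rw [← h5]
      have h6 : (badHom (ResidueField A) r).comp ((eRes hx).comp (algebraMap A (ERees x))) =
          Polynomial.C.comp (residue A) := by
        ext c : 1
        rw [RingHom.comp_apply, RingHom.comp_apply, eRes_algebraMap, badHom_C]
        rfl
      rw [h6, ← Polynomial.eval₂_map, Polynomial.eval₂_C_X]

end Vale.Agent.P177
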