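import Vale.Agent.P177.FVal

/-!
The point `X_1 = ⋯ = X_r = 0` of the exceptional divisor.
-/

namespace Vale.Agent.P177

open IsLocalRing Function

universe u

section height

theorem height_resX_le {k : Type u} [Field k] {r : ℕ}
    (z : Ideal (MvPolynomial (Fin (r + 1)) k)) [hz : z.IsPrime] :
    (resX z).height ≤ z.height := by
  let e := MvPolynomial.finSuccEquiv k r
  let z' : Ideal (Polynomial (MvPolynomial (Fin r) k)) :=
    z.comap (e.symm : Polynomial (MvPolynomial (Fin r) k) →+* MvPolynomial (Fin (r + 1)) k)
  have hz' : z'.IsPrime := Ideal.IsPrime.comap _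
  have h1 := height_under_le (R := MvPolynomial (Fin r) k) z'
  have h2 : z'.under (MvPolynomial (Fin r) k) = resX z := by
    ext F
    change e.symm (Polynomial.C F) ∈ z ↔ MvPolynomial.rename Fin.succ F ∈ z
    have h3 : e (MvPolynomial.rename Fin.succ F) = Polynomial.C F := by
      induction F using MvPolynomial.induction_on with
      | C a =>
        rw [MvPolynomial.rename_C, MvPolynomial.finSuccEquiv_apply]
        simp
      | add p q hp hq => rw [map_add, map_add, map_add, hp, hq]
      | mul_X p i hp =>
        rw [map_mul, map_mul, map_mul, hp, MvPolynomial.rename_X]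
        congr 1
        exact MvPolynomial.finSuccEquiv_X_succ
    rw [← h3, AlgEquiv.symm_apply_apply]
  have h3 : z'.height = z.height := by
    exact RingEquiv.height_comap e.symm.toRingEquiv z
  rw [h2, h3] at h1
  exact h1

theorem le_height_of_X_mem {k : Type u} [Field k] (r : ℕ) :
    ∀ (z : Ideal (MvPolynomial (Fin r) k)) [z.IsPrime], (∀ i, MvPolynomial.X i ∈ z) →
      (r : ℕ∞) ≤ z.height := by
  induction r with
  | zero => intro z _ _; simp
  | succ r ih =>
    intro z hz hX
    have h1 := height_resX_add_one_le z (hX 0)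
    have h2 := ih (resX z) (fun i => by
      change MvPolynomial.rename Fin.succ (MvPolynomial.X i) ∈ z
      rw [MvPolynomial.rename_X]
      exact hX _)
    push_cast
    exact (add_le_add_left h2 1).trans h1

end height

section bad

variable (k : Type u) [Field k] (r : ℕ)

/-- Evaluation at `X_1 = ⋯ = X_r = 0`. -/
noncomputable def badHom : MvPolynomial (Fin (r + 1)) k →+* Polynomial k :=
  MvPolynomial.eval₂Hom Polynomial.C (Fin.cons Polynomial.X fun _ => 0)

@[simp]
theorem badHom_C (a : k) : badHom k r (MvPolynomial.C a) = Polynomial.C a := by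
  simp [badHom]

@[simp]
theorem badHom_X_zero : badHom k r (MvPolynomial.X 0) = Polynomial.X := by
  simp [badHom]

@[simp]
theorem badHom_X_succ (i : Fin r) : badHom k r (MvPolynomial.X i.succ) = 0 := by
  simp [badHom]

/-- The ideal `(X_1, …, X_r)`. -/
noncomputable def zBad : Ideal (MvPolynomial (Fin (r + 1)) k) := RingHom.ker (badHom k r)

instance : (zBad k r).IsPrime := RingHom.ker_isPrime _

variable {k r}

theorem mem_zBad {f : MvPolynomial (Fin (r + 1)) k} : f ∈ zBad k r ↔ badHom k r f = 0 := Iff.rfl

theorem X_zero_notMem_zBad : MvPolynomial.X 0 ∉ zBad k r := by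
  rw [mem_zBad, badHom_X_zero]
  exact Polynomial.X_ne_zero

theorem X_succ_mem_zBad (i : Fin r) : MvPolynomial.X i.succ ∈ zBad k r := by
  rw [mem_zBad, badHom_X_succ]

theorem sub_badHom_mem (q : Ideal (MvPolynomial (Fin (r + 1)) k))
    (h : ∀ i : Fin r, MvPolynomial.X i.succ ∈ q) (f : MvPolynomial (Fin (r + 1)) k) :
    f - Polynomial.eval₂ MvPolynomial.C (MvPolynomial.X 0) (badHom k r f) ∈ q := by
  induction f using MvPolynomial.induction_on with
  | C a => simp
  | add f g hf hg =>
    have h1 := q.add_mem hf hg
    rw [map_add, Polynomial.eval₂_add]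
    convert h1 using 1
    ring
  | mul_X f i hf =>
    rw [map_mul, Polynomial.eval₂_mul]
    refine Fin.cases ?_ (fun i => ?_) i
    · rw [badHom_X_zero, Polynomial.eval₂_X, ← sub_mul]
      exact Ideal.mul_mem_right _ _ hf
    · rw [badHom_X_succ, Polynomial.eval₂_zero, mul_zero, sub_zero]
      exact Ideal.mul_mem_left _ _ (h i)

/-- A homogeneous prime containing `X_1, …, X_r` but not `X_0`. -/
theorem eq_zBad (q : Ideal (MvPolynomial (Fin (r + 1)) k)) [hq : q.IsPrime]
    (hhom : ∀ f ∈ q, ∀ n, MvPolynomial.homogeneousComponent n f ∈ q)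
    (h0 : MvPolynomial.X 0 ∉ q) (h : ∀ i : Fin r, MvPolynomial.X i.succ ∈ q) :
    q = zBad k r := by
  refine le_antisymm ?_ ?_
  · intro f hf
    rw [mem_zBad]
    have h1 := q.sub_mem hf (sub_badHom_mem q h f)
    rw [sub_sub_cancel] at h1
    set g := badHom k r f with hg
    ext n
    rw [Polynomial.coeff_zero]
    by_contra hn
    have h2 := hhom _ h1 n
    have h3 : MvPolynomial.homogeneousComponent n (Polynomial.eval₂ MvPolynomial.C
        (MvPolynomial.X (0 : Fin (r + 1))) g) =
        MvPolynomial.C (g.coeff n) * MvPolynomial.X (0 : Fin (r + 1)) ^ n := by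
      rw [Polynomial.eval₂_eq_sum_range, map_sum]
      have h4 : ∀ i, MvPolynomial.homogeneousComponent n (MvPolynomial.C (g.coeff i) *
          (MvPolynomial.X (0 : Fin (r + 1)) : MvPolynomial (Fin (r + 1)) k) ^ i) =
          if n = i then MvPolynomial.C (g.coeff i) * MvPolynomial.X (0 : Fin (r + 1)) ^ i
          else 0 := by
        intro i
        have h5 : (MvPolynomial.C (g.coeff i) *
          (MvPolynomial.X (0 : Fin (r + 1)) : MvPolynomial (Fin (r + 1)) k) ^ i).IsHomogeneous
            i := by
          have := (MvPolynomial.isHomogeneous_C (Fin (r + 1)) (g.coeff i)).mul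
            (MvPolynomial.isHomogeneous_X_pow (R := k) (0 : Fin (r + 1)) i)
          rwa [zero_add] at this
        exact MvPolynomial.homogeneousComponent_of_mem ((MvPolynomial.mem_homogeneousSubmodule _ _).2 h5)
      rw [Finset.sum_congr rfl fun i _ => h4 i, Finset.sum_ite_eq]
      split_ifs with hmem
      · rfl
      · rw [Finset.mem_range, not_lt] at hmem
        rw [Polynomial.coeff_eq_zero_of_natDegree_lt (by omega)]
        simp
    rw [h3] at h2
    rcases hq.mem_or_mem h2 with h4 | h4
    · exact hq.ne_top (Ideal.eq_top_of_isUnit_mem _ h4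
        ((IsUnit.mk0 _ hn).map MvPolynomial.C))
    · exact h0 (hq.mem_of_pow_mem n h4)
  · intro f hf
    have h1 := sub_badHom_mem q h f
    rw [mem_zBad.1 hf, Polynomial.eval₂_zero, sub_zero] at h1
    exact h1

theorem zBad_eq_span : zBad k r = Ideal.span (Set.range fun i : Fin r =>
    (MvPolynomial.X i.succ : MvPolynomial (Fin (r + 1)) k)) := by
  refine le_antisymm ?_ ?_
  · intro f hf
    have h1 := sub_badHom_mem (Ideal.span (Set.range fun i : Fin r =>
      (MvPolynomial.X i.succ : MvPolynomial (Fin (r + 1)) k)))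
      (fun i => Ideal.subset_span ⟨i, rfl⟩) f
    rwa [mem_zBad.1 hf, Polynomial.eval₂_zero, sub_zero] at h1
  · rw [Ideal.span_le]
    rintro _ ⟨i, rfl⟩
    exact X_succ_mem_zBad i

theorem height_zBad : (zBad k r).height = r := by
  refine le_antisymm ?_ ?_
  · have h1 := Ideal.height_le_spanFinrank (zBad k r) (Ideal.IsPrime.ne_top inferInstance)
    refine h1.trans ?_
    rw [zBad_eq_span]
    have h2 := Submodule.spanFinrank_span_le_ncard_of_finite (R := MvPolynomial (Fin (r + 1)) k)
      (Set.finite_range fun i : Fin r => (MvPolynomial.X i.succ : MvPolynomial (Fin (r + 1)) k))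
    have h3 : (Set.range fun i : Fin r =>
        (MvPolynomial.X i.succ : MvPolynomial (Fin (r + 1)) k)).ncard ≤ r := by
      have := Set.ncard_image_le (s := (Set.univ : Set (Fin r)))
        (f := fun i : Fin r => (MvPolynomial.X i.succ : MvPolynomial (Fin (r + 1)) k))
        Set.finite_univ
      rwa [Set.image_univ, Set.ncard_univ, Nat.card_fin] at this
    exact_mod_cast h2.trans h3
  · refine le_trans ?_ (height_resX_le _)
    refine le_height_of_X_mem r _ fun i => ?_
    change MvPolynomial.rename Fin.succ (MvPolynomial.X i) ∈ zBad k r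
    rw [MvPolynomial.rename_X]
    exact X_succ_mem_zBad i

end bad

end Vale.Agent.P177
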