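import Vale.Agent.P177.FKB

/-!
The height inequality for homogeneous primes which do not contain `X_0`.
-/

namespace Vale.Agent.P177

open IsLocalRing Function MvPolynomial

universe u

attribute [local instance] MvPolynomial.algebraMvPolynomial

section gen

variable (k : Type u) [Field k] (r : ℕ)

/-- The variable `X_0` as a coefficient. -/
noncomputable def eXe : MvPolynomial (Fin (r + 1)) k ≃ₐ[k] MvPolynomial (Fin r) (Polynomial k) :=
  (renameEquiv k (finSuccEquiv r)).trans (optionEquivRight k (Fin r))

theorem eXe_X_zero : eXe k r (X 0) = C Polynomial.X := by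
  unfold eXe
  rw [AlgEquiv.trans_apply, renameEquiv_apply, rename_X, _root_.finSuccEquiv_zero,
    optionEquivRight_X_none]

theorem eXe_X_succ (i : Fin r) : eXe k r (X i.succ) = X i := by
  unfold eXe
  rw [AlgEquiv.trans_apply, renameEquiv_apply, rename_X, _root_.finSuccEquiv_succ,
    optionEquivRight_X_some]

theorem eXe_C (a : k) : eXe k r (C a) = C (Polynomial.C a) := by
  unfold eXe
  rw [AlgEquiv.trans_apply, renameEquiv_apply, rename_C, optionEquivRight_C]

/-- The field of rational functions in `X_0`. -/
abbrev genField : Type u := FractionRing (Polynomial k)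

/-- The map to polynomials over the field of rational functions. -/
noncomputable def genMap : MvPolynomial (Fin (r + 1)) k →+* MvPolynomial (Fin r) (genField k) :=
  (MvPolynomial.map (algebraMap (Polynomial k) (genField k))).comp
    (eXe k r : MvPolynomial (Fin (r + 1)) k →+* MvPolynomial (Fin r) (Polynomial k))

theorem genMap_X_zero : genMap k r (X 0) =
    C (algebraMap (Polynomial k) (genField k) Polynomial.X) := by
  change MvPolynomial.map _ (eXe k r (X 0)) = _
  rw [eXe_X_zero, MvPolynomial.map_C]

theorem genMap_X_succ (i : Fin r) : genMap k r (X i.succ) = X i := by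
  change MvPolynomial.map _ (eXe k r (X i.succ)) = _
  rw [eXe_X_succ, MvPolynomial.map_X]

theorem genMap_C (a : k) : genMap k r (C a) =
    C (algebraMap (Polynomial k) (genField k) (Polynomial.C a)) := by
  change MvPolynomial.map _ (eXe k r (C a)) = _
  rw [eXe_C, MvPolynomial.map_C]

variable {k r}

theorem height_genMap (Z : Ideal (MvPolynomial (Fin r) (genField k))) [Z.IsPrime] :
    (Z.comap (genMap k r)).height = Z.height := by
  let M := (nonZeroDivisors (Polynomial k)).map (C (σ := Fin r))
  have h1 : (Z.under (MvPolynomial (Fin r) (Polynomial k))).height = Z.height :=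
    IsLocalization.height_under M Z
  rw [← h1]
  have h2 : Z.comap (genMap k r) =
      (Z.under (MvPolynomial (Fin r) (Polynomial k))).comap
        ((eXe k r).toRingEquiv : MvPolynomial (Fin (r + 1)) k →+*
          MvPolynomial (Fin r) (Polynomial k)) := rfl
  rw [h2]
  exact RingEquiv.height_comap (eXe k r).toRingEquiv _

theorem exists_genPrime (z : Ideal (MvPolynomial (Fin (r + 1)) k)) [hz : z.IsPrime]
    (h : ∀ g : Polynomial k, Polynomial.eval₂ C (X 0) g ∈ z → g = 0) :
    ∃ Z : Ideal (MvPolynomial (Fin r) (genField k)), Z.IsPrime ∧ Z.comap (genMap k r) = z := by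
  let M := (nonZeroDivisors (Polynomial k)).map (C (σ := Fin r))
  let z' : Ideal (MvPolynomial (Fin r) (Polynomial k)) :=
    z.comap ((eXe k r).symm.toRingEquiv : MvPolynomial (Fin r) (Polynomial k) →+* _)
  have hz' : z'.IsPrime := Ideal.IsPrime.comap _
  have hdisj : Disjoint (M : Set (MvPolynomial (Fin r) (Polynomial k))) z' := by
    rw [Set.disjoint_left]
    rintro _ ⟨g, hg, rfl⟩ hmem
    have h1 : (eXe k r).symm (C g) ∈ z := hmem
    have h2 : (eXe k r).symm (C g) = Polynomial.eval₂ C (X 0) g := by
      rw [AlgEquiv.symm_apply_eq]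
      have h3 : (C : Polynomial k →+* MvPolynomial (Fin r) (Polynomial k)) =
          ((eXe k r : MvPolynomial (Fin (r + 1)) k →+* MvPolynomial (Fin r) (Polynomial k))).comp
            (Polynomial.eval₂RingHom C (X 0)) := by
        apply Polynomial.ringHom_ext
        · intro a
          simp only [RingHom.comp_apply, Polynomial.coe_eval₂RingHom, Polynomial.eval₂_C,
            RingHom.coe_coe, eXe_C]
        · simp only [RingHom.comp_apply, Polynomial.coe_eval₂RingHom, Polynomial.eval₂_X,
            RingHom.coe_coe, eXe_X_zero]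
      exact RingHom.congr_fun h3 g
    rw [h2] at h1
    have h3 := h g h1
    rw [h3] at hg
    exact (nonZeroDivisors.ne_zero hg) rfl
  refine ⟨z'.map (algebraMap _ _), IsLocalization.isPrime_of_isPrime_disjoint M _ _ hz' hdisj, ?_⟩
  have h1 : (z'.map (algebraMap _ (MvPolynomial (Fin r) (genField k)))).under
      (MvPolynomial (Fin r) (Polynomial k)) = z' :=
    IsLocalization.under_map_of_isPrime_disjoint M _ hz' hdisj
  ext f
  change eXe k r f ∈ (z'.map (algebraMap _ (MvPolynomial (Fin r) (genField k)))).under
      (MvPolynomial (Fin r) (Polynomial k)) ↔ f ∈ z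
  rw [h1]
  change (eXe k r).symm (eXe k r f) ∈ z ↔ f ∈ z
  rw [AlgEquiv.symm_apply_apply]

end gen

section hom

variable {k : Type u} [Field k] {r : ℕ}

theorem eq_zero_of_hom (q : Ideal (MvPolynomial (Fin (r + 1)) k)) [hq : q.IsPrime]
    (hhom : ∀ f ∈ q, ∀ n, MvPolynomial.homogeneousComponent n f ∈ q)
    (h0 : MvPolynomial.X 0 ∉ q) (g : Polynomial k) (h1 : Polynomial.eval₂ C (X 0) g ∈ q) :
    g = 0 := by
  ext n
  rw [Polynomial.coeff_zero]
  by_contra hn
  have h2 := hhom _ h1 n
  have h3 : MvPolynomial.homogeneousComponent n (Polynomial.eval₂ MvPolynomial.C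
      (MvPolynomial.X (0 : Fin (r + 1))) g) =
      MvPolynomial.C (g.coeff n) * MvPolynomial.X (0 : Fin (r + 1)) ^ n := by
    rw [Polynomial.eval₂_eq_sum_range, map_sum]
    have h4 : ∀ i, MvPolynomial.homogeneousComponent n (MvPolynomial.C (g.coeff i) *
        (MvPolynomial.X (0 : Fin (r + 1)) : MvPolynomial (Fin (r + 1)) k) ^ i) =
        if n = i then MvPolynomial.C (g.coeff i) * MvPolynomial.X (0 : Fin (r + 1)) ^ i
        else 0 := by
      intro i
      have h5 : (MvPolynomial.C (g.coeff i) *
        (MvPolynomial.X (0 : Fin (r + 1)) : MvPolynomial (Fin (r + 1)) k) ^ i).IsHomogeneous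
          i := by
        have := (MvPolynomial.isHomogeneous_C (Fin (r + 1)) (g.coeff i)).mul
          (MvPolynomial.isHomogeneous_X_pow (R := k) (0 : Fin (r + 1)) i)
        rwa [zero_add] at this
      exact MvPolynomial.homogeneousComponent_of_mem
        ((MvPolynomial.mem_homogeneousSubmodule _ _).2 h5)
    rw [Finset.sum_congr rfl fun i _ => h4 i, Finset.sum_ite_eq]
    split_ifs with hmem
    · rfl
    · rw [Finset.mem_range, not_lt] at hmem
      rw [Polynomial.coeff_eq_zero_of_natDegree_lt (by omega)]
      simp
  rw [h3] at h2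
  rcases hq.mem_or_mem h2 with h4 | h4
  · exact hq.ne_top (Ideal.eq_top_of_isUnit_mem _ h4
      ((IsUnit.mk0 _ hn).map MvPolynomial.C))
  · exact h0 (hq.mem_of_pow_mem n h4)

variable {K : Type u} [Field K]

/-- The height inequality for homogeneous primes not containing `X_0`. -/
theorem height_orth_notMem {κ : k →+* K} {θ : Fin r → Fin r → K} (h : OrthData κ θ)
    (z : Ideal (MvPolynomial (Fin (r + 1)) K)) [hz : z.IsPrime]
    (hhom : ∀ f ∈ z, ∀ n, MvPolynomial.homogeneousComponent n f ∈ z) (h0 : X 0 ∉ z)
    (hX : ∃ i : Fin r, X i.succ ∉ z) :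
    (z.comap (jFun κ (fun i l => if i = l then (1 : K) else 0))).height +
      (z.comap (jFun κ (extM θ))).height ≤ z.height + 1 := by
  obtain ⟨Z, hZ, hZz⟩ := exists_genPrime z fun g hg => eq_zero_of_hom z hhom h0 g hg
  have hinj : Injective ((algebraMap (Polynomial K) (genField K)).comp
      (Polynomial.mapRingHom κ)) :=
    (IsFractionRing.injective (Polynomial K) (genField K)).comp
      (Polynomial.map_injective κ κ.injective)
  let κ' : genField k →+* genField K := IsFractionRing.lift hinj
  have hκ' : ∀ g, κ' (algebraMap (Polynomial k) (genField k) g) =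
      algebraMap (Polynomial K) (genField K) (Polynomial.mapRingHom κ g) := fun g =>
    IsFractionRing.lift_algebraMap hinj g
  have horth := h.ext κ' (algebraMap (Polynomial k) (genField k))
    (algebraMap (Polynomial K) (genField K)) (IsFractionRing.injective _ _)
    (RingHom.ext hκ') (by
      intro a
      obtain ⟨g, s, hs, rfl⟩ := IsFractionRing.div_surjective (A := Polynomial k) a
      have hs0 : algebraMap (Polynomial k) (genField k) s ≠ 0 := by
        intro h1
        exact nonZeroDivisors.ne_zero hs
          ((injective_iff_map_eq_zero _).1 (IsFractionRing.injective (Polynomial k) (genField k)) _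
            h1)
      exact ⟨g, s, hs0, div_mul_cancel₀ _ hs0⟩)
  have e1 := height_orth horth Z (by
    obtain ⟨i, hi⟩ := hX
    refine ⟨i, fun hmem => hi ?_⟩
    rw [← hZz]
    change genMap K r (X i.succ) ∈ Z
    rw [genMap_X_succ]
    exact hmem)
  have c1 : (MvPolynomial.map κ').comp (genMap k r) = (genMap K r).comp
      (jFun κ (fun i l => if i = l then (1 : K) else 0)) := by
    rw [jFun_one]
    apply MvPolynomial.ringHom_ext
    · intro a
      rw [RingHom.comp_apply, RingHom.comp_apply, genMap_C, MvPolynomial.map_C, hκ',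
        MvPolynomial.map_C, genMap_C]
      simp
    · intro i
      rw [RingHom.comp_apply, RingHom.comp_apply, MvPolynomial.map_X]
      refine Fin.cases ?_ (fun i => ?_) i
      · rw [genMap_X_zero, MvPolynomial.map_C, hκ', genMap_X_zero]
        simp
      · rw [genMap_X_succ, MvPolynomial.map_X, genMap_X_succ]
  have c2 : (jFun κ' (fun i l => algebraMap (Polynomial K) (genField K)
      (Polynomial.C (θ i l)))).comp (genMap k r) = (genMap K r).comp (jFun κ (extM θ)) := by
    apply MvPolynomial.ringHom_ext
    · intro a
      rw [RingHom.comp_apply, RingHom.comp_apply, genMap_C, jFun_C, hκ', jFun_C, genMap_C]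
      simp
    · intro i
      rw [RingHom.comp_apply, RingHom.comp_apply, jFun_X, map_sum, Fin.sum_univ_succ]
      refine Fin.cases ?_ (fun i => ?_) i
      · rw [genMap_X_zero, jFun_C, hκ']
        simp only [extM_zero_zero, extM_zero_succ, map_one, one_mul, map_zero, zero_mul,
          Finset.sum_const_zero, add_zero]
        rw [genMap_X_zero]
        simp
      · rw [genMap_X_succ, jFun_X]
        simp only [extM_succ_zero, extM_succ_succ, map_zero, zero_mul, zero_add]
        refine Finset.sum_congr rfl fun l _ => ?_
        rw [map_mul, genMap_X_succ, genMap_C]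
  have d1 : z.comap (jFun κ (fun i l => if i = l then (1 : K) else 0)) =
      (Z.comap (MvPolynomial.map κ')).comap (genMap k r) := by
    rw [Ideal.comap_comap, c1, ← Ideal.comap_comap, hZz]
  have d2 : z.comap (jFun κ (extM θ)) = (Z.comap (jFun κ' (fun i l =>
      algebraMap (Polynomial K) (genField K) (Polynomial.C (θ i l))))).comap (genMap k r) := by
    rw [Ideal.comap_comap, c2, ← Ideal.comap_comap, hZz]
  have p1 : (Z.comap (MvPolynomial.map κ')).IsPrime := Ideal.IsPrime.comap _
  have p2 : (Z.comap (jFun κ' (fun i l =>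
      algebraMap (Polynomial K) (genField K) (Polynomial.C (θ i l))))).IsPrime :=
    Ideal.IsPrime.comap _
  rw [d1, d2, height_genMap, height_genMap]
  have d3 : z.height = Z.height := by rw [← hZz, height_genMap]
  rw [d3]
  exact e1

end hom

end Vale.Agent.P177
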