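import Vale.Agent.P177.FStepC
import Vale.Agent.P177.FKC

/-!
The local ring at the bad point.
-/

namespace Vale.Agent.P177

open IsLocalRing Function TensorProduct

universe u

theorem height_comap_hom {S T : Type u} [CommRing S] [CommRing T] [IsNoetherianRing S]
    [IsNoetherianRing T] (f : S →+* T) (hf : f.Flat) (P : Ideal T) [P.IsPrime] :
    (P.comap f).height ≤ P.height := by
  let _ : Algebra S T := f.toAlgebra
  have : Module.Flat S T := RingHom.flat_algebraMap_iff.1 hf
  exact height_comap_le_of_flat P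

section ring

variable {R : Type u} [CommRing R] [IsLocalRing R] {r : ℕ} {x : Fin (r + 1) → R}
    (hx : Ideal.span (Set.range x) = maximalIdeal R)

theorem mem_badPrime {z : ERees x} : z ∈ badPrime hx ↔ badHom (ResidueField R) r (eRes hx z) = 0 :=
  Iff.rfl

theorem eT_mem_badPrime : eT x ∈ badPrime hx := by
  rw [mem_badPrime, eRes_eT, map_zero]

theorem eY_succ_mem_badPrime (i : Fin r) : eY x i.succ ∈ badPrime hx := by
  rw [mem_badPrime, eRes_eY, badHom_X_succ]

theorem eY_zero_notMem_badPrime : eY x 0 ∉ badPrime hx := by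
  rw [mem_badPrime, eRes_eY, badHom_X_zero]
  exact Polynomial.X_ne_zero

theorem badPrime_eq : badPrime hx = Ideal.span {eT x} ⊔
    Ideal.span (Set.range fun i : Fin r => eY x i.succ) := by
  refine le_antisymm ?_ ?_
  · intro z hz
    have h1 : eRes hx z ∈ zBad (ResidueField R) r := hz
    rw [zBad_eq_span] at h1
    have h2 : Ideal.span (Set.range fun i : Fin r =>
        (MvPolynomial.X i.succ : MvPolynomial (Fin (r + 1)) (ResidueField R))) =
        (Ideal.span (Set.range fun i : Fin r => eY x i.succ)).map (eRes hx) := by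
      rw [Ideal.map_span, ← Set.range_comp]
      congr 1
      ext f
      simp
    rw [h2, Ideal.mem_map_iff_of_surjective _ (eRes_surjective hx)] at h1
    obtain ⟨w, hw, hwz⟩ := h1
    have h3 : z - w ∈ RingHom.ker (eRes hx) := by
      rw [RingHom.mem_ker, map_sub, hwz, sub_self]
    rw [ker_eRes] at h3
    have h4 := Ideal.add_mem _ (Ideal.mem_sup_left (T := Ideal.span (Set.range fun i : Fin r =>
      eY x i.succ)) h3) (Ideal.mem_sup_right hw)
    rwa [sub_add_cancel] at h4
  · refine sup_le ?_ ?_
    · rw [Ideal.span_singleton_le_iff_mem]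
      exact eT_mem_badPrime hx
    · rw [Ideal.span_le]
      rintro _ ⟨i, rfl⟩
      exact eY_succ_mem_badPrime hx i

/-- The system of parameters of the local ring at the bad point. -/
noncomputable def xBad : Fin (r + 1) → BadRing hx :=
  Fin.cons (algebraMap (ERees x) (BadRing hx) (eT x))
    (fun i => algebraMap (ERees x) (BadRing hx) (eY x i.succ))

theorem xBad_zero : xBad hx 0 = algebraMap (ERees x) (BadRing hx) (eT x) := rfl

theorem xBad_succ (i : Fin r) :
    xBad hx i.succ = algebraMap (ERees x) (BadRing hx) (eY x i.succ) := rfl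

theorem span_xBad : Ideal.span (Set.range (xBad hx)) = maximalIdeal (BadRing hx) := by
  rw [← IsLocalization.AtPrime.map_eq_maximalIdeal (badPrime hx) (BadRing hx), badPrime_eq,
    Ideal.map_sup, Ideal.map_span, Ideal.map_span, Set.image_singleton, ← Set.range_comp,
    ← span_tail]
  rfl

theorem algebraMap_bad (c : R) : algebraMap R (BadRing hx) c =
    algebraMap (ERees x) (BadRing hx) (algebraMap R (ERees x) c) := rfl

theorem algebraMap_bad_x (i : Fin (r + 1)) : algebraMap R (BadRing hx) (x i) =
    xBad hx 0 * algebraMap (ERees x) (BadRing hx) (eY x i) := by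
  rw [algebraMap_bad, algebraMap_rees, map_mul, xBad_zero]

theorem mem_max_bad {z : ERees x} : algebraMap (ERees x) (BadRing hx) z ∈
    maximalIdeal (BadRing hx) ↔ z ∈ badPrime hx :=
  IsLocalization.AtPrime.to_map_mem_maximal_iff (BadRing hx) (badPrime hx) z

instance isLocalHom_bad : IsLocalHom (algebraMap R (BadRing hx)) := by
  refine ((IsLocalRing.local_hom_TFAE _).out 0 2).mpr ?_
  rw [← hx, Ideal.map_span, Ideal.span_le]
  rintro _ ⟨_, ⟨i, rfl⟩, rfl⟩
  simp only [SetLike.mem_coe]
  rw [algebraMap_bad_x]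
  refine Ideal.mul_mem_right _ _ ?_
  rw [xBad_zero, mem_max_bad]
  exact eT_mem_badPrime hx

theorem isUnit_Y_zero : IsUnit (algebraMap (ERees x) (BadRing hx) (eY x 0)) := by
  by_contra h
  exact eY_zero_notMem_badPrime hx ((mem_max_bad hx).1 h)

/-- The map from polynomials over the residue field. -/
noncomputable def badσ : Polynomial (ResidueField R) →+* ResidueField (BadRing hx) :=
  Polynomial.eval₂RingHom (ResidueField.map (algebraMap R (BadRing hx)))
    (residue _ (algebraMap (ERees x) (BadRing hx) (eY x 0)))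

theorem residue_bad (z : ERees x) : residue _ (algebraMap (ERees x) (BadRing hx) z) =
    badσ hx (badHom (ResidueField R) r (eRes hx z)) := by
  have h : (residue _).comp (algebraMap (ERees x) (BadRing hx)) =
      (badσ hx).comp ((badHom (ResidueField R) r).comp (eRes hx)) := by
    refine eRees_hom_ext (fun c => ?_) ?_ (fun i => ?_)
    · rw [RingHom.comp_apply, RingHom.comp_apply, RingHom.comp_apply, eRes_algebraMap, badHom_C,
        ← algebraMap_bad]
      simp [badσ]
    · rw [RingHom.comp_apply, RingHom.comp_apply, RingHom.comp_apply, eRes_eT, map_zero, map_zero,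
        residue_eq_zero_iff, mem_max_bad]
      exact eT_mem_badPrime hx
    · rw [RingHom.comp_apply, RingHom.comp_apply, RingHom.comp_apply, eRes_eY]
      refine Fin.cases ?_ (fun i => ?_) i
      · rw [badHom_X_zero]
        simp [badσ]
      · rw [badHom_X_succ, map_zero, residue_eq_zero_iff, mem_max_bad]
        exact eY_succ_mem_badPrime hx i
  exact RingHom.congr_fun h z

theorem bad_surj (a : ResidueField (BadRing hx)) :
    ∃ g s : Polynomial (ResidueField R), badσ hx s ≠ 0 ∧ a * badσ hx s = badσ hx g := by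
  obtain ⟨a, rfl⟩ := residue_surjective a
  obtain ⟨⟨z, s⟩, hzs⟩ := IsLocalization.surj (badPrime hx).primeCompl a
  refine ⟨badHom (ResidueField R) r (eRes hx z), badHom (ResidueField R) r (eRes hx s), ?_, ?_⟩
  · rw [← residue_bad, Ne, residue_eq_zero_iff, mem_max_bad]
    exact s.2
  · rw [← residue_bad, ← residue_bad, ← map_mul, hzs]

/-- The condition on valuations passes to the bad point. -/
theorem VCond.bad {I : Ideal R} {h : ℕ} (hV : VCond (x 0) (fun i : Fin r => x i.succ) I h)
    (J : Ideal (BadRing hx)) (hJ : ∀ a ∈ I, algebraMap R (BadRing hx) a ∈ J) :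
    VCond (xBad hx 0) (fun i : Fin r => xBad hx i.succ) J h := by
  intro O _ _ _ φ' _ j z' _ hJker hy hxj hdiv hz hh
  let φ : R →+* O := φ'.comp (algebraMap R (BadRing hx))
  have hφ : IsLocalHom φ := RingHom.isLocalHom_comp _ _
  let κ : ResidueField R →+* ResidueField (BadRing hx) :=
    ResidueField.map (algebraMap R (BadRing hx))
  let z : Ideal (MvPolynomial (Fin r) (ResidueField R)) := z'.comap (MvPolynomial.map κ)
  have hzp : z.IsPrime := Ideal.IsPrime.comap _
  have hle : z.height ≤ z'.height := by
    let _ : Algebra (ResidueField R) (ResidueField (BadRing hx)) := κ.toAlgebra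
    exact height_comap_hom (MvPolynomial.map κ) (flat_map_mvPolynomial (Fin r)) z'
  have hφx : ∀ i : Fin (r + 1), φ (x i) = φ' (xBad hx 0) *
      φ' (algebraMap (ERees x) (BadRing hx) (eY x i)) := fun i => by
    change φ' (algebraMap R _ (x i)) = _
    rw [algebraMap_bad_x, map_mul]
  have hφs : ∀ i : Fin r, φ (x i.succ) = φ' (xBad hx 0) * φ' (xBad hx i.succ) := fun i =>
    hφx i.succ
  obtain ⟨u, hu⟩ := (isUnit_Y_zero hx).map φ'
  obtain ⟨c, hc⟩ := hV O φ j z (fun a ha => hJker (hJ a ha)) (by
      rw [hφx, ← hu]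
      exact mul_ne_zero hy u.ne_zero) (by
      rw [hφs]
      exact mul_ne_zero hy hxj) (fun i => by
      rw [hφs, hφs]
      exact mul_dvd_mul_left _ (hdiv i)) (by
      intro n F hF
      have h1 : F.map (residue R) ∈ z ↔
          (F.map (algebraMap R (BadRing hx))).map (residue (BadRing hx)) ∈ z' := by
        change MvPolynomial.map κ (F.map (residue R)) ∈ z' ↔ _
        rw [MvPolynomial.map_map, MvPolynomial.map_map]
        have : κ.comp (residue R) = (residue (BadRing hx)).comp (algebraMap R (BadRing hx)) := by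
          ext a
          exact ResidueField.map_residue _ _
        rw [this]
      rw [h1, hz n _ (hF.map _)]
      have h2 : φ (MvPolynomial.eval (fun i : Fin r => x i.succ) F) = φ' (xBad hx 0) ^ n *
          φ' (MvPolynomial.eval (fun i : Fin r => xBad hx i.succ)
            (F.map (algebraMap R (BadRing hx)))) := by
        change φ' (algebraMap R _ (MvPolynomial.eval _ F)) = _
        rw [← map_pow, ← map_mul]
        congr 1
        rw [MvPolynomial.eval_map, ← MvPolynomial.aeval_def,
          ← aeval_mul_of_isHomogeneous _ _ F n hF]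
        refine (MvPolynomial.aeval_algebraMap_apply (BadRing hx)
          (fun i : Fin r => x i.succ) F).symm.trans ?_
        congr 2
        funext i
        exact algebraMap_bad_x hx i.succ
      rw [h2, hφs, mul_pow]
      constructor
      · rintro ⟨m, hm, h3⟩
        exact ⟨m, hm, by rw [h3, mul_assoc]⟩
      · rintro ⟨m, hm, h3⟩
        rw [mul_assoc] at h3
        exact ⟨m, hm, mul_left_cancel₀ (pow_ne_zero n hy) h3⟩)
    ((add_le_add_left hle 1).trans hh)
  have hym : φ' (xBad hx 0) ∈ maximalIdeal O := by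
    have h1 : xBad hx 0 ∈ maximalIdeal (BadRing hx) := by
      rw [xBad_zero, mem_max_bad]
      exact eT_mem_badPrime hx
    have hloc : IsLocalHom φ' := inferInstance
    have h2 := ((IsLocalRing.local_hom_TFAE φ').out 0 2).mp hloc
    exact h2 (Ideal.mem_map_of_mem _ h1)
  rw [hφs, hφx, ← hu] at hc
  rcases c with _ | c
  · exfalso
    rw [pow_zero] at hc
    have h1 : IsUnit (φ' (xBad hx 0) * φ' (xBad hx j.succ)) := by
      obtain ⟨w, hw⟩ := hc
      exact IsUnit.of_mul_eq_one _ hw
    exact ((mem_maximalIdeal _).1 hym) (isUnit_of_mul_isUnit_left h1)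
  · refine ⟨c, ?_⟩
    obtain ⟨w, hw⟩ := hc
    refine ⟨w * (u⁻¹) ^ (c + 1), ?_⟩
    have hvv : (u : O) * ((u⁻¹ : Oˣ) : O) = 1 := Units.mul_inv u
    apply mul_left_cancel₀ hy
    push_cast
    calc φ' (xBad hx 0) * (φ' (xBad hx j.succ) * ((w : O) * ((u⁻¹ : Oˣ) : O) ^ (c + 1)))
        = (φ' (xBad hx 0) * φ' (xBad hx j.succ) * (w : O)) * ((u⁻¹ : Oˣ) : O) ^ (c + 1) := by ring
      _ = φ' (xBad hx 0) * (φ' (xBad hx 0)) ^ c * ((u : O) * ((u⁻¹ : Oˣ) : O)) ^ (c + 1) := by
        rw [hw]
        ring
      _ = _ := by rw [hvv, one_pow, mul_one]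

end ring

end Vale.Agent.P177
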