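import Vale.Agent.P177.DGa

/-!
The local statement for quadrics over a base of dimension two.
-/

namespace Vale.Agent.P177

open IsLocalRing Function TensorProduct

universe u

/-- The matrix `θ` is the generic orthogonal transformation of a nondegenerate form over `k`. -/
def OrthData {k K : Type u} [Field k] [Field K] {r : ℕ} (κ : k →+* K)
    (θ : Fin r → Fin r → K) : Prop :=
  ∃ (α : Fin r × Fin r → K) (b c : Fin r → Fin r → k),
    Function.Injective (MvPolynomial.eval₂Hom κ α) ∧ IsUnit (Matrix.det (Matrix.of b)) ∧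
    ∀ i m, θ i m - (if i = m then 1 else 0) = ∑ l, (α (i, l) - α (l, i)) *
      (κ (b l m) + ∑ j, κ (c l j) * (θ j m - (if j = m then 1 else 0)))

/-- The local statement. -/
def LocStmtRel : Prop :=
  ∀ (R W : Type u) [CommRing R] [CommRing W] [IsRegularLocalRing R] [IsRegularLocalRing W]
    (j₁ j₂ : R →+* W) [IsLocalHom j₁] [IsLocalHom j₂], j₁.Flat → j₂.Flat →
    ∀ (r : ℕ), ringKrullDim R = ((r + 1 : ℕ) : WithBot ℕ∞) →
    ringKrullDim W = ((r + 1 : ℕ) : WithBot ℕ∞) →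
    ∀ (y : R) (x : Fin r → R),
    Ideal.span {y} ⊔ Ideal.span (Set.range x) = maximalIdeal R →
    (maximalIdeal R).map j₁ = maximalIdeal W → (maximalIdeal R).map j₂ = maximalIdeal W →
    j₁ y = j₂ y → ResidueField.map j₁ = ResidueField.map j₂ →
    ∀ (θ : Fin r → Fin r → W), (∀ i, j₂ (x i) = ∑ l, θ i l * j₁ (x l)) →
    OrthData (ResidueField.map j₁) (fun i l => residue W (θ i l)) →
    ∀ (P Q : Ideal R) [P.IsPrime] [Q.IsPrime], y ∉ P → y ∉ Q →
    maximalIdeal W ≤ (P.map j₁ ⊔ Q.map j₂).radical →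
    (∀ e g : ℕ, (e : WithBot ℕ∞) ≤ Module.supportDim R (R ⧸ P) →
      (g : WithBot ℕ∞) ≤ Module.supportDim R (R ⧸ Q) → e + g ≤ r + 1) →
    PosAlong j₁ j₂ (r + 1) (R ⧸ P) (R ⧸ Q)

end Vale.Agent.P177
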