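import Vale.Agent.P177.FBad
import Vale.Agent.P177.DK2

/-!
Extension of generic orthogonal transformations by a parameter.
-/

namespace Vale.Agent.P177

open IsLocalRing Function

universe u

section ext

variable {k K k' K' : Type u} [Field k] [Field K] [Field k'] [Field K'] {r : ℕ}

theorem exists_denominator (σ : Polynomial k →+* k')
    (hs : ∀ a : k', ∃ g s : Polynomial k, σ s ≠ 0 ∧ a * σ s = σ g) {ι : Type}
    (p : MvPolynomial ι k') : ∃ (s : Polynomial k) (p₁ : MvPolynomial ι (Polynomial k)),
      σ s ≠ 0 ∧ MvPolynomial.C (σ s) * p = MvPolynomial.map σ p₁ := by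
  induction p using MvPolynomial.induction_on with
  | C a =>
    obtain ⟨g, s, hs0, h⟩ := hs a
    refine ⟨s, MvPolynomial.C g, hs0, ?_⟩
    rw [MvPolynomial.map_C, ← h, ← map_mul, mul_comm]
  | add p q hp hq =>
    obtain ⟨s, p₁, hs0, h⟩ := hp
    obtain ⟨s', q₁, hs0', h'⟩ := hq
    refine ⟨s * s', MvPolynomial.C s' * p₁ + MvPolynomial.C s * q₁, ?_, ?_⟩
    · rw [map_mul]
      exact mul_ne_zero hs0 hs0'
    · rw [map_add, map_mul, map_mul, map_mul (MvPolynomial.map σ), map_mul (MvPolynomial.map σ),
        ← h, ← h', MvPolynomial.map_C, MvPolynomial.map_C]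
      ring
  | mul_X p i hp =>
    obtain ⟨s, p₁, hs0, h⟩ := hp
    refine ⟨s, p₁ * MvPolynomial.X i, hs0, ?_⟩
    rw [map_mul, MvPolynomial.map_X, ← h, mul_assoc]

theorem injective_coeff (κ : k →+* K) {ι : Type} (α : ι → K)
    (hα : Injective (MvPolynomial.eval₂Hom κ α)) :
    Injective (MvPolynomial.eval₂Hom (Polynomial.mapRingHom κ) (fun i => Polynomial.C (α i)) :
      MvPolynomial ι (Polynomial k) →+* Polynomial K) := by
  classical
  rw [injective_iff_map_eq_zero]
  intro p hp
  have key : ∀ n : ℕ, MvPolynomial.eval₂Hom κ α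
      (∑ m ∈ p.support, MvPolynomial.monomial m ((p.coeff m).coeff n)) =
      (MvPolynomial.eval₂Hom (Polynomial.mapRingHom κ) (fun i => Polynomial.C (α i)) p).coeff n := by
    intro n
    rw [map_sum, MvPolynomial.coe_eval₂Hom, MvPolynomial.coe_eval₂Hom, MvPolynomial.eval₂_eq,
      Polynomial.finsetSum_coeff]
    refine Finset.sum_congr rfl fun m _ => ?_
    rw [MvPolynomial.eval₂_monomial, Finsupp.prod]
    have h1 : ∏ i ∈ m.support, Polynomial.C (α i) ^ m i =
        Polynomial.C (∏ i ∈ m.support, α i ^ m i) := by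
      rw [map_prod]
      exact Finset.prod_congr rfl fun i _ => (map_pow _ _ _).symm
    rw [h1, Polynomial.coeff_mul_C]
    congr 1
    simp
  ext m n
  rw [MvPolynomial.coeff_zero, Polynomial.coeff_zero]
  have h1 := key n
  rw [hp, Polynomial.coeff_zero] at h1
  have h2 := (injective_iff_map_eq_zero _).1 hα _ h1
  have h3 := congrArg (MvPolynomial.coeff m) h2
  rw [MvPolynomial.coeff_sum, MvPolynomial.coeff_zero] at h3
  by_cases hm : m ∈ p.support
  · rw [Finset.sum_eq_single m] at h3
    · simpa using h3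
    · intro b _ hb
      rw [MvPolynomial.coeff_monomial, if_neg hb]
    · intro h
      exact absurd hm h
  · rw [MvPolynomial.notMem_support_iff.1 hm, Polynomial.coeff_zero]

/-- Generic orthogonal transformations remain generic after adjoining a parameter. -/
theorem OrthData.ext {κ : k →+* K} {θ : Fin r → Fin r → K} (h : OrthData κ θ)
    (κ' : k' →+* K') (σ : Polynomial k →+* k') (σ' : Polynomial K →+* K') (hσ' : Injective σ')
    (hcomp : κ'.comp σ = σ'.comp (Polynomial.mapRingHom κ))
    (hs : ∀ a : k', ∃ g s : Polynomial k, σ s ≠ 0 ∧ a * σ s = σ g) :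
    OrthData κ' (fun i l => σ' (Polynomial.C (θ i l))) := by
  classical
  obtain ⟨α, b, c, hα, hb, hθ⟩ := h
  have hC : ∀ a : k, κ' (σ (Polynomial.C a)) = σ' (Polynomial.C (κ a)) := by
    intro a
    have := RingHom.congr_fun hcomp (Polynomial.C a)
    simpa using this
  refine ⟨fun p => σ' (Polynomial.C (α p)), fun i l => σ (Polynomial.C (b i l)),
    fun i l => σ (Polynomial.C (c i l)), ?_, ?_, ?_⟩
  · rw [injective_iff_map_eq_zero]
    intro p hp
    obtain ⟨s, p₁, hs0, h1⟩ := exists_denominator σ hs p
    have h2 : MvPolynomial.eval₂Hom κ' (fun p => σ' (Polynomial.C (α p)))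
        (MvPolynomial.map σ p₁) = σ' (MvPolynomial.eval₂Hom (Polynomial.mapRingHom κ)
          (fun i => Polynomial.C (α i)) p₁) := by
      rw [MvPolynomial.coe_eval₂Hom, MvPolynomial.eval₂_map, hcomp]
      rw [MvPolynomial.coe_eval₂Hom, MvPolynomial.eval₂_comp_left σ']
      rfl
    rw [← h1, map_mul, hp, mul_zero] at h2
    have h3 := (injective_iff_map_eq_zero _).1 hσ' _ h2.symm
    have h4 := (injective_iff_map_eq_zero _).1 (injective_coeff κ α hα) _ h3
    rw [h4, map_zero] at h1
    rcases mul_eq_zero.1 h1 with h5 | h5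
    · exact absurd (by simpa using h5) hs0
    · exact h5
  · have h1 : Matrix.of (fun i l => σ (Polynomial.C (b i l))) =
        (σ.comp Polynomial.C).mapMatrix (Matrix.of b) := by
      ext i l
      rfl
    rw [h1, ← RingHom.map_det]
    exact hb.map _
  · intro i m
    have h1 : σ' (Polynomial.C (θ i m)) - (if i = m then 1 else 0) =
        σ' (Polynomial.C (θ i m - (if i = m then 1 else 0))) := by
      rw [map_sub, map_sub]
      congr 1
      split_ifs <;> simp
    have h2 : ∀ j m, σ' (Polynomial.C (θ j m)) - (if j = m then 1 else 0) =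
        σ' (Polynomial.C (θ j m - (if j = m then 1 else 0))) := by
      intro j m
      rw [map_sub, map_sub]
      congr 1
      split_ifs <;> simp
    simp only [h2]
    rw [hθ, map_sum, map_sum]
    refine Finset.sum_congr rfl fun l _ => ?_
    rw [map_mul, map_mul, map_sub, map_sub, map_add, map_add, map_sum, map_sum, hC]
    congr 2
    refine Finset.sum_congr rfl fun j _ => ?_
    rw [map_mul, map_mul, hC]

end ext

end Vale.Agent.P177
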