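import Vale.Agent.P177.FKA
import Mathlib.RingTheory.MvPolynomial.Localization

/-!
Height inequalities for a generic orthogonal transformation with one fixed variable.
-/

namespace Vale.Agent.P177

open IsLocalRing Function MvPolynomial

universe u

section orth

variable {k K : Type u} [Field k] [Field K]

/-- Linear substitution over an extension of fields. -/
noncomputable def jFun {d : ℕ} (κ : k →+* K) (Θ : Fin d → Fin d → K) :
    MvPolynomial (Fin d) k →+* MvPolynomial (Fin d) K :=
  eval₂Hom (C.comp κ) (fun i => ∑ l, C (Θ i l) * X l)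

@[simp]
theorem jFun_C {d : ℕ} (κ : k →+* K) (Θ : Fin d → Fin d → K) (a : k) :
    jFun κ Θ (C a) = C (κ a) := by
  unfold jFun
  simp

@[simp]
theorem jFun_X {d : ℕ} (κ : k →+* K) (Θ : Fin d → Fin d → K) (i : Fin d) :
    jFun κ Θ (X i) = ∑ l, C (Θ i l) * X l := by
  unfold jFun
  simp

theorem height_orth {r : ℕ} {κ : k →+* K} {θ : Fin r → Fin r → K} (h : OrthData κ θ)
    (z : Ideal (MvPolynomial (Fin r) K)) [z.IsPrime] (hz : ∃ i, X i ∉ z) :
    (z.comap (MvPolynomial.map κ)).height + (z.comap (jFun κ θ)).height ≤ z.height + 1 := by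
  classical
  obtain ⟨α, b, c, hα, hb, hθ⟩ := h
  let _ : Algebra k K := κ.toAlgebra
  have h1 := height_orthogonal (k := k) (K := K) α (by
    have : ((aeval α : MvPolynomial (Fin r × Fin r) k →ₐ[k] K) :
        MvPolynomial (Fin r × Fin r) k →+* K) = eval₂Hom κ α := rfl
    intro p q hpq
    exact hα hpq) b c θ hθ z (by
    by_contra hcon
    push Not at hcon
    obtain ⟨i, hi⟩ := hz
    apply hi
    have h2 : (X i : MvPolynomial (Fin r) K) = ∑ l, C (κ ((Matrix.of b)⁻¹ i l)) *
        ∑ m, C (algebraMap k K (b l m)) * X m := by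
      have h3 : (Matrix.of b)⁻¹ * Matrix.of b = 1 := Matrix.nonsing_inv_mul _ hb
      have h4 : ∀ m, ∑ l, (Matrix.of b)⁻¹ i l * b l m = if i = m then 1 else 0 := by
        intro m
        have := congrFun (congrFun h3 i) m
        rw [Matrix.mul_apply, Matrix.one_apply] at this
        exact this
      calc (X i : MvPolynomial (Fin r) K) = ∑ m, C (κ (if i = m then 1 else 0)) * X m := by
            rw [Finset.sum_eq_single i]
            · simp
            · intro m _ hm
              simp [Ne.symm hm]
            · simp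
        _ = ∑ m, ∑ l, C (κ ((Matrix.of b)⁻¹ i l)) * (C (κ (b l m)) * X m) := by
            refine Finset.sum_congr rfl fun m _ => ?_
            rw [← h4, map_sum, map_sum, Finset.sum_mul]
            refine Finset.sum_congr rfl fun l _ => ?_
            rw [map_mul, map_mul, mul_assoc]
        _ = _ := by
            rw [Finset.sum_comm]
            refine Finset.sum_congr rfl fun l _ => ?_
            rw [Finset.mul_sum]
            rfl
    rw [h2]
    exact Ideal.sum_mem _ fun l _ => Ideal.mul_mem_left _ _ (hcon l))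
  have e₁ : z.comap (aeval X : MvPolynomial (Fin r) k →ₐ[k] MvPolynomial (Fin r) K) =
      z.comap (MvPolynomial.map κ) := by
    have : ((aeval X : MvPolynomial (Fin r) k →ₐ[k] MvPolynomial (Fin r) K) :
        MvPolynomial (Fin r) k →+* MvPolynomial (Fin r) K) = MvPolynomial.map κ := by
      apply MvPolynomial.ringHom_ext
      · intro a
        rw [MvPolynomial.map_C]
        exact aeval_C _ _
      · intro i
        rw [MvPolynomial.map_X]
        exact aeval_X _ _
    rw [← this]
    rfl
  have e₂ : z.comap (aeval (fun i => ∑ l, C (θ i l) * X l) :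
      MvPolynomial (Fin r) k →ₐ[k] MvPolynomial (Fin r) K) = z.comap (jFun κ θ) := by
    have : ((aeval (fun i => ∑ l, C (θ i l) * X l) :
      MvPolynomial (Fin r) k →ₐ[k] MvPolynomial (Fin r) K) :
        MvPolynomial (Fin r) k →+* MvPolynomial (Fin r) K) = jFun κ θ := by
      apply MvPolynomial.ringHom_ext
      · intro a
        rw [jFun_C]
        exact aeval_C _ _
      · intro i
        rw [jFun_X]
        exact aeval_X _ _
    rw [← this]
    rfl
  rw [e₁, e₂] at h1
  exact h1

end orth

section mat

variable {K : Type u} [CommRing K] {r : ℕ}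

/-- The matrix `1 ⊕ θ`. -/
def extM (θ : Fin r → Fin r → K) : Fin (r + 1) → Fin (r + 1) → K :=
  Fin.cons (Fin.cons 1 fun _ => 0) (fun i => Fin.cons 0 (θ i))

@[simp] theorem extM_zero_zero (θ : Fin r → Fin r → K) : extM θ 0 0 = 1 := rfl
@[simp] theorem extM_zero_succ (θ : Fin r → Fin r → K) (l : Fin r) : extM θ 0 l.succ = 0 := rfl
@[simp] theorem extM_succ_zero (θ : Fin r → Fin r → K) (i : Fin r) : extM θ i.succ 0 = 0 := rfl
@[simp] theorem extM_succ_succ (θ : Fin r → Fin r → K) (i l : Fin r) :
    extM θ i.succ l.succ = θ i l := rfl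

end mat

section upper

theorem height_le_C_add_one {S : Type u} [CommRing S] [IsNoetherianRing S]
    (z : Ideal (Polynomial S)) [hz : z.IsPrime] :
    z.height ≤ (z.comap (Polynomial.C : S →+* Polynomial S)).height + 1 := by
  let e := MvPolynomial.uniqueAlgEquiv S PUnit.{1}
  let z' : Ideal (MvPolynomial PUnit.{1} S) :=
    z.comap (e : MvPolynomial PUnit.{1} S →+* Polynomial S)
  have hz' : z'.IsPrime := Ideal.IsPrime.comap _
  have h1 := height_le_comap_C_add z'
  have h2 : z'.height = z.height := RingEquiv.height_comap e.toRingEquiv z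
  have h3 : z'.comap C = z.comap (Polynomial.C : S →+* Polynomial S) := by
    ext a
    change e (C a) ∈ z ↔ Polynomial.C a ∈ z
    have : e (C a) = Polynomial.C a := by simp [e]
    rw [this]
  rw [h2, h3, Fintype.card_punit] at h1
  exact_mod_cast h1

theorem height_le_resX {k : Type u} [Field k] {r : ℕ}
    (z : Ideal (MvPolynomial (Fin (r + 1)) k)) [hz : z.IsPrime] :
    z.height ≤ (resX z).height + 1 := by
  let e := MvPolynomial.finSuccEquiv k r
  let z' : Ideal (Polynomial (MvPolynomial (Fin r) k)) :=
    z.comap (e.symm : Polynomial (MvPolynomial (Fin r) k) →+* MvPolynomial (Fin (r + 1)) k)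
  have hz' : z'.IsPrime := Ideal.IsPrime.comap _
  have h1 := height_le_C_add_one z'
  have h2 : z'.comap (Polynomial.C : MvPolynomial (Fin r) k →+* _) = resX z := by
    ext F
    change e.symm (Polynomial.C F) ∈ z ↔ MvPolynomial.rename Fin.succ F ∈ z
    have h3 : e (MvPolynomial.rename Fin.succ F) = Polynomial.C F := by
      induction F using MvPolynomial.induction_on with
      | C a =>
        rw [MvPolynomial.rename_C, MvPolynomial.finSuccEquiv_apply]
        simp
      | add p q hp hq => rw [map_add, map_add, map_add, hp, hq]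
      | mul_X p i hp =>
        rw [map_mul, map_mul, map_mul, hp, MvPolynomial.rename_X]
        congr 1
        exact MvPolynomial.finSuccEquiv_X_succ
    rw [← h3, AlgEquiv.symm_apply_apply]
  have h3 : z'.height = z.height := by
    exact RingEquiv.height_comap e.symm.toRingEquiv z
  rw [h2, h3] at h1
  exact h1

variable {k K : Type u} [Field k] [Field K] {r : ℕ}

theorem resX_comap (κ : k →+* K) (Θ : Fin (r + 1) → Fin (r + 1) → K) (θ : Fin r → Fin r → K)
    (h0 : ∀ i : Fin r, Θ i.succ 0 = 0) (h1 : ∀ i l : Fin r, Θ i.succ l.succ = θ i l)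
    (z : Ideal (MvPolynomial (Fin (r + 1)) K)) :
    resX (z.comap (jFun κ Θ)) = (resX z).comap (jFun κ θ) := by
  have h : (jFun κ Θ).comp ((rename (R := k) Fin.succ : MvPolynomial (Fin r) k →ₐ[k]
        MvPolynomial (Fin (r + 1)) k) : MvPolynomial (Fin r) k →+* _) =
      ((rename (R := K) Fin.succ : MvPolynomial (Fin r) K →ₐ[K]
        MvPolynomial (Fin (r + 1)) K) : MvPolynomial (Fin r) K →+* _).comp (jFun κ θ) := by
    apply MvPolynomial.ringHom_ext
    · intro a
      simp
    · intro i
      simp only [RingHom.comp_apply, RingHom.coe_coe, rename_X, jFun_X, map_sum, map_mul, rename_C]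
      rw [Fin.sum_univ_succ, h0, map_zero, zero_mul, zero_add]
      refine Finset.sum_congr rfl fun l _ => ?_
      rw [h1]
  ext f
  have := RingHom.congr_fun h f
  change jFun κ Θ (rename Fin.succ f) ∈ z ↔ rename Fin.succ (jFun κ θ f) ∈ z
  rw [show jFun κ Θ (rename Fin.succ f) = rename Fin.succ (jFun κ θ f) from this]

theorem jFun_one {d : ℕ} (κ : k →+* K) :
    jFun κ (fun i l : Fin d => if i = l then (1 : K) else 0) = MvPolynomial.map κ := by
  apply MvPolynomial.ringHom_ext
  · intro a
    rw [jFun_C, MvPolynomial.map_C]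
  · intro i
    rw [jFun_X, MvPolynomial.map_X, Finset.sum_eq_single i]
    · simp
    · intro l _ hl
      simp [Ne.symm hl]
    · simp

/-- The height inequality for primes containing `X_0`. -/
theorem height_orth_mem {κ : k →+* K} {θ : Fin r → Fin r → K} (h : OrthData κ θ)
    (z : Ideal (MvPolynomial (Fin (r + 1)) K)) [z.IsPrime] (h0 : X 0 ∈ z)
    (hz : ∃ i : Fin r, X i.succ ∉ z) :
    (z.comap (jFun κ (fun i l => if i = l then (1 : K) else 0))).height +
      (z.comap (jFun κ (extM θ))).height ≤ z.height + 2 := by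
  have p1 : (z.comap (jFun κ (fun i l => if i = l then (1 : K) else 0))).IsPrime :=
    Ideal.IsPrime.comap _
  have p2 : (z.comap (jFun κ (extM θ))).IsPrime := Ideal.IsPrime.comap _
  have e1 := height_le_resX (z.comap (jFun κ (fun i l => if i = l then (1 : K) else 0)))
  have e2 := height_le_resX (z.comap (jFun κ (extM θ)))
  have e1' : resX (z.comap (jFun κ (fun i l => if i = l then (1 : K) else 0))) =
      (resX z).comap (MvPolynomial.map κ) := by
    rw [resX_comap κ _ (fun i l => if i = l then (1 : K) else 0)
      (fun i => by simp [Fin.succ_ne_zero]) (fun i l => by simp), jFun_one]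
  rw [e1'] at e1
  rw [resX_comap κ _ θ (fun i => rfl) (fun i l => rfl)] at e2
  have e3 := height_orth h (resX z) (by
    obtain ⟨i, hi⟩ := hz
    refine ⟨i, fun hmem => hi ?_⟩
    change rename Fin.succ (X i) ∈ z at hmem
    rwa [rename_X] at hmem)
  have e4 := height_resX_add_one_le z h0
  calc _ ≤ (((resX z).comap (MvPolynomial.map κ)).height + 1) +
        (((resX z).comap (jFun κ θ)).height + 1) := add_le_add e1 e2
    _ = (((resX z).comap (MvPolynomial.map κ)).height +
        ((resX z).comap (jFun κ θ)).height) + 2 := by ring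
    _ ≤ ((resX z).height + 1) + 2 := add_le_add_left e3 2
    _ ≤ z.height + 2 := add_le_add_left e4 2

end upper

end Vale.Agent.P177
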