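import Vale.Agent.P177.CDescend

/-!
Flat local base change with closed fibre of finite length.
-/

namespace Vale.Agent.P177

open CategoryTheory TensorProduct Function IsLocalRing RingTheory.Sequence Pointwise

universe u

section

variable {A C : Type u} [CommRing A] [CommRing C] [Algebra A C] [Module.Flat A C]

theorem ker_baseChange_equiv {P Q : Type u} [AddCommGroup P] [Module A P] [AddCommGroup Q]
    [Module A Q] (f : P →ₗ[A] Q) :
    Nonempty (LinearMap.ker (f.baseChange C) ≃ₗ[C] C ⊗[A] LinearMap.ker f) := by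
  have hex : Exact (LinearMap.ker f).subtype f := by
    intro x
    simp
  have h1 : Injective ((LinearMap.ker f).subtype.baseChange C) := by
    rw [LinearMap.baseChange_eq_ltensor]
    exact Module.Flat.lTensor_preserves_injective_linearMap _ (Submodule.injective_subtype _)
  have h2 : Exact ((LinearMap.ker f).subtype.baseChange C) (f.baseChange C) := by
    rw [LinearMap.baseChange_eq_ltensor, LinearMap.baseChange_eq_ltensor]
    exact Module.Flat.lTensor_exact C hex
  have h3 := LinearEquiv.ofInjective _ h1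
  rw [LinearMap.exact_iff.1 h2]
  exact ⟨h3.symm⟩

/-- Flat base change of Tor in both variables. -/
theorem exists_tor_baseChange (n : ℕ) {K X N Y : Type u}
    [AddCommGroup K] [Module A K] [AddCommGroup N] [Module A N]
    [AddCommGroup X] [Module A X] [Module C X] [IsScalarTower A C X]
    [AddCommGroup Y] [Module A Y] [Module C Y] [IsScalarTower A C Y]
    {φ : K →ₗ[A] X} (hφ : IsBaseChange C φ) {ψ : N →ₗ[A] Y} (hψ : IsBaseChange C ψ) :
    Nonempty (TorM C n X Y ≃ₗ[C] C ⊗[A] TorM A n K N) := by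
  induction n generalizing K X with
  | zero =>
    obtain ⟨e, -⟩ := exists_cancel₂ hφ hψ
    exact ⟨torZero X Y ≪≫ₗ e ≪≫ₗ (torZero K N).symm.baseChange A C _ _⟩
  | succ n ih =>
    obtain ⟨F, K1, _, _, _, _, i, g, hF, hi, hg, h⟩ := exists_cover A K
    obtain ⟨Y1, _, _, _, _, ψ1, hψ1⟩ := exists_baseChange (R := A) C F
    obtain ⟨X1, _, _, _, _, φ1, hφ1⟩ := exists_baseChange (R := A) C K1
    let j : X1 →ₗ[C] Y1 := hφ1.lift (ψ1 ∘ₗ i)
    have hj : ∀ k, j (φ1 k) = ψ1 (i k) := fun k => hφ1.lift_eq _ k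
    let q : Y1 →ₗ[C] X := hψ1.lift (φ ∘ₗ g)
    have hq : ∀ y, q (ψ1 y) = φ (g y) := fun y => hψ1.lift_eq _ y
    have hjinj : Injective j := bc_injective hφ1 hψ1 i j hj hi
    have hqs : Surjective q := bc_surjective hψ1 hφ g q hq hg
    have hex : Exact j q := bc_exact hφ1 hψ1 hφ i j hj g q hq hg h
    have hYflat : Module.Flat C Y1 := Module.Flat.isBaseChange A C F Y1 hψ1
    cases n with
    | zero =>
      obtain ⟨e1⟩ := tor_one i g hi hg h N
      obtain ⟨e2⟩ := tor_one j q hjinj hqs hex Y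
      obtain ⟨eX, heX⟩ := exists_cancel₂ hφ1 hψ
      obtain ⟨eY, heY⟩ := exists_cancel₂ hψ1 hψ
      have key : ∀ z : C ⊗[A] (K1 ⊗[A] N), j.rTensor Y (eX.symm z) =
          eY.symm ((i.rTensor N).baseChange C z) := by
        intro z
        induction z using TensorProduct.induction_on with
        | zero => simp
        | tmul c w =>
          induction w using TensorProduct.induction_on with
          | zero => simp
          | tmul k n =>
            rw [heX, map_smul, LinearMap.rTensor_tmul, hj, LinearMap.baseChange_tmul,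
              LinearMap.rTensor_tmul, heY]
          | add a b ha hb => rw [TensorProduct.tmul_add, map_add, map_add, ha, hb, map_add, map_add]
        | add a b ha hb => rw [map_add, map_add, ha, hb, map_add, map_add]
      obtain ⟨e3⟩ := ker_equiv eX.symm eY.symm ((i.rTensor N).baseChange C) (j.rTensor Y) key
      obtain ⟨e4⟩ := ker_baseChange_equiv (C := C) (i.rTensor N)
      exact ⟨e2 ≪≫ₗ e3.symm ≪≫ₗ e4 ≪≫ₗ e1.symm.baseChange A C _ _⟩
    | succ n =>
      obtain ⟨e1⟩ := tor_shift i g hi hg h N n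
      obtain ⟨e2⟩ := tor_shift j q hjinj hqs hex Y n
      obtain ⟨e3⟩ := ih hφ1
      exact ⟨e2 ≪≫ₗ e3 ≪≫ₗ e1.symm.baseChange A C _ _⟩

end

section descend

variable {R C : Type u} [CommRing R] [CommRing C] [IsLocalRing R] [IsNoetherianRing R]
  [IsLocalRing C] [IsNoetherianRing C] [Algebra R C] [Module.Flat R C]
  [IsLocalHom (algebraMap R C)]

omit [IsNoetherianRing R] [IsNoetherianRing C] in
theorem eulerTor_baseChange
    {K X N Y : Type u}
    [AddCommGroup K] [Module R K] [AddCommGroup N] [Module R N]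
    [AddCommGroup X] [Module R X] [Module C X] [IsScalarTower R C X]
    [AddCommGroup Y] [Module R Y] [Module C Y] [IsScalarTower R C Y]
    {φ : K →ₗ[R] X} (hφ : IsBaseChange C φ) {ψ : N →ₗ[R] Y} (hψ : IsBaseChange C ψ) (n : ℕ) :
    eulerTor C n X Y = ((Module.length C (C ⧸ (maximalIdeal R).map (algebraMap R C))).toNat : ℤ) *
      eulerTor R n K N := by
  unfold eulerTor
  rw [Finset.mul_sum]
  refine Finset.sum_congr rfl fun i _ => ?_
  obtain ⟨e⟩ := exists_tor_baseChange (A := R) i hφ hψ
  rw [e.length_eq, IsLocalRing.length_baseChange, ENat.toNat_mul]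
  push_cast
  ring

omit [IsNoetherianRing R] [IsNoetherianRing C] [Module.Flat R C] in
theorem length_fibre_pos : 0 < (Module.length C (C ⧸ (maximalIdeal R).map (algebraMap R C))) := by
  rw [pos_iff_ne_zero, Ne, Module.length_eq_zero_iff, ← not_nontrivial_iff_subsingleton, not_not,
    Ideal.Quotient.nontrivial_iff]
  intro h
  have h1 := ((local_hom_TFAE (algebraMap R C)).out 0 2).1 ‹_›
  rw [h, top_le_iff] at h1
  exact (maximalIdeal.isMaximal C).ne_top h1

/-- Descent of Serre's statements for a pair. -/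
theorem serrePair_descend_finite
    (hfin : Module.length C (C ⧸ (maximalIdeal R).map (algebraMap R C)) ≠ ⊤) {d : ℕ}
    (M N : Type u) [AddCommGroup M] [Module R M] [Module.Finite R M]
    [AddCommGroup N] [Module R N] [Module.Finite R N]
    (h : 0 ≤ eulerTor C (d + 1) (C ⊗[R] M) (C ⊗[R] N) ∧ ∀ m n : ℕ,
      (m : WithBot ℕ∞) ≤ Module.supportDim C (C ⊗[R] M) →
      (n : WithBot ℕ∞) ≤ Module.supportDim C (C ⊗[R] N) →
      (m + n ≤ d) ∧ (d ≤ m + n → 0 < eulerTor C (d + 1) (C ⊗[R] M) (C ⊗[R] N))) :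
    0 ≤ eulerTor R (d + 1) M N ∧ ∀ m n : ℕ, (m : WithBot ℕ∞) ≤ Module.supportDim R M →
      (n : WithBot ℕ∞) ≤ Module.supportDim R N →
      (m + n ≤ d) ∧ (d ≤ m + n → 0 < eulerTor R (d + 1) M N) := by
  obtain ⟨h1, h2⟩ := h
  have hff : Module.FaithfullyFlat R C := Module.FaithfullyFlat.of_flat_of_isLocalHom
  have heq := eulerTor_baseChange (R := R) (C := C) (TensorProduct.isBaseChange R M C)
    (TensorProduct.isBaseChange R N C) (d + 1)
  have hpos : 0 < ((Module.length C (C ⧸ (maximalIdeal R).map (algebraMap R C))).toNat : ℤ) := by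
    have := length_fibre_pos (R := R) (C := C)
    have h3 := ENat.toNat_pos this.ne' hfin
    exact_mod_cast h3
  rw [heq] at h1 h2
  refine ⟨nonneg_of_mul_nonneg_right h1 hpos, fun m n hm hn => ?_⟩
  obtain ⟨h4, h5⟩ := h2 m n (hm.trans (supportDim_le_baseChange_of_faithfullyFlat M))
    (hn.trans (supportDim_le_baseChange_of_faithfullyFlat N))
  exact ⟨h4, fun hd => (mul_pos_iff_of_pos_left hpos).1 (h5 hd)⟩

theorem length_tensor_ne_top_of_fibre
    (hfin : Module.length C (C ⧸ (maximalIdeal R).map (algebraMap R C)) ≠ ⊤)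
    (M N : Type u) [AddCommGroup M] [Module R M]
    [AddCommGroup N] [Module R N]
    (hlen : Module.length R (M ⊗[R] N) ≠ ⊤) :
    Module.length C ((C ⊗[R] M) ⊗[C] (C ⊗[R] N)) ≠ ⊤ := by
  have e : (C ⊗[R] M) ⊗[C] (C ⊗[R] N) ≃ₗ[C] C ⊗[R] (M ⊗[R] N) :=
    (AlgebraTensorModule.distribBaseChange R C M N).symm
  rw [e.length_eq, IsLocalRing.length_baseChange]
  exact WithTop.mul_ne_top hlen hfin

theorem SerreAll.descend_finite
    (hfin : Module.length C (C ⧸ (maximalIdeal R).map (algebraMap R C)) ≠ ⊤) {d : ℕ}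
    (h : SerreAll C d) : SerreAll R d := by
  intro M N _ _ _ _ _ _ hlen
  exact serrePair_descend_finite hfin M N (h _ _ (length_tensor_ne_top_of_fibre hfin M N hlen))

end descend

end Vale.Agent.P177
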