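import Vale.Agent.P177.FLocA
import Vale.Agent.P177.HBc
import Vale.Agent.P177.CLocB

/-!
The local theorem with one fixed parameter.
-/

namespace Vale.Agent.P177

open IsLocalRing Function TensorProduct

universe u

theorem PosAlong.of_eulAlong {R₁ R₂ R₁' R₂' W W' : Type u} [CommRing R₁] [CommRing R₂]
    [CommRing R₁'] [CommRing R₂'] [CommRing W] [CommRing W'] [IsRegularLocalRing W]
    [IsRegularLocalRing W']
    [Algebra R₁ R₁'] [Algebra R₂ R₂'] [Algebra W W'] [Module.Flat W W']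
    [IsLocalHom (algebraMap W W')] [Module.FaithfullyFlat R₁ R₁'] [Module.FaithfullyFlat R₂ R₂']
    (hfib : Module.length W' (W' ⧸ (maximalIdeal W).map (algebraMap W W')) ≠ ⊤)
    (j₁ : R₁ →+* W) (j₂ : R₂ →+* W) (k₁ : R₁' →+* W') (k₂ : R₂' →+* W')
    (c₁ : k₁.comp (algebraMap R₁ R₁') = (algebraMap W W').comp j₁)
    (c₂ : k₂.comp (algebraMap R₂ R₂') = (algebraMap W W').comp j₂) (d : ℕ)
    (N M : Type u) [AddCommGroup N] [Module R₁ N] [Module.Finite R₁ N] [AddCommGroup M]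
    [Module R₂ M] [Module.Finite R₂ M]
    (hrad : maximalIdeal W ≤
      ((Module.annihilator R₁ N).map j₁ ⊔ (Module.annihilator R₂ M).map j₂).radical)
    (hdim : ∀ e g : ℕ, (e : WithBot ℕ∞) ≤ Module.supportDim R₁ N →
      (g : WithBot ℕ∞) ≤ Module.supportDim R₂ M → e + g ≤ d)
    (h : EulAlong k₁ k₂ d (R₁' ⊗[R₁] N) (R₂' ⊗[R₂] M)) : PosAlong j₁ j₂ d N M := by
  let _ : Algebra R₁ W := j₁.toAlgebra
  let _ : Algebra R₂ W := j₂.toAlgebra
  let _ : Algebra R₁' W' := k₁.toAlgebra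
  let _ : Algebra R₂' W' := k₂.toAlgebra
  let _ : Algebra R₁ W' := ((algebraMap W W').comp j₁).toAlgebra
  let _ : Algebra R₂ W' := ((algebraMap W W').comp j₂).toAlgebra
  have t₁ : IsScalarTower R₁ W W' := IsScalarTower.of_algebraMap_eq fun _ => rfl
  have t₂ : IsScalarTower R₂ W W' := IsScalarTower.of_algebraMap_eq fun _ => rfl
  have t₃ : IsScalarTower R₁ R₁' W' :=
    IsScalarTower.of_algebraMap_eq fun a => (RingHom.congr_fun c₁ a).symm
  have t₄ : IsScalarTower R₂ R₂' W' :=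
    IsScalarTower.of_algebraMap_eq fun a => (RingHom.congr_fun c₂ a).symm
  obtain ⟨X, _, _, ⟨eX⟩⟩ : ∃ (X : Type u) (_ : AddCommGroup X) (_ : Module W' X),
      Nonempty (X ≃ₗ[W'] W' ⊗[R₁'] (R₁' ⊗[R₁] N)) :=
    ⟨_, inferInstance, inferInstance, ⟨LinearEquiv.refl W' _⟩⟩
  obtain ⟨Y, _, _, ⟨eY⟩⟩ : ∃ (Y : Type u) (_ : AddCommGroup Y) (_ : Module W' Y),
      Nonempty (Y ≃ₗ[W'] W' ⊗[R₂'] (R₂' ⊗[R₂] M)) :=
    ⟨_, inferInstance, inferInstance, ⟨LinearEquiv.refl W' _⟩⟩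
  let _ : Module W X := Module.compHom X (algebraMap W W')
  let _ : Module W Y := Module.compHom Y (algebraMap W W')
  have s₁ : IsScalarTower W W' X := ⟨fun a b c => by
    rw [Algebra.smul_def, mul_smul]
    rfl⟩
  have s₂ : IsScalarTower W W' Y := ⟨fun a b c => by
    rw [Algebra.smul_def, mul_smul]
    rfl⟩
  obtain ⟨φ, hφ⟩ := exists_baseChange_tower (R := R₁) (R' := R₁') (W := W) (W' := W') N X eX
  obtain ⟨ψ, hψ⟩ := exists_baseChange_tower (R := R₂) (R' := R₂') (W := W) (W' := W') M Y eY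
  have hFP : FP R₁ R₂ W N M := hrad
  have hlen0 : Module.length W ((W ⊗[R₁] N) ⊗[W] (W ⊗[R₂] M)) ≠ ⊤ := by
    rw [← (torZero (R := W) (W ⊗[R₁] N) (W ⊗[R₂] M)).length_eq]
    exact hFP.length_ne_top 0
  have hlen1 := length_tensor_ne_top_of_fibre hfib (W ⊗[R₁] N) (W ⊗[R₂] M) hlen0
  have e3 : (W' ⊗[W] (W ⊗[R₁] N)) ⊗[W'] (W' ⊗[W] (W ⊗[R₂] M)) ≃ₗ[W'] X ⊗[W'] Y :=
    TensorProduct.congr hφ.equiv hψ.equiv
  have hlen2 : Module.length W' (X ⊗[W'] Y) ≠ ⊤ := by
    intro h3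
    apply hlen1
    rw [← h3]
    exact LinearEquiv.length_eq e3
  obtain ⟨h1, h2⟩ := h (Module.length_ne_top_iff.1 (by
    rw [← (TensorProduct.congr eX eY).length_eq]
    exact hlen2))
  have heq := eulerTor_baseChange (R := W) (C := W') hφ hψ (d + 1)
  have hpos : 0 < ((Module.length W' (W' ⧸ (maximalIdeal W).map (algebraMap W W'))).toNat : ℤ) := by
    have := length_fibre_pos (R := W) (C := W')
    have h3 := ENat.toNat_pos this.ne' hfib
    exact_mod_cast h3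
  rw [← eulerTor_congr eX eY, heq] at h1
  refine ⟨hdim, nonneg_of_mul_nonneg_right h1 hpos, fun e g he hg hd => ?_⟩
  have h3 := h2 e g (he.trans (supportDim_le_baseChange_of_faithfullyFlat N))
    (hg.trans (supportDim_le_baseChange_of_faithfullyFlat M)) hd
  rw [← eulerTor_congr eX eY, heq] at h3
  exact (mul_pos_iff_of_pos_left hpos).1 h3

theorem map_max_root {A B : Type u} [CommRing A] [CommRing B] [IsLocalRing A] [IsLocalRing B]
    (j : A →+* B) {w : ℕ} (hw : w ≠ 0) {y : A} {y' : B} (h : j y = y')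
    (hy : y ∈ maximalIdeal A) (hy' : y' ∈ maximalIdeal B)
    (hm : (maximalIdeal A).map j = maximalIdeal B) [IsLocalRing (Root w y)]
    [IsLocalRing (Root w y')] :
    (maximalIdeal (Root w y)).map (jRoot j w h) = maximalIdeal (Root w y') := by
  obtain ⟨_, h1⟩ := root_local hw hy
  obtain ⟨_, h2⟩ := root_local hw hy'
  rw [← h1, ← h2, Ideal.map_sup, Ideal.map_span, Set.image_singleton, jRoot_rt, Ideal.map_map,
    jRoot_comp, ← Ideal.map_map, hm]

theorem locStmtRel : LocStmtRel.{u} := by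
  intro R W _ _ _ _ j₁ j₂ _ _ hf₁ hf₂ r hdR hdW y x hyx hm₁ hm₂ hy hres θ hθ horth P Q _ _ hyP hyQ
    hrad hdim
  obtain ⟨zs₁, -, -, hl₁, hh₁, hd₁, -⟩ := exists_ci hdR P
  obtain ⟨zs₂, -, -, hl₂, hh₂, hd₂, -⟩ := exists_ci hdR Q
  have hsum : r + 1 ≤ zs₁.length + zs₂.length := by
    have := hdim _ _ hd₁.ge hd₂.ge
    omega
  have hy0 : y ∈ maximalIdeal R := by
    rw [← hyx]
    exact Ideal.mem_sup_left (Ideal.mem_span_singleton_self y)
  have hx0 : ∀ i, x i ∈ maximalIdeal R := fun i => by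
    rw [← hyx]
    exact Ideal.mem_sup_right (Ideal.subset_span ⟨i, rfl⟩)
  obtain ⟨w₁, hw₁, hV₁⟩ := exists_VCondW r hdR y x hy0 hx0 P hyP _ hh₁
  obtain ⟨w₂, hw₂, hV₂⟩ := exists_VCondW r hdR y x hy0 hx0 Q hyQ _ hh₂
  obtain ⟨w, hw, hwd₁, hwd₂⟩ : ∃ w, w ≠ 0 ∧ w₁ ∣ w ∧ w₂ ∣ w :=
    ⟨w₁ * w₂, by positivity, Dvd.intro _ rfl, Dvd.intro_left _ rfl⟩
  obtain ⟨k, hk⟩ := exists_pow_mem j₁ j₂ r hdW y x hyx hm₁ θ hθ P Q hrad
  let X : Fin (r + 1) → R := Fin.cons y x
  have hX : Ideal.span (Set.range X) = maximalIdeal R := by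
    rw [← span_tail]
    exact hyx
  let XW : Fin (r + 1) → W := fun i => j₁ (X i)
  have hXW : Ideal.span (Set.range XW) = maximalIdeal W := by
    rw [← hm₁, ← hX, Ideal.map_span, ← Set.range_comp]
    rfl
  have hyW0 : j₁ y ∈ maximalIdeal W := by
    rw [← hm₁]
    exact Ideal.mem_map_of_mem _ hy0
  obtain ⟨hR', hdR', hsR', hlR'⟩ := exists_regular_root w X hw hdR hX
  obtain ⟨hW', hdW', hsW', hlW'⟩ := exists_regular_root w XW hw hdW hXW
  let k₁ : Root w (X 0) →+* Root w (XW 0) := jRoot j₁ w (y := X 0) (y' := XW 0) rfl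
  let k₂ : Root w (X 0) →+* Root w (XW 0) := jRoot j₂ w (y := X 0) (y' := XW 0) hy.symm
  have hmk₁ : (maximalIdeal (Root w (X 0))).map k₁ = maximalIdeal (Root w (XW 0)) :=
    map_max_root j₁ hw (y := X 0) (y' := XW 0) rfl hy0 hyW0 hm₁
  have hmk₂ : (maximalIdeal (Root w (X 0))).map k₂ = maximalIdeal (Root w (XW 0)) :=
    map_max_root j₂ hw (y := X 0) (y' := XW 0) hy.symm hy0 hyW0 hm₂
  have hlk₁ : IsLocalHom k₁ := ((IsLocalRing.local_hom_TFAE k₁).out 0 2).2 hmk₁.le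
  have hlk₂ : IsLocalHom k₂ := ((IsLocalRing.local_hom_TFAE k₂).out 0 2).2 hmk₂.le
  have hfk₁ : k₁.Flat := flat_of_params k₁ (r + 1) hdR' hdW' _ hsR' hmk₁
  have hfk₂ : k₂.Flat := flat_of_params k₂ (r + 1) hdR' hdW' _ hsR' hmk₂
  have hc₁ : k₁.comp (algebraMap R (Root w (X 0))) = (algebraMap W (Root w (XW 0))).comp j₁ :=
    jRoot_comp j₁ w (y := X 0) (y' := XW 0) rfl
  have hc₂ : k₂.comp (algebraMap R (Root w (X 0))) = (algebraMap W (Root w (XW 0))).comp j₂ :=
    jRoot_comp j₂ w (y := X 0) (y' := XW 0) hy.symm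
  have hsurj : Surjective (ResidueField.map (algebraMap R (Root w (X 0)))) :=
    residue_root_surjective (y := X 0) hw hy0
  have hres' : ResidueField.map k₁ = ResidueField.map k₂ :=
    res_eq_of_comp j₁ j₂ k₁ k₂ _ _ hc₁ hc₂ hsurj hres
  have hfree := root_free (y := X 0) hw
  have hfin := root_finite (y := X 0) hw
  have hff : Module.FaithfullyFlat R (Root w (X 0)) :=
    Module.FaithfullyFlat.of_flat_of_isLocalHom
  have hfreeW := root_free (y := XW 0) hw
  have hkx : ∀ i : Fin r, k₁ (xRoot w X i.succ) = algebraMap W _ (j₁ (x i)) := fun i =>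
    jRoot_algebraMap j₁ w (y := X 0) (y' := XW 0) rfl (x i)
  have hkx' : ∀ i : Fin r, k₂ (xRoot w X i.succ) = algebraMap W _ (j₂ (x i)) := fun i =>
    jRoot_algebraMap j₂ w (y := X 0) (y' := XW 0) hy.symm (x i)
  have hτ : (rt w (X 0)) ^ w = algebraMap R (Root w (X 0)) y := rt_pow w (X 0)
  have hreg : ∀ (I : Ideal R) [I.IsPrime], y ∉ I → ∀ a, xRoot w X 0 * a ∈
      Module.annihilator (Root w (X 0)) (Root w (X 0) ⊗[R] (R ⧸ I)) →
      a ∈ Module.annihilator (Root w (X 0)) (Root w (X 0) ⊗[R] (R ⧸ I)) := by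
    intro I _ hyI a ha
    rw [Module.mem_annihilator] at ha ⊢
    intro v
    have h1 : rt w (X 0) • (a • v) = 0 := by
      rw [smul_smul]
      exact ha v
    have h2 : y • (a • v) = 0 := by
      have hpw : rt w (X 0) ^ w = rt w (X 0) ^ (w - 1) * rt w (X 0) :=
        (pow_sub_one_mul hw _).symm
      rw [← algebraMap_smul (Root w (X 0)) y, ← hτ, hpw, mul_smul, h1, smul_zero]
    have h3 : IsSMulRegular (R ⧸ I) y := by
      rw [isSMulRegular_iff_right_eq_zero_of_smul]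
      intro b hb
      obtain ⟨b, rfl⟩ := Ideal.Quotient.mk_surjective b
      have hb' : Ideal.Quotient.mk I (y * b) = 0 := hb
      rw [Ideal.Quotient.eq_zero_iff_mem] at hb' ⊢
      exact ((inferInstance : I.IsPrime).mem_or_mem hb').resolve_left hyI
    have h4 : IsSMulRegular (Root w (X 0) ⊗[R] (R ⧸ I)) y := by
      exact h3.lTensor (Root w (X 0))
    exact (isSMulRegular_iff_right_eq_zero_of_smul.1 h4) _ h2
  have hann : ∀ (I : Ideal R), ∀ a ∈ I, algebraMap R (Root w (X 0)) a ∈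
      Module.annihilator (Root w (X 0)) (Root w (X 0) ⊗[R] (R ⧸ I)) := by
    intro I a ha
    rw [Module.mem_annihilator]
    intro v
    refine map_smul_eq_zero (R ⧸ I) _ (Ideal.mem_map_of_mem _ ?_) v
    rwa [Ideal.annihilator_quotient]
  have hpow : ∀ (I : Ideal R), y ^ k ∈ I ⊔ Ideal.span (Set.range x) →
      xRoot w X 0 ^ (w * k) ∈ Module.annihilator (Root w (X 0)) (Root w (X 0) ⊗[R] (R ⧸ I)) ⊔
        Ideal.span (Set.range fun i : Fin r => xRoot w X i.succ) := by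
    intro I hI
    have h1 := Ideal.mem_map_of_mem (algebraMap R (Root w (X 0))) hI
    rw [Ideal.map_sup, Ideal.map_span, ← Set.range_comp, map_pow, ← hτ, ← pow_mul] at h1
    have h2 : I.map (algebraMap R (Root w (X 0))) ≤
        Module.annihilator (Root w (X 0)) (Root w (X 0) ⊗[R] (R ⧸ I)) := by
      rw [Ideal.map_le_iff_le_comap]
      intro a ha
      exact hann I a ha
    exact sup_le_sup_right h2 _ h1
  have key := loc_rec r zs₁.length zs₂.length hsum (w * k) (Root w (X 0)) (Root w (XW 0)) k₁ k₂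
    hfk₁ hfk₂ hdR' hdW' (xRoot w X) hsR' hmk₁ hmk₂
    ((jRoot_rt j₁ w (y := X 0) (y' := XW 0) rfl).trans
      (jRoot_rt j₂ w (y := X 0) (y' := XW 0) hy.symm).symm) hres'
    (fun i l => algebraMap W _ (θ i l)) (by
      intro i
      rw [hkx', hθ, map_sum]
      refine Finset.sum_congr rfl fun l _ => ?_
      rw [map_mul, hkx]) (by
      have h1 := horth.transfer (ResidueField.map k₁) (ResidueField.map (algebraMap R _)) hsurj
        (ResidueField.map (algebraMap W (Root w (XW 0)))) (by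
          ext a
          obtain ⟨a, rfl⟩ := residue_surjective a
          rw [RingHom.comp_apply, RingHom.comp_apply, ResidueField.map_residue,
            ResidueField.map_residue, ResidueField.map_residue, ResidueField.map_residue]
          exact congrArg _ (RingHom.congr_fun hc₁ a))
      simp only [ResidueField.map_residue] at h1
      exact h1)
    (Root w (X 0) ⊗[R] (R ⧸ P)) (Root w (X 0) ⊗[R] (R ⧸ Q)) (hreg P hyP) (hreg Q hyQ)
    (VCondW.root hw hτ (hV₁.mono hwd₁) _ (hann P)) (VCondW.root hw hτ (hV₂.mono hwd₂) _ (hann Q))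
    (hk.imp (hpow P) (hpow Q))
  refine PosAlong.of_eulAlong (length_root_fibre (y := XW 0) hw hyW0) j₁ j₂ k₁ k₂ hc₁ hc₂ (r + 1) _ _ ?_ hdim
    key
  rw [Ideal.annihilator_quotient, Ideal.annihilator_quotient]
  exact hrad

end Vale.Agent.P177
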