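import Vale.Agent.P177.FAlong

/-!
The local theorem by iterated blow-ups at the bad point.
-/

namespace Vale.Agent.P177

open IsLocalRing Function TensorProduct

universe u

section bad

variable {R : Type u} [CommRing R] [IsLocalRing R] {r : ℕ} {x : Fin (r + 1) → R}
    (hx : Ideal.span (Set.range x) = maximalIdeal R)
    (E : Type u) [AddCommGroup E] [Module R E]

/-- The strict transform at the bad point. -/
abbrev BadSt : Type u := St (xBad hx 0) (BadRing hx ⊗[R] E)

theorem badSt_reg (a : BadRing hx)
    (h : xBad hx 0 * a ∈ Module.annihilator (BadRing hx) (BadSt hx E)) :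
    a ∈ Module.annihilator (BadRing hx) (BadSt hx E) := by
  rw [Module.mem_annihilator] at h ⊢
  intro v
  refine St_reg _ ?_
  rw [← mul_smul]
  exact h v

theorem badSt_annihilator (a : R) (ha : a ∈ Module.annihilator R E) :
    algebraMap R (BadRing hx) a ∈ Module.annihilator (BadRing hx) (BadSt hx E) := by
  rw [Module.mem_annihilator]
  intro v
  obtain ⟨w, rfl⟩ := Submodule.mkQ_surjective _ v
  rw [← map_smul]
  have h1 : algebraMap R (BadRing hx) a • w = 0 :=
    map_smul_eq_zero E _ (Ideal.mem_map_of_mem _ ha) w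
  rw [h1, map_zero]

theorem badSt_pow (k : ℕ) (h : x 0 ^ (k + 1) ∈ Module.annihilator R E ⊔
      Ideal.span (Set.range fun i : Fin r => x i.succ)) :
    xBad hx 0 ^ k ∈ Module.annihilator (BadRing hx) (BadSt hx E) ⊔
      Ideal.span (Set.range fun i : Fin r => xBad hx i.succ) := by
  obtain ⟨f, hf, g, hg, hfg⟩ := Submodule.mem_sup.1 h
  obtain ⟨c, rfl⟩ := Ideal.mem_span_range_iff_exists_fun.1 hg
  obtain ⟨u, hu⟩ := isUnit_Y_zero hx
  have h0 : algebraMap R (BadRing hx) (x 0) = xBad hx 0 * u := by
    rw [algebraMap_bad_x, hu]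
  have h1 : algebraMap R (BadRing hx) f = xBad hx 0 * (xBad hx 0 ^ k * (u : BadRing hx) ^ (k + 1) -
      ∑ i : Fin r, algebraMap R (BadRing hx) (c i) * xBad hx i.succ) := by
    have h2 := congrArg (algebraMap R (BadRing hx)) hfg
    rw [map_add, map_pow, h0, ← eq_sub_iff_add_eq] at h2
    rw [h2, mul_sub, Finset.mul_sum, map_sum]
    congr 1
    · ring
    · refine Finset.sum_congr rfl fun i _ => ?_
      rw [map_mul, algebraMap_bad_x, xBad_succ]
      ring
  have h2 := badSt_annihilator hx E f hf
  rw [h1] at h2
  have h3 := badSt_reg hx E _ h2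
  have h4 : xBad hx 0 ^ k * (u : BadRing hx) ^ (k + 1) ∈
      Module.annihilator (BadRing hx) (BadSt hx E) ⊔
      Ideal.span (Set.range fun i : Fin r => xBad hx i.succ) := by
    have h5 := Ideal.add_mem _ (Ideal.mem_sup_left (T := Ideal.span
      (Set.range fun i : Fin r => xBad hx i.succ)) h3) (Ideal.mem_sup_right
      (Ideal.sum_mem _ fun i (_ : i ∈ Finset.univ) =>
        Ideal.mul_mem_left _ (algebraMap R (BadRing hx) (c i))
        (Ideal.subset_span (s := Set.range fun i : Fin r => xBad hx i.succ) ⟨i, rfl⟩)))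
    rwa [sub_add_cancel] at h5
  have h5 : xBad hx 0 ^ k = ((u⁻¹ : (BadRing hx)ˣ) : BadRing hx) ^ (k + 1) *
      (xBad hx 0 ^ k * (u : BadRing hx) ^ (k + 1)) := by
    have : ((u⁻¹ : (BadRing hx)ˣ) : BadRing hx) * u = 1 := Units.inv_mul u
    calc xBad hx 0 ^ k = xBad hx 0 ^ k * (((u⁻¹ : (BadRing hx)ˣ) : BadRing hx) * u) ^ (k + 1) := by
          rw [this, one_pow, mul_one]
      _ = _ := by ring
  rw [h5]
  exact Ideal.mul_mem_left _ _ h4

end bad

section data

variable {R A : Type u} [CommRing R] [CommRing A] [IsRegularLocalRing R] [IsRegularLocalRing A]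
    {j₁ j₂ : R →+* A} [IsLocalHom j₁] [IsLocalHom j₂] {r : ℕ} {x : Fin (r + 1) → R}
    {hx : Ideal.span (Set.range x) = maximalIdeal R} {θ : Fin r → Fin r → A}
    {Ω : Type u} [CommRing Ω] [IsRegularLocalRing Ω] (D : BadData j₁ j₂ hx hx θ Ω)

/-- The residue map in the coordinate `X_0`. -/
noncomputable def BadData.σ : Polynomial (ResidueField A) →+* ResidueField Ω :=
  let _ := D.a_local
  Polynomial.eval₂RingHom (ResidueField.map D.a)
    (residue Ω (D.k₁ (algebraMap (ERees x) _ (eY x 0))))

omit [IsLocalHom j₂] in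
theorem BadData.comp_σ₁ [IsLocalHom D.k₁] : (ResidueField.map D.k₁).comp (badσ hx) =
    D.σ.comp (Polynomial.mapRingHom (ResidueField.map j₁)) := by
  let _ := D.a_local
  apply Polynomial.ringHom_ext
  · intro c
    obtain ⟨c, rfl⟩ := residue_surjective c
    simp only [RingHom.comp_apply, badσ, BadData.σ, Polynomial.coe_eval₂RingHom,
      Polynomial.eval₂_C, Polynomial.coe_mapRingHom, Polynomial.map_C, ResidueField.map_residue,
      D.comp₁]
  · simp only [RingHom.comp_apply, badσ, BadData.σ, Polynomial.coe_eval₂RingHom,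
      Polynomial.eval₂_X, Polynomial.coe_mapRingHom, Polynomial.map_X, ResidueField.map_residue]

omit [IsLocalHom j₁] in
theorem BadData.comp_σ₂ [IsLocalHom D.k₂] : (ResidueField.map D.k₂).comp (badσ hx) =
    D.σ.comp (Polynomial.mapRingHom (ResidueField.map j₂)) := by
  let _ := D.a_local
  apply Polynomial.ringHom_ext
  · intro c
    obtain ⟨c, rfl⟩ := residue_surjective c
    simp only [RingHom.comp_apply, badσ, BadData.σ, Polynomial.coe_eval₂RingHom,
      Polynomial.eval₂_C, Polynomial.coe_mapRingHom, Polynomial.map_C, ResidueField.map_residue,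
      D.comp₂]
  · simp only [RingHom.comp_apply, badσ, BadData.σ, Polynomial.coe_eval₂RingHom,
      Polynomial.eval₂_X, Polynomial.coe_mapRingHom, Polynomial.map_X, ResidueField.map_residue,
      D.hY]

theorem BadData.res [IsLocalHom D.k₁] [IsLocalHom D.k₂]
    (h : ResidueField.map j₁ = ResidueField.map j₂) :
    ResidueField.map D.k₁ = ResidueField.map D.k₂ := by
  have h1 : (ResidueField.map D.k₁).comp (badσ hx) = (ResidueField.map D.k₂).comp (badσ hx) := by
    rw [D.comp_σ₁, D.comp_σ₂, h]
  ext a
  obtain ⟨g, s, hs, hgs⟩ := bad_surj hx a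
  have h2 := congrArg (ResidueField.map D.k₁) hgs
  have h3 := congrArg (ResidueField.map D.k₂) hgs
  rw [map_mul] at h2 h3
  have h4 := RingHom.congr_fun h1 g
  have h5 := RingHom.congr_fun h1 s
  rw [RingHom.comp_apply, RingHom.comp_apply] at h4 h5
  rw [h4, ← h3, h5] at h2
  exact mul_right_cancel₀ (by
    rw [Ne, map_eq_zero]
    exact hs) h2

omit [IsLocalHom j₂] in
theorem BadData.orth [IsLocalHom D.k₁]
    (h : OrthData (ResidueField.map j₁) (fun i l => residue A (θ i l))) :
    OrthData (ResidueField.map D.k₁) (fun i l => residue Ω (D.a (θ i l))) := by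
  let _ := D.a_local
  have h1 := h.ext (ResidueField.map D.k₁) (badσ hx) D.σ D.inj D.comp_σ₁ (bad_surj hx)
  have h2 : (fun i l => D.σ (Polynomial.C (residue A (θ i l)))) =
      fun i l => residue Ω (D.a (θ i l)) := by
    funext i l
    simp only [BadData.σ, Polynomial.coe_eval₂RingHom, Polynomial.eval₂_C,
      ResidueField.map_residue]
  rw [h2] at h1
  exact h1

end data

theorem eulAlong_of_left {R₁ R₂ W : Type u} [CommRing R₁] [CommRing R₂] [CommRing W]
    (j₁ : R₁ →+* W) (j₂ : R₂ →+* W) (d : ℕ) (N M : Type u) [AddCommGroup N] [Module R₁ N]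
    [AddCommGroup M] [Module R₂ M] [Subsingleton N] : EulAlong j₁ j₂ d N M := by
  let _ : Algebra R₁ W := j₁.toAlgebra
  let _ : Algebra R₂ W := j₂.toAlgebra
  intro _
  have hM' : Subsingleton (W ⊗[R₁] N) := inferInstance
  refine ⟨(eulerTor_left_zero _ _ _ hM').ge, fun e g he _ _ => ?_⟩
  rw [Module.supportDim_eq_bot_of_subsingleton] at he
  exact absurd (le_bot_iff.1 he) (WithBot.coe_ne_bot)

theorem eulAlong_of_right {R₁ R₂ W : Type u} [CommRing R₁] [CommRing R₂] [CommRing W]
    (j₁ : R₁ →+* W) (j₂ : R₂ →+* W) (d : ℕ) (N M : Type u) [AddCommGroup N] [Module R₁ N]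
    [AddCommGroup M] [Module R₂ M] [Subsingleton M] : EulAlong j₁ j₂ d N M := by
  let _ : Algebra R₁ W := j₁.toAlgebra
  let _ : Algebra R₂ W := j₂.toAlgebra
  intro _
  have hM' : Subsingleton (W ⊗[R₂] M) := inferInstance
  refine ⟨(eulerTor_right_zero _ _ _ hM').ge, fun e g _ he _ => ?_⟩
  rw [Module.supportDim_eq_bot_of_subsingleton] at he
  exact absurd (le_bot_iff.1 he) (WithBot.coe_ne_bot)

theorem subsingleton_of_pow_zero {R : Type u} [CommRing R] [IsLocalRing R] {r : ℕ}
    {x : Fin (r + 1) → R} (hx : Ideal.span (Set.range x) = maximalIdeal R)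
    (E : Type u) [AddCommGroup E] [Module R E]
    (h : x 0 ^ 0 ∈ Module.annihilator R E ⊔ Ideal.span (Set.range fun i : Fin r => x i.succ)) :
    Subsingleton E := by
  rw [pow_zero, ← Ideal.eq_top_iff_one] at h
  rw [← Module.annihilator_eq_top_iff (R := R)]
  by_contra hcon
  have h1 : Module.annihilator R E ≤ maximalIdeal R := le_maximalIdeal hcon
  have h2 : Ideal.span (Set.range fun i : Fin r => x i.succ) ≤ maximalIdeal R := by
    rw [← hx]
    refine Ideal.span_mono ?_
    rintro _ ⟨i, rfl⟩
    exact ⟨_, rfl⟩
  have h3 := sup_le h1 h2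
  rw [h] at h3
  exact (maximalIdeal.isMaximal R).ne_top (top_le_iff.1 h3)

/-- The local theorem by iterated blow-ups at the bad point. -/
theorem loc_rec (r h₁ h₂ : ℕ) (hh : r + 1 ≤ h₁ + h₂) (k : ℕ) :
    ∀ (R W : Type u) [CommRing R] [CommRing W] [IsRegularLocalRing R] [IsRegularLocalRing W]
      (j₁ j₂ : R →+* W) [IsLocalHom j₁] [IsLocalHom j₂], j₁.Flat → j₂.Flat →
      ringKrullDim R = ((r + 1 : ℕ) : WithBot ℕ∞) →
      ringKrullDim W = ((r + 1 : ℕ) : WithBot ℕ∞) →
      ∀ (x : Fin (r + 1) → R), Ideal.span (Set.range x) = maximalIdeal R →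
      (maximalIdeal R).map j₁ = maximalIdeal W → (maximalIdeal R).map j₂ = maximalIdeal W →
      j₁ (x 0) = j₂ (x 0) → ResidueField.map j₁ = ResidueField.map j₂ →
      ∀ (θ : Fin r → Fin r → W), (∀ i, j₂ (x i.succ) = ∑ l, θ i l * j₁ (x l.succ)) →
      OrthData (ResidueField.map j₁) (fun i l => residue W (θ i l)) →
      ∀ (E G : Type u) [AddCommGroup E] [Module R E] [Module.Finite R E] [AddCommGroup G]
        [Module R G] [Module.Finite R G],
      (∀ a, x 0 * a ∈ Module.annihilator R E → a ∈ Module.annihilator R E) →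
      (∀ a, x 0 * a ∈ Module.annihilator R G → a ∈ Module.annihilator R G) →
      VCond (x 0) (fun i : Fin r => x i.succ) (Module.annihilator R E) h₁ →
      VCond (x 0) (fun i : Fin r => x i.succ) (Module.annihilator R G) h₂ →
      (x 0 ^ k ∈ Module.annihilator R E ⊔ Ideal.span (Set.range fun i : Fin r => x i.succ) ∨
        x 0 ^ k ∈ Module.annihilator R G ⊔ Ideal.span (Set.range fun i : Fin r => x i.succ)) →
      EulAlong j₁ j₂ (r + 1) E G := by
  induction k with
  | zero =>
    intro R W _ _ _ _ j₁ j₂ _ _ _ _ _ _ x hx _ _ _ _ _ _ _ E G _ _ _ _ _ _ _ _ _ _ hk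
    rcases hk with hk | hk
    · have := subsingleton_of_pow_zero hx E hk
      exact eulAlong_of_left j₁ j₂ (r + 1) E G
    · have := subsingleton_of_pow_zero hx G hk
      exact eulAlong_of_right j₁ j₂ (r + 1) E G
  | succ k ih =>
    intro R W _ _ _ _ j₁ j₂ _ _ hf₁ hf₂ hdR hdW x hx hm₁ hm₂ h0 hres θ hθ horth E G _ _ _ _ _ _
      hE hG hVE hVG hk
    refine step_along j₁ j₂ hf₁ hf₂ hdR hdR hdW hx hx hm₁ hm₂ h0 θ hθ E G ?_ ?_ ?_
    · intro z hz hhom hz0 hX
      rw [← hres]
      exact height_orth_notMem horth z hhom hz0 hX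
    · intro z hz hhom hz0 hX hin₁ hin₂
      rw [← hres] at hin₂
      have p1 : (z.comap (jFun (ResidueField.map j₁)
        (fun i l => if i = l then (1 : ResidueField W) else 0))).IsPrime := Ideal.IsPrime.comap _
      have p2 : (z.comap (jFun (ResidueField.map j₁)
        (extM fun i l => residue W (θ i l)))).IsPrime := Ideal.IsPrime.comap _
      obtain ⟨i, hi⟩ : ∃ i : Fin r, MvPolynomial.X i.succ ∉ z := by
        obtain ⟨i, hi⟩ := hX
        induction i using Fin.cases with
        | zero => exact absurd hz0 hi
        | succ i => exact ⟨i, hi⟩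
      have e1 : ((h₁ : ℕ∞) + 1) ≤ (z.comap (jFun (ResidueField.map j₁)
          (fun i l => if i = l then (1 : ResidueField W) else 0))).height := by
        refine hVE.height_le hx hE _ ?_ ⟨i.succ, ?_⟩ hin₁
        · rw [jFun_one]
          change MvPolynomial.map _ (MvPolynomial.X 0) ∈ z
          rw [MvPolynomial.map_X]
          exact hz0
        · rw [jFun_one]
          change MvPolynomial.map _ (MvPolynomial.X i.succ) ∉ z
          rw [MvPolynomial.map_X]
          exact hi
      have e2 : ((h₂ : ℕ∞) + 1) ≤ (z.comap (jFun (ResidueField.map j₁)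
          (extM fun i l => residue W (θ i l)))).height := by
        refine hVG.height_le hx hG _ ?_ ?_ hin₂
        · change jFun _ _ (MvPolynomial.X 0) ∈ z
          rw [jFun_X, Fin.sum_univ_succ]
          simp only [extM_zero_zero, extM_zero_succ, map_one, one_mul, map_zero, zero_mul,
            Finset.sum_const_zero, add_zero]
          exact hz0
        · by_contra hcon
          push Not at hcon
          apply hi
          -- the inverse matrix
          have hxW : Ideal.span (Set.range fun l => j₁ (x l)) = maximalIdeal W := by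
            rw [← hm₁, ← hx, Ideal.map_span, ← Set.range_comp]
            rfl
          have hyW : Ideal.span (Set.range fun l => j₂ (x l)) = maximalIdeal W := by
            rw [← hm₂, ← hx, Ideal.map_span, ← Set.range_comp]
            rfl
          obtain ⟨θ', -, -, q3⟩ := exists_inverse hdW hxW hyW (extM θ) (by
            intro i
            rw [Fin.sum_univ_succ]
            refine Fin.cases ?_ (fun i => ?_) i
            · simp only [extM_zero_zero, extM_zero_succ, one_mul, zero_mul,
                Finset.sum_const_zero, add_zero]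
              exact h0.symm
            · simp only [extM_succ_zero, extM_succ_succ, zero_mul, zero_add]
              exact hθ i)
          have h6 : ∀ l, (if i.succ = l then (1 : ResidueField W) else 0) =
              ∑ m, residue W (θ' i.succ m) * residue W (extM θ m l) := by
            intro l
            have h7 := congrArg (residue W) (q3 i.succ l)
            rw [map_sum] at h7
            simp only [map_mul] at h7
            rw [h7]
            split_ifs <;> simp
          have h7 : ∀ m l, residue W (extM θ m l) = extM (fun i l => residue W (θ i l)) m l := by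
            intro m l
            refine Fin.cases ?_ (fun m => ?_) m
            · refine Fin.cases ?_ (fun l => ?_) l
              · simp
              · simp
            · refine Fin.cases ?_ (fun l => ?_) l
              · simp
              · simp
          have h8 : (MvPolynomial.X i.succ : MvPolynomial (Fin (r + 1)) (ResidueField W)) =
              ∑ m, MvPolynomial.C (residue W (θ' i.succ m)) *
                jFun (ResidueField.map j₁) (extM fun i l => residue W (θ i l))
                  (MvPolynomial.X m) := by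
            calc (MvPolynomial.X i.succ : MvPolynomial (Fin (r + 1)) (ResidueField W))
                = ∑ l, MvPolynomial.C (if i.succ = l then (1 : ResidueField W) else 0) *
                  MvPolynomial.X l := by
                  rw [Finset.sum_eq_single i.succ]
                  · simp
                  · intro l _ hl
                    simp [Ne.symm hl]
                  · simp
              _ = _ := by
                  simp only [h6, h7, map_sum, Finset.sum_mul, jFun_X, Finset.mul_sum, map_mul]
                  rw [Finset.sum_comm]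
                  refine Finset.sum_congr rfl fun m _ => Finset.sum_congr rfl fun l _ => ?_
                  rw [mul_assoc]
          rw [h8]
          exact Ideal.sum_mem _ fun m _ => Ideal.mul_mem_left _ _ (hcon m)
      have e3 := height_orth_mem horth z hz0 ⟨i, hi⟩
      have e4 := height_lt_of_homogeneous z hhom ⟨i.succ, hi⟩
      have e5 : z.height ≠ ⊤ := by
        intro htop
        rw [htop] at e4
        exact absurd (top_le_iff.1 e4) (by simp)
      obtain ⟨m, hm⟩ := ENat.ne_top_iff_exists.1 e5
      rw [← hm] at e3 e4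
      have e6 := (add_le_add e1 e2).trans e3
      have e7 : h₁ + 1 + (h₂ + 1) ≤ m + 2 := by exact_mod_cast e6
      have e8 : m + 1 ≤ r + 1 := by exact_mod_cast e4
      omega
    · intro Ω _ _ D
      have l₁ := D.l₁
      have l₂ := D.l₂
      obtain ⟨hregB, hdB⟩ := badRing_regular hdR hx
      have h1 := ih (BadRing hx) Ω D.k₁ D.k₂ D.f₁ D.f₂ hdB D.dimΩ (xBad hx) (span_xBad hx) D.m₁
        D.m₂ D.hT (D.res hres) (fun i l => D.a (θ i l)) D.hθ (D.orth horth) (BadSt hx E)
        (BadSt hx G) (badSt_reg hx E) (badSt_reg hx G)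
        (hVE.bad hx _ (badSt_annihilator hx E)) (hVG.bad hx _ (badSt_annihilator hx G))
        (hk.imp (badSt_pow hx E k) (badSt_pow hx G k))
      exact fun hlen => (h1 hlen).1

end Vale.Agent.P177
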