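import Vale.Agent.P177.FRoot
import Vale.Agent.P177.FRec

/-!
Preparations for the descent along the root of the fixed parameter.
-/

namespace Vale.Agent.P177

open IsLocalRing Function TensorProduct

universe u

section vcond

theorem VCondW.mono {R : Type u} [CommRing R] [IsLocalRing R] {r : ℕ} {y : R} {x : Fin r → R}
    {I : Ideal R} {h w w' : ℕ} (hV : VCondW y x I h w) (hw : w ∣ w') : VCondW y x I h w' := by
  intro O _ _ _ φ _ j z _ hker hy hxj hdiv hz hh
  obtain ⟨c, hc⟩ := hV O φ j z hker hy hxj hdiv hz hh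
  obtain ⟨m, rfl⟩ := hw
  refine ⟨c * m, ?_⟩
  rw [pow_mul, pow_mul]
  exact hc.pow_pow

theorem VCondW.root {R R' : Type u} [CommRing R] [IsLocalRing R] [CommRing R'] [IsLocalRing R']
    [Algebra R R'] [IsLocalHom (algebraMap R R')] {r : ℕ} {x : Fin r → R} {y : R} {τ : R'} {w : ℕ}
    (hw : w ≠ 0) (hτ : τ ^ w = algebraMap R R' y) {I : Ideal R} {h : ℕ} (hV : VCondW y x I h w)
    (J : Ideal R') (hJ : ∀ a ∈ I, algebraMap R R' a ∈ J) :
    VCond τ (fun i => algebraMap R R' (x i)) J h := by
  intro O _ _ _ φ' _ j z' _ hJker hτ0 hxj hdiv hz hh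
  let φ : R →+* O := φ'.comp (algebraMap R R')
  have hφ : IsLocalHom φ := RingHom.isLocalHom_comp _ _
  let κ : ResidueField R →+* ResidueField R' := ResidueField.map (algebraMap R R')
  let z : Ideal (MvPolynomial (Fin r) (ResidueField R)) := z'.comap (MvPolynomial.map κ)
  have hzp : z.IsPrime := Ideal.IsPrime.comap _
  have hle : z.height ≤ z'.height := by
    let _ : Algebra (ResidueField R) (ResidueField R') := κ.toAlgebra
    exact height_comap_hom (MvPolynomial.map κ) (flat_map_mvPolynomial (Fin r)) z'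
  have hφy : φ y = φ' τ ^ w := by
    change φ' (algebraMap R R' y) = _
    rw [← hτ, map_pow]
  obtain ⟨c, hc⟩ := hV O φ j z (fun a ha => hJker (hJ a ha)) (by
      rw [hφy]
      exact pow_ne_zero _ hτ0) hxj hdiv (by
      intro n F hF
      have h1 : F.map (residue R) ∈ z ↔
          (F.map (algebraMap R R')).map (residue R') ∈ z' := by
        change MvPolynomial.map κ (F.map (residue R)) ∈ z' ↔ _
        rw [MvPolynomial.map_map, MvPolynomial.map_map]
        have : κ.comp (residue R) = (residue R').comp (algebraMap R R') := by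
          ext a
          exact ResidueField.map_residue _ _
        rw [this]
      rw [h1, hz n _ (hF.map _)]
      have h2 : φ (MvPolynomial.eval x F) =
          φ' (MvPolynomial.eval (fun i : Fin r => algebraMap R R' (x i))
            (F.map (algebraMap R R'))) := by
        change φ' (algebraMap R _ (MvPolynomial.eval _ F)) = _
        congr 1
        rw [MvPolynomial.eval_map, ← MvPolynomial.aeval_def]
        exact (MvPolynomial.aeval_algebraMap_apply R' x F).symm
      rw [h2]
      rfl) ((add_le_add_left hle 1).trans hh)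
  refine ⟨c, ?_⟩
  have hc' : Associated ((φ' (algebraMap R R' (x j))) ^ w) ((φ' τ ^ c) ^ w) := by
    rw [← pow_mul, mul_comm c w, pow_mul, ← hφy]
    exact hc
  exact associated_of_dvd_dvd ((IsIntegrallyClosed.pow_dvd_pow_iff hw).1 hc'.dvd)
    ((IsIntegrallyClosed.pow_dvd_pow_iff hw).1 hc'.symm.dvd)

end vcond

section orth

theorem OrthData.transfer {k K k' K' : Type u} [Field k] [Field K] [Field k'] [Field K'] {r : ℕ}
    {κ : k →+* K} {θ : Fin r → Fin r → K} (h : OrthData κ θ) (κ' : k' →+* K') (σ : k →+* k')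
    (hσ : Surjective σ) (τ : K →+* K') (hc : κ'.comp σ = τ.comp κ) :
    OrthData κ' (fun i l => τ (θ i l)) := by
  obtain ⟨α, b, c, hinj, hb, hrel⟩ := h
  have hc' : ∀ a, κ' (σ a) = τ (κ a) := fun a => RingHom.congr_fun hc a
  refine ⟨fun p => τ (α p), fun i j => σ (b i j), fun i j => σ (c i j), ?_, ?_, ?_⟩
  · rw [injective_iff_map_eq_zero]
    intro F hF
    obtain ⟨F, rfl⟩ := MvPolynomial.map_surjective (σ := Fin r × Fin r) σ hσ F
    have h1 : ((MvPolynomial.eval₂Hom κ' fun p => τ (α p)).comp (MvPolynomial.map σ)) =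
        τ.comp (MvPolynomial.eval₂Hom κ α) := by
      apply MvPolynomial.ringHom_ext
      · intro a
        simp [hc']
      · intro p
        simp
    have h2 := RingHom.congr_fun h1 F
    rw [RingHom.comp_apply, hF, RingHom.comp_apply] at h2
    have h3 := (map_eq_zero_iff τ τ.injective).1 h2.symm
    rw [(map_eq_zero_iff _ hinj).1 h3, map_zero]
  · have h1 : Matrix.det (Matrix.of fun i j => σ (b i j)) = σ (Matrix.det (Matrix.of b)) := by
      rw [RingHom.map_det]
      rfl
    rw [h1]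
    exact hb.map σ
  · intro i m
    have h1 := congrArg τ (hrel i m)
    rw [map_sub, map_sum] at h1
    simp only [map_mul, map_sub, map_add, map_sum] at h1
    have hite : ∀ a b : Fin r, τ (if a = b then (1 : K) else 0) = if a = b then 1 else 0 := by
      intro a b
      split_ifs
      · exact map_one τ
      · exact map_zero τ
    simp only [hite, ← hc'] at h1
    exact h1

theorem res_eq_of_comp {A B A' B' : Type u} [CommRing A] [CommRing B] [CommRing A'] [CommRing B']
    [IsLocalRing A] [IsLocalRing B] [IsLocalRing A'] [IsLocalRing B'] (j₁ j₂ : A →+* B)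
    [IsLocalHom j₁] [IsLocalHom j₂] (k₁ k₂ : A' →+* B') [IsLocalHom k₁] [IsLocalHom k₂]
    (a : A →+* A') [IsLocalHom a] (b : B →+* B') [IsLocalHom b] (h₁ : k₁.comp a = b.comp j₁)
    (h₂ : k₂.comp a = b.comp j₂) (hs : Surjective (ResidueField.map a))
    (h : ResidueField.map j₁ = ResidueField.map j₂) :
    ResidueField.map k₁ = ResidueField.map k₂ := by
  ext z
  obtain ⟨z, rfl⟩ := hs z
  obtain ⟨z, rfl⟩ := residue_surjective z
  have e1 : k₁ (a z) = b (j₁ z) := RingHom.congr_fun h₁ z
  have e2 : k₂ (a z) = b (j₂ z) := RingHom.congr_fun h₂ z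
  have e3 : residue B (j₁ z) = residue B (j₂ z) := by
    have := RingHom.congr_fun h (residue A z)
    rwa [ResidueField.map_residue, ResidueField.map_residue] at this
  rw [ResidueField.map_residue, ResidueField.map_residue, ResidueField.map_residue, e1, e2,
    ← ResidueField.map_residue b, ← ResidueField.map_residue b, e3]

end orth

section powers

theorem pow_mem_sup {R : Type u} [CommRing R] [IsLocalRing R] [IsNoetherianRing R] (y : R)
    (X : Ideal R) (hyX : Ideal.span {y} ⊔ X = maximalIdeal R) (P : Ideal R) (hP : ¬ P ≤ X) :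
    ∃ k : ℕ, y ^ k ∈ P ⊔ X := by
  obtain ⟨p, hp, hpX⟩ := SetLike.not_le_iff_exists.1 hP
  have hXle : X ≤ maximalIdeal R := hyX ▸ le_sup_right
  have hX : X ≠ ⊤ := fun h => (maximalIdeal.isMaximal R).ne_top (top_le_iff.1 (h ▸ hXle))
  have hnt : Nontrivial (R ⧸ X) := Ideal.Quotient.nontrivial_iff.2 hX
  have hloc : IsLocalRing (R ⧸ X) :=
    IsLocalRing.of_surjective' (Ideal.Quotient.mk X) Ideal.Quotient.mk_surjective
  have hl : IsLocalHom (Ideal.Quotient.mk X) :=
    IsLocalHom.of_surjective _ Ideal.Quotient.mk_surjective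
  have hm : maximalIdeal (R ⧸ X) = Ideal.span {Ideal.Quotient.mk X y} := by
    have h1 : (maximalIdeal (R ⧸ X)).comap (Ideal.Quotient.mk X) = maximalIdeal R :=
      ((IsLocalRing.local_hom_TFAE (Ideal.Quotient.mk X)).out 0 4).mp hl
    rw [← Ideal.map_comap_of_surjective _ Ideal.Quotient.mk_surjective (maximalIdeal (R ⧸ X)), h1,
      ← hyX, Ideal.map_sup, Ideal.map_span, Set.image_singleton, Ideal.map_quotient_self,
      sup_bot_eq]
  have hp0 : Ideal.Quotient.mk X p ≠ 0 := fun h => hpX (Ideal.Quotient.eq_zero_iff_mem.1 h)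
  have hex : ∃ n : ℕ, Ideal.Quotient.mk X p ∉ maximalIdeal (R ⧸ X) ^ n := by
    by_contra hcon
    push Not at hcon
    have h1 := Ideal.iInf_pow_eq_bot_of_isLocalRing (maximalIdeal (R ⧸ X))
      (maximalIdeal.isMaximal _).ne_top
    have h2 : Ideal.Quotient.mk X p ∈ ⨅ n : ℕ, maximalIdeal (R ⧸ X) ^ n := by
      rw [Ideal.mem_iInf]
      exact hcon
    rw [h1, Ideal.mem_bot] at h2
    exact hp0 h2
  classical
  have hn := Nat.find_spec hex
  set n := Nat.find hex with hn'
  obtain ⟨k, hk⟩ : ∃ k, n = k + 1 := by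
    refine Nat.exists_eq_succ_of_ne_zero fun h0 => ?_
    rw [h0, pow_zero, Ideal.one_eq_top] at hn
    exact hn Submodule.mem_top
  have hk1 : Ideal.Quotient.mk X p ∈ maximalIdeal (R ⧸ X) ^ k := by
    by_contra hcon
    have := Nat.find_min' hex hcon
    omega
  rw [hm, Ideal.span_singleton_pow, Ideal.mem_span_singleton] at hk1
  obtain ⟨a, ha⟩ := hk1
  have hau : IsUnit a := by
    by_contra hcon
    have h1 : a ∈ maximalIdeal (R ⧸ X) := hcon
    rw [hm, Ideal.mem_span_singleton] at h1
    obtain ⟨b, rfl⟩ := h1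
    apply hn
    rw [hk, hm, Ideal.span_singleton_pow, Ideal.mem_span_singleton]
    exact ⟨b, by rw [ha]; ring⟩
  obtain ⟨u, hu⟩ := hau
  obtain ⟨v, hv⟩ := Ideal.Quotient.mk_surjective ((u⁻¹ : (R ⧸ X)ˣ) : R ⧸ X)
  refine ⟨k, ?_⟩
  have h1 : y ^ k - v * p ∈ X := by
    rw [← Ideal.Quotient.eq_zero_iff_mem, map_sub, map_mul, map_pow, hv, ha, ← hu]
    have : ((u⁻¹ : (R ⧸ X)ˣ) : R ⧸ X) * u = 1 := Units.inv_mul u
    linear_combination (-(Ideal.Quotient.mk X) y ^ k) * this
  have h2 := Ideal.add_mem _ (Ideal.mem_sup_right (S := P) h1)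
    (Ideal.mem_sup_left (T := X) (P.mul_mem_left v hp))
  rwa [sub_add_cancel] at h2

theorem exists_pow_mem {R W : Type u} [CommRing R] [CommRing W] [IsRegularLocalRing R]
    [IsRegularLocalRing W] (j₁ j₂ : R →+* W) (r : ℕ)
    (hdW : ringKrullDim W = ((r + 1 : ℕ) : WithBot ℕ∞)) (y : R) (x : Fin r → R)
    (hyx : Ideal.span {y} ⊔ Ideal.span (Set.range x) = maximalIdeal R)
    (hm₁ : (maximalIdeal R).map j₁ = maximalIdeal W)
    (θ : Fin r → Fin r → W) (hθ : ∀ i, j₂ (x i) = ∑ l, θ i l * j₁ (x l))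
    (P Q : Ideal R) (hrad : maximalIdeal W ≤ (P.map j₁ ⊔ Q.map j₂).radical) :
    ∃ k : ℕ, y ^ k ∈ P ⊔ Ideal.span (Set.range x) ∨ y ^ k ∈ Q ⊔ Ideal.span (Set.range x) := by
  by_cases h1 : P ≤ Ideal.span (Set.range x)
  swap
  · obtain ⟨k, hk⟩ := pow_mem_sup y _ hyx P h1
    exact ⟨k, Or.inl hk⟩
  by_cases h2 : Q ≤ Ideal.span (Set.range x)
  swap
  · obtain ⟨k, hk⟩ := pow_mem_sup y _ hyx Q h2
    exact ⟨k, Or.inr hk⟩
  exfalso
  let I : Ideal W := Ideal.span (Set.range fun l => j₁ (x l))
  have h3 : P.map j₁ ≤ I := by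
    refine (Ideal.map_mono h1).trans ?_
    rw [Ideal.map_span, ← Set.range_comp]
    exact le_rfl
  have h4 : Q.map j₂ ≤ I := by
    refine (Ideal.map_mono h2).trans ?_
    rw [Ideal.map_span, ← Set.range_comp, Ideal.span_le]
    rintro _ ⟨i, rfl⟩
    change j₂ (x i) ∈ I
    rw [hθ]
    exact Ideal.sum_mem _ fun l _ => Ideal.mul_mem_left _ _ (Ideal.subset_span ⟨l, rfl⟩)
  have h5 : maximalIdeal W ≤ I.radical := hrad.trans (Ideal.radical_mono (sup_le h3 h4))
  have h6 : I ≤ maximalIdeal W := by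
    rw [← hm₁, Ideal.span_le]
    rintro _ ⟨i, rfl⟩
    refine Ideal.mem_map_of_mem _ ?_
    rw [← hyx]
    exact Ideal.mem_sup_right (Ideal.subset_span ⟨i, rfl⟩)
  have h7 : maximalIdeal W ∈ I.minimalPrimes := by
    refine ⟨⟨inferInstance, h6⟩, ?_⟩
    intro q hq _
    exact h5.trans (hq.1.radical_le_iff.2 hq.2)
  have h8 := Ideal.height_le_spanRank_toENat_of_mem_minimalPrimes I (maximalIdeal W) h7
  have h9 : I.spanRank ≤ (r : Cardinal) := by
    refine (Submodule.spanRank_span_le_card _).trans ?_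
    have h := Cardinal.mk_range_le_lift (f := fun l => j₁ (x l))
    rw [Cardinal.mk_fin, Cardinal.lift_natCast, Cardinal.lift_id'.{0, u}] at h
    exact h
  have h10 : (maximalIdeal W).height = ((r + 1 : ℕ) : ℕ∞) := by
    have h1 := IsLocalRing.maximalIdeal_height_eq_ringKrullDim (R := W)
    rw [hdW] at h1
    exact_mod_cast h1
  rw [h10] at h8
  have h11 : Cardinal.toENat I.spanRank ≤ (r : ℕ∞) := by
    have := Cardinal.toENat.monotone' h9
    simpa using this
  have h12 : r + 1 ≤ r := by exact_mod_cast h8.trans h11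
  omega

end powers

section fibre

theorem length_root_fibre {A : Type u} [CommRing A] [IsLocalRing A] [IsNoetherianRing A] {w : ℕ}
    (hw : w ≠ 0) {y : A} (hy : y ∈ maximalIdeal A) [IsLocalRing (Root w y)] :
    Module.length (Root w y)
      (Root w y ⧸ (maximalIdeal A).map (algebraMap A (Root w y))) ≠ ⊤ := by
  have hN : IsNoetherianRing (Root w y) := root_noetherian hw
  obtain ⟨_, hm⟩ := root_local hw hy
  have h1 : maximalIdeal (Root w y) ≤
      ((maximalIdeal A).map (algebraMap A (Root w y))).radical := by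
    rw [← hm]
    refine sup_le ?_ Ideal.le_radical
    rw [Ideal.span_singleton_le_iff_mem]
    refine ⟨w, ?_⟩
    rw [rt_pow]
    exact Ideal.mem_map_of_mem _ hy
  rw [Module.length_ne_top_iff]
  obtain ⟨k, hk⟩ := Ideal.exists_pow_le_of_le_radical_of_fg h1 (IsNoetherian.noetherian _)
  refine isFiniteLength_of_pow_smul_eq_zero k fun a ha z => ?_
  obtain ⟨z, rfl⟩ := Ideal.Quotient.mk_surjective z
  change Ideal.Quotient.mk _ (a * z) = 0
  rw [Ideal.Quotient.eq_zero_iff_mem]
  exact Ideal.mul_mem_right _ _ (hk ha)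

theorem residue_root_surjective {A : Type u} [CommRing A] [IsLocalRing A] {w : ℕ}
    (hw : w ≠ 0) {y : A} (hy : y ∈ maximalIdeal A) [IsLocalRing (Root w y)]
    [IsLocalHom (algebraMap A (Root w y))] :
    Surjective (ResidueField.map (algebraMap A (Root w y))) := by
  intro z
  obtain ⟨z, rfl⟩ := residue_surjective z
  obtain ⟨a, c, rfl⟩ := root_mem w y z
  obtain ⟨_, hm⟩ := root_local hw hy
  have h1 : rt w y ∈ maximalIdeal (Root w y) := by
    rw [← hm]
    exact Ideal.mem_sup_left (Ideal.mem_span_singleton_self _)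
  refine ⟨residue A a, ?_⟩
  rw [ResidueField.map_residue, map_add, map_mul, (residue_eq_zero_iff _).2 h1, zero_mul, add_zero]

end fibre

end Vale.Agent.P177
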