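import Vale.Agent.P177.CPack

/-!
The local ring of the chart, compared with the extended Rees algebra.
-/

namespace Vale.Agent.P177

open IsLocalRing Function TensorProduct

universe u

section omega

open LaurentPolynomial

variable {A : Type u} [CommRing A] {d : ℕ} {x : Fin d → A} (c : Fin d → A)

variable [IsRegularLocalRing A] (hd : ringKrullDim A = d)
  (hx : Ideal.span (Set.range x) = maximalIdeal A)

include hd in
theorem exists_omega' (P : Ideal (Chart x c)) [hP : P.IsMaximal]
    (hmP : ∀ a ∈ maximalIdeal A, algebraMap A (Chart x c) a ∈ P) :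
    ∃ (Ω : Type u) (_ : CommRing Ω) (_ : IsRegularLocalRing Ω)
      (_ : Algebra (Localization.AtPrime P) Ω) (_ : Module.Flat (Localization.AtPrime P) Ω)
      (ρ : ERees x →+* Ω) (q : Ideal (MvPolynomial (Fin d) (ResidueField A))) (_ : q.IsPrime),
      (maximalIdeal (Localization.AtPrime P)).map (algebraMap (Localization.AtPrime P) Ω) =
        maximalIdeal Ω ∧
      ringKrullDim Ω = ((q.height + 1 : ℕ∞) : WithBot ℕ∞) ∧
      (∀ f ∈ q, ∀ n, MvPolynomial.homogeneousComponent n f ∈ q) ∧
      (∃ i, MvPolynomial.X i ∉ q) ∧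
      (∀ a : A, algebraMap (Localization.AtPrime P) Ω
        (algebraMap (Chart x c) _ (algebraMap A _ a)) = ρ (algebraMap A _ a)) ∧
      (∃ u : Ωˣ, algebraMap (Localization.AtPrime P) Ω
        (algebraMap (Chart x c) _ (algebraMap A _ (x0 x c))) = u * ρ (eT x)) ∧
      ρ.Flat ∧ (maximalIdeal Ω).comap ρ = q.comap (eRes hx) ∧
      (q.comap (eRes hx)).map ρ = maximalIdeal Ω := by
  have hPp : P.IsPrime := hP.isPrime
  let Q : Ideal (LaurentPolynomial (Chart x c)) := lExt P
  have hcomap : P = Q.comap (C : Chart x c →+* _) := lExt_comap P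
  let Ω := Localization.AtPrime Q
  let f : Localization.AtPrime P →+* Ω := Localization.localRingHom P Q C hcomap
  let _ : Algebra (Localization.AtPrime P) Ω := f.toAlgebra
  have hf : ∀ s : Chart x c, f (algebraMap _ _ s) = algebraMap _ Ω (C s) := fun s =>
    Localization.localRingHom_to_map P Q C hcomap s
  have htow : IsScalarTower (Chart x c) (Localization.AtPrime P) Ω :=
    IsScalarTower.of_algebraMap_eq fun s => (hf s).symm
  have hflat : Module.Flat (Localization.AtPrime P) Ω :=
    (Module.flat_iff_of_isLocalization (Localization.AtPrime P) P.primeCompl Ω).2 inferInstance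
  -- the extended Rees algebra
  let _ : Algebra (ERees x) (LaurentPolynomial (Chart x c)) := (chartPhi x c).toAlgebra
  have hloc : IsLocalization.Away (eXi x c) (LaurentPolynomial (Chart x c)) :=
    chart_isLocalization x c
  let ρ : ERees x →+* Ω := (algebraMap (LaurentPolynomial (Chart x c)) Ω).comp (chartPhi x c)
  have hρ : algebraMap (ERees x) Ω = ρ := IsScalarTower.algebraMap_eq _ _ _
  let 𝔓 : Ideal (ERees x) := Q.comap (chartPhi x c)
  have h𝔓 : 𝔓.IsPrime := inferInstance
  have hlocP : IsLocalization.AtPrime Ω 𝔓 :=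
    IsLocalization.isLocalization_isLocalization_atPrime_isLocalization
      (Submonoid.powers (eXi x c)) Ω Q
  have hT𝔓 : eT x ∈ 𝔓 := by
    change chartPhi x c (eT x) ∈ Q
    rw [chartPhi_eT]
    exact Ideal.mul_mem_right _ _ (Ideal.mem_map_of_mem _ (hmP _ (x0_mem hx c)))
  obtain ⟨q, hq, h𝔓q⟩ := exists_comap_eRes hx 𝔓 hT𝔓
  obtain ⟨hreg, hht, -⟩ := eRees_regular_aux hd hx q
  have hregΩ : IsRegularLocalRing Ω := by
    have : IsRegularLocalRing (Localization.AtPrime 𝔓) := by
      have : ∀ (J : Ideal (ERees x)) [J.IsPrime], J = q.comap (eRes hx) →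
          IsRegularLocalRing (Localization.AtPrime J) := by
        rintro J hJ rfl
        exact hreg
      exact this 𝔓 h𝔓q
    let e : Localization.AtPrime 𝔓 ≃+* Ω :=
      (IsLocalization.algEquiv 𝔓.primeCompl (Localization.AtPrime 𝔓) Ω).toRingEquiv
    exact IsRegularLocalRing.of_ringEquiv (R := Localization.AtPrime 𝔓) (R' := Ω) e
  have hmem : ∀ F : ERees x, F ∈ 𝔓 ↔ eRes hx F ∈ q := fun F => by rw [h𝔓q]; rfl
  have hξ : eXi x c ∉ 𝔓 := by
    intro h
    have h1 : chartPhi x c (eXi x c) ∈ Q := h
    rw [chartPhi_eXi] at h1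
    exact (inferInstance : Q.IsPrime).ne_top (Ideal.eq_top_of_isUnit_mem _ h1 (isUnit_T 1))
  refine ⟨Ω, inferInstance, hregΩ, inferInstance, hflat, ρ, q, hq, ?_, ?_, ?_, ?_, ?_, ?_, ?_, ?_,
    ?_⟩
  · rw [← Localization.AtPrime.map_eq_maximalIdeal, Ideal.map_map,
      ← Localization.AtPrime.map_eq_maximalIdeal]
    change _ = (lExt P).map _
    unfold lExt
    rw [Ideal.map_map]
    congr 1
    ext s : 1
    exact hf s
  · rw [← hht, ← h𝔓q]
    exact IsLocalization.AtPrime.ringKrullDim_eq_height 𝔓 Ω
  · intro g hg n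
    obtain ⟨G, hG⟩ := MvPolynomial.map_surjective (residue A) residue_surjective g
    have h1 : MvPolynomial.aeval (eY x) G ∈ 𝔓 := by
      rw [hmem, eRes_aeval, hG]
      exact hg
    have h2 : ∑ i ∈ Finset.range (G.totalDegree + 1), (C (MvPolynomial.aeval (cY x c)
        (MvPolynomial.homogeneousComponent i G)) * T i : LaurentPolynomial (Chart x c)) ∈ Q := by
      have h3 : ∑ i ∈ Finset.range (G.totalDegree + 1), (C (MvPolynomial.aeval (cY x c)
          (MvPolynomial.homogeneousComponent i G)) * T i : LaurentPolynomial (Chart x c)) =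
          chartPhi x c (MvPolynomial.aeval (eY x) G) := by
        conv_rhs => rw [← MvPolynomial.sum_homogeneousComponent G]
        rw [map_sum, map_sum]
        refine Finset.sum_congr rfl fun i _ => ?_
        rw [chartPhi_aeval c _ i (MvPolynomial.homogeneousComponent_isHomogeneous i G)]
      rw [h3]
      exact h1
    have h3 := coeff_mem_of_sum_mem P _ _ h2
    have h4 : MvPolynomial.homogeneousComponent n g =
        (MvPolynomial.homogeneousComponent n G).map (residue A) := by
      rw [← hG]
      ext m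
      rw [MvPolynomial.coeff_map, MvPolynomial.coeff_homogeneousComponent,
        MvPolynomial.coeff_homogeneousComponent]
      split_ifs
      · rw [MvPolynomial.coeff_map]
      · rw [map_zero]
    rw [h4, ← eRes_aeval hx, ← hmem]
    change chartPhi x c _ ∈ Q
    rw [chartPhi_aeval c _ n (MvPolynomial.homogeneousComponent_isHomogeneous n G)]
    refine Ideal.mul_mem_right _ _ (Ideal.mem_map_of_mem _ ?_)
    by_cases hn : n < G.totalDegree + 1
    · exact h3 n hn
    · rw [MvPolynomial.homogeneousComponent_eq_zero n G (by omega), map_zero]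
      exact zero_mem _
  · by_contra hcon
    push Not at hcon
    apply hξ
    rw [hmem]
    unfold eXi
    rw [map_sum]
    refine Ideal.sum_mem _ fun i _ => ?_
    rw [map_mul, eRes_eY]
    exact Ideal.mul_mem_left _ _ (hcon i)
  · intro a
    change f (algebraMap _ _ (algebraMap A (Chart x c) a)) = ρ (algebraMap A _ a)
    rw [hf, RingHom.comp_apply, chartPhi_algebraMap]
  · have hu : IsUnit (ρ (eXi x c)) := by
      rw [← hρ]
      exact IsLocalization.map_units Ω (⟨eXi x c, hξ⟩ : 𝔓.primeCompl)
    refine ⟨hu.unit, ?_⟩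
    change f (algebraMap _ _ (algebraMap A (Chart x c) (x0 x c))) = ρ (eXi x c) * ρ (eT x)
    rw [← map_mul, mul_comm, ← algebraMap_x0, RingHom.comp_apply, chartPhi_algebraMap, hf]
  · have h1 : Module.Flat (ERees x) (LaurentPolynomial (Chart x c)) :=
      IsLocalization.flat _ (Submonoid.powers (eXi x c))
    have h2 : Module.Flat (ERees x) Ω := Module.Flat.trans _ (LaurentPolynomial (Chart x c)) _
    rw [← hρ]
    exact RingHom.flat_algebraMap_iff.2 h2
  · rw [← h𝔓q]
    change (maximalIdeal Ω).comap ((algebraMap (LaurentPolynomial (Chart x c)) Ω).comp _) = _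
    rw [← Ideal.comap_comap]
    exact congrArg (Ideal.comap (chartPhi x c)) Localization.AtPrime.under_maximalIdeal
  · rw [← h𝔓q, ← hρ]
    exact IsLocalization.AtPrime.map_eq_maximalIdeal 𝔓 Ω

end omega

end Vale.Agent.P177
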