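import Vale.Agent.P177.FVH

/-!
The condition on valuations, up to a power.
-/

namespace Vale.Agent.P177

open IsLocalRing Function

universe u

/-- Weak form of the condition on valuations, with an exponent. -/
def VCondW {R : Type u} [CommRing R] [IsLocalRing R] {r : ℕ} (y : R) (x : Fin r → R)
    (I : Ideal R) (h w : ℕ) : Prop :=
  ∀ (O : Type u) [CommRing O] [IsDomain O] [ValuationRing O] (φ : R →+* O) [IsLocalHom φ]
    (j : Fin r) (z : Ideal (MvPolynomial (Fin r) (ResidueField R))) [z.IsPrime],
    I ≤ RingHom.ker φ → φ y ≠ 0 → φ (x j) ≠ 0 → (∀ i, φ (x j) ∣ φ (x i)) →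
    (∀ (n : ℕ) (F : MvPolynomial (Fin r) R), F.IsHomogeneous n →
      (F.map (residue R) ∈ z ↔ ∃ m ∈ maximalIdeal O,
        φ (MvPolynomial.eval x F) = φ (x j) ^ n * m)) →
    z.height + 1 ≤ h → ∃ c : ℕ, Associated (φ (x j) ^ w) (φ y ^ c)

section

variable {R O : Type u} [CommRing R] [IsRegularLocalRing R] [CommRing O] [IsDomain O]
    [ValuationRing O] (φ : R →+* O) [IsLocalHom φ] {r : ℕ} (x : Fin (r + 1) → R)
    (j : Fin (r + 1)) (u : Fin (r + 1) → O) (hu : ∀ i, φ (x i) = φ (x j) * u i)
    (hxj : φ (x j) ≠ 0)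

/-- The map defined by the quotients of the values. -/
noncomputable def phiU : MvPolynomial (Fin r) R →+* O :=
  MvPolynomial.eval₂Hom φ (fun i => u (j.succAbove i))

omit [IsRegularLocalRing R] [IsDomain O] [ValuationRing O] [IsLocalHom φ] in
@[simp] theorem phiU_C (a : R) : phiU φ j u (MvPolynomial.C a) = φ a :=
  MvPolynomial.eval₂_C _ _ _

omit [IsRegularLocalRing R] [IsDomain O] [ValuationRing O] [IsLocalHom φ] in
@[simp] theorem phiU_X (i : Fin r) : phiU φ j u (MvPolynomial.X i) = u (j.succAbove i) :=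
  MvPolynomial.eval₂_X _ _ _

/-- The map modulo the maximal ideals. -/
noncomputable def phiR : MvPolynomial (Fin r) (ResidueField R) →+* ResidueField O :=
  MvPolynomial.eval₂Hom (ResidueField.map φ) (fun i => residue O (u (j.succAbove i)))

theorem comap_phiU : (maximalIdeal O).comap (phiU φ j u) =
    (RingHom.ker (phiR φ j u)).comap (MvPolynomial.map (residue R)) := by
  have h : (residue O).comp (phiU φ j u) =
      (phiR φ j u).comp (MvPolynomial.map (residue R)) := by
    apply MvPolynomial.ringHom_ext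
    · intro a
      simp [phiR]
    · intro i
      simp [phiR]
  ext F
  change phiU φ j u F ∈ maximalIdeal O ↔ phiR φ j u (MvPolynomial.map (residue R) F) = 0
  rw [← residue_eq_zero_iff]
  change (residue O).comp (phiU φ j u) F = 0 ↔ _
  rw [h]
  rfl

omit [IsRegularLocalRing R] [ValuationRing O] [IsLocalHom φ] in
include hu hxj in
theorem u_same : u j = 1 := by
  have h := hu j
  exact (mul_left_cancel₀ hxj (by rw [mul_one]; exact h)).symm

include hu hxj in
theorem height_ker_phiR (z : Ideal (MvPolynomial (Fin (r + 1)) (ResidueField R))) [z.IsPrime]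
    (hz : ∀ (n : ℕ) (F : MvPolynomial (Fin (r + 1)) R), F.IsHomogeneous n →
      (F.map (residue R) ∈ z ↔ ∃ m ∈ maximalIdeal O,
        φ (MvPolynomial.eval x F) = φ (x j) ^ n * m)) :
    (RingHom.ker (phiR φ j u)).height ≤ z.height := by
  have hp : (RingHom.ker (phiR φ j u)).IsPrime := RingHom.ker_isPrime _
  refine height_le_of_dehom j z _ fun n F' hF' hmem => ?_
  obtain ⟨F₀, hF₀⟩ := MvPolynomial.map_surjective (σ := Fin (r + 1)) (residue R)
    residue_surjective F'
  let F := MvPolynomial.homogeneousComponent n F₀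
  have hF : F.IsHomogeneous n := MvPolynomial.homogeneousComponent_isHomogeneous n F₀
  have hFF : MvPolynomial.map (residue R) F = F' := by
    ext m
    rw [MvPolynomial.coeff_map, MvPolynomial.coeff_homogeneousComponent]
    split_ifs with hm
    · rw [← MvPolynomial.coeff_map, hF₀]
    · rw [map_zero]
      by_contra hne
      exact hm (hF'.degree_eq_sum_deg_support (MvPolynomial.mem_support_iff.2 (Ne.symm hne))).symm
  rw [← hFF, hz n F hF]
  have h1 : φ (MvPolynomial.eval x F) = φ (x j) ^ n * MvPolynomial.eval₂ φ u F := by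
    let _ : Algebra R O := φ.toAlgebra
    have h2 := aeval_mul_of_isHomogeneous (A := R) (φ (x j)) u F n hF
    have h3 : MvPolynomial.aeval (R := R) (fun i => φ (x j) * u i) F =
        φ (MvPolynomial.eval x F) := by
      have : (fun i => φ (x j) * u i) = fun i => algebraMap R O (x i) := by
        funext i
        exact (hu i).symm
      rw [this]
      exact MvPolynomial.aeval_algebraMap_apply O x F
    rw [h3] at h2
    exact h2
  refine ⟨MvPolynomial.eval₂ φ u F, ?_, h1⟩
  rw [← residue_eq_zero_iff]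
  have h2 : ∀ G : MvPolynomial (Fin (r + 1)) R, residue O (MvPolynomial.eval₂ φ u G) =
      phiR φ j u (MvPolynomial.aeval (eJ j) (MvPolynomial.map (residue R) G)) := by
    intro G
    have h3 : (residue O).comp (MvPolynomial.eval₂Hom φ u) = ((phiR φ j u).comp
        ((MvPolynomial.aeval (eJ j) : MvPolynomial (Fin (r + 1)) (ResidueField R) →ₐ[ResidueField R]
          MvPolynomial (Fin r) (ResidueField R)) : _ →+* _)).comp
        (MvPolynomial.map (residue R)) := by
      apply MvPolynomial.ringHom_ext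
      · intro a
        simp [phiR]
      · intro i
        refine Fin.succAboveCases j ?_ (fun i => ?_) i
        · simp [phiR, u_same φ x j u hu hxj]
        · simp [phiR]
    exact RingHom.congr_fun h3 G
  rw [h2, hFF]
  exact hmem

omit [IsRegularLocalRing R] [ValuationRing O] [IsLocalHom φ] in
include hu hxj in
theorem height_ker_phiU : (RingHom.ker φ).height + r ≤ (RingHom.ker (phiU φ j u)).height := by
  have hp : (RingHom.ker (phiU φ j u)).IsPrime := RingHom.ker_isPrime _
  have h := height_linear r (RingHom.ker (phiU φ j u)) (x j) (by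
    rw [RingHom.mem_ker, phiU_C]
    exact hxj) (fun i => ⟨x (j.succAbove i), by
      rw [RingHom.mem_ker, map_sub, map_mul, phiU_C, phiU_C, phiU_X, hu (j.succAbove i), sub_self]⟩)
  refine le_trans (le_of_eq ?_) h
  congr 2
  ext a
  change φ a = 0 ↔ phiU φ j u (MvPolynomial.C a) = 0
  rw [phiU_C]

end

theorem exists_VCondW {R : Type u} [CommRing R] [IsRegularLocalRing R] (r : ℕ)
    (hd : ringKrullDim R = ((r + 1 : ℕ) : WithBot ℕ∞)) (y : R) (x : Fin r → R)
    (hy : y ∈ maximalIdeal R) (hx : ∀ i, x i ∈ maximalIdeal R)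
    (P : Ideal R) [P.IsPrime] (hyP : y ∉ P) (h : ℕ) (hh : P.height = h) :
    ∃ w, 1 ≤ w ∧ VCondW y x P h w := by
  classical
  rcases r with _ | r
  · exact ⟨1, le_rfl, fun O _ _ _ φ _ j => j.elim0⟩
  have hmain : ∀ j : Fin (r + 1), ∃ w, 1 ≤ w ∧ ∀ (O : Type u) [CommRing O] [IsDomain O]
      [ValuationRing O] (φ : R →+* O) [IsLocalHom φ]
      (z : Ideal (MvPolynomial (Fin (r + 1)) (ResidueField R))) [z.IsPrime],
      P ≤ RingHom.ker φ → φ y ≠ 0 → φ (x j) ≠ 0 → (∀ i, φ (x j) ∣ φ (x i)) →
      (∀ (n : ℕ) (F : MvPolynomial (Fin (r + 1)) R), F.IsHomogeneous n →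
        (F.map (residue R) ∈ z ↔ ∃ m ∈ maximalIdeal O,
          φ (MvPolynomial.eval x F) = φ (x j) ^ n * m)) →
      z.height + 1 ≤ h → ∃ c : ℕ, Associated (φ (x j) ^ w) (φ y ^ c) := by
    intro j
    by_cases hjP : x j ∈ P
    · refine ⟨1, le_rfl, ?_⟩
      intro O _ _ _ φ _ z _ hker _ hxj
      exact absurd (hker hjP) hxj
    let K := FractionRing (R ⧸ P)
    let ι₀ : R →+* K := (algebraMap (R ⧸ P) K).comp (Ideal.Quotient.mk P)
    have hι₀ : ∀ a, ι₀ a = 0 ↔ a ∈ P := fun a => by
      change algebraMap (R ⧸ P) K (Ideal.Quotient.mk P a) = 0 ↔ a ∈ P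
      rw [map_eq_zero_iff _ (IsFractionRing.injective (R ⧸ P) K), Ideal.Quotient.eq_zero_iff_mem]
    let ψ : MvPolynomial (Fin r) R →+* K :=
      MvPolynomial.eval₂Hom ι₀ (fun i => ι₀ (x (j.succAbove i)) / ι₀ (x j))
    have hψC : ∀ a, ψ (MvPolynomial.C a) = ι₀ a := fun a => MvPolynomial.eval₂_C _ _ _
    have hψX : ∀ i, ψ (MvPolynomial.X i) = ι₀ (x (j.succAbove i)) / ι₀ (x j) := fun i =>
      MvPolynomial.eval₂_X _ _ _
    have hKp : (RingHom.ker ψ).IsPrime := RingHom.ker_isPrime _
    obtain ⟨w, hw, hW⟩ := exists_weight (RingHom.ker ψ) (MvPolynomial.C (x j))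
      (MvPolynomial.C y) (by
        rw [RingHom.mem_ker, hψC, hι₀]
        exact hjP) (by
        rw [RingHom.mem_ker, hψC, hι₀]
        exact hyP)
    refine ⟨w, hw, ?_⟩
    intro O _ _ _ φ _ z _ hker hφy hxj hdiv hz hzh
    choose u hu using hdiv
    have hkp : (RingHom.ker φ).IsPrime := RingHom.ker_isPrime _
    have hkUp : (RingHom.ker (phiU φ j u)).IsPrime := RingHom.ker_isPrime _
    have hkRp : (RingHom.ker (phiR φ j u)).IsPrime := RingHom.ker_isPrime _
    have hcp : ((maximalIdeal O).comap (phiU φ j u)).IsPrime := Ideal.IsPrime.comap _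
    have e1 := height_ker_phiR φ x j u hu hxj z hz
    have e2 := height_le_residue _ _ (comap_phiU φ j u)
    have e3 := height_ker_phiU φ x j u hu hxj
    have hφm : ∀ a ∈ maximalIdeal R, φ a ∈ maximalIdeal O := fun a ha => by
      have hloc : IsLocalHom φ := inferInstance
      have h2 := ((IsLocalRing.local_hom_TFAE φ).out 0 2).mp hloc
      exact h2 (Ideal.mem_map_of_mem _ ha)
    have hleU : RingHom.ker (phiU φ j u) ≤ (maximalIdeal O).comap (phiU φ j u) := by
      intro F hF
      change phiU φ j u F ∈ maximalIdeal O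
      rw [RingHom.mem_ker.1 hF]
      exact zero_mem _
    have hlt : RingHom.ker (phiU φ j u) < (maximalIdeal O).comap (phiU φ j u) := by
      refine lt_of_le_of_ne hleU ?_
      intro hcon
      have h1 : (MvPolynomial.C y : MvPolynomial (Fin r) R) ∈
          (maximalIdeal O).comap (phiU φ j u) := by
        change phiU φ j u (MvPolynomial.C y) ∈ maximalIdeal O
        rw [phiU_C]
        exact hφm y hy
      rw [← hcon, RingHom.mem_ker, phiU_C] at h1
      exact hφy h1
    have e4 := Ideal.height_add_one_le_of_lt_of_isPrime hlt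
    have hmR : (maximalIdeal R).height = ((r + 2 : ℕ) : ℕ∞) := by
      have h1 := IsLocalRing.maximalIdeal_height_eq_ringKrullDim (R := R)
      rw [hd] at h1
      exact_mod_cast h1
    rw [hmR] at e2
    have e5 : ((maximalIdeal O).comap (phiU φ j u)).height ≤ ((r + 1 + h : ℕ) : ℕ∞) := by
      refine e2.trans ?_
      have h1 : (((r + 2 : ℕ) : ℕ∞) + (RingHom.ker (phiR φ j u)).height) ≤
          ((r + 1 : ℕ) : ℕ∞) + (z.height + 1) := by
        have : ((r + 2 : ℕ) : ℕ∞) = ((r + 1 : ℕ) : ℕ∞) + 1 := by push_cast; ring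
        rw [this, add_assoc, add_comm (1 : ℕ∞)]
        gcongr
      refine h1.trans ?_
      rw [Nat.cast_add (r + 1) h]
      gcongr
    have hPle : P.height ≤ (RingHom.ker φ).height := Ideal.height_mono hker
    rw [hh] at hPle
    have hP'fin : (RingHom.ker φ).height ≠ ⊤ := Ideal.height_ne_top_of_isPrime
    obtain ⟨p', hp'⟩ := ENat.ne_top_iff_exists.1 hP'fin
    have hUfin : (RingHom.ker (phiU φ j u)).height ≠ ⊤ := Ideal.height_ne_top_of_isPrime
    obtain ⟨v, hv⟩ := ENat.ne_top_iff_exists.1 hUfin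
    rw [← hp', ← hv] at e3
    rw [← hv] at e4
    rw [← hp'] at hPle
    have f1 : p' + r ≤ v := by exact_mod_cast e3
    have f2 : v + 1 ≤ r + 1 + h := by exact_mod_cast e4.trans e5
    have f3 : h ≤ p' := by exact_mod_cast hPle
    have hPeq : P = RingHom.ker φ := by
      by_contra hne
      have h1 := Ideal.height_add_one_le_of_lt_of_isPrime (lt_of_le_of_ne hker hne)
      rw [hh, ← hp'] at h1
      have h2 : h + 1 ≤ p' := by exact_mod_cast h1
      omega
    have hkereq : RingHom.ker (phiU φ j u) = RingHom.ker ψ := by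
      let L := FractionRing O
      let φ₁ : R ⧸ P →+* O := Ideal.Quotient.lift P φ fun a ha => hker ha
      have hφ₁ : Injective φ₁ := by
        rw [injective_iff_map_eq_zero]
        intro a ha
        obtain ⟨a, rfl⟩ := Ideal.Quotient.mk_surjective a
        rw [Ideal.Quotient.eq_zero_iff_mem, hPeq]
        exact ha
      have hinj : Injective ((algebraMap O L).comp φ₁) := (IsFractionRing.injective O L).comp hφ₁
      let ι₁ : K →+* L := IsFractionRing.lift hinj
      have hι₁ : ∀ a, ι₁ (ι₀ a) = algebraMap O L (φ a) := fun a =>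
        IsFractionRing.lift_algebraMap hinj (Ideal.Quotient.mk P a)
      have hcomp : (algebraMap O L).comp (phiU φ j u) = ι₁.comp ψ := by
        apply MvPolynomial.ringHom_ext
        · intro a
          rw [RingHom.comp_apply, RingHom.comp_apply, phiU_C, hψC, hι₁]
        · intro i
          rw [RingHom.comp_apply, RingHom.comp_apply, phiU_X, hψX, map_div₀, hι₁, hι₁,
            hu (j.succAbove i), map_mul]
          have h1 : algebraMap O L (φ (x j)) ≠ 0 := by
            rw [Ne, map_eq_zero_iff _ (IsFractionRing.injective O L)]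
            exact hxj
          exact (mul_div_cancel_left₀ _ h1).symm
      ext F
      rw [RingHom.mem_ker, RingHom.mem_ker, ← map_eq_zero_iff _ (IsFractionRing.injective O L),
        ← RingHom.comp_apply, hcomp, RingHom.comp_apply, map_eq_zero_iff _ ι₁.injective]
    obtain ⟨c, hc⟩ := hW O (phiU φ j u) hkereq (by
        change phiU φ j u (MvPolynomial.C (x j)) ∈ maximalIdeal O
        rw [phiU_C]
        exact hφm _ (hx j)) (by
        change phiU φ j u (MvPolynomial.C y) ∈ maximalIdeal O
        rw [phiU_C]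
        exact hφm y hy) (by
        intro q hq h1 h2
        rw [← hkereq] at h1 ⊢
        by_contra hcon
        push Not at hcon
        have h3 := Ideal.height_add_one_le_of_lt_of_isPrime (lt_of_le_of_ne h1 (Ne.symm hcon.1))
        have h4 := Ideal.height_add_one_le_of_lt_of_isPrime (lt_of_le_of_ne h2 hcon.2)
        have h5 := ((add_le_add_left h3 1).trans h4).trans e5
        rw [← hv] at h5
        have h6 : v + 1 + 1 ≤ r + 1 + h := by exact_mod_cast h5
        omega)
    rw [phiU_C, phiU_C] at hc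
    exact ⟨c, hc⟩
  choose w hw hW using hmain
  refine ⟨∏ j, w j, Nat.succ_le_of_lt (Finset.prod_pos fun j _ => hw j), ?_⟩
  intro O _ _ _ φ _ j z _ hker hφy hxj hdiv hz hzh
  obtain ⟨c, hc⟩ := hW j O φ z hker hφy hxj hdiv hz hzh
  obtain ⟨m, hm⟩ := Finset.dvd_prod_of_mem w (Finset.mem_univ j)
  refine ⟨c * m, ?_⟩
  rw [hm, pow_mul, pow_mul]
  exact hc.pow_pow

end Vale.Agent.P177
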