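import Vale.Agent.P177.EGonfB
import Vale.Agent.P177.FVW

/-!
Adjoining a root of a regular parameter.
-/

namespace Vale.Agent.P177

open IsLocalRing Function RingTheory.Sequence

universe u

section ring

variable {A : Type u} [CommRing A] (w : ℕ) (y : A)

/-- Adjoining a root of order `w` of `y`. -/
abbrev Root : Type u := AdjoinRoot (Polynomial.X ^ w - Polynomial.C y : Polynomial A)

/-- The root. -/
noncomputable def rt : Root w y := AdjoinRoot.root _

theorem rt_pow : rt w y ^ w = algebraMap A (Root w y) y := by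
  have h := AdjoinRoot.eval₂_root (Polynomial.X ^ w - Polynomial.C y : Polynomial A)
  rw [Polynomial.eval₂_sub, Polynomial.eval₂_X_pow, Polynomial.eval₂_C, sub_eq_zero] at h
  exact h

theorem root_mem (z : Root w y) : ∃ a c, z = algebraMap A (Root w y) a + rt w y * c := by
  induction z using AdjoinRoot.induction_on with
  | ih p =>
    refine ⟨p.coeff 0, AdjoinRoot.mk _ p.divX, ?_⟩
    conv_lhs => rw [← Polynomial.divX_mul_X_add p]
    rw [map_add, map_mul, AdjoinRoot.mk_X, AdjoinRoot.mk_C, add_comm, mul_comm]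
    rfl

theorem root_hom_ext {B : Type*} [CommRing B] {f g : Root w y →+* B}
    (h : ∀ a, f (algebraMap A _ a) = g (algebraMap A _ a)) (h' : f (rt w y) = g (rt w y)) :
    f = g := AdjoinRoot.ringHom_ext (RingHom.ext h) h'

variable {w y}

theorem root_finite (hw : w ≠ 0) : Module.Finite A (Root w y) :=
  (Polynomial.monic_X_pow_sub_C y hw).finite_adjoinRoot

theorem root_free (hw : w ≠ 0) : Module.Free A (Root w y) :=
  (Polynomial.monic_X_pow_sub_C y hw).free_adjoinRoot

theorem root_noetherian [IsNoetherianRing A] (hw : w ≠ 0) : IsNoetherianRing (Root w y) := by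
  have := root_finite (y := y) hw
  have : IsNoetherian A (Root w y) := isNoetherian_of_isNoetherianRing_of_finite A _
  exact isNoetherian_of_tower A this

theorem root_local [IsLocalRing A] (hw : w ≠ 0) (hy : y ∈ maximalIdeal A) :
    ∃ _ : IsLocalRing (Root w y), Ideal.span {rt w y} ⊔
      (maximalIdeal A).map (algebraMap A (Root w y)) = maximalIdeal (Root w y) := by
  let n : Ideal (Root w y) := Ideal.span {rt w y} ⊔
      (maximalIdeal A).map (algebraMap A (Root w y))
  let ε : Root w y →+* ResidueField A := AdjoinRoot.lift (residue A) 0 (by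
    rw [Polynomial.eval₂_sub, Polynomial.eval₂_X_pow, Polynomial.eval₂_C, zero_pow hw,
      (residue_eq_zero_iff y).2 hy, sub_zero])
  have hε1 : ∀ a, ε (algebraMap A _ a) = residue A a := fun a => AdjoinRoot.lift_of _
  have hε2 : ε (rt w y) = 0 := AdjoinRoot.lift_root _
  have hker : RingHom.ker ε = n := by
    refine le_antisymm ?_ ?_
    · intro z hz
      obtain ⟨a, c, rfl⟩ := root_mem w y z
      rw [RingHom.mem_ker, map_add, map_mul, hε2, zero_mul, add_zero, hε1,
        residue_eq_zero_iff] at hz
      exact Ideal.add_mem _ (Ideal.mem_sup_right (Ideal.mem_map_of_mem _ hz))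
        (Ideal.mem_sup_left (Ideal.mul_mem_right _ _ (Ideal.mem_span_singleton_self _)))
    · refine sup_le ?_ ?_
      · rw [Ideal.span_singleton_le_iff_mem]
        exact hε2
      · rw [Ideal.map_le_iff_le_comap]
        intro a ha
        change ε (algebraMap A _ a) = 0
        rw [hε1, residue_eq_zero_iff]
        exact ha
  have hmax : n.IsMaximal := by
    rw [← hker]
    refine RingHom.ker_isMaximal_of_surjective ε fun a => ?_
    obtain ⟨a, rfl⟩ := residue_surjective a
    exact ⟨_, hε1 a⟩
  have hfin := root_finite (y := y) hw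
  have h1 : IsLocalRing (Root w y) := IsLocalRing.of_unique_max_ideal ⟨n, hmax, fun M hM => by
    have h2 : (M.comap (algebraMap A (Root w y))).IsMaximal :=
      Ideal.isMaximal_comap_of_isIntegral_of_isMaximal M
    have h3 : M.comap (algebraMap A (Root w y)) = maximalIdeal A := IsLocalRing.eq_maximalIdeal h2
    have h4 : n ≤ M := by
      refine sup_le ?_ ?_
      · rw [Ideal.span_singleton_le_iff_mem]
        refine hM.isPrime.mem_of_pow_mem w ?_
        rw [rt_pow, ← Ideal.mem_comap, h3]
        exact hy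
      · rw [Ideal.map_le_iff_le_comap, h3]
    exact (hmax.eq_of_le hM.ne_top h4).symm⟩
  exact ⟨h1, IsLocalRing.eq_maximalIdeal hmax⟩

end ring

theorem ofList_ofFn {B : Type u} [CommRing B] {n : ℕ} (f : Fin n → B) :
    Ideal.ofList (List.ofFn f) = Ideal.span (Set.range f) := by
  rw [Ideal.ofList]
  congr 1
  ext z
  rw [Set.mem_ofPred_eq, List.mem_ofFn']

section regular

variable {A : Type u} [CommRing A] {r : ℕ} (w : ℕ) (x : Fin (r + 1) → A)

/-- The parameters after adjoining the root. -/
noncomputable def xRoot : Fin (r + 1) → Root w (x 0) :=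
  Fin.cons (rt w (x 0)) (fun i => algebraMap A _ (x i.succ))

theorem xRoot_zero : xRoot w x 0 = rt w (x 0) := rfl

theorem xRoot_succ (i : Fin r) : xRoot w x i.succ = algebraMap A _ (x i.succ) := rfl

theorem span_xRoot [IsLocalRing A] (hx : Ideal.span (Set.range x) = maximalIdeal A)
    (hw : w ≠ 0) : Ideal.span (Set.range (xRoot w x)) = Ideal.span {rt w (x 0)} ⊔
      (maximalIdeal A).map (algebraMap A (Root w (x 0))) := by
  rw [← span_tail, xRoot_zero, ← hx, ← span_tail x, Ideal.map_sup, Ideal.map_span, Ideal.map_span,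
    Set.image_singleton, ← Set.range_comp, ← sup_assoc]
  congr 1
  refine (sup_eq_left.2 ?_).symm
  rw [Ideal.span_singleton_le_span_singleton, ← rt_pow]
  exact dvd_pow_self _ hw

theorem exists_regular_root [IsRegularLocalRing A] (hw : w ≠ 0)
    (hd : ringKrullDim A = ((r + 1 : ℕ) : WithBot ℕ∞))
    (hx : Ideal.span (Set.range x) = maximalIdeal A) :
    ∃ _ : IsRegularLocalRing (Root w (x 0)),
      ringKrullDim (Root w (x 0)) = ((r + 1 : ℕ) : WithBot ℕ∞) ∧
      Ideal.span (Set.range (xRoot w x)) = maximalIdeal (Root w (x 0)) ∧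
      IsLocalHom (algebraMap A (Root w (x 0))) := by
  have hx0 : x 0 ∈ maximalIdeal A := by
    rw [← hx]
    exact Ideal.subset_span ⟨0, rfl⟩
  obtain ⟨hloc, hm⟩ := root_local hw hx0
  have hN : IsNoetherianRing (Root w (x 0)) := root_noetherian hw
  have hdom : IsDomain A := regular_isDomain A
  have hfin := root_finite (y := x 0) hw
  have hinj : Injective (algebraMap A (Root w (x 0))) :=
    AdjoinRoot.of.injective_of_degree_ne_zero (by
      rw [Polynomial.degree_X_pow_sub_C (Nat.pos_of_ne_zero hw)]
      exact_mod_cast hw)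
  have hdim : ringKrullDim A ≤ ringKrullDim (Root w (x 0)) := ringKrullDim_le_of_integral hinj
  have hs : Ideal.span (Set.range (xRoot w x)) = maximalIdeal (Root w (x 0)) := by
    rw [span_xRoot w x hx hw, hm]
  have hl : Ideal.ofList (List.ofFn (xRoot w x)) = maximalIdeal (Root w (x 0)) := by
    rw [ofList_ofFn, hs]
  obtain ⟨hreg, hdim'⟩ := isRegularLocalRing_of_list (List.ofFn (xRoot w x)) hl (by
    rw [List.length_ofFn, ← hd]
    exact hdim)
  refine ⟨hreg, ?_, hs, ?_⟩
  · rw [hdim', List.length_ofFn]
  · refine ((IsLocalRing.local_hom_TFAE (algebraMap A (Root w (x 0)))).out 0 2).2 ?_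
    rw [← hm]
    exact le_sup_right

end regular

section maps

variable {A B : Type u} [CommRing A] [CommRing B] (j : A →+* B) (w : ℕ) {y : A} {y' : B}
  (h : j y = y')

/-- The map induced by `j`. -/
noncomputable def jRoot : Root w y →+* Root w y' :=
  AdjoinRoot.lift ((algebraMap B (Root w y')).comp j) (rt w y') (by
    rw [Polynomial.eval₂_sub, Polynomial.eval₂_X_pow, Polynomial.eval₂_C, rt_pow,
      RingHom.comp_apply, h, sub_self])

theorem jRoot_algebraMap (a : A) : jRoot j w h (algebraMap A _ a) = algebraMap B _ (j a) :=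
  AdjoinRoot.lift_of _

theorem jRoot_rt : jRoot j w h (rt w y) = rt w y' := AdjoinRoot.lift_root _

theorem jRoot_comp : (jRoot j w h).comp (algebraMap A (Root w y)) =
    (algebraMap B (Root w y')).comp j := RingHom.ext fun a => jRoot_algebraMap j w h a

end maps

theorem flat_of_params {A B : Type u} [CommRing A] [CommRing B] [IsRegularLocalRing A]
    [IsRegularLocalRing B] (j : A →+* B) [IsLocalHom j] (d : ℕ) (hA : ringKrullDim A = d)
    (hB : ringKrullDim B = d) (x : Fin d → A) (hx : Ideal.span (Set.range x) = maximalIdeal A)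
    (hm : (maximalIdeal A).map j = maximalIdeal B) : j.Flat := by
  let _ : Algebra A B := j.toAlgebra
  have hl : IsLocalHom (algebraMap A B) := ‹IsLocalHom j›
  rw [← RingHom.algebraMap_toAlgebra j, RingHom.flat_algebraMap_iff]
  have h1 : Ideal.ofList (List.ofFn x) = maximalIdeal A := by
    rw [ofList_ofFn, hx]
  have h2 : Ideal.ofList ((List.ofFn x).map (algebraMap A B)) = maximalIdeal B := by
    rw [← Ideal.map_ofList, h1]
    exact hm
  refine flat_of_weaklyRegular _ h1
    (isRegular_of_ofList_eq_maximalIdeal A _ h1 (by rw [hA, List.length_ofFn])).toIsWeaklyRegular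
    (isRegular_of_ofList_eq_maximalIdeal B _ h2
      (by rw [hB, List.length_map, List.length_ofFn])).toIsWeaklyRegular

section side

variable {R R' W W' : Type u} [CommRing R] [CommRing R'] [CommRing W] [CommRing W'] [Algebra R W]
  [Algebra R' W'] [Algebra R R'] [Algebra W W'] [Algebra R W'] [IsScalarTower R W W']
  [IsScalarTower R R' W']

open TensorProduct

theorem exists_baseChange_tower (N : Type u) [AddCommGroup N] [Module R N] (X : Type u)
    [AddCommGroup X] [Module W' X] [Module W X] [IsScalarTower W W' X]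
    (e : X ≃ₗ[W'] W' ⊗[R'] (R' ⊗[R] N)) :
    ∃ φ : (W ⊗[R] N) →ₗ[W] X, IsBaseChange W' φ := by
  let _ : Module R' X := Module.compHom X (algebraMap R' W')
  let _ : Module R X := Module.compHom X (algebraMap R W')
  have t1 : IsScalarTower R' W' X := ⟨fun a b c => by
    rw [Algebra.smul_def, mul_smul]
    rfl⟩
  have t2 : IsScalarTower R W' X := ⟨fun a b c => by
    rw [Algebra.smul_def, mul_smul]
    rfl⟩
  have t3 : IsScalarTower R R' X := ⟨fun a b c => by
    change algebraMap R' W' (a • b) • c = algebraMap R W' a • (algebraMap R' W' b • c)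
    rw [Algebra.smul_def, map_mul, mul_smul, ← IsScalarTower.algebraMap_apply]⟩
  have t4 : IsScalarTower R W X := ⟨fun a b c => by
    rw [Algebra.smul_def, mul_smul, ← algebraMap_smul W' (algebraMap R W a) (b • c),
      ← IsScalarTower.algebraMap_apply]
    rfl⟩
  let f₁ : N →ₗ[R] W ⊗[R] N := TensorProduct.mk R W N 1
  have hf₁ : IsBaseChange W f₁ := TensorProduct.isBaseChange R N W
  let g : N →ₗ[R] R' ⊗[R] N := TensorProduct.mk R R' N 1
  have hg : IsBaseChange R' g := TensorProduct.isBaseChange R N R'
  let g₀ : (R' ⊗[R] N) →ₗ[R'] W' ⊗[R'] (R' ⊗[R] N) := TensorProduct.mk R' W' (R' ⊗[R] N) 1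
  have hg₀ : IsBaseChange W' g₀ := TensorProduct.isBaseChange R' (R' ⊗[R] N) W'
  let g' : (R' ⊗[R] N) →ₗ[R'] X := (e.symm.toLinearMap.restrictScalars R').comp g₀
  have hg' : IsBaseChange W' g' :=
    (IsBaseChange.iff_of_equiv_comm (LinearEquiv.refl R' (R' ⊗[R] N)) e.symm
      (LinearMap.ext fun z => rfl)).1 hg₀
  have hc : IsBaseChange W' ((g'.restrictScalars R).comp g) := hg.comp hg'
  let φ : (W ⊗[R] N) →ₗ[W] X := hf₁.lift ((g'.restrictScalars R).comp g)
  refine ⟨φ, IsBaseChange.of_comp hf₁ ?_⟩
  have : (φ.restrictScalars R).comp f₁ = (g'.restrictScalars R).comp g := hf₁.lift_comp _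
  rw [this]
  exact hc

end side

end Vale.Agent.P177
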