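import Vale.Agent.P177.FBad

/-!
Nonnegativity at the points of the chart `X_0 ≠ 0`, with one bad point.
-/

namespace Vale.Agent.P177

open IsLocalRing Function TensorProduct

universe u

/-- Nonnegativity of the Euler characteristic along two maps. -/
def NonnegAlong {R₁ R₂ W : Type u} [CommRing R₁] [CommRing R₂] [CommRing W] (j₁ : R₁ →+* W)
    (j₂ : R₂ →+* W) (n : ℕ) (N M : Type u) [AddCommGroup N] [Module R₁ N] [AddCommGroup M]
    [Module R₂ M] : Prop :=
  let _ : Algebra R₁ W := j₁.toAlgebra
  let _ : Algebra R₂ W := j₂.toAlgebra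
  IsFiniteLength W ((W ⊗[R₁] N) ⊗[W] (W ⊗[R₂] M)) →
    0 ≤ eulerTor W n (W ⊗[R₁] N) (W ⊗[R₂] M)

theorem nonnegAlong_iff {R₁ R₂ W : Type u} [CommRing R₁] [CommRing R₂] [CommRing W]
    [a₁ : Algebra R₁ W] [a₂ : Algebra R₂ W] (j₁ : R₁ →+* W) (j₂ : R₂ →+* W)
    (h₁ : ∀ r, j₁ r = algebraMap R₁ W r) (h₂ : ∀ r, j₂ r = algebraMap R₂ W r) (n : ℕ)
    (N M : Type u) [AddCommGroup N] [Module R₁ N] [AddCommGroup M] [Module R₂ M] :
    NonnegAlong j₁ j₂ n N M ↔ (IsFiniteLength W ((W ⊗[R₁] N) ⊗[W] (W ⊗[R₂] M)) →
    0 ≤ eulerTor W n (W ⊗[R₁] N) (W ⊗[R₂] M)) := by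
  have e₁ : j₁.toAlgebra = a₁ := Algebra.algebra_ext _ _ h₁
  have e₂ : j₂.toAlgebra = a₂ := Algebra.algebra_ext _ _ h₂
  subst e₁ e₂
  rfl

section badRing

variable {R : Type u} [CommRing R] [IsLocalRing R] {r : ℕ} {x : Fin (r + 1) → R}
    (hx : Ideal.span (Set.range x) = maximalIdeal R)

/-- The prime of the extended Rees algebra at the bad point. -/
noncomputable def badPrime : Ideal (ERees x) := (zBad (ResidueField R) r).comap (eRes hx)

instance : (badPrime hx).IsPrime := Ideal.IsPrime.comap _

/-- The local ring of the extended Rees algebra at the bad point. -/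
def BadRing : Type u := Localization.AtPrime (badPrime hx)

noncomputable instance : CommRing (BadRing hx) :=
  inferInstanceAs (CommRing (Localization.AtPrime (badPrime hx)))

noncomputable instance : Algebra (ERees x) (BadRing hx) :=
  inferInstanceAs (Algebra (ERees x) (Localization.AtPrime (badPrime hx)))

instance : IsLocalization.AtPrime (BadRing hx) (badPrime hx) :=
  inferInstanceAs (IsLocalization.AtPrime (Localization.AtPrime (badPrime hx)) (badPrime hx))

instance : IsLocalRing (BadRing hx) :=
  IsLocalization.AtPrime.isLocalRing (BadRing hx) (badPrime hx)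

noncomputable instance : Algebra R (BadRing hx) :=
  ((algebraMap (ERees x) (BadRing hx)).comp (algebraMap R (ERees x))).toAlgebra

instance : IsScalarTower R (ERees x) (BadRing hx) :=
  IsScalarTower.of_algebraMap_eq (R := R) (S := ERees x) (A := BadRing hx) fun _ => rfl

end badRing

theorem badRing_regular {R : Type u} [CommRing R] [IsRegularLocalRing R] {r : ℕ}
    {x : Fin (r + 1) → R} (hd : ringKrullDim R = ((r + 1 : ℕ) : WithBot ℕ∞))
    (hx : Ideal.span (Set.range x) = maximalIdeal R) :
    IsRegularLocalRing (BadRing hx) ∧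
      ringKrullDim (BadRing hx) = ((r + 1 : ℕ) : WithBot ℕ∞) := by
  obtain ⟨hreg, hht, -⟩ := eRees_regular_aux hd hx (zBad (ResidueField R) r)
  have h1 : IsRegularLocalRing (Localization.AtPrime (badPrime hx)) := hreg
  refine ⟨IsRegularLocalRing.of_ringEquiv (R := Localization.AtPrime (badPrime hx))
    (R' := BadRing hx) (RingEquiv.refl _), ?_⟩
  rw [IsLocalization.AtPrime.ringKrullDim_eq_height (badPrime hx) (BadRing hx)]
  have h2 : (badPrime hx).height = ((r + 1 : ℕ) : ℕ∞) := by
    unfold badPrime
    rw [hht, height_zBad]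
    push_cast
    rfl
  rw [h2]
  rfl

section bad

variable {R A : Type u} [CommRing R] [CommRing A] [IsLocalRing R] [IsLocalRing A] [Algebra R A]
  [IsLocalHom (algebraMap R A)] {r : ℕ}

/-- The bad point lies over the bad point. -/
theorem zBad_comap_jMap (θ : Fin (r + 1) → Fin (r + 1) → A)
    (h00 : θ 0 0 = 1) (h1 : ∀ i : Fin r, θ i.succ 0 = 0) :
    (zBad (ResidueField A) r).comap (jMap R θ) = zBad (ResidueField R) r := by
  have h : (badHom (ResidueField A) r).comp (jMap R θ) =
      (Polynomial.mapRingHom (ResidueField.map (algebraMap R A))).comp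
        (badHom (ResidueField R) r) := by
    apply MvPolynomial.ringHom_ext
    · intro a
      simp
    · intro i
      rw [RingHom.comp_apply, RingHom.comp_apply, jMap_X, map_sum]
      have h2 : ∀ l : Fin (r + 1), badHom (ResidueField A) r
          (MvPolynomial.C (residue A (θ i l)) * MvPolynomial.X l) =
          if l = 0 then Polynomial.C (residue A (θ i 0)) * Polynomial.X else 0 := by
        intro l
        rw [map_mul, badHom_C]
        refine Fin.cases ?_ (fun l => ?_) l
        · simp
        · simp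
      rw [Finset.sum_congr rfl fun l _ => h2 l, Finset.sum_ite_eq']
      simp only [Finset.mem_univ, if_true]
      refine Fin.cases ?_ (fun i => ?_) i
      · simp [h00]
      · simp [h1]
  ext f
  change badHom _ _ (jMap R θ f) = 0 ↔ badHom _ _ f = 0
  rw [← RingHom.comp_apply, h, RingHom.comp_apply]
  exact map_eq_zero_iff _ (Polynomial.map_injective _ (RingHom.injective _))

end bad

section side

variable {R : Type u} [CommRing R] [IsRegularLocalRing R] {r : ℕ} {x' : Fin (r + 1) → R}

/-- The map from the local ring at the bad point. -/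
theorem exists_bad_side (hx' : Ideal.span (Set.range x') = maximalIdeal R)
    {Ω : Type u} [CommRing Ω] [IsLocalRing Ω] (ρ : ERees x' →+* Ω) (hρ : ρ.Flat)
    (hq : (maximalIdeal Ω).comap ρ = badPrime hx') :
    ∃ k : BadRing hx' →+* Ω, IsLocalHom k ∧ k.Flat ∧
      ∀ z, k (algebraMap (ERees x') (BadRing hx') z) = ρ z := by
  have hu : ∀ y : (badPrime hx').primeCompl, IsUnit (ρ y) := by
    rintro ⟨y, hy⟩
    by_contra hcon
    apply hy
    change y ∈ badPrime hx'
    rw [← hq]
    exact hcon
  let f : BadRing hx' →+* Ω := IsLocalization.lift hu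
  have hf : ∀ z, f (algebraMap _ _ z) = ρ z := fun z => IsLocalization.lift_eq hu z
  have hlocal : IsLocalHom f := by
    refine ⟨fun a ha => ?_⟩
    by_contra hcon
    obtain ⟨⟨z, s⟩, hzs⟩ := IsLocalization.surj (badPrime hx').primeCompl a
    have hz : z ∈ badPrime hx' := by
      have h1 : algebraMap (ERees x') (BadRing hx') z ∈ maximalIdeal (BadRing hx') := by
        rw [← hzs]
        exact Ideal.mul_mem_right _ _ hcon
      exact (IsLocalization.AtPrime.to_map_mem_maximal_iff (BadRing hx') (badPrime hx') z).1 h1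
    have h2 : ρ z ∈ maximalIdeal Ω := by
      have : z ∈ (maximalIdeal Ω).comap ρ := by rw [hq]; exact hz
      exact this
    have h3 : IsUnit (ρ z) := by
      rw [← hf, ← hzs, map_mul]
      refine IsUnit.mul ha ?_
      rw [hf]
      exact hu s
    exact h2 h3
  refine ⟨f, hlocal, ?_, hf⟩
  let _ : Algebra (BadRing hx') Ω := f.toAlgebra
  let _ : Algebra (ERees x') Ω := ρ.toAlgebra
  have htow : IsScalarTower (ERees x') (BadRing hx') Ω :=
    IsScalarTower.of_algebraMap_eq fun z => (hf z).symm
  have hflat₀ : Module.Flat (ERees x') Ω := RingHom.flat_algebraMap_iff.1 hρ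
  have hflat : Module.Flat (BadRing hx') Ω :=
    (Module.flat_iff_of_isLocalization (BadRing hx') (badPrime hx').primeCompl Ω).2 hflat₀
  exact RingHom.flat_algebraMap_iff.2 hflat

end side

end Vale.Agent.P177
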