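import Vale.Agent.P177.FStepA
import Vale.Agent.P177.FOmega

/-!
Nonnegativity at the points of the chart `X_0 ≠ 0`, with one bad point.
-/

namespace Vale.Agent.P177

open IsLocalRing Function TensorProduct

universe u

section main

variable {R₁ R₂ A : Type u} [CommRing R₁] [CommRing R₂] [CommRing A]
  [IsRegularLocalRing R₁] [IsRegularLocalRing R₂] [IsRegularLocalRing A]
  [Algebra R₁ A] [Algebra R₂ A]
  [IsLocalHom (algebraMap R₁ A)] [IsLocalHom (algebraMap R₂ A)] {r : ℕ}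

omit [IsRegularLocalRing A] in
theorem x0_single (x : Fin (r + 1) → A) : x0 x (Pi.single 0 1) = x 0 := by
  unfold x0
  rw [Finset.sum_eq_single 0]
  · simp
  · intro i _ hi
    simp [hi]
  · intro h
    exact absurd (Finset.mem_univ _) h

/-- Nonnegativity of the local Euler characteristics of strict transforms, given nonnegativity at
the bad point. -/
theorem chart_local_nonneg_rel (hd₁ : ringKrullDim R₁ = ((r + 1 : ℕ) : WithBot ℕ∞))
    (hd₂ : ringKrullDim R₂ = ((r + 1 : ℕ) : WithBot ℕ∞))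
    (hd : ringKrullDim A = ((r + 1 : ℕ) : WithBot ℕ∞))
    {x₁ : Fin (r + 1) → R₁} {x₂ : Fin (r + 1) → R₂} {x : Fin (r + 1) → A}
    (hx₁ : Ideal.span (Set.range x₁) = maximalIdeal R₁)
    (hx₂ : Ideal.span (Set.range x₂) = maximalIdeal R₂)
    (hx : Ideal.span (Set.range x) = maximalIdeal A) (θ₁ θ₂ : Fin (r + 1) → Fin (r + 1) → A)
    (hθ₁ : ∀ i, algebraMap R₁ A (x₁ i) = ∑ l, θ₁ i l * x l)
    (hθ₂ : ∀ i, algebraMap R₂ A (x₂ i) = ∑ l, θ₂ i l * x l)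
    (h₁0 : θ₁ 0 0 = 1) (h₁1 : ∀ i : Fin r, θ₁ i.succ 0 = 0)
    (h₂0 : θ₂ 0 0 = 1) (h₂1 : ∀ i : Fin r, θ₂ i.succ 0 = 0)
    (hf₁ : (eMap θ₁ hθ₁).Flat) (hf₂ : (eMap θ₂ hθ₂).Flat)
    (P : Ideal (Chart x (Pi.single 0 1))) [P.IsMaximal]
    (hmP : ∀ a ∈ maximalIdeal A, algebraMap A (Chart x (Pi.single 0 1)) a ∈ P)
    (M N : Type u) [AddCommGroup M] [Module R₁ M] [Module.Finite R₁ M]
    [AddCommGroup N] [Module R₂ N] [Module.Finite R₂ N]
    (hK : ∀ (z : Ideal (MvPolynomial (Fin (r + 1)) (ResidueField A))) [z.IsPrime],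
      (∀ f ∈ z, ∀ n, MvPolynomial.homogeneousComponent n f ∈ z) →
      MvPolynomial.X 0 ∉ z → (∃ i : Fin r, MvPolynomial.X i.succ ∉ z) →
      (z.comap (jMap R₁ θ₁)).height + (z.comap (jMap R₂ θ₂)).height ≤ z.height + 1)
    (hbad : ∀ (Ω : Type u) [CommRing Ω] [IsRegularLocalRing Ω] (ρ : ERees x →+* Ω), ρ.Flat →
      ringKrullDim Ω = ((r + 1 : ℕ) : WithBot ℕ∞) → (maximalIdeal Ω).comap ρ = badPrime hx →
      (badPrime hx).map ρ = maximalIdeal Ω → ∀ (k₁ : BadRing hx₁ →+* Ω) (k₂ : BadRing hx₂ →+* Ω), IsLocalHom k₁ → IsLocalHom k₂ →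
      k₁.Flat → k₂.Flat → (∀ z, k₁ (algebraMap (ERees x₁) _ z) = ρ (eMap θ₁ hθ₁ z)) →
      (∀ z, k₂ (algebraMap (ERees x₂) _ z) = ρ (eMap θ₂ hθ₂ z)) →
      NonnegAlong k₁ k₂ (r + 1 + 1)
        (St (algebraMap (ERees x₁) (BadRing hx₁) (eT x₁)) (BadRing hx₁ ⊗[R₁] M))
        (St (algebraMap (ERees x₂) (BadRing hx₂) (eT x₂)) (BadRing hx₂ ⊗[R₂] N)))
    (hfin : Module.length (Localization.AtPrime P) (TorM (Localization.AtPrime P) 0
      (Localization.AtPrime P ⊗[Chart x (Pi.single 0 1)]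
        StM (S := Chart x (Pi.single 0 1)) (x0 x (Pi.single 0 1)) (A ⊗[R₁] M))
      (Localization.AtPrime P ⊗[Chart x (Pi.single 0 1)]
        StM (S := Chart x (Pi.single 0 1)) (x0 x (Pi.single 0 1)) (A ⊗[R₂] N))) ≠ ⊤) :
    0 ≤ eulerTor (Localization.AtPrime P) (r + 1 + 1)
      (Localization.AtPrime P ⊗[Chart x (Pi.single 0 1)]
        StM (S := Chart x (Pi.single 0 1)) (x0 x (Pi.single 0 1)) (A ⊗[R₁] M))
      (Localization.AtPrime P ⊗[Chart x (Pi.single 0 1)]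
        StM (S := Chart x (Pi.single 0 1)) (x0 x (Pi.single 0 1)) (A ⊗[R₂] N)) := by
  obtain ⟨Ω, _, _, _, _, ρ, q, _, hmax, hdimΩ, hhom, hX, hA, ⟨u, hu⟩, hρflat, hρcomap, hρmap⟩ :=
    exists_omega' (Pi.single 0 1) hd hx P hmP
  -- the prime `q` does not contain `X_0`
  have hq0 : MvPolynomial.X 0 ∉ q := by
    intro hmem
    have h1 : ρ (eY x 0) ∈ maximalIdeal Ω := by
      have : eY x 0 ∈ (maximalIdeal Ω).comap ρ := by
        rw [hρcomap]
        change eRes hx (eY x 0) ∈ q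
        rw [eRes_eY]
        exact hmem
      exact this
    have h2 : ρ (eT x) * (ρ (eY x 0) - u) = 0 := by
      have h3 := hA (x 0)
      rw [x0_single] at hu
      rw [hu, algebraMap_rees, map_mul] at h3
      rw [mul_sub, ← h3]
      ring
    have h4 : IsSMulRegular (ERees x) (eT x) :=
      isSMulRegular_iff_right_eq_zero_of_smul.2 fun F hF => eT_regular hd hx F hF
    let _ : Algebra (ERees x) Ω := ρ.toAlgebra
    have hfl : Module.Flat (ERees x) Ω := RingHom.flat_algebraMap_iff.1 hρflat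
    have h5 : IsSMulRegular Ω (eT x) := h4.of_flat
    have h6 : ρ (eY x 0) = u := h5 (by
      change ρ (eT x) * ρ (eY x 0) = ρ (eT x) * u
      rw [← sub_eq_zero, ← mul_sub]
      exact h2)
    rw [h6] at h1
    exact h1 u.isUnit
  have hq₁ : (maximalIdeal Ω).comap (ρ.comp (eMap θ₁ hθ₁)) =
      (q.comap (jMap R₁ θ₁)).comap (eRes hx₁) := by
    rw [← Ideal.comap_comap, hρcomap, Ideal.comap_comap, Ideal.comap_comap,
      eRes_eMap θ₁ hθ₁ hx₁ hx]
  have hq₂ : (maximalIdeal Ω).comap (ρ.comp (eMap θ₂ hθ₂)) =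
      (q.comap (jMap R₂ θ₂)).comap (eRes hx₂) := by
    rw [← Ideal.comap_comap, hρcomap, Ideal.comap_comap, Ideal.comap_comap,
      eRes_eMap θ₂ hθ₂ hx₂ hx]
  let S := Chart x (Pi.single 0 1)
  let SP := Localization.AtPrime P
  have hnoeth : IsNoetherianRing SP := inferInstance
  by_cases hgood : ∃ i : Fin r, MvPolynomial.X i.succ ∉ q
  · obtain ⟨Λ₁, _, _, _, _, _, σ₁, hdimΛ₁, hσ₁⟩ := exists_side hd₁ hx₁ (ρ.comp (eMap θ₁ hθ₁))
      (hf₁.comp hρflat) (q.comap (jMap R₁ θ₁)) hq₁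
    obtain ⟨Λ₂, _, _, _, _, _, σ₂, hdimΛ₂, hσ₂⟩ := exists_side hd₂ hx₂ (ρ.comp (eMap θ₂ hθ₂))
      (hf₂.comp hρflat) (q.comap (jMap R₂ θ₂)) hq₂
    obtain ⟨h, hh, hdΩ⟩ := nat_of_height q hdimΩ
    obtain ⟨h₁, hh₁, hdΛ₁⟩ := nat_of_height _ hdimΛ₁
    obtain ⟨h₂, hh₂, hdΛ₂⟩ := nat_of_height _ hdimΛ₂
    have hhd : h + 1 ≤ r + 1 := by
      have := height_lt_of_homogeneous q hhom hX
      rw [hh] at this
      exact_mod_cast this
    -- algebra structures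
    let _ : Algebra R₁ Λ₁ := (σ₁.comp (algebraMap R₁ (ERees x₁))).toAlgebra
    let _ : Algebra R₂ Λ₂ := (σ₂.comp (algebraMap R₂ (ERees x₂))).toAlgebra
    let _ : Algebra R₁ Ω := ((algebraMap Λ₁ Ω).comp (algebraMap R₁ Λ₁)).toAlgebra
    let _ : Algebra R₂ Ω := ((algebraMap Λ₂ Ω).comp (algebraMap R₂ Λ₂)).toAlgebra
    let _ : Algebra A Ω := (ρ.comp (algebraMap A (ERees x))).toAlgebra
    let _ : Algebra S Ω := ((algebraMap SP Ω).comp (algebraMap S SP)).toAlgebra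
    have t1 : IsScalarTower R₁ Λ₁ Ω := IsScalarTower.of_algebraMap_eq fun _ => rfl
    have t2 : IsScalarTower R₂ Λ₂ Ω := IsScalarTower.of_algebraMap_eq fun _ => rfl
    have t3 : IsScalarTower R₁ A Ω := by
      refine IsScalarTower.of_algebraMap_eq fun r => ?_
      change algebraMap Λ₁ Ω (σ₁ (algebraMap R₁ (ERees x₁) r)) = ρ (algebraMap A (ERees x) _)
      rw [hσ₁, RingHom.comp_apply, eMap_algebraMap]
    have t4 : IsScalarTower R₂ A Ω := by
      refine IsScalarTower.of_algebraMap_eq fun r => ?_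
      change algebraMap Λ₂ Ω (σ₂ (algebraMap R₂ (ERees x₂) r)) = ρ (algebraMap A (ERees x) _)
      rw [hσ₂, RingHom.comp_apply, eMap_algebraMap]
    have t5 : IsScalarTower S SP Ω := IsScalarTower.of_algebraMap_eq fun _ => rfl
    have t6 : IsScalarTower A S Ω := IsScalarTower.of_algebraMap_eq fun a => (hA a).symm
    have f1 : Module.Flat S Ω := Module.Flat.trans S SP Ω
    obtain ⟨e₁⟩ := st_compare (R₁ := R₁) (A := A) (S := S) (S' := SP) (Λ := Λ₁) (Ω := Ω)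
      (algebraMap A S (x0 x (Pi.single 0 1))) (σ₁ (eT x₁)) u (by
        rw [hσ₁, RingHom.comp_apply, eMap_eT]
        exact hu) M
    obtain ⟨e₂⟩ := st_compare (R₁ := R₂) (A := A) (S := S) (S' := SP) (Λ := Λ₂) (Ω := Ω)
      (algebraMap A S (x0 x (Pi.single 0 1))) (σ₂ (eT x₂)) u (by
        rw [hσ₂, RingHom.comp_apply, eMap_eT]
        exact hu) N
    let E := St (σ₁ (eT x₁)) (Λ₁ ⊗[R₁] M)
    let G := St (σ₂ (eT x₂)) (Λ₂ ⊗[R₂] N)
    rw [eulerTor_bc (B := SP) (C := Ω) hmax, eulerTor_congr e₁ e₂]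
    have hbound : h₁ + h₂ ≤ h + 1 := by
      have := hK q hhom hq0 hgood
      rw [hh, hh₁, hh₂] at this
      exact_mod_cast this
    refine pair_nonneg (R₁ := Λ₁) (R₂ := Λ₂) (T := Ω) hdΛ₁ hdΛ₂ hdΩ (by omega) (r + 1 + 1)
      (by omega) E G ?_
    rw [← Module.length_ne_top_iff]
    have h3 := length_tor_bc₂ (A := SP) (C := Ω) hmax 0
      (TensorProduct.isBaseChange SP (SP ⊗[S] StM (S := S) (x0 x (Pi.single 0 1)) (A ⊗[R₁] M)) Ω)
      (TensorProduct.isBaseChange SP (SP ⊗[S] StM (S := S) (x0 x (Pi.single 0 1)) (A ⊗[R₂] N)) Ω)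
    rw [h3, (torZero _ _).length_eq] at hfin
    have h4 := length_congr₂ e₁ e₂
    exact fun hc => hfin (h4.trans hc)
  · push Not at hgood
    obtain rfl : q = zBad (ResidueField A) r := eq_zBad q hhom hq0 hgood
    have hp₁ : (maximalIdeal Ω).comap (ρ.comp (eMap θ₁ hθ₁)) = badPrime hx₁ := by
      rw [hq₁, zBad_comap_jMap θ₁ h₁0 h₁1]
      rfl
    have hp₂ : (maximalIdeal Ω).comap (ρ.comp (eMap θ₂ hθ₂)) = badPrime hx₂ := by
      rw [hq₂, zBad_comap_jMap θ₂ h₂0 h₂1]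
      rfl
    obtain ⟨k₁, hk₁, hkf₁, hσ₁⟩ := exists_bad_side hx₁ (ρ.comp (eMap θ₁ hθ₁))
      (hf₁.comp hρflat) hp₁
    obtain ⟨k₂, hk₂, hkf₂, hσ₂⟩ := exists_bad_side hx₂ (ρ.comp (eMap θ₂ hθ₂))
      (hf₂.comp hρflat) hp₂
    have hb := hbad Ω ρ hρflat (by
      rw [hdimΩ, height_zBad]
      rfl) hρcomap hρmap k₁ k₂ hk₁ hk₂ hkf₁ hkf₂ hσ₁ hσ₂
    let Λ₁ := BadRing hx₁
    let Λ₂ := BadRing hx₂
    let _ : Algebra Λ₁ Ω := k₁.toAlgebra
    let _ : Algebra Λ₂ Ω := k₂.toAlgebra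
    rw [nonnegAlong_iff k₁ k₂ (fun _ => rfl) (fun _ => rfl)] at hb
    let _ : Algebra R₁ Ω := ((algebraMap Λ₁ Ω).comp (algebraMap R₁ Λ₁)).toAlgebra
    let _ : Algebra R₂ Ω := ((algebraMap Λ₂ Ω).comp (algebraMap R₂ Λ₂)).toAlgebra
    let _ : Algebra A Ω := (ρ.comp (algebraMap A (ERees x))).toAlgebra
    let _ : Algebra S Ω := ((algebraMap SP Ω).comp (algebraMap S SP)).toAlgebra
    have t1 : IsScalarTower R₁ Λ₁ Ω := IsScalarTower.of_algebraMap_eq fun _ => rfl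
    have t2 : IsScalarTower R₂ Λ₂ Ω := IsScalarTower.of_algebraMap_eq fun _ => rfl
    have t3 : IsScalarTower R₁ A Ω := by
      refine IsScalarTower.of_algebraMap_eq fun r => ?_
      change k₁ (algebraMap (ERees x₁) Λ₁ (algebraMap R₁ (ERees x₁) r)) =
        ρ (algebraMap A (ERees x) _)
      rw [hσ₁, RingHom.comp_apply, eMap_algebraMap]
    have t4 : IsScalarTower R₂ A Ω := by
      refine IsScalarTower.of_algebraMap_eq fun r => ?_
      change k₂ (algebraMap (ERees x₂) Λ₂ (algebraMap R₂ (ERees x₂) r)) =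
        ρ (algebraMap A (ERees x) _)
      rw [hσ₂, RingHom.comp_apply, eMap_algebraMap]
    have t5 : IsScalarTower S SP Ω := IsScalarTower.of_algebraMap_eq fun _ => rfl
    have t6 : IsScalarTower A S Ω := IsScalarTower.of_algebraMap_eq fun a => (hA a).symm
    have f1 : Module.Flat S Ω := Module.Flat.trans S SP Ω
    have f2 : Module.Flat Λ₁ Ω := RingHom.flat_algebraMap_iff.1 hkf₁
    have f3 : Module.Flat Λ₂ Ω := RingHom.flat_algebraMap_iff.1 hkf₂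
    obtain ⟨e₁⟩ := st_compare (R₁ := R₁) (A := A) (S := S) (S' := SP) (Λ := Λ₁) (Ω := Ω)
      (algebraMap A S (x0 x (Pi.single 0 1))) (algebraMap (ERees x₁) Λ₁ (eT x₁)) u (by
        change _ = (u : Ω) * k₁ (algebraMap (ERees x₁) Λ₁ (eT x₁))
        rw [hσ₁, RingHom.comp_apply, eMap_eT]
        exact hu) M
    obtain ⟨e₂⟩ := st_compare (R₁ := R₂) (A := A) (S := S) (S' := SP) (Λ := Λ₂) (Ω := Ω)
      (algebraMap A S (x0 x (Pi.single 0 1))) (algebraMap (ERees x₂) Λ₂ (eT x₂)) u (by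
        change _ = (u : Ω) * k₂ (algebraMap (ERees x₂) Λ₂ (eT x₂))
        rw [hσ₂, RingHom.comp_apply, eMap_eT]
        exact hu) N
    rw [eulerTor_bc (B := SP) (C := Ω) hmax, eulerTor_congr e₁ e₂]
    refine hb ?_
    rw [← Module.length_ne_top_iff]
    have h3 := length_tor_bc₂ (A := SP) (C := Ω) hmax 0
      (TensorProduct.isBaseChange SP (SP ⊗[S] StM (S := S) (x0 x (Pi.single 0 1)) (A ⊗[R₁] M)) Ω)
      (TensorProduct.isBaseChange SP (SP ⊗[S] StM (S := S) (x0 x (Pi.single 0 1)) (A ⊗[R₂] N)) Ω)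
    rw [h3, (torZero _ _).length_eq] at hfin
    have h4 := length_congr₂ e₁ e₂
    exact fun hc => hfin (h4.trans hc)

end main

end Vale.Agent.P177
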