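import Vale.Agent.P177.FStepB

/-!
The blow-up step with one bad point.
-/

namespace Vale.Agent.P177

open IsLocalRing Function TensorProduct

universe u

section cond

variable {R₁ R₂ A : Type u} [CommRing R₁] [CommRing R₂] [CommRing A]
  [IsRegularLocalRing R₁] [IsRegularLocalRing R₂] [IsRegularLocalRing A]
  [Algebra R₁ A] [Algebra R₂ A]
  [IsLocalHom (algebraMap R₁ A)] [IsLocalHom (algebraMap R₂ A)] {r : ℕ}

/-- The generation condition for the chart `X_0 ≠ 0`. -/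
theorem exists_chart_zero {x₁ : Fin (r + 1) → R₁} {x₂ : Fin (r + 1) → R₂} {x : Fin (r + 1) → A}
    (hx : Ideal.span (Set.range x) = maximalIdeal A) (θ₁ θ₂ : Fin (r + 1) → Fin (r + 1) → A)
    (hθ₁ : ∀ i, algebraMap R₁ A (x₁ i) = ∑ l, θ₁ i l * x l)
    (hθ₂ : ∀ i, algebraMap R₂ A (x₂ i) = ∑ l, θ₂ i l * x l)
    (I : Ideal R₁) (J : Ideal R₂)
    (hN : ∀ (z : Ideal (MvPolynomial (Fin (r + 1)) (ResidueField A))) [z.IsPrime],
      (∀ f ∈ z, ∀ n, MvPolynomial.homogeneousComponent n f ∈ z) →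
      MvPolynomial.X 0 ∈ z → (∃ i, MvPolynomial.X i ∉ z) →
      InForm x₁ I (z.comap (jMap R₁ θ₁)) →
      InForm x₂ J (z.comap (jMap R₂ θ₂)) → False) :
    ∃ (n₀ : ℕ), maximalIdeal A ^ (n₀ + 1) ≤
      (I.map (algebraMap R₁ A) ⊓ maximalIdeal A ^ (n₀ + 1)) ⊔
      (J.map (algebraMap R₂ A) ⊓ maximalIdeal A ^ (n₀ + 1)) ⊔
      Ideal.span {x 0} * maximalIdeal A ^ n₀ := by
  have hs' : ∀ f ∈ inSet x₁ θ₁ I ∪ inSet x₂ θ₂ J ∪
        {(MvPolynomial.X 0 : MvPolynomial (Fin (r + 1)) (ResidueField A))}, ∃ n : ℕ,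
        f.IsHomogeneous n := by
    rintro f ((⟨n, F, hF, -, rfl⟩ | ⟨n, F, hF, -, rfl⟩) | rfl)
    · exact ⟨n, (tMap_isHomogeneous θ₁ hF).map _⟩
    · exact ⟨n, (tMap_isHomogeneous θ₂ hF).map _⟩
    · exact ⟨1, MvPolynomial.isHomogeneous_X _ _⟩
  have key : Ideal.span (Set.range MvPolynomial.X) ≤ (Ideal.span (inSet x₁ θ₁ I ∪
      inSet x₂ θ₂ J ∪
      {(MvPolynomial.X 0 : MvPolynomial (Fin (r + 1)) (ResidueField A))})).radical := by
    rw [← Ideal.sInf_minimalPrimes]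
    refine le_sInf fun z hz => ?_
    rw [Ideal.span_le]
    by_contra hcon
    rw [Set.range_subset_iff] at hcon
    push Not at hcon
    obtain ⟨i, hi⟩ := hcon
    have hzp : z.IsPrime := hz.1.1
    have hzh : HomId z := minimal_homId _ hs' rfl hz
    have hin₁ : InForm x₁ I (z.comap (jMap R₁ θ₁)) := inForm_of_le fun f hf =>
      hz.1.2 (Ideal.subset_span (Or.inl (Or.inl hf)))
    have hin₂ : InForm x₂ J (z.comap (jMap R₂ θ₂)) := inForm_of_le fun f hf =>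
      hz.1.2 (Ideal.subset_span (Or.inl (Or.inr hf)))
    exact hN z hzh (hz.1.2 (Ideal.subset_span (Or.inr rfl))) ⟨i, hi⟩ hin₁ hin₂
  obtain ⟨n, hn⟩ := Ideal.exists_pow_le_of_le_radical_of_fg key (IsNoetherian.noetherian _)
  have hc := (Ideal.pow_le_pow_right (Nat.le_succ n)).trans hn
  refine ⟨n, ?_⟩
  refine pow_le_of_liftable hx (W := fun n => (I.map (algebraMap R₁ A) ⊓ maximalIdeal A ^ n) ⊔
      (J.map (algebraMap R₂ A) ⊓ maximalIdeal A ^ n) ⊔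
      Ideal.span {x 0} * maximalIdeal A ^ (n - 1)) ?_ (n + 1) hc
  rintro f ((⟨n, F, hF, hFI, rfl⟩ | ⟨n, F, hF, hFI, rfl⟩) | rfl)
  · refine ⟨n, tMap R₁ θ₁ F, tMap_isHomogeneous θ₁ hF, rfl, fun j b hb => ?_⟩
    have h1 := eval_mem_pow hx (tMap_isHomogeneous θ₁ hF)
    refine Submodule.mem_sup_left (Submodule.mem_sup_left ⟨?_, ?_⟩)
    · rw [eval_tMap θ₁ hθ₁]
      exact Ideal.mul_mem_left _ _ (Ideal.mem_map_of_mem _ hFI)
    · rw [pow_add]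
      exact Ideal.mul_mem_mul hb h1
  · refine ⟨n, tMap R₂ θ₂ F, tMap_isHomogeneous θ₂ hF, rfl, fun j b hb => ?_⟩
    have h1 := eval_mem_pow hx (tMap_isHomogeneous θ₂ hF)
    refine Submodule.mem_sup_left (Submodule.mem_sup_right ⟨?_, ?_⟩)
    · rw [eval_tMap θ₂ hθ₂]
      exact Ideal.mul_mem_left _ _ (Ideal.mem_map_of_mem _ hFI)
    · rw [pow_add]
      exact Ideal.mul_mem_mul hb h1
  · refine ⟨1, MvPolynomial.X 0, MvPolynomial.isHomogeneous_X _ _, by rw [MvPolynomial.map_X],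
      fun j b hb => ?_⟩
    refine Submodule.mem_sup_right ?_
    rw [MvPolynomial.eval_X, mul_comm b, Nat.add_sub_cancel]
    exact Ideal.mul_mem_mul (Ideal.mem_span_singleton_self _) hb

end cond

section step

variable {R₁ R₂ A : Type u} [CommRing R₁] [CommRing R₂] [CommRing A]
  [IsRegularLocalRing R₁] [IsRegularLocalRing R₂] [IsRegularLocalRing A]
  [Algebra R₁ A] [Algebra R₂ A] [Module.Flat R₁ A] [Module.Flat R₂ A]
  [IsLocalHom (algebraMap R₁ A)] [IsLocalHom (algebraMap R₂ A)] {r : ℕ}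

/-- The blow-up step. -/
theorem step_pos (hd₁ : ringKrullDim R₁ = ((r + 1 : ℕ) : WithBot ℕ∞))
    (hd₂ : ringKrullDim R₂ = ((r + 1 : ℕ) : WithBot ℕ∞))
    (hd : ringKrullDim A = ((r + 1 : ℕ) : WithBot ℕ∞))
    {x₁ : Fin (r + 1) → R₁} {x₂ : Fin (r + 1) → R₂} {x : Fin (r + 1) → A}
    (hx₁ : Ideal.span (Set.range x₁) = maximalIdeal R₁)
    (hx₂ : Ideal.span (Set.range x₂) = maximalIdeal R₂)
    (hx : Ideal.span (Set.range x) = maximalIdeal A)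
    (hxA : (maximalIdeal R₁).map (algebraMap R₁ A) = maximalIdeal A)
    (hyA : (maximalIdeal R₂).map (algebraMap R₂ A) = maximalIdeal A)
    (θ₁ θ₂ : Fin (r + 1) → Fin (r + 1) → A)
    (hθ₁ : ∀ i, algebraMap R₁ A (x₁ i) = ∑ l, θ₁ i l * x l)
    (hθ₂ : ∀ i, algebraMap R₂ A (x₂ i) = ∑ l, θ₂ i l * x l)
    (h₁0 : θ₁ 0 0 = 1) (h₁1 : ∀ i : Fin r, θ₁ i.succ 0 = 0)
    (h₂0 : θ₂ 0 0 = 1) (h₂1 : ∀ i : Fin r, θ₂ i.succ 0 = 0)
    (hf₁ : (eMap θ₁ hθ₁).Flat) (hf₂ : (eMap θ₂ hθ₂).Flat)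
    (M N : Type u) [AddCommGroup M] [Module R₁ M] [Module.Finite R₁ M]
    [AddCommGroup N] [Module R₂ N] [Module.Finite R₂ N]
    (hK : ∀ (z : Ideal (MvPolynomial (Fin (r + 1)) (ResidueField A))) [z.IsPrime],
      (∀ f ∈ z, ∀ n, MvPolynomial.homogeneousComponent n f ∈ z) →
      MvPolynomial.X 0 ∉ z → (∃ i : Fin r, MvPolynomial.X i.succ ∉ z) →
      (z.comap (jMap R₁ θ₁)).height + (z.comap (jMap R₂ θ₂)).height ≤ z.height + 1)
    (hN : ∀ (z : Ideal (MvPolynomial (Fin (r + 1)) (ResidueField A))) [z.IsPrime],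
      (∀ f ∈ z, ∀ n, MvPolynomial.homogeneousComponent n f ∈ z) →
      MvPolynomial.X 0 ∈ z → (∃ i, MvPolynomial.X i ∉ z) →
      InForm x₁ (Module.annihilator R₁ M) (z.comap (jMap R₁ θ₁)) →
      InForm x₂ (Module.annihilator R₂ N) (z.comap (jMap R₂ θ₂)) → False)
    (hbad : ∀ (Ω : Type u) [CommRing Ω] [IsRegularLocalRing Ω] (ρ : ERees x →+* Ω), ρ.Flat →
      ringKrullDim Ω = ((r + 1 : ℕ) : WithBot ℕ∞) → (maximalIdeal Ω).comap ρ = badPrime hx →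
      (badPrime hx).map ρ = maximalIdeal Ω → ∀ (k₁ : BadRing hx₁ →+* Ω) (k₂ : BadRing hx₂ →+* Ω), IsLocalHom k₁ → IsLocalHom k₂ →
      k₁.Flat → k₂.Flat → (∀ z, k₁ (algebraMap (ERees x₁) _ z) = ρ (eMap θ₁ hθ₁ z)) →
      (∀ z, k₂ (algebraMap (ERees x₂) _ z) = ρ (eMap θ₂ hθ₂ z)) →
      NonnegAlong k₁ k₂ (r + 1 + 1)
        (St (algebraMap (ERees x₁) (BadRing hx₁) (eT x₁)) (BadRing hx₁ ⊗[R₁] M))
        (St (algebraMap (ERees x₂) (BadRing hx₂) (eT x₂)) (BadRing hx₂ ⊗[R₂] N)))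
    (hFP : FP R₁ R₂ A M N) :
    0 ≤ eulerTor A (r + 1 + 1) (A ⊗[R₁] M) (A ⊗[R₂] N) ∧
    (∀ e g : ℕ, (e : WithBot ℕ∞) ≤ Module.supportDim R₁ M →
      (g : WithBot ℕ∞) ≤ Module.supportDim R₂ N → r + 1 ≤ e + g →
      0 < eulerTor A (r + 1 + 1) (A ⊗[R₁] M) (A ⊗[R₂] N)) := by
  rcases subsingleton_or_nontrivial M with hM | hM
  · have hM' : Subsingleton (A ⊗[R₁] M) := inferInstance
    refine ⟨(eulerTor_left_zero _ _ _ hM').ge, fun e g he _ _ => ?_⟩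
    rw [Module.supportDim_eq_bot_of_subsingleton] at he
    exact absurd (le_bot_iff.1 he) (WithBot.coe_ne_bot)
  rcases subsingleton_or_nontrivial N with hN' | hN'
  · have hN' : Subsingleton (A ⊗[R₂] N) := inferInstance
    refine ⟨(eulerTor_right_zero _ _ _ hN').ge, fun e g _ hg _ => ?_⟩
    rw [Module.supportDim_eq_bot_of_subsingleton] at hg
    exact absurd (le_bot_iff.1 hg) (WithBot.coe_ne_bot)
  have hff₁ : Module.FaithfullyFlat R₁ A := Module.FaithfullyFlat.of_flat_of_isLocalHom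
  have hff₂ : Module.FaithfullyFlat R₂ A := Module.FaithfullyFlat.of_flat_of_isLocalHom
  have hM' : Nontrivial (A ⊗[R₁] M) := inferInstance
  have hN'' : Nontrivial (A ⊗[R₂] N) := inferInstance
  obtain ⟨n₀, hc⟩ := exists_chart_zero (x₁ := x₁) (x₂ := x₂) hx θ₁ θ₂ hθ₁ hθ₂
    (Module.annihilator R₁ M) (Module.annihilator R₂ N) hN
  let c : Fin (r + 1) → A := Pi.single 0 1
  have hx00 : x0 x c = x 0 := x0_single x
  rw [← hx00] at hc
  have hS := chart_isStrict hd hx c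
  have hx0 := x0_mem hx c
  obtain ⟨f, hf⟩ := exists_chart_away x c (Localization.Away (x0 x c))
      (IsLocalization.Away.algebraMap_isUnit (x0 x c))
  obtain ⟨p₁, p₂⟩ := pos_of_chart (A := A) (S := Chart x c) hd (M := A ⊗[R₁] M)
    (N := A ⊗[R₂] N) (fun i => hFP.length_ne_top i) hx0 (n₀ := n₀)
    (I₁ := (Module.annihilator R₁ M).map (algebraMap R₁ A))
    (J₁ := (Module.annihilator R₂ N).map (algebraMap R₂ A))
    (map_smul_eq_zero M) (map_smul_eq_zero N) hc hS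
    (stMap_isStrict (M := A ⊗[R₁] M) hS hx0 f hf)
    (stMap_isStrict (M := A ⊗[R₂] N) hS hx0 f hf)
    (fun m hm hlen => chart_local_nonneg_rel hd₁ hd₂ hd hx₁ hx₂ hx θ₁ θ₂ hθ₁ hθ₂ h₁0 h₁1 h₂0 h₂1
      hf₁ hf₂ m.asIdeal hm M N hK hbad (hlen 0 (Nat.succ_pos _)))
  refine ⟨p₁, fun e g he hg hle => p₂ e g ?_ ?_ hle⟩
  · exact he.trans (supportDim_le_baseChange R₁ A hxA M)
  · exact hg.trans (supportDim_le_baseChange R₂ A hyA N)

end step

end Vale.Agent.P177
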