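import Vale.Agent.P177.TorShift

/-!
Finite length facts.
-/

namespace Vale.Agent.P177

open IsLocalRing TensorProduct

universe u

section general

variable {R : Type u} [CommRing R]

theorem mem_support_tensorProduct {M N : Type u} [AddCommGroup M] [Module R M]
    [AddCommGroup N] [Module R N] [Module.Finite R M] [Module.Finite R N]
    (p : PrimeSpectrum R) (hM : p ∈ Module.support R M) (hN : p ∈ Module.support R N) :
    p ∈ Module.support R (M ⊗[R] N) := by
  rw [Module.mem_support_iff_nontrivial_residueField_tensorProduct] at hM hN ⊢
  let e := AlgebraTensorModule.distribBaseChange R p.asIdeal.ResidueField M N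
  have : Nontrivial ((p.asIdeal.ResidueField ⊗[R] M) ⊗[p.asIdeal.ResidueField]
    (p.asIdeal.ResidueField ⊗[R] N)) := inferInstance
  exact e.toEquiv.nontrivial

end general

section local_ring

variable {R : Type u} [CommRing R] [IsLocalRing R]

/-- A module of finite length over a local ring is killed by a power of the maximal ideal. -/
theorem exists_pow_smul_eq_zero {T : Type u} [AddCommGroup T] [Module R T]
    (h : IsFiniteLength R T) : ∃ k : ℕ, ∀ a ∈ maximalIdeal R ^ k, ∀ x : T, a • x = 0 := by
  induction h with
  | of_subsingleton => exact ⟨0, fun a _ x => Subsingleton.elim _ _⟩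
  | @of_simple_quotient M _ _ N _ hN ih =>
    obtain ⟨k, hk⟩ := ih
    refine ⟨k + 1, fun a ha x => ?_⟩
    have hm : ∀ b ∈ maximalIdeal R, ∀ y : M, b • y ∈ N := by
      intro b hb y
      have h1 : Module.annihilator R (M ⧸ N) = maximalIdeal R := by
        have : (Module.annihilator R (M ⧸ N)).IsMaximal := by
          exact IsSimpleModule.annihilator_isMaximal
        exact IsLocalRing.eq_maximalIdeal this
      rw [← h1, Module.mem_annihilator] at hb
      have := hb (Submodule.Quotient.mk y)
      rwa [← Submodule.Quotient.mk_smul, Submodule.Quotient.mk_eq_zero] at this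
    rw [pow_succ] at ha
    refine Submodule.mul_induction_on ha ?_ ?_
    · intro b hb c hc
      rw [mul_smul]
      have := hk b hb ⟨c • x, hm c hc x⟩
      exact congrArg Subtype.val this
    · intro b c hb hc
      rw [add_smul, hb, hc, add_zero]

/-- A finitely generated module killed by a power of the maximal ideal has finite length. -/
theorem isFiniteLength_of_pow_smul_eq_zero [IsNoetherianRing R] (k : ℕ) {T : Type u}
    [AddCommGroup T] [Module R T] [Module.Finite R T]
    (h : ∀ a ∈ maximalIdeal R ^ k, ∀ x : T, a • x = 0) : IsFiniteLength R T := by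
  induction k generalizing T with
  | zero =>
    have : Subsingleton T := by
      refine ⟨fun x y => ?_⟩
      have h1 := h 1 (by simp) x
      have h2 := h 1 (by simp) y
      rw [one_smul] at h1 h2
      rw [h1, h2]
    exact IsFiniteLength.of_subsingleton
  | succ k ih =>
    let N : Submodule R T := maximalIdeal R • ⊤
    have hN : IsFiniteLength R N := by
      apply ih
      rintro a ha ⟨x, hx⟩
      apply Subtype.ext
      change a • x = 0
      refine Submodule.smul_induction_on hx ?_ ?_
      · intro r hr y _
        rw [← mul_smul]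
        exact h _ (by rw [pow_succ]; exact Ideal.mul_mem_mul ha hr) y
      · intro y z hy hz
        rw [smul_add, hy, hz, add_zero]
    have hQ : IsFiniteLength R (T ⧸ N) := by
      rw [← Module.length_ne_top_iff]
      let _ : Module (R ⧸ maximalIdeal R) (T ⧸ N) := inferInstance
      have hfin : Module.Finite (R ⧸ maximalIdeal R) (T ⧸ N) := 
        Module.Finite.of_restrictScalars_finite R _ _
      let _ : Field (R ⧸ maximalIdeal R) := Ideal.Quotient.field _
      rw [Module.length_eq_of_surjective (S := R) (R := R ⧸ maximalIdeal R)
        Ideal.Quotient.mk_surjective]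
      have : Module.length (R ⧸ maximalIdeal R) (T ⧸ N) =
        Module.finrank (R ⧸ maximalIdeal R) (T ⧸ N) := Module.length_eq_finrank _ _
      rw [this]
      exact ENat.natCast_ne_top _
    rw [← Module.length_ne_top_iff] at hN hQ ⊢
    rw [Module.length_eq_add_of_exact N.subtype N.mkQ N.injective_subtype N.mkQ_surjective
      (LinearMap.exact_subtype_mkQ N)]
    exact WithTop.add_ne_top.2 ⟨hN, hQ⟩

/-- If `M ⊗ N` has finite length then a power of the maximal ideal is contained in
`Ann M + Ann N`. -/
theorem exists_pow_le_sup_annihilator [IsNoetherianRing R] (M N : Type u) [AddCommGroup M]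
    [Module R M] [AddCommGroup N] [Module R N] [Module.Finite R M] [Module.Finite R N]
    (h : Module.length R (M ⊗[R] N) ≠ ⊤) :
    ∃ k : ℕ, maximalIdeal R ^ k ≤ Module.annihilator R M ⊔ Module.annihilator R N := by
  rw [Module.length_ne_top_iff] at h
  obtain ⟨k, hk⟩ := exists_pow_smul_eq_zero h
  suffices hs : maximalIdeal R ≤ (Module.annihilator R M ⊔ Module.annihilator R N).radical by
    exact Ideal.exists_pow_le_of_le_radical_of_fg hs (IsNoetherian.noetherian _)
  rw [Ideal.radical_eq_sInf]
  refine le_sInf ?_
  rintro P ⟨hP, hPp⟩
  have h1 : (⟨P, hPp⟩ : PrimeSpectrum R) ∈ Module.support R M := by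
    rw [Module.support_eq_zeroLocus]
    exact le_trans le_sup_left hP
  have h2 : (⟨P, hPp⟩ : PrimeSpectrum R) ∈ Module.support R N := by
    rw [Module.support_eq_zeroLocus]
    exact le_trans le_sup_right hP
  have h3 := mem_support_tensorProduct _ h1 h2
  have h4 : Module.annihilator R (M ⊗[R] N) ≤ P := Module.annihilator_le_of_mem_support h3
  have h5 : maximalIdeal R ^ k ≤ P := by
    intro a ha
    exact h4 (Module.mem_annihilator.2 (hk a ha))
  exact hPp.le_of_pow_le h5

/-- Tor modules have finite length as soon as `M ⊗ N` has. -/
theorem tor_length_ne_top [IsNoetherianRing R] (n : ℕ) (M N : Type u) [AddCommGroup M]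
    [Module R M] [AddCommGroup N] [Module R N] [Module.Finite R M] [Module.Finite R N]
    (h : Module.length R (M ⊗[R] N) ≠ ⊤) : Module.length R (TorM R n M N) ≠ ⊤ := by
  obtain ⟨k, hk⟩ := exists_pow_le_sup_annihilator M N h
  have := tor_finite (R := R) n M N
  rw [Module.length_ne_top_iff]
  refine isFiniteLength_of_pow_smul_eq_zero k ?_
  intro a ha x
  obtain ⟨b, hb, c, hc, rfl⟩ := Submodule.mem_sup.1 (hk ha)
  rw [add_smul, tor_smul_eq_zero_left b (fun m => Module.mem_annihilator.1 hb m) n N x,
    tor_smul_eq_zero_right c (fun m => Module.mem_annihilator.1 hc m) n M x, add_zero]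

end local_ring

end Vale.Agent.P177
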