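import Vale.Agent.P177.FVal
import Vale.Agent.P177.FinLength

/-!
Values of elements of a one-dimensional local domain.
-/

namespace Vale.Agent.P177

open IsLocalRing Function

universe u

theorem length_succ_le_of_lt {D : Type u} [CommRing D] {I J : Ideal D} (h : I < J) :
    Module.length D (D ⧸ J) + 1 ≤ Module.length D (D ⧸ I) := by
  rw [Module.length_quotient, Module.length_quotient]
  exact Order.coheight_add_one_le h

theorem length_quot_mul {D : Type u} [CommRing D] [IsDomain D] {b : D} (hb : b ≠ 0)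
    (J : Ideal D) : Module.length D (D ⧸ (Ideal.span {b} * J)) =
      Module.length D (D ⧸ J) + Module.length D (D ⧸ Ideal.span {b}) := by
  have hle : J ≤ Submodule.comap (LinearMap.lsmul D D b) (Ideal.span {b} * J) := by
    intro a ha
    exact Ideal.mul_mem_mul (Ideal.mem_span_singleton_self b) ha
  let f : (D ⧸ J) →ₗ[D] D ⧸ (Ideal.span {b} * J) :=
    Submodule.mapQ J (Ideal.span {b} * J) (LinearMap.lsmul D D b) hle
  let g : (D ⧸ (Ideal.span {b} * J)) →ₗ[D] D ⧸ Ideal.span {b} :=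
    Submodule.factor Ideal.mul_le_left
  refine Module.length_eq_add_of_exact f g ?_ ?_ ?_
  · rw [injective_iff_map_eq_zero]
    intro a ha
    obtain ⟨a, rfl⟩ := Submodule.mkQ_surjective _ a
    have h1 : b * a ∈ Ideal.span {b} * J := by
      have h2 : (Ideal.span {b} * J).mkQ (b * a) = 0 := ha
      rwa [Submodule.mkQ_apply, Submodule.Quotient.mk_eq_zero] at h2
    rw [Ideal.mem_span_singleton_mul] at h1
    obtain ⟨c, hc, hbc⟩ := h1
    rw [Submodule.mkQ_apply, Submodule.Quotient.mk_eq_zero]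
    rwa [← mul_left_cancel₀ hb hbc]
  · intro a
    obtain ⟨a, rfl⟩ := Submodule.mkQ_surjective _ a
    exact ⟨(Ideal.span {b} * J).mkQ a, rfl⟩
  · intro a
    obtain ⟨a, rfl⟩ := Submodule.mkQ_surjective _ a
    constructor
    · intro ha
      have h1 : a ∈ Ideal.span {b} := by
        have h2 : (Ideal.span {b}).mkQ a = 0 := ha
        rwa [Submodule.mkQ_apply, Submodule.Quotient.mk_eq_zero] at h2
      obtain ⟨c, rfl⟩ := Ideal.mem_span_singleton.1 h1
      exact ⟨J.mkQ c, rfl⟩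
    · rintro ⟨c, hc⟩
      obtain ⟨c, rfl⟩ := Submodule.mkQ_surjective _ c
      rw [← hc]
      change (Ideal.span {b}).mkQ (b * c) = 0
      rw [Submodule.mkQ_apply, Submodule.Quotient.mk_eq_zero]
      exact Ideal.mul_mem_right _ _ (Ideal.mem_span_singleton_self b)

section

variable {D O : Type u} [CommRing D] [CommRing O] [IsDomain O] [ValuationRing O] (φ : D →+* O)

theorem exists_greatest (S : Finset D) (hS : S.Nonempty) : ∃ s ∈ S, ∀ t ∈ S, φ t ∣ φ s := by
  classical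
  induction hS using Finset.Nonempty.cons_induction with
  | singleton a => exact ⟨a, by simp, by simp⟩
  | cons a S _ _ ih =>
    obtain ⟨s, hs, h⟩ := ih
    rcases ValuationRing.dvd_total (φ a) (φ s) with h1 | h1
    · exact ⟨s, by simp [hs], by simpa using ⟨h1, h⟩⟩
    · exact ⟨a, by simp, by simpa using fun t ht => (h t ht).trans h1⟩

theorem length_add_card_le (J : Ideal D) (n : ℕ) : ∀ (S : Finset D), S.card = n →
    (∀ s ∈ S, s ∈ J) →
    (∀ s ∈ S, ∀ s' ∈ S, φ s ∣ φ s' → φ s' ∣ φ s → s = s') → ∀ t : O, (∀ s ∈ S, ¬ t ∣ φ s) →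
    Module.length D (D ⧸ J) + n ≤ Module.length D (D ⧸ (J ⊓ (Ideal.span {t}).comap φ)) := by
  classical
  induction n with
  | zero =>
    intro S _ _ _ t _
    rw [Nat.cast_zero, add_zero, Module.length_quotient, Module.length_quotient]
    exact Order.coheight_anti inf_le_left
  | succ n ih =>
    intro S hS hJ hne t ht
    obtain ⟨s, hs, hmax⟩ := exists_greatest φ S (by
      rw [← Finset.card_pos]
      omega)
    have h1 := ih (S.erase s) (by rw [Finset.card_erase_of_mem hs, hS]; rfl)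
      (fun a ha => hJ a (Finset.mem_of_mem_erase ha))
      (fun a ha b hb => hne a (Finset.mem_of_mem_erase ha) b (Finset.mem_of_mem_erase hb)) (φ s)
      (fun a ha h2 => Finset.ne_of_mem_erase ha
        (hne a (Finset.mem_of_mem_erase ha) s hs (hmax a (Finset.mem_of_mem_erase ha)) h2))
    have h2 : φ s ∣ t := (ValuationRing.dvd_total (φ s) t).resolve_right (ht s hs)
    have h3 : J ⊓ (Ideal.span {t}).comap φ < J ⊓ (Ideal.span {φ s}).comap φ := by
      refine lt_of_le_of_ne (inf_le_inf_left _ (Ideal.comap_mono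
        (Ideal.span_singleton_le_span_singleton.2 h2))) ?_
      intro h3
      have h4 : s ∈ J ⊓ (Ideal.span {φ s}).comap φ :=
        ⟨hJ s hs, Ideal.mem_span_singleton_self _⟩
      rw [← h3] at h4
      exact ht s hs (Ideal.mem_span_singleton.1 h4.2)
    have h4 := length_succ_le_of_lt h3
    push_cast
    rw [← add_assoc]
    exact (add_le_add_left h1 1).trans h4

end

theorem max_le_radical {D : Type u} [CommRing D] [IsLocalRing D]
    (hD : ∀ p : Ideal D, p.IsPrime → p ≠ ⊥ → p = maximalIdeal D) {I : Ideal D} (hI : I ≠ ⊥) :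
    maximalIdeal D ≤ I.radical := by
  rw [Ideal.radical_eq_sInf]
  refine le_sInf fun p hp => ?_
  have h1 : p ≠ ⊥ := fun h => hI (le_bot_iff.1 (h ▸ hp.1))
  rw [hD p hp.2 h1]

theorem length_quotient_ne_top {D : Type u} [CommRing D] [IsLocalRing D] [IsNoetherianRing D]
    (hD : ∀ p : Ideal D, p.IsPrime → p ≠ ⊥ → p = maximalIdeal D) {J : Ideal D} (hJ0 : J ≠ ⊥) :
    Module.length D (D ⧸ J) ≠ ⊤ := by
  rw [Module.length_ne_top_iff]
  obtain ⟨k, hk⟩ := Ideal.exists_pow_le_of_le_radical_of_fg (max_le_radical hD hJ0)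
    (IsNoetherian.noetherian _)
  refine isFiniteLength_of_pow_smul_eq_zero k fun a ha x => ?_
  obtain ⟨x, rfl⟩ := Ideal.Quotient.mk_surjective x
  change Ideal.Quotient.mk J (a * x) = 0
  rw [Ideal.Quotient.eq_zero_iff_mem]
  exact Ideal.mul_mem_right _ _ (hk ha)

/-- Values of elements of a one-dimensional local domain are commensurable. -/
theorem exists_assoc_pow {D O : Type u} [CommRing D] [IsDomain D] [IsLocalRing D]
    [IsNoetherianRing D] (hD : ∀ p : Ideal D, p.IsPrime → p ≠ ⊥ → p = maximalIdeal D)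
    [CommRing O] [IsDomain O] [ValuationRing O] (φ : D →+* O) (hφ : Injective φ) [IsLocalHom φ]
    (a b : D) (hb : b ∈ maximalIdeal D) (ha0 : a ≠ 0) (hb0 : b ≠ 0)
    (e : ℕ) (he : Module.length D (D ⧸ Ideal.span {b}) = e) :
    ∃ n, 1 ≤ n ∧ n ≤ e ∧ ∃ c : ℕ, Associated (φ a ^ n) (φ b ^ c) := by
  classical
  obtain ⟨N, hN⟩ := max_le_radical hD (I := Ideal.span {a}) (by simpa using ha0) hb
  rw [Ideal.mem_span_singleton] at hN
  have hb' : φ b ≠ 0 := (map_ne_zero_iff φ hφ).2 hb0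
  have hbu : ¬ IsUnit (φ b) := fun h => hb (isUnit_of_map_unit φ b h)
  have hle : ∀ c d : ℕ, φ b ^ c ∣ φ b ^ d → c ≤ d := fun c d h => by
    exact (pow_dvd_pow_iff hb' hbu).1 h
  have hc : ∀ n : ℕ, ∃ c : ℕ, φ b ^ c ∣ φ a ^ n ∧ ¬ φ b ^ (c + 1) ∣ φ a ^ n := by
    intro n
    by_contra hcon
    push Not at hcon
    have h1 : ∀ c : ℕ, φ b ^ c ∣ φ a ^ n := by
      intro c
      induction c with
      | zero => simp
      | succ c ih => exact hcon c ih
    have h2 : φ a ^ n ∣ φ b ^ (N * n) := by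
      rw [pow_mul, ← map_pow φ b N]
      exact pow_dvd_pow_of_dvd (map_dvd φ hN) n
    have h3 := hle _ _ ((h1 (N * n + 1)).trans h2)
    omega
  choose c hc1 hc2 using hc
  have hcle : ∀ n d, φ b ^ d ∣ φ a ^ n → d ≤ c n := by
    intro n d h
    by_contra hcon
    exact hc2 n ((pow_dvd_pow _ (by omega)).trans h)
  have hcm : ∀ n m, n ≤ m → c n ≤ c m := fun n m h => hcle m _ ((hc1 n).trans (pow_dvd_pow _ h))
  by_contra hcon
  push Not at hcon
  let M := c e
  have hM : ∀ n, n ≤ e → c n ≤ M := fun n h => hcm n e h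
  let g : ℕ → D := fun n => a ^ n * b ^ (M - c n)
  have hg : ∀ n, φ (g n) = φ a ^ n * φ b ^ (M - c n) := fun n => by
    simp only [g, map_mul, map_pow]
  have hginj : ∀ n m, n ≤ e → m ≤ e → n < m → φ (g n) ∣ φ (g m) → φ (g m) ∣ φ (g n) → False := by
    intro n m hn hm hnm h1 h2
    have h3 : Associated (φ (g m)) (φ (g n)) := associated_of_dvd_dvd h2 h1
    rw [hg, hg] at h3
    have h4 : φ a ^ m = φ a ^ n * φ a ^ (m - n) := by
      rw [← pow_add]
      congr 1
      omega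
    have h5 : φ b ^ (M - c n) = φ b ^ (M - c m) * φ b ^ (c m - c n) := by
      rw [← pow_add]
      congr 1
      have := hcm n m hnm.le
      have := hM m hm
      omega
    obtain ⟨u, hu⟩ := h3
    have ha' : φ a ≠ 0 := (map_ne_zero_iff φ hφ).2 ha0
    refine hcon (m - n) (by omega) (by omega) (c m - c n) ⟨u, ?_⟩
    have h6 : φ a ^ n * φ b ^ (M - c m) ≠ 0 := mul_ne_zero (pow_ne_zero _ ha') (pow_ne_zero _ hb')
    apply mul_left_cancel₀ h6
    rw [h4, h5] at hu
    calc φ a ^ n * φ b ^ (M - c m) * (φ a ^ (m - n) * ↑u)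
        = φ a ^ n * φ a ^ (m - n) * φ b ^ (M - c m) * ↑u := by ring
      _ = φ a ^ n * (φ b ^ (M - c m) * φ b ^ (c m - c n)) := hu
      _ = _ := by ring
  let S : Finset D := (Finset.range (e + 1)).image g
  have hginj' : ∀ n m, n ≤ e → m ≤ e → φ (g n) ∣ φ (g m) → φ (g m) ∣ φ (g n) → n = m := by
    intro n m hn hm h1 h2
    rcases lt_trichotomy n m with h | h | h
    · exact (hginj n m hn hm h h1 h2).elim
    · exact h
    · exact (hginj m n hm hn h h2 h1).elim
  have hcard : S.card = e + 1 := by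
    rw [Finset.card_image_of_injOn, Finset.card_range]
    intro n hn m hm h
    simp only [Finset.coe_range, Set.mem_Iio] at hn hm
    exact hginj' n m (by omega) (by omega) (by rw [h]) (by rw [h])
  let J : Ideal D := Ideal.span (S : Set D)
  have hJ : ∀ f ∈ J, φ b ^ M ∣ φ f := by
    intro f hf
    have h1 : J ≤ (Ideal.span {φ b ^ M}).comap φ := by
      rw [Ideal.span_le]
      intro s hs
      obtain ⟨n, hn, rfl⟩ := Finset.mem_image.1 (Finset.mem_coe.1 hs)
      rw [Finset.mem_range] at hn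
      change φ (g n) ∈ Ideal.span {φ b ^ M}
      rw [Ideal.mem_span_singleton, hg]
      have h2 : φ b ^ M = φ b ^ c n * φ b ^ (M - c n) := by
        rw [← pow_add]
        congr 1
        have := hM n (by omega)
        omega
      rw [h2]
      exact mul_dvd_mul_right (hc1 n) _
    exact Ideal.mem_span_singleton.1 (h1 hf)
  have key := length_add_card_le φ J (e + 1) S hcard (fun s hs => Ideal.subset_span hs) (by
      intro s hs s' hs' h1 h2
      obtain ⟨n, hn, rfl⟩ := Finset.mem_image.1 hs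
      obtain ⟨m, hm, rfl⟩ := Finset.mem_image.1 hs'
      rw [Finset.mem_range] at hn hm
      rw [hginj' n m (by omega) (by omega) h1 h2]) (φ b ^ (M + 1)) (by
      intro s hs
      obtain ⟨n, hn, rfl⟩ := Finset.mem_image.1 hs
      rw [Finset.mem_range] at hn
      rw [hg]
      have h2 : φ b ^ (M + 1) = φ b ^ (c n + 1) * φ b ^ (M - c n) := by
        rw [← pow_add]
        congr 1
        have := hM n (by omega)
        omega
      rw [h2]
      intro h
      exact hc2 n ((mul_dvd_mul_iff_right (pow_ne_zero _ hb')).1 h))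
  have h1 : Module.length D (D ⧸ (J ⊓ (Ideal.span {φ b ^ (M + 1)}).comap φ)) ≤
      Module.length D (D ⧸ (Ideal.span {b} * J)) := by
    rw [Module.length_quotient, Module.length_quotient]
    refine Order.coheight_anti ?_
    rw [Ideal.mul_le]
    intro s hs f hf
    obtain ⟨s, rfl⟩ := Ideal.mem_span_singleton.1 hs
    refine ⟨Ideal.mul_mem_left _ _ hf, ?_⟩
    change φ (b * s * f) ∈ Ideal.span {φ b ^ (M + 1)}
    rw [Ideal.mem_span_singleton, map_mul, map_mul, pow_succ']
    exact mul_dvd_mul (Dvd.intro _ rfl) (hJ f hf)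
  have hg0 : ∀ n, g n ≠ 0 := fun n => mul_ne_zero (pow_ne_zero _ ha0) (pow_ne_zero _ hb0)
  have hJ0 : J ≠ ⊥ := by
    intro h
    have h2 : g 0 ∈ J := Ideal.subset_span (Finset.mem_coe.2 (Finset.mem_image_of_mem g
      (Finset.mem_range.2 (by omega))))
    rw [h, Ideal.mem_bot] at h2
    exact hg0 0 h2
  have hfin : Module.length D (D ⧸ J) ≠ ⊤ := length_quotient_ne_top hD hJ0
  rw [length_quot_mul hb0, he] at h1
  have h2 := key.trans h1
  rw [ENat.add_le_add_iff_left hfin] at h2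
  have h3 : e + 1 ≤ e := by exact_mod_cast h2
  omega

/-- A uniform exponent for the valuations with given kernel and centre. -/
theorem exists_weight_prime {B : Type u} [CommRing B] [IsNoetherianRing B] (𝔎 𝔠 : Ideal B)
    [𝔎.IsPrime] [𝔠.IsPrime] (hle : 𝔎 ≤ 𝔠)
    (hbet : ∀ q : Ideal B, q.IsPrime → 𝔎 ≤ q → q ≤ 𝔠 → q = 𝔎 ∨ q = 𝔠)
    (a b : B) (hb : b ∈ 𝔠) (ha0 : a ∉ 𝔎) (hb0 : b ∉ 𝔎) :
    ∃ w : ℕ, 1 ≤ w ∧ ∀ (O : Type u) [CommRing O] [IsDomain O] [ValuationRing O] (Φ : B →+* O),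
      RingHom.ker Φ = 𝔎 → (maximalIdeal O).comap Φ = 𝔠 → ∃ c : ℕ,
        Associated (Φ a ^ w) (Φ b ^ c) := by
  let L := Localization.AtPrime 𝔠
  let 𝔎' : Ideal L := 𝔎.map (algebraMap B L)
  have hdisj : Disjoint (𝔠.primeCompl : Set B) 𝔎 := by
    rw [Set.disjoint_left]
    intro a ha ha'
    exact ha (hle ha')
  have h𝔎' : 𝔎'.IsPrime :=
    IsLocalization.isPrime_of_isPrime_disjoint 𝔠.primeCompl _ _ inferInstance hdisj
  have hc : 𝔎'.comap (algebraMap B L) = 𝔎 :=
    IsLocalization.under_map_of_isPrime_disjoint 𝔠.primeCompl L inferInstance hdisj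
  let D := L ⧸ 𝔎'
  have hl1 : IsLocalHom (Ideal.Quotient.mk 𝔎') :=
    IsLocalHom.of_surjective _ Ideal.Quotient.mk_surjective
  have hDl : IsLocalRing D :=
    IsLocalRing.of_surjective' (Ideal.Quotient.mk 𝔎') Ideal.Quotient.mk_surjective
  have hLN : IsNoetherianRing L := IsLocalization.isNoetherianRing 𝔠.primeCompl L inferInstance
  let ι : B →+* D := (Ideal.Quotient.mk 𝔎').comp (algebraMap B L)
  have hι : ∀ x, ι x = 0 ↔ x ∈ 𝔎 := fun x => by
    rw [← hc]
    exact Ideal.Quotient.eq_zero_iff_mem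
  have hιm : (maximalIdeal D).comap ι = 𝔠 := by
    have h1 : (maximalIdeal D).comap (Ideal.Quotient.mk 𝔎') = maximalIdeal L :=
      ((IsLocalRing.local_hom_TFAE (Ideal.Quotient.mk 𝔎')).out 0 4).mp hl1
    rw [← Ideal.comap_comap, h1]
    exact Localization.AtPrime.under_maximalIdeal
  have hD : ∀ p : Ideal D, p.IsPrime → p ≠ ⊥ → p = maximalIdeal D := by
    intro p hp hp0
    let q : Ideal B := p.comap ι
    have hq : q.IsPrime := Ideal.IsPrime.comap _
    have h1 : 𝔎 ≤ q := fun x hx => by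
      change ι x ∈ p
      rw [(hι x).2 hx]
      exact zero_mem _
    have h2 : q ≤ 𝔠 := by
      rw [← hιm]
      exact Ideal.comap_mono (le_maximalIdeal hp.ne_top)
    have hinj : ∀ p₁ p₂ : Ideal D, p₁.comap ι = p₂.comap ι → p₁ = p₂ := by
      intro p₁ p₂ h
      rw [← Ideal.comap_comap, ← Ideal.comap_comap] at h
      have h3 : p₁.comap (Ideal.Quotient.mk 𝔎') = p₂.comap (Ideal.Quotient.mk 𝔎') := by
        have e1 := IsLocalization.map_under 𝔠.primeCompl L (p₁.comap (Ideal.Quotient.mk 𝔎'))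
        have e2 := IsLocalization.map_under 𝔠.primeCompl L (p₂.comap (Ideal.Quotient.mk 𝔎'))
        change ((p₁.comap (Ideal.Quotient.mk 𝔎')).comap (algebraMap B L)).map _ = _ at e1
        change ((p₂.comap (Ideal.Quotient.mk 𝔎')).comap (algebraMap B L)).map _ = _ at e2
        rw [← e1, ← e2, h]
      exact Ideal.comap_injective_of_surjective _ Ideal.Quotient.mk_surjective h3
    rcases hbet q hq h1 h2 with h3 | h3
    · exfalso
      apply hp0
      apply hinj
      change q = _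
      rw [h3]
      ext x
      rw [Ideal.mem_comap, Ideal.mem_bot, hι]
    · apply hinj
      rw [hιm]
      exact h3
  have hbD : ι b ≠ 0 := fun h => hb0 ((hι b).1 h)
  have haD : ι a ≠ 0 := fun h => ha0 ((hι a).1 h)
  obtain ⟨e, he⟩ := ENat.ne_top_iff_exists.1 (length_quotient_ne_top hD
    (J := Ideal.span {ι b}) (by simpa using hbD))
  refine ⟨e.factorial, Nat.factorial_pos e, ?_⟩
  intro O _ _ _ Φ hker hcomap
  have hunit : ∀ s : 𝔠.primeCompl, IsUnit (Φ s) := by
    intro s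
    by_contra hs
    have h1 : Φ s ∈ maximalIdeal O := hs
    have h2 : (s : B) ∈ (maximalIdeal O).comap Φ := h1
    rw [hcomap] at h2
    exact s.2 h2
  let Φ₁ : L →+* O := IsLocalization.lift hunit
  have hΦ₁ : ∀ x, Φ₁ (algebraMap B L x) = Φ x := fun x => IsLocalization.lift_eq hunit x
  let Φ₂ : D →+* O := Ideal.Quotient.lift 𝔎' Φ₁ (by
    intro x hx
    have h1 : 𝔎' ≤ RingHom.ker Φ₁ := by
      rw [Ideal.map_le_iff_le_comap]
      intro y hy
      change Φ₁ (algebraMap B L y) = 0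
      rw [hΦ₁, ← RingHom.mem_ker, hker]
      exact hy
    exact h1 hx)
  have hΦ₂ : ∀ x, Φ₂ (ι x) = Φ x := fun x => hΦ₁ x
  have hrep : ∀ d : D, ∃ (x : B) (s : 𝔠.primeCompl), d * ι s = ι x := by
    intro d
    obtain ⟨l, rfl⟩ := Ideal.Quotient.mk_surjective d
    obtain ⟨⟨x, s⟩, hxs⟩ := IsLocalization.surj 𝔠.primeCompl l
    exact ⟨x, s, by
      change Ideal.Quotient.mk 𝔎' l * Ideal.Quotient.mk 𝔎' (algebraMap B L s) = _
      rw [← map_mul, hxs]
      rfl⟩
  have hinj : Injective Φ₂ := by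
    rw [injective_iff_map_eq_zero]
    intro d hd
    obtain ⟨x, s, hxs⟩ := hrep d
    have h1 := congrArg Φ₂ hxs
    rw [map_mul, hd, zero_mul, hΦ₂] at h1
    have h2 : x ∈ 𝔎 := by
      rw [← hker]
      exact h1.symm
    rw [(hι x).2 h2] at hxs
    refine (mul_eq_zero.1 hxs).resolve_right fun h => ?_
    exact s.2 (hle ((hι s).1 h))
  have hloc : IsLocalHom Φ₂ := by
    refine ⟨fun d hd => ?_⟩
    by_contra hd'
    obtain ⟨x, s, hxs⟩ := hrep d
    have h1 : x ∈ 𝔠 := by
      rw [← hιm]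
      change ι x ∈ maximalIdeal D
      rw [← hxs]
      exact Ideal.mul_mem_right _ _ hd'
    have h2 := congrArg Φ₂ hxs
    rw [map_mul, hΦ₂, hΦ₂] at h2
    rw [← hcomap] at h1
    have h3 : Φ x ∈ maximalIdeal O := h1
    rw [← h2] at h3
    exact h3 (hd.mul (hunit s))
  obtain ⟨n, hn1, hn2, c, hc⟩ := exists_assoc_pow hD Φ₂ hinj (ι a) (ι b)
    (by
      have : b ∈ (maximalIdeal D).comap ι := by
        rw [hιm]
        exact hb
      exact this) haD hbD e he.symm
  rw [hΦ₂, hΦ₂] at hc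
  obtain ⟨m, hm⟩ := Nat.dvd_factorial hn1 hn2
  refine ⟨c * m, ?_⟩
  rw [hm, pow_mul, pow_mul]
  exact hc.pow_pow

/-- A uniform exponent for the valuations with given kernel. -/
theorem exists_weight {B : Type u} [CommRing B] [IsNoetherianRing B] (𝔎 : Ideal B)
    [𝔎.IsPrime] (a b : B) (ha0 : a ∉ 𝔎) (hb0 : b ∉ 𝔎) :
    ∃ w : ℕ, 1 ≤ w ∧ ∀ (O : Type u) [CommRing O] [IsDomain O] [ValuationRing O] (Φ : B →+* O),
      RingHom.ker Φ = 𝔎 → a ∈ (maximalIdeal O).comap Φ → b ∈ (maximalIdeal O).comap Φ →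
      (∀ q : Ideal B, q.IsPrime → 𝔎 ≤ q → q ≤ (maximalIdeal O).comap Φ →
        q = 𝔎 ∨ q = (maximalIdeal O).comap Φ) → ∃ c : ℕ, Associated (Φ a ^ w) (Φ b ^ c) := by
  have hfin := Ideal.finite_minimalPrimes_of_isNoetherianRing B (𝔎 ⊔ Ideal.span {a})
  have key : ∀ T : Set (Ideal B), T.Finite → ∃ w : ℕ, 1 ≤ w ∧ ∀ 𝔠 ∈ T, ∀ (O : Type u) [CommRing O]
      [IsDomain O] [ValuationRing O] (Φ : B →+* O),
      RingHom.ker Φ = 𝔎 → (maximalIdeal O).comap Φ = 𝔠 → a ∈ 𝔠 → b ∈ 𝔠 →
      (∀ q : Ideal B, q.IsPrime → 𝔎 ≤ q → q ≤ 𝔠 → q = 𝔎 ∨ q = 𝔠) →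
      ∃ c : ℕ, Associated (Φ a ^ w) (Φ b ^ c) := by
    intro T hT
    induction T, hT using Set.Finite.induction_on with
    | empty => exact ⟨1, le_rfl, fun 𝔠 h => h.elim⟩
    | @insert 𝔠 T _ _ ih =>
      obtain ⟨w, hw, h⟩ := ih
      by_cases hgood : 𝔠.IsPrime ∧ 𝔎 ≤ 𝔠 ∧ a ∈ 𝔠 ∧ b ∈ 𝔠 ∧
          ∀ q : Ideal B, q.IsPrime → 𝔎 ≤ q → q ≤ 𝔠 → q = 𝔎 ∨ q = 𝔠
      · obtain ⟨h1, h2, h3, h4, h5⟩ := hgood
        obtain ⟨w', hw', h'⟩ := exists_weight_prime 𝔎 𝔠 h2 h5 a b h4 ha0 hb0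
        refine ⟨w * w', Nat.mul_pos hw hw', ?_⟩
        intro 𝔠' hmem O _ _ _ Φ hker hcomap ha hb hbet
        rcases hmem with rfl | hmem
        · obtain ⟨c, hc⟩ := h' O Φ hker hcomap
          refine ⟨c * w, ?_⟩
          rw [mul_comm w, pow_mul, pow_mul]
          exact hc.pow_pow
        · obtain ⟨c, hc⟩ := h 𝔠' hmem O Φ hker hcomap ha hb hbet
          refine ⟨c * w', ?_⟩
          rw [pow_mul, pow_mul]
          exact hc.pow_pow
      · refine ⟨w, hw, ?_⟩
        intro 𝔠' hmem O _ _ _ Φ hker hcomap ha hb hbet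
        rcases hmem with rfl | hmem
        · exfalso
          apply hgood
          refine ⟨?_, ?_, ha, hb, hbet⟩
          · rw [← hcomap]
            exact Ideal.IsPrime.comap _
          · rw [← hcomap, ← hker]
            intro x hx
            change Φ x ∈ maximalIdeal O
            rw [RingHom.mem_ker.1 hx]
            exact zero_mem _
        · exact h 𝔠' hmem O Φ hker hcomap ha hb hbet
  obtain ⟨w, hw, h⟩ := key _ hfin
  refine ⟨w, hw, ?_⟩
  intro O _ _ _ Φ hker ha hb hbet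
  refine h _ ?_ O Φ hker rfl ha hb hbet
  have hp : ((maximalIdeal O).comap Φ).IsPrime := Ideal.IsPrime.comap _
  have hle : 𝔎 ≤ (maximalIdeal O).comap Φ := by
    rw [← hker]
    intro x hx
    change Φ x ∈ maximalIdeal O
    rw [RingHom.mem_ker.1 hx]
    exact zero_mem _
  refine ⟨⟨hp, sup_le hle (by rwa [Ideal.span_singleton_le_iff_mem])⟩, ?_⟩
  intro q hq hqle
  rcases hbet q hq.1 (le_sup_left.trans hq.2) hqle with h1 | h1
  · exfalso
    apply ha0
    rw [← h1]
    exact hq.2 (Ideal.mem_sup_right (Ideal.mem_span_singleton_self a))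
  · rw [h1]

end Vale.Agent.P177
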