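import Vale.Agent.P177.FV
import Vale.Agent.P177.FBadR

/-!
Heights of the centres of valuations of monomial type.
-/

namespace Vale.Agent.P177

open IsLocalRing Function

universe u

theorem height_map_C_add_one_le {S : Type u} [CommRing S] (z : Ideal (Polynomial S))
    [hz : z.IsPrime]
    (h0 : (z.comap (Polynomial.C : S →+* Polynomial S)).map
      (Polynomial.C : S →+* Polynomial S) ≠ z) :
    (z.comap (Polynomial.C : S →+* Polynomial S)).height + 1 ≤ z.height := by
  let a : Ideal S := z.comap (Polynomial.C : S →+* Polynomial S)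
  have ha : a.IsPrime := Ideal.IsPrime.comap _
  let b : Ideal (Polynomial S) := a.map (Polynomial.C : S →+* Polynomial S)
  have hb : b.IsPrime := Ideal.isPrime_map_C_of_isPrime
  have hlt : b < z := lt_of_le_of_ne Ideal.map_comap_le h0
  have h2 : b.under S = a := by
    ext s
    change Polynomial.C s ∈ b ↔ s ∈ a
    rw [Ideal.mem_map_C_iff]
    refine ⟨fun h => by simpa using h 0, fun h n => ?_⟩
    rw [Polynomial.coeff_C]
    split_ifs
    · exact h
    · exact zero_mem _
  have h3 := height_under_le (R := S) b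
  rw [h2] at h3
  exact (add_le_add_left h3 1).trans (Ideal.height_add_one_le_of_lt_of_isPrime hlt)

theorem height_linear {S : Type u} [CommRing S] (r : ℕ) (z : Ideal (MvPolynomial (Fin r) S))
    [hz : z.IsPrime] (a : S) (ha : MvPolynomial.C a ∉ z)
    (h : ∀ i, ∃ b : S, MvPolynomial.C a * MvPolynomial.X i - MvPolynomial.C b ∈ z) :
    (z.comap (MvPolynomial.C : S →+* MvPolynomial (Fin r) S)).height + r ≤ z.height := by
  induction r with
  | zero =>
    rw [Nat.cast_zero, add_zero]
    have h1 := RingEquiv.height_comap (MvPolynomial.isEmptyRingEquiv S (Fin 0)).symm z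
    refine le_of_eq ?_
    rw [← h1]
    congr 1
  | succ r ih =>
    let e := MvPolynomial.finSuccEquiv S r
    let z' : Ideal (Polynomial (MvPolynomial (Fin r) S)) :=
      z.comap (e.symm : Polynomial (MvPolynomial (Fin r) S) →+* MvPolynomial (Fin (r + 1)) S)
    have hz' : z'.IsPrime := Ideal.IsPrime.comap _
    have hmem : ∀ F, e F ∈ z' ↔ F ∈ z := fun F => by
      change e.symm (e F) ∈ z ↔ _
      rw [AlgEquiv.symm_apply_apply]
    let z'' : Ideal (MvPolynomial (Fin r) S) :=
      z'.comap (Polynomial.C : MvPolynomial (Fin r) S →+* _)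
    have hz'' : z''.IsPrime := Ideal.IsPrime.comap _
    have hren : ∀ F : MvPolynomial (Fin r) S, F ∈ z'' ↔ MvPolynomial.rename Fin.succ F ∈ z := by
      intro F
      rw [← hmem]
      have h3 : e (MvPolynomial.rename Fin.succ F) = Polynomial.C F := by
        induction F using MvPolynomial.induction_on with
        | C a =>
          rw [MvPolynomial.rename_C, MvPolynomial.finSuccEquiv_apply]
          simp
        | add p q hp hq => rw [map_add, map_add, map_add, hp, hq]
        | mul_X p i hp =>
          rw [map_mul, map_mul, map_mul, hp, MvPolynomial.rename_X]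
          congr 1
          exact MvPolynomial.finSuccEquiv_X_succ
      rw [h3]
      rfl
    have h1 := ih z'' (by
      rw [hren, MvPolynomial.rename_C]
      exact ha) (by
      intro i
      obtain ⟨b, hb⟩ := h i.succ
      refine ⟨b, ?_⟩
      rw [hren, map_sub, map_mul, MvPolynomial.rename_C, MvPolynomial.rename_C,
        MvPolynomial.rename_X]
      exact hb)
    have h2 := height_map_C_add_one_le z' (by
      intro hcon
      obtain ⟨b, hb⟩ := h 0
      rw [← hmem, ← hcon, Ideal.mem_map_C_iff] at hb
      have h3 := hb 1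
      have h4 : e (MvPolynomial.C a * MvPolynomial.X 0 - MvPolynomial.C b) =
          Polynomial.C (MvPolynomial.C a) * Polynomial.X - Polynomial.C (MvPolynomial.C b) := by
        have heC : ∀ s : S, e (MvPolynomial.C s) = Polynomial.C (MvPolynomial.C s) := fun s => by
          rw [MvPolynomial.finSuccEquiv_apply]
          simp
        rw [map_sub, map_mul, MvPolynomial.finSuccEquiv_X_zero, heC, heC]
      rw [h4, Polynomial.coeff_sub, Polynomial.coeff_C_mul, Polynomial.coeff_X_one, mul_one,
        Polynomial.coeff_C_succ, sub_zero] at h3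
      apply ha
      have h5 : MvPolynomial.C a ∈ z'' := h3
      rw [hren, MvPolynomial.rename_C] at h5
      exact h5)
    have h3 : z'.height = z.height := RingEquiv.height_comap e.symm.toRingEquiv z
    have h4 : z''.comap (MvPolynomial.C : S →+* MvPolynomial (Fin r) S) =
        z.comap (MvPolynomial.C : S →+* MvPolynomial (Fin (r + 1)) S) := by
      ext s
      rw [Ideal.mem_comap, hren, MvPolynomial.rename_C]
      rfl
    rw [h4] at h1
    rw [h3] at h2
    push_cast
    rw [← add_assoc]
    exact (add_le_add_left h1 1).trans h2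

theorem height_le_residue {R : Type u} [CommRing R] [IsLocalRing R] [IsNoetherianRing R] {r : ℕ}
    (𝔠 : Ideal (MvPolynomial (Fin r) R)) [𝔠.IsPrime]
    (𝔞 : Ideal (MvPolynomial (Fin r) (ResidueField R))) [𝔞.IsPrime]
    (h : 𝔠 = 𝔞.comap (MvPolynomial.map (residue R))) :
    𝔠.height ≤ (maximalIdeal R).height + 𝔞.height := by
  have hq : Surjective (MvPolynomial.map (σ := Fin r) (residue R)) :=
    MvPolynomial.map_surjective _ residue_surjective
  let I : Ideal (MvPolynomial (Fin r) R) :=
    (maximalIdeal R).map (algebraMap R (MvPolynomial (Fin r) R))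
  have hI : RingHom.ker (MvPolynomial.map (σ := Fin r) (residue R)) = I := by
    rw [MvPolynomial.ker_map, ker_residue]
    rfl
  have hlies : 𝔠.LiesOver (maximalIdeal R) := by
    refine ⟨?_⟩
    rw [h]
    ext a
    change a ∈ maximalIdeal R ↔ MvPolynomial.map (residue R) (MvPolynomial.C a) ∈ 𝔞
    rw [MvPolynomial.map_C]
    constructor
    · intro ha
      rw [(residue_eq_zero_iff a).2 ha, map_zero]
      exact zero_mem _
    · intro ha
      by_contra h2
      have h3 : IsUnit (residue R a) := by
        rw [isUnit_iff_ne_zero, Ne, residue_eq_zero_iff]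
        exact h2
      exact (inferInstance : 𝔞.IsPrime).ne_top (Ideal.eq_top_of_isUnit_mem _ ha
        (h3.map MvPolynomial.C))
  have h1 := Ideal.height_le_height_add_of_liesOver (maximalIdeal R) 𝔠
  let f : MvPolynomial (Fin r) R ⧸ I →+* MvPolynomial (Fin r) (ResidueField R) :=
    Ideal.Quotient.lift I (MvPolynomial.map (residue R)) (fun a ha => by
      rw [← hI] at ha
      exact ha)
  have hf : Bijective f := by
    constructor
    · rw [injective_iff_map_eq_zero]
      intro a ha
      obtain ⟨a, rfl⟩ := Ideal.Quotient.mk_surjective a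
      rw [Ideal.Quotient.eq_zero_iff_mem, ← hI]
      exact ha
    · exact Ideal.Quotient.lift_surjective_of_surjective _ _ hq
  let e := RingEquiv.ofBijective f hf
  have h2 : 𝔠.map (Ideal.Quotient.mk I) = 𝔞.comap (e : _ →+* _) := by
    have h3 : 𝔠 = (𝔞.comap (e : _ →+* _)).comap (Ideal.Quotient.mk I) := by
      rw [h, Ideal.comap_comap]
      rfl
    rw [h3, Ideal.map_comap_of_surjective _ Ideal.Quotient.mk_surjective]
  have h3 : (𝔠.map (Ideal.Quotient.mk I)).height = 𝔞.height := by
    rw [h2]
    exact RingEquiv.height_comap e 𝔞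
  rw [← h3]
  exact h1

section hom

variable {k : Type u} [CommRing k] {r : ℕ} (j : Fin (r + 1))

/-- The values of the variables under dehomogenization. -/
noncomputable def eJ : Fin (r + 1) → MvPolynomial (Fin r) k :=
  Fin.insertNth j 1 MvPolynomial.X

@[simp] theorem eJ_same : eJ (k := k) j j = 1 := Fin.insertNth_apply_same _ _ _

@[simp] theorem eJ_succAbove (i : Fin r) : eJ (k := k) j (j.succAbove i) = MvPolynomial.X i :=
  Fin.insertNth_apply_succAbove _ _ _ _

/-- The graded dehomogenization. -/
noncomputable def muJ : MvPolynomial (Fin (r + 1)) k →ₐ[k] Polynomial (MvPolynomial (Fin r) k) :=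
  MvPolynomial.aeval (fun i => Polynomial.X * Polynomial.C (eJ j i))

theorem muJ_hom (F : MvPolynomial (Fin (r + 1)) k) (n : ℕ) (hF : F.IsHomogeneous n) :
    muJ j F = Polynomial.X ^ n * Polynomial.C (MvPolynomial.aeval (eJ j) F) := by
  unfold muJ
  rw [aeval_mul_of_isHomogeneous _ _ F n hF]
  congr 1
  exact MvPolynomial.aeval_algebraMap_apply (Polynomial (MvPolynomial (Fin r) k)) (eJ j) F

theorem aeval_eJ_rename (G : MvPolynomial (Fin r) k) :
    MvPolynomial.aeval (eJ j) (MvPolynomial.rename j.succAbove G) = G := by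
  rw [MvPolynomial.aeval_rename]
  have : (eJ (k := k) j ∘ j.succAbove) = MvPolynomial.X := by
    funext i
    exact eJ_succAbove j i
  rw [this, MvPolynomial.aeval_X_left_apply]

/-- The homogeneous prime attached to a prime of the affine ring. -/
noncomputable def hJ (𝔭 : Ideal (MvPolynomial (Fin r) k)) : Ideal (MvPolynomial (Fin (r + 1)) k) :=
  (𝔭.map (Polynomial.C : MvPolynomial (Fin r) k →+* _)).comap (muJ j)

instance (𝔭 : Ideal (MvPolynomial (Fin r) k)) [𝔭.IsPrime] : (hJ j 𝔭).IsPrime := by
  have hb : (𝔭.map (Polynomial.C : MvPolynomial (Fin r) k →+* _)).IsPrime :=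
    Ideal.isPrime_map_C_of_isPrime
  exact Ideal.IsPrime.comap _

theorem hJ_strictMono {𝔭 𝔮 : Ideal (MvPolynomial (Fin r) k)} (h : 𝔭 < 𝔮) : hJ j 𝔭 < hJ j 𝔮 := by
  refine lt_of_le_not_ge (Ideal.comap_mono (Ideal.map_mono h.le)) ?_
  intro hcon
  obtain ⟨G, hG, hG'⟩ := SetLike.exists_of_lt h
  let N := G.totalDegree
  let G' : MvPolynomial (Fin (r + 1)) k := ∑ n ∈ Finset.range (N + 1),
    MvPolynomial.rename j.succAbove (MvPolynomial.homogeneousComponent n G) *
      MvPolynomial.X j ^ (N - n)
  have h1 : muJ j G' = Polynomial.X ^ N * Polynomial.C G := by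
    have h2 : ∀ n ∈ Finset.range (N + 1), muJ j
        (MvPolynomial.rename j.succAbove (MvPolynomial.homogeneousComponent n G) *
          MvPolynomial.X j ^ (N - n)) =
        Polynomial.X ^ N * Polynomial.C (MvPolynomial.homogeneousComponent n G) := by
      intro n hn
      rw [Finset.mem_range] at hn
      rw [map_mul, map_pow, muJ_hom j _ n
        (MvPolynomial.homogeneousComponent_isHomogeneous n G).rename_isHomogeneous,
        aeval_eJ_rename]
      have h3 : muJ j (MvPolynomial.X j : MvPolynomial (Fin (r + 1)) k) = Polynomial.X := by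
        unfold muJ
        rw [MvPolynomial.aeval_X, eJ_same, map_one, mul_one]
      rw [h3]
      have h4 : (Polynomial.X : Polynomial (MvPolynomial (Fin r) k)) ^ N =
          Polynomial.X ^ n * Polynomial.X ^ (N - n) := by
        rw [← pow_add]
        congr 1
        omega
      rw [h4]
      ring
    rw [map_sum, Finset.sum_congr rfl h2, ← Finset.mul_sum, ← map_sum,
      MvPolynomial.sum_homogeneousComponent]
  have h2 : G' ∈ hJ j 𝔮 := by
    change muJ j G' ∈ 𝔮.map (Polynomial.C : MvPolynomial (Fin r) k →+* _)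
    rw [h1]
    exact Ideal.mul_mem_left _ _ (Ideal.mem_map_of_mem _ hG)
  have h3 : muJ j G' ∈ 𝔭.map (Polynomial.C : MvPolynomial (Fin r) k →+* _) := hcon h2
  rw [h1, Ideal.mem_map_C_iff] at h3
  have h4 := h3 N
  rw [Polynomial.coeff_mul_C, Polynomial.coeff_X_pow, if_pos rfl, one_mul] at h4
  exact hG' h4

theorem height_le_hJ (𝔭 : Ideal (MvPolynomial (Fin r) k)) [h𝔭 : 𝔭.IsPrime] :
    𝔭.height ≤ (hJ j 𝔭).height := by
  let f : PrimeSpectrum (MvPolynomial (Fin r) k) → PrimeSpectrum (MvPolynomial (Fin (r + 1)) k) :=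
    fun p => ⟨hJ j p.asIdeal, inferInstance⟩
  have hf : StrictMono f := fun p q hpq => hJ_strictMono j hpq
  have h1 := Order.height_le_height_apply_of_strictMono f hf ⟨𝔭, h𝔭⟩
  rw [← PrimeSpectrum.height_eq_orderHeight, ← PrimeSpectrum.height_eq_orderHeight] at h1
  exact h1

theorem height_le_of_dehom (z : Ideal (MvPolynomial (Fin (r + 1)) k)) [z.IsPrime]
    (𝔞 : Ideal (MvPolynomial (Fin r) k)) [𝔞.IsPrime]
    (h : ∀ (n : ℕ) (F : MvPolynomial (Fin (r + 1)) k), F.IsHomogeneous n →
      MvPolynomial.aeval (eJ j) F ∈ 𝔞 → F ∈ z) : 𝔞.height ≤ z.height := by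
  refine (height_le_hJ j 𝔞).trans (Ideal.height_mono ?_)
  intro F hF
  have hF' : muJ j F ∈ 𝔞.map (Polynomial.C : MvPolynomial (Fin r) k →+* _) := hF
  rw [Ideal.mem_map_C_iff] at hF'
  rw [← MvPolynomial.sum_homogeneousComponent F]
  refine Ideal.sum_mem _ fun n hn => ?_
  refine h n _ (MvPolynomial.homogeneousComponent_isHomogeneous n F) ?_
  have h1 := hF' n
  rw [← MvPolynomial.sum_homogeneousComponent F, map_sum, Polynomial.finsetSum_coeff] at h1
  have h2 : ∀ m ∈ Finset.range (F.totalDegree + 1),
      (muJ j (MvPolynomial.homogeneousComponent m F)).coeff n =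
      if m = n then MvPolynomial.aeval (eJ j) (MvPolynomial.homogeneousComponent m F) else 0 := by
    intro m _
    rw [muJ_hom j _ m (MvPolynomial.homogeneousComponent_isHomogeneous m F),
      Polynomial.coeff_mul_C, Polynomial.coeff_X_pow]
    split_ifs with h3 h4 h4
    · rw [one_mul]
    · exact absurd h3.symm h4
    · exact absurd h4.symm h3
    · rw [zero_mul]
  rw [Finset.sum_congr rfl h2, Finset.sum_ite_eq' _ _ _, if_pos hn] at h1
  exact h1

end hom

end Vale.Agent.P177
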