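import Vale.Agent.P177.FDefs
import Vale.Agent.P177.CLocPos
import Mathlib.RingTheory.Valuation.LocalSubring

/-!
A condition on valuations, and vertical components of tangent cones.
-/

namespace Vale.Agent.P177

open IsLocalRing Function

universe u

/-- A local domain is dominated by a valuation ring. -/
theorem exists_valuation_dominating (D : Type u) [CommRing D] [IsLocalRing D] [IsDomain D] :
    ∃ (O : Type u) (_ : CommRing O) (_ : IsDomain O) (_ : ValuationRing O)
      (Φ : D →+* O), Injective Φ ∧ IsLocalHom Φ := by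
  let K := FractionRing D
  obtain ⟨A, h, hA⟩ := IsLocalRing.exists_factor_valuationRing (R := D) (algebraMap D K)
  let A' : Type u := A
  let _ : CommRing A' := inferInstanceAs (CommRing A)
  let Φ₀ : D →+* A' := (algebraMap D K).codRestrict A.toSubring h
  have hdom : IsDomain A' := inferInstanceAs (IsDomain A)
  have hval : ValuationRing A' := inferInstanceAs (ValuationRing A)
  refine ⟨A', inferInstance, hdom, hval, Φ₀, ?_, hA⟩
  intro a b hab
  have h1 : algebraMap D K a = algebraMap D K b := congrArg Subtype.val hab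
  exact IsFractionRing.injective D K h1

/-- A prime is the centre of a valuation ring of the residue field of a smaller prime. -/
theorem exists_valuation {B : Type u} [CommRing B] (𝔎 𝔓 : Ideal B) [𝔎.IsPrime] [𝔓.IsPrime]
    (hle : 𝔎 ≤ 𝔓) : ∃ (O : Type u) (_ : CommRing O) (_ : IsDomain O) (_ : ValuationRing O)
      (Φ : B →+* O), RingHom.ker Φ = 𝔎 ∧ (maximalIdeal O).comap Φ = 𝔓 := by
  let L := Localization.AtPrime 𝔓
  let 𝔎' : Ideal L := 𝔎.map (algebraMap B L)
  have hdisj : Disjoint (𝔓.primeCompl : Set B) 𝔎 := by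
    rw [Set.disjoint_left]
    intro a ha ha'
    exact ha (hle ha')
  have h𝔎' : 𝔎'.IsPrime :=
    IsLocalization.isPrime_of_isPrime_disjoint 𝔓.primeCompl _ _ inferInstance hdisj
  have hc : 𝔎'.comap (algebraMap B L) = 𝔎 :=
    IsLocalization.under_map_of_isPrime_disjoint 𝔓.primeCompl L inferInstance hdisj
  let D := L ⧸ 𝔎'
  have hl1 : IsLocalHom (Ideal.Quotient.mk 𝔎') :=
    IsLocalHom.of_surjective _ Ideal.Quotient.mk_surjective
  have hDl : IsLocalRing D :=
    IsLocalRing.of_surjective' (Ideal.Quotient.mk 𝔎') Ideal.Quotient.mk_surjective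
  obtain ⟨O, _, _, _, Φ₀, hinj, hloc⟩ := exists_valuation_dominating D
  let Φ₁ : L →+* O := Φ₀.comp (Ideal.Quotient.mk 𝔎')
  refine ⟨O, inferInstance, inferInstance, inferInstance, Φ₁.comp (algebraMap B L), ?_, ?_⟩
  · ext b
    rw [← hc]
    change Φ₀ (Ideal.Quotient.mk 𝔎' (algebraMap B L b)) = 0 ↔ algebraMap B L b ∈ 𝔎'
    rw [map_eq_zero_iff Φ₀ hinj, Ideal.Quotient.eq_zero_iff_mem]
  · have h1 : IsLocalHom Φ₁ := RingHom.isLocalHom_comp _ _
    have h2 : (maximalIdeal O).comap Φ₁ = maximalIdeal L :=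
      ((IsLocalRing.local_hom_TFAE Φ₁).out 0 4).mp h1
    rw [← Ideal.comap_comap, h2]
    exact Localization.AtPrime.under_maximalIdeal

/-- Condition on valuations: the values of the `x_j` of minimal value are multiples of the value
of `y`, for the valuations centred at vertical components of large dimension. -/
def VCond {R : Type u} [CommRing R] [IsLocalRing R] {r : ℕ} (y : R) (x : Fin r → R)
    (I : Ideal R) (h : ℕ) : Prop :=
  ∀ (O : Type u) [CommRing O] [IsDomain O] [ValuationRing O] (φ : R →+* O) [IsLocalHom φ]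
    (j : Fin r) (z : Ideal (MvPolynomial (Fin r) (ResidueField R))) [z.IsPrime],
    I ≤ RingHom.ker φ → φ y ≠ 0 → φ (x j) ≠ 0 → (∀ i, φ (x j) ∣ φ (x i)) →
    (∀ (n : ℕ) (F : MvPolynomial (Fin r) R), F.IsHomogeneous n →
      (F.map (residue R) ∈ z ↔ ∃ m ∈ maximalIdeal O,
        φ (MvPolynomial.eval x F) = φ (x j) ^ n * m)) →
    z.height + 1 ≤ h → ∃ c : ℕ, Associated (φ (x j)) (φ y ^ c)

/-- The ideal `z` of `k[X_0, …, X_r]` restricted to `k[X_1, …, X_r]`. -/
noncomputable def resX {k : Type u} [Field k] {r : ℕ} (z : Ideal (MvPolynomial (Fin (r + 1)) k)) :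
    Ideal (MvPolynomial (Fin r) k) :=
  z.comap (MvPolynomial.rename (R := k) Fin.succ)

instance {k : Type u} [Field k] {r : ℕ} (z : Ideal (MvPolynomial (Fin (r + 1)) k)) [z.IsPrime] :
    (resX z).IsPrime := Ideal.IsPrime.comap _

theorem height_C_add_one_le {S : Type u} [CommRing S] (z : Ideal (Polynomial S)) [hz : z.IsPrime]
    (h0 : Polynomial.X ∈ z) : (z.comap (Polynomial.C : S →+* Polynomial S)).height + 1 ≤
      z.height := by
  let a : Ideal S := z.comap (Polynomial.C : S →+* Polynomial S)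
  have ha : a.IsPrime := Ideal.IsPrime.comap _
  let b : Ideal (Polynomial S) := a.map (Polynomial.C : S →+* Polynomial S)
  have hb : b.IsPrime := Ideal.isPrime_map_C_of_isPrime
  have hlt : b < z := by
    refine lt_of_le_of_ne Ideal.map_comap_le ?_
    intro h
    rw [← h, Ideal.mem_map_C_iff] at h0
    have h1 := h0 1
    rw [Polynomial.coeff_X_one] at h1
    exact ha.ne_top ((Ideal.eq_top_iff_one a).2 h1)
  have h2 : b.under S = a := by
    ext s
    change Polynomial.C s ∈ b ↔ s ∈ a
    rw [Ideal.mem_map_C_iff]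
    refine ⟨fun h => by simpa using h 0, fun h n => ?_⟩
    rw [Polynomial.coeff_C]
    split_ifs
    · exact h
    · exact zero_mem _
  have h3 := height_under_le (R := S) b
  rw [h2] at h3
  exact (add_le_add_left h3 1).trans (Ideal.height_add_one_le_of_lt_of_isPrime hlt)

/-- Adding the variable `X_0` increases the height. -/
theorem height_resX_add_one_le {k : Type u} [Field k] {r : ℕ}
    (z : Ideal (MvPolynomial (Fin (r + 1)) k)) [hz : z.IsPrime] (h0 : MvPolynomial.X 0 ∈ z) :
    (resX z).height + 1 ≤ z.height := by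
  let e := MvPolynomial.finSuccEquiv k r
  let z' : Ideal (Polynomial (MvPolynomial (Fin r) k)) :=
    z.comap (e.symm : Polynomial (MvPolynomial (Fin r) k) →+* MvPolynomial (Fin (r + 1)) k)
  have hz' : z'.IsPrime := Ideal.IsPrime.comap _
  have h1 := height_C_add_one_le z' (by
    change e.symm Polynomial.X ∈ z
    rw [← MvPolynomial.finSuccEquiv_X_zero, AlgEquiv.symm_apply_apply]
    exact h0)
  have h2 : z'.comap (Polynomial.C : MvPolynomial (Fin r) k →+* _) = resX z := by
    ext F
    change e.symm (Polynomial.C F) ∈ z ↔ MvPolynomial.rename Fin.succ F ∈ z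
    have h3 : e (MvPolynomial.rename Fin.succ F) = Polynomial.C F := by
      induction F using MvPolynomial.induction_on with
      | C a =>
        rw [MvPolynomial.rename_C, MvPolynomial.finSuccEquiv_apply]
        simp
      | add p q hp hq => rw [map_add, map_add, map_add, hp, hq]
      | mul_X p i hp =>
        rw [map_mul, map_mul, map_mul, hp, MvPolynomial.rename_X]
        congr 1
        exact MvPolynomial.finSuccEquiv_X_succ
    rw [← h3, AlgEquiv.symm_apply_apply]
  have h3 : z'.height = z.height := by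
    exact RingEquiv.height_comap e.symm.toRingEquiv z
  rw [h2, h3] at h1
  exact h1

section laurent

open LaurentPolynomial

theorem mem_map_C_of_coeff {R : Type u} [CommRing R] {I : Ideal R} (z : LaurentPolynomial R)
    (h : ∀ n, z.coeff n ∈ I) : z ∈ I.map (C : R →+* LaurentPolynomial R) := by
  rw [← AddMonoidAlgebra.sum_coeff_single z, Finsupp.sum]
  refine Ideal.sum_mem _ fun n _ => ?_
  rw [single_eq_C_mul_T]
  exact Ideal.mul_mem_right _ _ (Ideal.mem_map_of_mem _ (h n))

theorem mem_map_C_of_mul {R : Type u} [CommRing R] {I : Ideal R} {a : R}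
    (ha : ∀ b, a * b ∈ I → b ∈ I) (z : LaurentPolynomial R)
    (h : C a * z ∈ I.map (C : R →+* LaurentPolynomial R)) :
    z ∈ I.map (C : R →+* LaurentPolynomial R) := by
  refine mem_map_C_of_coeff z fun n => ha _ ?_
  have h1 := coeff_mem_of_mem_map h n
  have h2 : (C a * z : LaurentPolynomial R).coeff n = a * z.coeff n :=
    AddMonoidAlgebra.coeff_single_zero_mul _ _ _
  rwa [h2] at h1

end laurent

theorem span_tail {R : Type u} [CommRing R] {r : ℕ} (x : Fin (r + 1) → R) : Ideal.span {x 0} ⊔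
    Ideal.span (Set.range fun i : Fin r => x i.succ) = Ideal.span (Set.range x) := by
  rw [← Ideal.span_union]
  congr 1
  ext a
  simp only [Set.singleton_union, Set.mem_insert_iff, Set.mem_range]
  constructor
  · rintro (rfl | ⟨i, rfl⟩)
    · exact ⟨0, rfl⟩
    · exact ⟨_, rfl⟩
  · rintro ⟨i, rfl⟩
    refine Fin.cases (Or.inl rfl) (fun i => Or.inr ⟨i, rfl⟩) i

section crit

variable {R : Type u} [CommRing R] [IsLocalRing R] {r : ℕ} {x : Fin (r + 1) → R}

/-- Vertical components of the tangent cone have small dimension. -/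
theorem VCond.height_le (hx : Ideal.span (Set.range x) = maximalIdeal R) {I : Ideal R} {h : ℕ}
    (hV : VCond (x 0) (fun i : Fin r => x i.succ) I h) (hreg : ∀ a, x 0 * a ∈ I → a ∈ I)
    (z : Ideal (MvPolynomial (Fin (r + 1)) (ResidueField R))) [hz : z.IsPrime]
    (h0 : MvPolynomial.X 0 ∈ z) (hX : ∃ i, MvPolynomial.X i ∉ z)
    (hin : InForm x I z) : (h : ℕ∞) + 1 ≤ z.height := by
  by_contra hcon
  rw [not_le, ENat.lt_add_one_iff (by simp)] at hcon
  let 𝔓 : Ideal (ERees x) := z.comap (eRes hx)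
  have h𝔓 : 𝔓.IsPrime := Ideal.IsPrime.comap _
  have hstar : eStar x I ≤ 𝔓 := eStar_le hx z hin
  obtain ⟨𝔎, h𝔎, hle⟩ := Ideal.exists_minimalPrimes_le hstar
  have h𝔎p : 𝔎.IsPrime := h𝔎.1.1
  have hx0 : algebraMap R (ERees x) (x 0) ∉ 𝔎 := by
    intro hmem
    obtain ⟨y, hy, hxy⟩ := Ideal.exists_mul_mem_of_mem_minimalPrimes h𝔎 hmem
    apply hy
    rw [mem_eStar] at hxy ⊢
    rw [map_mul, ePsi_algebraMap] at hxy
    exact mem_map_C_of_mul hreg _ hxy
  obtain ⟨O, _, _, _, Φ, hker, hcomap⟩ := exists_valuation 𝔎 𝔓 hle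
  let φ : R →+* O := Φ.comp (algebraMap R (ERees x))
  have hmem : ∀ F, Φ F ∈ maximalIdeal O ↔ eRes hx F ∈ z := fun F => by
    rw [← Ideal.mem_comap, hcomap]
    rfl
  have hunit : ∀ F, IsUnit (Φ F) ↔ eRes hx F ∉ z := fun F => by
    rw [← hmem, mem_maximalIdeal, mem_nonunits_iff, not_not]
  have hφ : IsLocalHom φ := by
    refine ⟨fun a ha => ?_⟩
    have h1 : eRes hx (algebraMap R _ a) ∉ z := (hunit _).1 ha
    rw [eRes_algebraMap] at h1
    by_contra h2
    apply h1
    rw [(residue_eq_zero_iff a).2 h2, map_zero]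
    exact zero_mem _
  obtain ⟨j, hj⟩ : ∃ j : Fin r, MvPolynomial.X j.succ ∉ z := by
    obtain ⟨i, hi⟩ := hX
    induction i using Fin.cases with
    | zero => exact absurd h0 hi
    | succ i => exact ⟨i, hi⟩
  have huj : IsUnit (Φ (eY x j.succ)) := by
    rw [hunit, eRes_eY]
    exact hj
  obtain ⟨v, hv⟩ := huj
  have hφx : ∀ i, φ (x i) = Φ (eT x) * Φ (eY x i) := fun i => by
    change Φ (algebraMap R _ (x i)) = _
    rw [algebraMap_rees, map_mul]
  have hφ0 : φ (x 0) ≠ 0 := by
    intro h1
    apply hx0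
    rw [← hker]
    exact h1
  have hT : Φ (eT x) ≠ 0 := by
    intro h1
    apply hφ0
    rw [hφx, h1, zero_mul]
  have hφj : φ (x j.succ) = Φ (eT x) * v := by rw [hφx, hv]
  have hvv : (v : O) * (v⁻¹ : Oˣ) = 1 := Units.mul_inv v
  obtain ⟨c, hc⟩ := hV O φ j (resX z) (by
      intro a ha
      change Φ (algebraMap R _ a) = 0
      rw [← RingHom.mem_ker, hker]
      apply h𝔎.1.2
      rw [mem_eStar, ePsi_algebraMap]
      exact Ideal.mem_map_of_mem _ ha) hφ0 (by
      rw [hφj]
      exact mul_ne_zero hT v.ne_zero) (by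
      intro i
      refine ⟨(v⁻¹ : Oˣ) * Φ (eY x i.succ), ?_⟩
      rw [hφj, hφx]
      calc Φ (eT x) * Φ (eY x i.succ) = Φ (eT x) * ((v : O) * (v⁻¹ : Oˣ)) * Φ (eY x i.succ) := by
            rw [hvv, mul_one]
        _ = _ := by ring) (by
      intro n F hF
      have h1 : φ (MvPolynomial.eval (fun i : Fin r => x i.succ) F) =
          Φ (eT x) ^ n * Φ (MvPolynomial.aeval (eY x) (MvPolynomial.rename Fin.succ F)) := by
        have h2 := algebraMap_eval_of_isHomogeneous (x := x) (MvPolynomial.rename Fin.succ F) n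
          hF.rename_isHomogeneous
        rw [MvPolynomial.eval_rename] at h2
        change Φ (algebraMap R _ (MvPolynomial.eval (x ∘ Fin.succ) F)) = _
        rw [h2, map_mul, map_pow]
      have h2 : (F.map (residue R)) ∈ resX z ↔
          Φ (MvPolynomial.aeval (eY x) (MvPolynomial.rename Fin.succ F)) ∈ maximalIdeal O := by
        rw [hmem, eRes_aeval, MvPolynomial.map_rename]
        rfl
      rw [h2, h1, hφj]
      constructor
      · intro h3
        refine ⟨(v⁻¹ : Oˣ) ^ n * Φ (MvPolynomial.aeval (eY x) (MvPolynomial.rename Fin.succ F)),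
          Ideal.mul_mem_left _ _ h3, ?_⟩
        calc Φ (eT x) ^ n * Φ (MvPolynomial.aeval (eY x) (MvPolynomial.rename Fin.succ F))
            = Φ (eT x) ^ n * ((v : O) * (v⁻¹ : Oˣ)) ^ n *
              Φ (MvPolynomial.aeval (eY x) (MvPolynomial.rename Fin.succ F)) := by
              rw [hvv, one_pow, mul_one]
          _ = _ := by ring
      · rintro ⟨m, hm, h3⟩
        rw [mul_pow, mul_assoc] at h3
        have h4 := mul_left_cancel₀ (pow_ne_zero n hT) h3
        rw [h4]
        exact Ideal.mul_mem_left _ _ hm) ((height_resX_add_one_le z h0).trans hcon)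
  have h0m : Φ (eY x 0) ∈ maximalIdeal O := by
    rw [hmem, eRes_eY]
    exact h0
  obtain ⟨w, hw⟩ := hc
  rw [hφj, hφx] at hw
  rcases c with _ | c
  · rw [pow_zero] at hw
    have h1 : IsUnit (Φ (eT x)) := by
      rw [mul_assoc] at hw
      exact IsUnit.of_mul_eq_one _ hw
    rw [hunit, eRes_eT] at h1
    exact h1 (zero_mem _)
  · have h1 : Φ (eT x) * ((v : O) * w) = Φ (eT x) * (Φ (eY x 0) * (Φ (eT x) * Φ (eY x 0)) ^ c) := by
      rw [← mul_assoc, hw]
      ring
    have h2 := mul_left_cancel₀ hT h1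
    have h3 : ((v : O) * w) ∈ maximalIdeal O := by
      rw [h2]
      exact Ideal.mul_mem_right _ _ h0m
    exact ((mem_maximalIdeal _).1 h3) (v.isUnit.mul w.isUnit)

end crit

end Vale.Agent.P177
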