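import Vale.Agent.P177.Transfer

/-!
Flat base change for Tor.
-/

namespace Vale.Agent.P177

open TensorProduct Function

universe u

variable {S B : Type u} [CommRing S] [CommRing B] [Algebra S B]

section

variable {K F M X Y Z : Type u} [AddCommGroup K] [Module S K] [AddCommGroup F] [Module S F]
  [AddCommGroup M] [Module S M]
  [AddCommGroup X] [Module S X] [Module B X] [IsScalarTower S B X]
  [AddCommGroup Y] [Module S Y] [Module B Y] [IsScalarTower S B Y]
  [AddCommGroup Z] [Module S Z] [Module B Z] [IsScalarTower S B Z]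

theorem bc_square {φ : K →ₗ[S] X} (hφ : IsBaseChange B φ) {ψ : F →ₗ[S] Y} (hψ : IsBaseChange B ψ)
    (i : K →ₗ[S] F) (j : X →ₗ[B] Y) (hij : ∀ k, j (φ k) = ψ (i k)) (z : B ⊗[S] K) :
    j (hφ.equiv z) = hψ.equiv (i.lTensor B z) := by
  induction z using TensorProduct.induction_on with
  | zero => simp
  | tmul b k => simp [hij, IsBaseChange.equiv_tmul]
  | add x y hx hy => rw [map_add, map_add, hx, hy, map_add, map_add]

theorem bc_injective [Module.Flat S B] {φ : K →ₗ[S] X} (hφ : IsBaseChange B φ) {ψ : F →ₗ[S] Y}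
    (hψ : IsBaseChange B ψ)
    (i : K →ₗ[S] F) (j : X →ₗ[B] Y) (hij : ∀ k, j (φ k) = ψ (i k)) (hi : Injective i) :
    Injective j := by
  rw [injective_iff_map_eq_zero]
  intro x hx
  obtain ⟨z, rfl⟩ := hφ.equiv.surjective x
  rw [bc_square hφ hψ i j hij] at hx
  have h1 := Module.Flat.lTensor_preserves_injective_linearMap (M := B) i hi
  have h2 : i.lTensor B z = 0 := hψ.equiv.injective (by rw [hx, map_zero])
  rw [h1 (by rw [h2, map_zero] : i.lTensor B z = i.lTensor B 0), map_zero]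

theorem bc_surjective {φ : K →ₗ[S] X} (hφ : IsBaseChange B φ) {ψ : F →ₗ[S] Y}
    (hψ : IsBaseChange B ψ)
    (i : K →ₗ[S] F) (j : X →ₗ[B] Y) (hij : ∀ k, j (φ k) = ψ (i k)) (hi : Surjective i) :
    Surjective j := by
  intro y
  obtain ⟨z, rfl⟩ := hψ.equiv.surjective y
  obtain ⟨w, rfl⟩ := LinearMap.lTensor_surjective B hi z
  exact ⟨hφ.equiv w, bc_square hφ hψ i j hij w⟩

theorem bc_exact {φ : K →ₗ[S] X} (hφ : IsBaseChange B φ) {ψ : F →ₗ[S] Y}
    (hψ : IsBaseChange B ψ) {χ : M →ₗ[S] Z} (hχ : IsBaseChange B χ)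
    (i : K →ₗ[S] F) (j : X →ₗ[B] Y) (hij : ∀ k, j (φ k) = ψ (i k))
    (g : F →ₗ[S] M) (q : Y →ₗ[B] Z) (hq : ∀ y, q (ψ y) = χ (g y)) (hg : Surjective g)
    (h : Exact i g) : Exact j q := by
  intro y
  obtain ⟨z, rfl⟩ := hψ.equiv.surjective y
  rw [bc_square hψ hχ g q hq]
  have h1 := lTensor_exact B h hg
  constructor
  · intro hy
    have h2 : g.lTensor B z = 0 := hχ.equiv.injective (by rw [hy, map_zero])
    obtain ⟨w, rfl⟩ := (h1 z).1 h2
    exact ⟨hφ.equiv w, bc_square hφ hψ i j hij w⟩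
  · rintro ⟨x, hx⟩
    obtain ⟨w, rfl⟩ := hφ.equiv.surjective x
    rw [bc_square hφ hψ i j hij] at hx
    have h3 : i.lTensor B w = z := hψ.equiv.injective hx
    rw [(h1 z).2 ⟨w, h3⟩, map_zero]

end

/-- if `B` acts on `T` through scalars from `S` then the lengths agree. -/
theorem length_eq_of_action (T : Type u) [AddCommGroup T] [Module S T] [Module B T]
    [IsScalarTower S B T] (hT : ∀ b : B, ∃ s : S, ∀ t : T, b • t = s • t) :
    Module.length S T = Module.length B T := by
  have e : Submodule B T ≃o Submodule S T :=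
    { toFun := fun W => W.restrictScalars S
      invFun := fun W =>
        { W.toAddSubmonoid with
          smul_mem' := fun b x hx => by
            obtain ⟨s, hs⟩ := hT b
            rw [hs]
            exact W.smul_mem s hx }
      left_inv := fun W => by ext x; rfl
      right_inv := fun W => by ext x; rfl
      map_rel_iff' := Iff.rfl }
  rw [Module.length_eq_height, Module.length_eq_height, ← Order.height_orderIso e]
  simp

section

variable {K F X Y : Type u} [AddCommGroup K] [Module S K] [AddCommGroup F] [Module S F]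
  [AddCommGroup X] [Module S X] [Module B X] [IsScalarTower S B X]
  [AddCommGroup Y] [Module S Y] [Module B Y] [IsScalarTower S B Y]

theorem action_tensor (N : Type u) [AddCommGroup N] [Module S N] [Module B N]
    [IsScalarTower S B N] (hN : ∀ b : B, ∃ s : S, ∀ t : N, b • t = s • t) (K : Type u)
    [AddCommGroup K] [Module S K] :
    ∀ b : B, ∃ s : S, ∀ t : N ⊗[S] K, b • t = s • t := by
  intro b
  obtain ⟨s, hs⟩ := hN b
  refine ⟨s, fun t => ?_⟩
  induction t using TensorProduct.induction_on with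
  | zero => simp
  | tmul x y => rw [TensorProduct.smul_tmul', TensorProduct.smul_tmul', hs]
  | add x y hx hy => rw [smul_add, smul_add, hx, hy]

theorem length_tensor_bc {φ : K →ₗ[S] X} (hφ : IsBaseChange B φ) (N : Type u) [AddCommGroup N]
    [Module S N] [Module B N] [IsScalarTower S B N]
    (hN : ∀ b : B, ∃ s : S, ∀ t : N, b • t = s • t) :
    Module.length S (K ⊗[S] N) = Module.length B (X ⊗[B] N) := by
  obtain ⟨e, -⟩ := exists_cancel hφ N
  rw [(TensorProduct.comm S K N).length_eq, (TensorProduct.comm B X N).length_eq, e.length_eq]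
  exact length_eq_of_action _ (action_tensor N hN K)

/-- The map `N ⊗[S] K → N ⊗[S] F` as a `B`-linear map, and comparison with `B`-tensor products. -/
theorem exists_ker_bc {φ : K →ₗ[S] X} (hφ : IsBaseChange B φ) {ψ : F →ₗ[S] Y}
    (hψ : IsBaseChange B ψ) (i : K →ₗ[S] F) (j : X →ₗ[B] Y) (hij : ∀ k, j (φ k) = ψ (i k))
    (N : Type u) [AddCommGroup N] [Module S N] [Module B N] [IsScalarTower S B N] :
    ∃ θ : N ⊗[S] K →ₗ[B] N ⊗[S] F, (∀ x, θ x = i.lTensor N x) ∧
      Nonempty (LinearMap.ker θ ≃ₗ[B] LinearMap.ker (j.rTensor N)) := by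
  let θ : N ⊗[S] K →ₗ[B] N ⊗[S] F := AlgebraTensorModule.map LinearMap.id i
  refine ⟨θ, fun x => rfl, ?_⟩
  obtain ⟨e2⟩ := ker_comm (N := N) j
  obtain ⟨eX, heX⟩ := exists_cancel hφ N
  obtain ⟨eY, heY⟩ := exists_cancel hψ N
  have hX : ∀ z : N ⊗[S] K, j.lTensor N (eX.symm z) = eY.symm (θ z) := by
    intro z
    induction z using TensorProduct.induction_on with
    | zero => simp
    | tmul n k =>
      have a1 : eX.symm (n ⊗ₜ[S] k) = n ⊗ₜ[B] φ k := by
        rw [LinearEquiv.symm_apply_eq, heX]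
      have a2 : eY.symm (n ⊗ₜ[S] i k) = n ⊗ₜ[B] ψ (i k) := by
        rw [LinearEquiv.symm_apply_eq, heY]
      have a3 : θ (n ⊗ₜ[S] k) = n ⊗ₜ[S] i k := by simp [θ]
      rw [a1, a3, a2, LinearMap.lTensor_tmul, hij]
    | add a b ha hb => rw [map_add, map_add, ha, hb, map_add, map_add]
  obtain ⟨e3⟩ := ker_equiv eX.symm eY.symm θ (j.lTensor N) hX
  exact ⟨e3 ≪≫ₗ e2.symm⟩

theorem length_ker_bc {φ : K →ₗ[S] X} (hφ : IsBaseChange B φ) {ψ : F →ₗ[S] Y}
    (hψ : IsBaseChange B ψ) (i : K →ₗ[S] F) (j : X →ₗ[B] Y) (hij : ∀ k, j (φ k) = ψ (i k))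
    (N : Type u) [AddCommGroup N] [Module S N] [Module B N] [IsScalarTower S B N]
    (hN : ∀ b : B, ∃ s : S, ∀ t : N, b • t = s • t) :
    Module.length S (LinearMap.ker (i.rTensor N)) =
      Module.length B (LinearMap.ker (j.rTensor N)) := by
  obtain ⟨e1⟩ := ker_comm (N := N) i
  rw [e1.length_eq]
  obtain ⟨θ, hθ, ⟨e⟩⟩ := exists_ker_bc hφ hψ i j hij N
  rw [← e.length_eq]
  have h1 : Module.length S (LinearMap.ker (i.lTensor N)) =
      Module.length S (LinearMap.ker θ) := by
    have : LinearMap.ker (i.lTensor N) = (LinearMap.ker θ).restrictScalars S := by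
      ext x
      change i.lTensor N x = 0 ↔ θ x = 0
      rw [hθ]
    rw [this]
    rfl
  rw [h1]
  apply length_eq_of_action
  intro b
  obtain ⟨s, hs⟩ := action_tensor N hN K b
  exact ⟨s, fun t => Subtype.ext (hs t)⟩

end

/-- Flat base change: vanishing. -/
theorem tor_subsingleton_bc [Module.Flat S B] (n : ℕ) {K X : Type u} [AddCommGroup K] [Module S K]
    [AddCommGroup X] [Module S X] [Module B X] [IsScalarTower S B X]
    {φ : K →ₗ[S] X} (hφ : IsBaseChange B φ)
    (N : Type u) [AddCommGroup N] [Module S N] [Module B N] [IsScalarTower S B N]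
    [Module.Flat S N] : Subsingleton (TorM B (n + 1) X N) := by
  induction n generalizing K X with
  | zero =>
    obtain ⟨F, K1, _, _, _, _, i, g, hF, hi, hg, h⟩ := exists_cover S K
    obtain ⟨Y, _, _, _, _, ψ, hψ⟩ := exists_baseChange (R := S) B F
    obtain ⟨X1, _, _, _, _, φ1, hφ1⟩ := exists_baseChange (R := S) B K1
    let j : X1 →ₗ[B] Y := hφ1.lift (ψ ∘ₗ i)
    have hj : ∀ k, j (φ1 k) = ψ (i k) := fun k => hφ1.lift_eq _ k
    let q : Y →ₗ[B] X := hψ.lift (φ ∘ₗ g)
    have hq : ∀ y, q (ψ y) = φ (g y) := fun y => hψ.lift_eq _ y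
    have hjinj : Injective j := bc_injective hφ1 hψ i j hj hi
    have hqs : Surjective q := bc_surjective hψ hφ g q hq hg
    have hex : Exact j q := bc_exact hφ1 hψ hφ i j hj g q hq hg h
    have hYflat : Module.Flat B Y := Module.Flat.isBaseChange S B F Y hψ
    obtain ⟨e2⟩ := tor_one j q hjinj hqs hex N
    obtain ⟨θ, hθ, ⟨e⟩⟩ := exists_ker_bc hφ1 hψ i j hj N
    have h1 : Injective (i.lTensor N) := Module.Flat.lTensor_preserves_injective_linearMap i hi
    have h2 : Subsingleton (LinearMap.ker θ) := by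
      refine ⟨fun x y => Subtype.ext (h1 ?_)⟩
      rw [← hθ, ← hθ]
      exact x.2.trans y.2.symm
    exact (e2 ≪≫ₗ e.symm).toEquiv.subsingleton
  | succ n ih =>
    obtain ⟨F, K1, _, _, _, _, i, g, hF, hi, hg, h⟩ := exists_cover S K
    obtain ⟨Y, _, _, _, _, ψ, hψ⟩ := exists_baseChange (R := S) B F
    obtain ⟨X1, _, _, _, _, φ1, hφ1⟩ := exists_baseChange (R := S) B K1
    let j : X1 →ₗ[B] Y := hφ1.lift (ψ ∘ₗ i)
    have hj : ∀ k, j (φ1 k) = ψ (i k) := fun k => hφ1.lift_eq _ k
    let q : Y →ₗ[B] X := hψ.lift (φ ∘ₗ g)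
    have hq : ∀ y, q (ψ y) = φ (g y) := fun y => hψ.lift_eq _ y
    have hjinj : Injective j := bc_injective hφ1 hψ i j hj hi
    have hqs : Surjective q := bc_surjective hψ hφ g q hq hg
    have hex : Exact j q := bc_exact hφ1 hψ hφ i j hj g q hq hg h
    have hYflat : Module.Flat B Y := Module.Flat.isBaseChange S B F Y hψ
    obtain ⟨e2⟩ := tor_shift j q hjinj hqs hex N n
    have := ih hφ1
    exact e2.toEquiv.subsingleton

/-- Flat base change: lengths. -/
theorem length_tor_bc [Module.Flat S B] (n : ℕ) {K X : Type u} [AddCommGroup K] [Module S K]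
    [AddCommGroup X] [Module S X] [Module B X] [IsScalarTower S B X]
    {φ : K →ₗ[S] X} (hφ : IsBaseChange B φ)
    (N : Type u) [AddCommGroup N] [Module S N] [Module B N] [IsScalarTower S B N]
    (hN : ∀ b : B, ∃ s : S, ∀ t : N, b • t = s • t) :
    Module.length S (TorM S n K N) = Module.length B (TorM B n X N) := by
  induction n generalizing K X with
  | zero =>
    rw [(torZero K N).length_eq, length_tensor_bc hφ N hN, (torZero X N).length_eq]
  | succ n ih =>
    obtain ⟨F, K1, _, _, _, _, i, g, hF, hi, hg, h⟩ := exists_cover S K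
    obtain ⟨Y, _, _, _, _, ψ, hψ⟩ := exists_baseChange (R := S) B F
    obtain ⟨X1, _, _, _, _, φ1, hφ1⟩ := exists_baseChange (R := S) B K1
    let j : X1 →ₗ[B] Y := hφ1.lift (ψ ∘ₗ i)
    have hj : ∀ k, j (φ1 k) = ψ (i k) := fun k => hφ1.lift_eq _ k
    let q : Y →ₗ[B] X := hψ.lift (φ ∘ₗ g)
    have hq : ∀ y, q (ψ y) = φ (g y) := fun y => hψ.lift_eq _ y
    have hjinj : Injective j := bc_injective hφ1 hψ i j hj hi
    have hqs : Surjective q := bc_surjective hψ hφ g q hq hg
    have hex : Exact j q := bc_exact hφ1 hψ hφ i j hj g q hq hg h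
    have hYflat : Module.Flat B Y := Module.Flat.isBaseChange S B F Y hψ
    cases n with
    | zero =>
      obtain ⟨e1⟩ := tor_one i g hi hg h N
      obtain ⟨e2⟩ := tor_one j q hjinj hqs hex N
      rw [e1.length_eq, e2.length_eq]
      exact length_ker_bc hφ1 hψ i j hj N hN
    | succ n =>
      obtain ⟨e1⟩ := tor_shift i g hi hg h N n
      obtain ⟨e2⟩ := tor_shift j q hjinj hqs hex N n
      rw [e1.length_eq, e2.length_eq]
      exact ih hφ1

end Vale.Agent.P177
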