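import Vale.Agent.P177.CDim
import Vale.Agent.P177.CLocZero

/-!
A system of parameters of a regular local ring is a regular sequence (early file, copy of the
lemmas of OEndA, OEndC).
-/

namespace Vale.Agent.P177.SR

open TensorProduct IsLocalRing RingTheory.Sequence Function

universe u

section

variable {T : Type u} [CommRing T] [IsRegularLocalRing T] {t : ℕ}

/-- The associated primes of a complete intersection have the expected dimension. -/
theorem le_supportDim_of_isAssociatedPrime_ci (ht : ringKrullDim T = t) (rs : List T)
    (hreg : IsWeaklyRegular T rs) (hle : rs.length ≤ t) (q : Ideal T)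
    (hq : IsAssociatedPrime q (T ⧸ (Ideal.ofList rs • ⊤ : Submodule T T))) :
    ((t - rs.length : ℕ) : WithBot ℕ∞) ≤ Module.supportDim T (T ⧸ q) := by
  obtain ⟨ws, hlen, hws, hwreg⟩ := exists_regular_ext_list ht
    (T ⧸ (Ideal.ofList rs • ⊤ : Submodule T T)) [] (IsWeaklyRegular.nil _ _) rs.length
    (fun j hj => tor_subsingleton_list rs T hreg (T ⧸ maximalIdeal T) 1
      (fun j hj => tor_self_residue_subsingleton T j hj) j (by omega))
    (t - rs.length) (by simp; omega)
  rw [List.nil_append] at hwreg
  rw [← hlen]
  exact length_le_supportDim_of_isAssociatedPrime ws hws _ hwreg q hq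

theorem isSMulRegular_of_forall_notMem {R M : Type*} [CommRing R] [IsNoetherianRing R]
    [AddCommGroup M] [Module R M] (z : R)
    (h : ∀ q : Ideal R, IsAssociatedPrime q M → z ∉ q) : IsSMulRegular M z := by
  intro x y hxy
  by_contra hne
  have h1 : x - y ≠ 0 := sub_ne_zero.2 hne
  obtain ⟨q, hq, hle⟩ := exists_le_isAssociatedPrime_of_isNoetherianRing R (x - y) h1
  exact h q hq (hle (by
    rw [Submodule.mem_colon_singleton, smul_sub, Submodule.mem_bot]
    exact sub_eq_zero.2 hxy))

end

/-- A system of parameters of a regular local ring is a regular sequence. -/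
theorem isWeaklyRegular_of_sop {T : Type u} [CommRing T] [IsRegularLocalRing T] {t : ℕ}
    (ht : ringKrullDim T = t) (zs : List T) (hlen : zs.length = t)
    (hzs : ∀ z ∈ zs, z ∈ maximalIdeal T) (hrad : maximalIdeal T ≤ (Ideal.ofList zs).radical) :
    IsWeaklyRegular T zs := by
  have key : ∀ (us ws : List T), zs = ws ++ us → IsWeaklyRegular T ws → IsWeaklyRegular T zs := by
    intro us
    induction us with
    | nil =>
      intro ws h1 h2
      rw [h1, List.append_nil]
      exact h2
    | cons z us ih =>
      intro ws h1 h2
      refine ih (ws ++ [z]) (by rw [h1, List.append_assoc]; rfl) ?_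
      have hlw : ws.length + (us.length + 1) = t := by
        rw [← hlen, h1, List.length_append, List.length_cons]
      rw [isWeaklyRegular_append_iff]
      refine ⟨h2, (isWeaklyRegular_singleton_iff _ _).2
        (isSMulRegular_of_forall_notMem z fun q hq hzq => ?_)⟩
      have hqp : q.IsPrime := hq.isPrime
      have h3 := le_supportDim_of_isAssociatedPrime_ci ht ws h2 (by omega) q hq
      have hwq : Ideal.ofList ws ≤ q := by
        have h4 := hq.annihilator_le
        rwa [Submodule.annihilator_top, annihilator_quot_list] at h4
      have h5 : Module.supportDim T (T ⧸ q) ≤ (us.length : WithBot ℕ∞) := by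
        refine supportDim_le_length us (fun y hy => hzs y (by rw [h1]; simp [hy])) _ ?_
        refine hrad.trans (Ideal.radical_mono ?_)
        rw [h1, Ideal.ofList_append, Ideal.ofList_cons, Ideal.annihilator_quotient]
        refine sup_le (hwq.trans le_sup_left) (sup_le ?_ le_sup_right)
        exact ((Ideal.span_singleton_le_iff_mem _).2 hzq).trans le_sup_left
      have h6 : t - ws.length ≤ us.length := by exact_mod_cast h3.trans h5
      omega
  exact key zs [] rfl (IsWeaklyRegular.nil _ _)


end Vale.Agent.P177.SR
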