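import Vale.Agent.P177.LocalCrit
import Vale.Agent.P177.Regular

/-!
Regular sequences and Tor; vanishing of Tor over regular local rings.
-/

namespace Vale.Agent.P177

open CategoryTheory TensorProduct Function IsLocalRing RingTheory.Sequence Pointwise

universe u

section basic

variable {B : Type u} [CommRing B]

/-- The short exact sequence `0 → Z → Z → Z/zZ → 0`. -/
theorem quot_ses (Z : Type u) [AddCommGroup Z] [Module B Z] (z : B) (hz : IsSMulRegular Z z) :
    ∃ (f : Z →ₗ[B] Z) (g : Z →ₗ[B] QuotSMulTop z Z), (∀ m, f m = z • m) ∧ Injective f ∧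
      Surjective g ∧ Exact f g := by
  refine ⟨LinearMap.lsmul B Z z, Submodule.mkQ _, fun m => rfl, hz,
    Submodule.mkQ_surjective _, ?_⟩
  intro y
  rw [Submodule.mkQ_apply, Submodule.Quotient.mk_eq_zero]
  rw [Submodule.mem_smul_pointwise_iff_exists]
  simp

theorem torMap_zero_surjective {M M' : Type u} [AddCommGroup M] [Module B M]
    [AddCommGroup M'] [Module B M'] (g : M →ₗ[B] M') (hg : Surjective g) (N : Type u)
    [AddCommGroup N] [Module B N] : Surjective (torMap 0 g N) := by
  intro y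
  obtain ⟨x, hx⟩ := LinearMap.rTensor_surjective N hg (torZero M' N y)
  refine ⟨(torZero M N).symm x, ?_⟩
  apply (torZero M' N).injective
  rw [torZero_naturality, LinearEquiv.apply_symm_apply, hx]

/-- identification of a cokernel with `QuotSMulTop`. -/
theorem exists_quotSMulTop_equiv {T T' : Type u} [AddCommGroup T] [Module B T]
    [AddCommGroup T'] [Module B T'] (z : B) (f : T →ₗ[B] T) (hf : ∀ t, f t = z • t)
    (g : T →ₗ[B] T') (hg : Surjective g) (h : Exact f g) :
    Nonempty (QuotSMulTop z T ≃ₗ[B] T') := by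
  have h1 : z • (⊤ : Submodule B T) = LinearMap.ker g := by
    rw [LinearMap.exact_iff.1 h]
    ext x
    rw [Submodule.mem_smul_pointwise_iff_exists]
    constructor
    · rintro ⟨y, -, rfl⟩
      exact ⟨y, hf y⟩
    · rintro ⟨y, rfl⟩
      exact ⟨y, trivial, (hf y).symm⟩
  exact ⟨Submodule.quotEquivOfEq _ _ h1 ≪≫ₗ g.quotKerEquivOfSurjective hg⟩

theorem tor_subsingleton_step (Z : Type u) [AddCommGroup Z] [Module B Z] (z : B)
    (hz : IsSMulRegular Z z) (W : Type u) [AddCommGroup W] [Module B W] (j : ℕ)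
    (h1 : Subsingleton (TorM B (j + 1) Z W)) (h0 : Subsingleton (TorM B j Z W)) :
    Subsingleton (TorM B (j + 1) (QuotSMulTop z Z) W) := by
  obtain ⟨f, g, -, hi, hs, hex⟩ := quot_ses Z z hz
  obtain ⟨δ, h2, -, -⟩ := exists_torDelta f g hi hs hex W
  refine subsingleton_of_forall_eq 0 fun x => ?_
  obtain ⟨y, rfl⟩ := (h2 j x).1 (Subsingleton.elim _ _)
  rw [Subsingleton.elim y 0, map_zero]

theorem tor_subsingleton_list (zs : List B) (Z : Type u) [AddCommGroup Z] [Module B Z]
    (hreg : IsWeaklyRegular Z zs) (W : Type u) [AddCommGroup W] [Module B W] (n₀ : ℕ)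
    (h : ∀ j, n₀ ≤ j → Subsingleton (TorM B j Z W)) :
    ∀ j, n₀ + zs.length ≤ j →
      Subsingleton (TorM B j (Z ⧸ (Ideal.ofList zs • ⊤ : Submodule B Z)) W) := by
  induction zs generalizing Z n₀ with
  | nil =>
    intro j hj
    have := h j hj
    have e : (Z ⧸ (Ideal.ofList ([] : List B) • ⊤ : Submodule B Z)) ≃ₗ[B] Z :=
      Submodule.quotEquivOfEqBot _ (by simp)
    exact (torCongrLeft j e W).toEquiv.subsingleton
  | cons z zs ih =>
    intro j hj
    rw [isWeaklyRegular_cons_iff] at hreg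
    have h1 : ∀ j, n₀ + 1 ≤ j → Subsingleton (TorM B j (QuotSMulTop z Z) W) := by
      intro j hj
      obtain ⟨j, rfl⟩ : ∃ k, j = k + 1 := ⟨j - 1, by omega⟩
      exact tor_subsingleton_step Z z hreg.1 W j (h _ (by omega)) (h _ (by omega))
    have h2 := ih (QuotSMulTop z Z) hreg.2 (n₀ + 1) h1 j
      (by rw [List.length_cons] at hj; omega)
    exact (torCongrLeft j
      (Submodule.quotOfListConsSMulTopEquivQuotSMulTopInner Z z zs) W).toEquiv.subsingleton

end basic

section regular

/-- Tor vanishes in degrees larger than the dimension of a regular local ring. -/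
theorem regular_tor_vanish (R : Type u) [CommRing R] [IsRegularLocalRing R] (d : ℕ)
    (hd : ringKrullDim R = d) (M N : Type u) [AddCommGroup M] [Module R M] [Module.Finite R M]
    [AddCommGroup N] [Module R N] [Module.Finite R N] (j : ℕ) (hj : d + 1 ≤ j) :
    Subsingleton (TorM R j M N) := by
  obtain ⟨rs, hrs, hlen⟩ := exists_list_maximalIdeal R
  have hreg := isRegular_of_ofList_eq_maximalIdeal R rs hrs hlen
  have hlen' : rs.length = d := by
    rw [hd] at hlen
    exact_mod_cast hlen
  have h0 : ∀ j, 1 ≤ j → Subsingleton (TorM R j R N) := by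
    intro j hj
    obtain ⟨j, rfl⟩ : ∃ k, j = k + 1 := ⟨j - 1, by omega⟩
    exact tor_subsingleton_of_flat j
  have h1 := tor_subsingleton_list rs R hreg.toIsWeaklyRegular N 1 h0
  have hk : ∀ j, d + 1 ≤ j → Subsingleton (TorM R j (R ⊗[R] (R ⧸ maximalIdeal R)) N) := by
    intro j hj
    have h2 := h1 j (by omega)
    have e : (R ⊗[R] (R ⧸ maximalIdeal R)) ≃ₗ[R]
        (R ⧸ (Ideal.ofList rs • ⊤ : Submodule R R)) :=
      (TensorProduct.lid R _) ≪≫ₗ Submodule.quotEquivOfEq _ _ (by rw [hrs]; simp)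
    exact (torCongrLeft j e N).toEquiv.subsingleton
  have h3 := local_crit (S := R) (B := R) (d + 1) N hk M j hj
  exact (torCongrLeft j (TensorProduct.lid R M).symm N).toEquiv.subsingleton

end regular

section regof

variable {B : Type u} [CommRing B] [IsLocalRing B] [IsNoetherianRing B]

/-- Rigidity: if `zs` is weakly regular on `Z` and `Tor_j(Z/zs Z, W) = 0` for `j ≥ 1` then
`Tor_j(Z,W) = 0` for `j ≥ 1` and `zs` is weakly regular on `Tor_0(Z,W)`. -/
theorem regular_of_tor_vanish (zs : List B) (hzs : ∀ z ∈ zs, z ∈ maximalIdeal B) (Z : Type u)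
    [AddCommGroup Z] [Module B Z] [Module.Finite B Z]
    (hreg : IsWeaklyRegular Z zs) (W : Type u) [AddCommGroup W] [Module B W] [Module.Finite B W]
    (h : ∀ j, 1 ≤ j →
      Subsingleton (TorM B j (Z ⧸ (Ideal.ofList zs • ⊤ : Submodule B Z)) W)) :
    (∀ j, 1 ≤ j → Subsingleton (TorM B j Z W)) ∧ IsWeaklyRegular (TorM B 0 Z W) zs := by
  induction zs generalizing Z with
  | nil =>
    refine ⟨?_, IsWeaklyRegular.nil _ _⟩
    intro j hj
    have := h j hj
    have e : (Z ⧸ (Ideal.ofList ([] : List B) • ⊤ : Submodule B Z)) ≃ₗ[B] Z :=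
      Submodule.quotEquivOfEqBot _ (by simp)
    exact (torCongrLeft j e W).symm.toEquiv.subsingleton
  | cons z zs ih =>
    rw [isWeaklyRegular_cons_iff] at hreg
    obtain ⟨h1, h2⟩ := ih (fun y hy => hzs y (List.mem_cons_of_mem _ hy)) (QuotSMulTop z Z)
      hreg.2 (fun j hj => by
        have := h j hj
        exact (torCongrLeft j
          (Submodule.quotOfListConsSMulTopEquivQuotSMulTopInner Z z zs) W).symm.toEquiv.subsingleton)
    obtain ⟨f, g, hf, hi, hs, hex⟩ := quot_ses Z z hreg.1
    refine ⟨fun j hj => tor_subsingleton_of_quot z (hzs z (List.mem_cons_self))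
      f hf g hi hs hex W j (h1 j hj), ?_⟩
    obtain ⟨δ, -, h4, h5⟩ := exists_torDelta f g hi hs hex W
    have h6 := h1 1 le_rfl
    rw [isWeaklyRegular_cons_iff]
    constructor
    · rw [isSMulRegular_iff_right_eq_zero_of_smul]
      intro x hx
      have h7 : torMap 0 f W x = 0 := by
        rw [torMap_smul_id 0 z f hf, hx]
      obtain ⟨y, rfl⟩ := (h4 0 x).1 h7
      rw [Subsingleton.elim y 0, map_zero]
    · obtain ⟨e⟩ := exists_quotSMulTop_equiv z (torMap 0 f W)
        (torMap_smul_id 0 z f hf) (torMap 0 g W) (torMap_zero_surjective g hs W) (h5 0)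
      exact (e.isWeaklyRegular_congr zs).2 h2

end regof

end Vale.Agent.P177
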