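import Vale.Agent.P177.OCore

/-!
The formula for the Euler characteristics of a prime cyclic module with the modules free over a
Noether normalization of a complete intersection: interface between the construction of the weights
and the end of the proof of Serre's positivity conjecture.
-/

namespace Vale.Agent.P177

open TensorProduct IsLocalRing RingTheory.Sequence Function

universe u

/-- The Euler characteristic of `A` and `L` is the sum of the weights of the eigencharacters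
of `L`. -/
def FlagRep {R : Type u} [CommRing R] (d : ℕ) (A : Type u) [AddCommGroup A] [Module R A]
    (Λ : Type u) [CommRing Λ] [Algebra Λ R] (Ω : Type u) [Field Ω] [Algebra Λ Ω]
    (hs : List R) (w : (R →ₐ[Λ] Ω) → ℝ) (L : Type u) [AddCommGroup L] [Module R L]
    [Module Λ L] [IsScalarTower Λ R L] : Prop :=
  ∃ (n : ℕ) (σ : Fin n → (R →ₐ[Λ] Ω)), (∀ j, ∀ h ∈ hs, σ j h = 0) ∧
    (∀ r : R, algebraMap Λ Ω (LinearMap.trace Λ L (Algebra.lsmul Λ Λ L r)) = ∑ j, σ j r) ∧
    (eulerTor R (d + 1) A L : ℝ) = ∑ j, w (σ j)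

/-- The flag formula for the prime `P` and the complete intersection `hs`. -/
def FlagFormula (R : Type u) [CommRing R] (d : ℕ) (P : Ideal R) (hs : List R) (strict : Prop) :
    Prop :=
  ∃ (Λ : Type u) (_ : CommRing Λ) (_ : IsRegularLocalRing Λ) (_ : Algebra Λ R) (Ω : Type u)
    (_ : Field Ω) (_ : IsAlgClosed Ω) (_ : CharZero Ω) (_ : Algebra Λ Ω) (_ : FaithfulSMul Λ Ω),
    Module.Finite Λ (R ⧸ Ideal.ofList hs) ∧
    ringKrullDim Λ = ringKrullDim (R ⧸ Ideal.ofList hs) ∧
    ∀ (L₁ L₂ : Type u) [AddCommGroup L₁] [Module R L₁] [Module.Finite R L₁] [Module Λ L₁]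
      [IsScalarTower Λ R L₁] [Module.Free Λ L₁] [AddCommGroup L₂] [Module R L₂]
      [Module.Finite R L₂] [Module Λ L₂] [IsScalarTower Λ R L₂] [Module.Free Λ L₂],
      (∀ h ∈ hs, ∀ x : L₁, h • x = 0) → (∀ h ∈ hs, ∀ x : L₂, h • x = 0) →
      ∃ w : (R →ₐ[Λ] Ω) → ℝ,
        (∀ σ : R →ₐ[Λ] Ω, (∀ h ∈ hs, σ h = 0) → 0 ≤ w σ ∧ (strict → 0 < w σ)) ∧
        FlagRep d (R ⧸ P) Λ Ω hs w L₁ ∧ FlagRep d (R ⧸ P) Λ Ω hs w L₂

/-- The flag formula for all `R`, `P` and `hs`. This is the statement which remains to be proved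
for Serre's positivity conjecture. -/
def FlagStmt : Prop :=
  ∀ (p : ℕ) [Fact p.Prime] (R : Type u) [CommRing R] [IsRegularLocalRing R]
    [IsAdicComplete (maximalIdeal R) R] [CharP (ResidueField R) p] [PerfectRing (ResidueField R) p]
    (d : ℕ), ringKrullDim R = d → (p : R) ≠ 0 → (p : R) ∈ maximalIdeal R ^ 2 →
    ∀ (P : Ideal R), P.IsPrime → ∀ hs : List R, (∀ h ∈ hs, h ∈ maximalIdeal R) →
      IsWeaklyRegular R (hs ++ [(p : R)]) →
      maximalIdeal R ≤ (P ⊔ Ideal.ofList hs).radical →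
      ∀ a b : ℕ, ringKrullDim (R ⧸ P) = a → hs.length + b = d → 1 ≤ b →
        ringKrullDim (R ⧸ Ideal.ofList hs) = b → a + b ≤ d →
        FlagFormula R d P hs (a + b = d)

end Vale.Agent.P177
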