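import Vale.Agent.P177.AssocFormula

/-!
Reduction to the diagonal without Tor independence.
-/

namespace Vale.Agent.P177

open CategoryTheory TensorProduct Function IsLocalRing RingTheory.Sequence Pointwise

universe u

section main

variable {S₁ S₂ B : Type u} [CommRing S₁] [CommRing S₂] [CommRing B] [Algebra S₁ B]
  [Algebra S₂ B] [IsNoetherianRing S₂]
  [IsLocalRing B] [IsNoetherianRing B]
  [Module.Flat S₁ B] [Module.Flat S₂ B]

omit [IsNoetherianRing S₂] in
/-- Reduction to the diagonal for the Euler characteristic. -/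
theorem eulerTor_eq_sum_eul (δ : List B) (hδm : ∀ z ∈ δ, z ∈ maximalIdeal B)
    (hδreg : IsWeaklyRegular B δ)
    (hres : ∀ b : B, ∃ s : S₁, b - algebraMap S₁ B s ∈ Ideal.ofList δ)
    (D : Type u) [AddCommGroup D] [Module B D] [Module S₁ D] [IsScalarTower S₁ B D]
    [Module.Flat S₁ D] (eD : (B ⧸ (Ideal.ofList δ • ⊤ : Submodule B B)) ≃ₗ[B] D)
    (N : Type u) [AddCommGroup N] [Module B N] [Module S₁ N] [Module S₂ N]
    [IsScalarTower S₁ B N] [IsScalarTower S₂ B N] [Module.Finite S₁ N]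
    (hkill : ∀ z ∈ Ideal.ofList δ, ∀ t : N, z • t = 0)
    (hN2 : ∀ b : B, ∃ s : S₂, ∀ t : N, b • t = s • t)
    (M : Type u) [AddCommGroup M] [Module S₂ M] [Module.Finite S₂ M] (n₀ : ℕ)
    (hv : ∀ j, n₀ ≤ j → Subsingleton (TorM B j (B ⊗[S₁] N) (B ⊗[S₂] M)))
    (hlen : Module.length S₂ (M ⊗[S₂] N) ≠ ⊤) (n : ℕ) (hn : n₀ + δ.length ≤ n) :
    eulerTor S₂ n M N = ∑ j ∈ Finset.range n,
        (-1 : ℤ) ^ j * eul δ (TorM B j (B ⊗[S₁] N) (B ⊗[S₂] M)) ∧
      FL2 δ (B ⊗[S₁] N) (B ⊗[S₂] M) := by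
  have hNfin : Module.Finite B N := Module.Finite.of_restrictScalars_finite S₁ B N
  obtain ⟨eq⟩ := exists_quot_equiv (S₁ := S₁) N (Ideal.ofList δ) hres hkill
  -- regularity of `δ` on `B ⊗ N`
  have h1 : ∀ j, 1 ≤ j → Subsingleton (TorM B j (B ⧸ (Ideal.ofList δ • ⊤ : Submodule B B))
      (B ⊗[S₁] N)) := by
    intro j hj
    obtain ⟨i, rfl⟩ : ∃ k, j = k + 1 := ⟨j - 1, by omega⟩
    have h1 : Subsingleton (TorM B (i + 1) (B ⊗[S₁] N) D) :=
      tor_subsingleton_bc i (TensorProduct.isBaseChange S₁ N B) D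
    obtain ⟨e2⟩ := tor_symm (R := B) (i + 1) D (B ⊗[S₁] N)
    have h2 : Subsingleton (TorM B (i + 1) D (B ⊗[S₁] N)) := e2.toEquiv.subsingleton
    exact (torCongrLeft (i + 1) eD (B ⊗[S₁] N)).toEquiv.subsingleton
  have h2 := (regular_of_tor_vanish δ hδm B hδreg (B ⊗[S₁] N) h1).2
  have h3 : IsWeaklyRegular (B ⊗[S₁] N) δ := by
    have e : TorM B 0 B (B ⊗[S₁] N) ≃ₗ[B] (B ⊗[S₁] N) :=
      (torZero B (B ⊗[S₁] N)) ≪≫ₗ TensorProduct.lid B _
    exact (e.isWeaklyRegular_congr δ).1 h2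
  -- finiteness
  have hlenB : Module.length B ((B ⊗[S₂] M) ⊗[B] N) ≠ ⊤ := by
    rw [← length_tensor_bc (TensorProduct.isBaseChange S₂ M B) N hN2]
    exact hlen
  obtain ⟨k, hk⟩ := exists_pow_le_sup_annihilator (R := B) (B ⊗[S₂] M) N hlenB
  have hFL : FL2 δ (B ⊗[S₁] N) (B ⊗[S₂] M) := by
    have h4 : maximalIdeal B ≤ (Module.annihilator B (B ⊗[S₂] M) ⊔
        Module.annihilator B N).radical := by
      intro x hx
      exact ⟨k, hk (Ideal.pow_mem_pow hx k)⟩
    refine h4.trans ?_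
    rw [Ideal.radical_le_radical_iff]
    refine sup_le ?_ ?_
    · exact (le_sup_of_le_left le_sup_right).trans Ideal.le_radical
    · rw [← eq.annihilator_eq]
      refine (annihilator_quotient_le_radical _ _).trans (Ideal.radical_mono ?_)
      exact sup_le (le_sup_of_le_left le_sup_left) le_sup_right
  refine ⟨?_, hFL⟩
  have h5 := sum_length_tor_quot δ (B ⊗[S₂] M) n (B ⊗[S₁] N) h3 hFL n₀ hv hn
  have h6 : ∀ j, Module.length B (TorM B j ((B ⊗[S₁] N) ⧸
      (Ideal.ofList δ • ⊤ : Submodule B (B ⊗[S₁] N))) (B ⊗[S₂] M)) =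
      Module.length S₂ (TorM S₂ j M N) := by
    intro j
    rw [(torCongrLeft j eq (B ⊗[S₂] M)).length_eq]
    obtain ⟨e⟩ := tor_symm (R := B) j N (B ⊗[S₂] M)
    rw [e.length_eq]
    exact (length_tor_bc j (TensorProduct.isBaseChange S₂ M B) N hN2).symm
  simp only [h6] at h5
  unfold eulerTor
  rw [h5]

end main

section shrink

/-- Truncation of Euler characteristics. -/
theorem eulerTor_shrink {R : Type u} [CommRing R] (M N : Type u) [AddCommGroup M] [Module R M]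
    [AddCommGroup N] [Module R N] (m n : ℕ) (hmn : m ≤ n)
    (h : ∀ j, m ≤ j → Subsingleton (TorM R j M N)) : eulerTor R n M N = eulerTor R m M N := by
  unfold eulerTor
  symm
  refine Finset.sum_subset (Finset.range_mono hmn) ?_
  intro j _ hj
  have := h j (by simpa using hj)
  rw [Module.length_eq_zero]
  simp

end shrink

end Vale.Agent.P177
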