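import Vale.Agent.P177.K13
import Vale.Agent.P177.FLoc

/-!
Meeting point of the two halves of the corank at most one theorem: the local theorem with one
fixed parameter (`locStmtRel`, from `FLoc`) and the relative diagonal method (`K13`).
-/
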