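import Vale.Agent.P177.Devissage

namespace Vale.Agent.P177

open CategoryTheory IsLocalRing TensorProduct

universe u

theorem exists_nat_of_sum_eq (x y : WithBot ℕ∞) (d : ℕ) (h : x + y = (d : WithBot ℕ∞)) :
    ∃ a b : ℕ, x = (a : WithBot ℕ∞) ∧ y = (b : WithBot ℕ∞) ∧ a + b = d := by
  induction x using WithBot.recBotCoe with
  | bot => simp at h
  | coe x =>
    induction y using WithBot.recBotCoe with
    | bot => simp at h
    | coe y =>
      have h1 : x + y = (d : ℕ∞) := by exact_mod_cast h
      have hx : x ≠ ⊤ := by
        rintro rfl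
        rw [top_add] at h1
        exact absurd h1.symm (ENat.natCast_ne_top d)
      have hy : y ≠ ⊤ := by
        rintro rfl
        rw [add_top] at h1
        exact absurd h1.symm (ENat.natCast_ne_top d)
      lift x to ℕ using hx
      lift y to ℕ using hy
      exact ⟨x, y, rfl, rfl, by exact_mod_cast h1⟩

end Vale.Agent.P177
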