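import Vale.Agent.P177.HTheta
import Vale.Agent.P177.K14
import Vale.Agent.P177.EssSmoothLoc
import Vale.Agent.P177.NatOfSum

/-!
The cases of Serre's positivity conjecture.
-/

namespace Vale.Agent.P177

open CategoryTheory TensorProduct Function IsLocalRing RingTheory.Sequence Serre

universe u

/-! ### Flat maps with closed fibre of finite length -/

theorem isLocalHom_of_fibre {R C : Type u} [CommRing R] [IsLocalRing R] [CommRing C]
    [IsLocalRing C] (φ : R →+* C) (h : (maximalIdeal R).map φ ≤ maximalIdeal C) :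
    IsLocalHom φ := ((local_hom_TFAE φ).out 0 2).2 h

theorem length_fibre_ne_top {R C : Type u} [CommRing R] [IsLocalRing R] [CommRing C]
    [IsLocalRing C] [IsNoetherianRing C] (φ : R →+* C) {k : ℕ}
    (h : maximalIdeal C ^ k ≤ (maximalIdeal R).map φ) :
    Module.length C (C ⧸ (maximalIdeal R).map φ) ≠ ⊤ := by
  rw [Module.length_ne_top_iff]
  refine isFiniteLength_of_pow_smul_eq_zero k ?_
  intro a ha x
  obtain ⟨c, rfl⟩ := Ideal.Quotient.mk_surjective x
  change Ideal.Quotient.mk _ (a * c) = 0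
  rw [Ideal.Quotient.eq_zero_iff_mem]
  exact Ideal.mul_mem_right _ _ (h ha)

theorem ringKrullDim_eq_of_flat_fibre {R C : Type u} [CommRing R] [CommRing C]
    [IsRegularLocalRing R] [IsLocalRing C] [IsNoetherianRing C] [Algebra R C] [Module.Flat R C]
    (hle : (maximalIdeal R).map (algebraMap R C) ≤ maximalIdeal C) {k : ℕ}
    (hk : maximalIdeal C ^ k ≤ (maximalIdeal R).map (algebraMap R C)) :
    ringKrullDim C = ringKrullDim R := by
  obtain ⟨rs, hrs, hlen⟩ := exists_list_maximalIdeal R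
  have hreg := isRegular_of_ofList_eq_maximalIdeal R rs hrs hlen
  have h1 : IsWeaklyRegular C (rs.map (algebraMap R C)) := hreg.toIsWeaklyRegular.of_flat
  have h2 := length_le_height (maximalIdeal C) _ (fun z hz => by
    rw [List.mem_map] at hz
    obtain ⟨y, hy, rfl⟩ := hz
    refine hle (Ideal.mem_map_of_mem _ ?_)
    rw [← hrs]
    exact Ideal.subset_span hy) h1
  rw [List.length_map] at h2
  have h3 : (rs.length : WithBot ℕ∞) ≤ ringKrullDim C := by
    refine le_trans ?_ (Ideal.height_le_ringKrullDim_of_isPrime (I := maximalIdeal C))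
    exact_mod_cast h2
  have hmin : maximalIdeal C ∈ ((maximalIdeal R).map (algebraMap R C)).minimalPrimes := by
    refine ⟨⟨inferInstance, hle⟩, ?_⟩
    rintro J ⟨hJ, hJle⟩ -
    exact hJ.le_of_pow_le (hk.trans hJle)
  have h4 : ringKrullDim C ≤ (rs.length : WithBot ℕ∞) := by
    rw [← IsLocalRing.maximalIdeal_height_eq_ringKrullDim]
    have h5 := Ideal.height_le_spanRank_toENat_of_mem_minimalPrimes _ _ hmin
    have h6 : ((maximalIdeal R).map (algebraMap R C)).spanRank.toENat ≤ (rs.length : ℕ∞) := by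
      classical
      have h7 : {x | x ∈ rs.map (algebraMap R C)} =
          ((rs.map (algebraMap R C)).toFinset : Set C) := by
        ext x
        simp
      rw [← hrs, Ideal.map_ofList, Ideal.ofList, h7]
      refine Cardinal.toENat_le_natCast.2 ?_
      refine (Submodule.spanRank_span_le_card _).trans ?_
      simp only [Finset.coe_sort_coe, Cardinal.mk_coe_finset]
      have h8 := List.toFinset_card_le (rs.map (algebraMap R C))
      rw [List.length_map] at h8
      exact_mod_cast h8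
    exact_mod_cast h5.trans h6
  rw [← hlen]
  exact le_antisymm h4 h3

theorem serreAll_of_fibre {R C : Type u} [CommRing R] [CommRing C]
    [IsRegularLocalRing R] [IsLocalRing C] [IsNoetherianRing C] (φ : R →+* C)
    (hφ : FlatFiniteFibre φ) (d : ℕ)
    (hd : ringKrullDim R = d) (h : ∀ d' : ℕ, ringKrullDim C = d' → SerreAll C d') :
    SerreAll R d := by
  obtain ⟨hflat, hle, k, hk⟩ := hφ
  let _ : Algebra R C := φ.toAlgebra
  have : Module.Flat R C := hflat
  have : IsLocalHom (algebraMap R C) := isLocalHom_of_fibre φ hle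
  refine SerreAll.descend_finite (length_fibre_ne_top φ hk) (h d ?_)
  rw [ringKrullDim_eq_of_flat_fibre hle hk, hd]

/-! ### The cases -/

theorem serreHolds_of_sp {R : Type u} [CommRing R] [IsRegularLocalRing R] {d : ℕ}
    (hd : ringKrullDim R = d) {M N : Type u} [AddCommGroup M] [Module R M] [Module.Finite R M]
    [AddCommGroup N] [Module R N] [Module.Finite R N] (hlen : Module.length R (M ⊗[R] N) ≠ ⊤)
    (h : Good R d M N) : SerreHolds R d M N := by
  refine ⟨fun i => tor_length_ne_top i M N hlen,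
    fun i hi => regular_tor_vanish R d hd M N i hi, h.1, ?_⟩
  intro hdim
  obtain ⟨m, n, hm, hn, hmn⟩ := exists_nat_of_sum_eq _ _ d hdim
  exact h.2 m n hm.ge hn.ge hmn.ge

theorem SP.good {R : Type u} [CommRing R] {d : ℕ} {M N : Type u} [AddCommGroup M] [Module R M]
    [AddCommGroup N] [Module R N] (h : SP R d M N) : Good R d M N :=
  ⟨h.1, fun a b ha hb hab => (h.2 a b ha hb).2 hab⟩

theorem mvPowerSeries_regular_fin' (A : Type u) [CommRing A] [IsRegularLocalRing A] (n : ℕ) :
    IsRegularLocalRing (MvPowerSeries (Fin n) A) := by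
  obtain ⟨a', ha'⟩ : ∃ a' : ℕ, ringKrullDim A = a' := by
    obtain ⟨rs, -, hlen⟩ := exists_list_maximalIdeal A
    exact ⟨_, hlen.symm⟩
  exact (mvPowerSeries_regular n (Equiv.refl (Fin n)) ha').1

theorem flatFiniteFibre_comp {R C D : Type u} [CommRing R] [IsLocalRing R] [CommRing C]
    [IsLocalRing C] [CommRing D] [IsLocalRing D] {φ : R →+* C} (h : FlatFiniteFibre φ)
    {ψ : C →+* D} (hψ : ψ.Flat) (he : (maximalIdeal C).map ψ = maximalIdeal D) :
    FlatFiniteFibre (ψ.comp φ) := by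
  obtain ⟨h1, h2, k, h3⟩ := h
  refine ⟨h1.comp hψ, ?_, k, ?_⟩
  · rw [← Ideal.map_map, ← he]
    exact Ideal.map_mono h2
  · rw [← Ideal.map_map, ← he, ← Ideal.map_pow]
    exact Ideal.map_mono h3

theorem flatFiniteFibre_of_map_eq {C D : Type u} [CommRing C]
    [IsLocalRing C] [CommRing D] [IsLocalRing D] {ψ : C →+* D} (hψ : ψ.Flat)
    (he : (maximalIdeal C).map ψ = maximalIdeal D) : FlatFiniteFibre ψ := by
  refine ⟨hψ, he.le, 1, ?_⟩
  rw [pow_one]
  exact he.ge

/-- Tame rings are regular and satisfy Serre's positivity conjecture. -/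
theorem tame_serreAll {R : Type u} [hR : CommRing R] (h : Tame R) :
    IsRegularLocalRing R ∧ ∀ d : ℕ, ringKrullDim R = d → SerreAll R d := by
  induction h with
  | @smooth A R _ _ _ _ _ _ _ hA =>
    exact ⟨(regular_flat_of_essSmooth A R).1,
      fun d hd => serreAll_essSmooth 4 locPos_four A R hA d hd⟩
  | @powerSeries A _ _ n hA =>
    exact ⟨mvPowerSeries_regular_fin' A n,
      fun d hd => serreAll_powerSeries 4 locPos_four A hA n d hd⟩
  | @quadric R _ _ h =>
    obtain ⟨r, s, z, c, hs, hd, hz, hu, hc⟩ := h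
    refine ⟨inferInstance, fun d hd' => ?_⟩
    have h1 : r + s = d := by
      rw [hd] at hd'
      exact_mod_cast hd'
    subst h1
    exact serreAll_of_uniformizing locStmtRel hs hd z c hz hu hc
  | @descend R C _ _ _ _ φ hφ _ ih =>
    obtain ⟨hreg, ih⟩ := ih
    exact ⟨inferInstance, fun d hd => serreAll_of_fibre φ hφ d hd ih⟩

/-! ### Devissage -/

section dev

variable {R : Type u} [CommRing R] [IsRegularLocalRing R] {d : ℕ} (hd : ringKrullDim R = d)

include hd in
theorem Good.of_exact' {M' M M'' N : Type u} [AddCommGroup M'] [Module R M']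
    [AddCommGroup M] [Module R M] [AddCommGroup M''] [Module R M''] [Module.Finite R M']
    [Module.Finite R M] [Module.Finite R M'']
    [AddCommGroup N] [Module R N] [Module.Finite R N]
    (f : M' →ₗ[R] M) (g : M →ₗ[R] M'') (hf : Injective f) (hg : Surjective g) (h : Exact f g)
    (hlen : Module.length R (M ⊗[R] N) ≠ ⊤) (h1 : Good R d M' N) (h3 : Good R d M'' N) :
    Good R d M N := by
  have hlen' : Module.length R (M' ⊗[R] N) ≠ ⊤ :=
    length_tensor_ne_top_of_annihilator_le M M' N hlen (LinearMap.annihilator_le_of_injective f hf)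
  have hv : Module.length R (TorM R (d + 1) M'' N) = 0 := by
    have := regular_tor_vanish R d hd M'' N (d + 1) le_rfl
    exact Module.length_eq_zero
  have hadd := eulerTor_add_aux f g hf hg h N (fun i => tor_length_ne_top i M' N hlen')
    (fun i => tor_length_ne_top i M N hlen) (d + 1) hv
  unfold Good
  rw [hadd]
  refine ⟨add_nonneg h1.1 h3.1, fun a b ha hb hab => ?_⟩
  rcases le_supportDim_of_exact f g hf hg h a ha with ha' | ha'
  · exact add_pos_of_pos_of_nonneg (h1.2 a b ha' hb hab) h3.1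
  · exact add_pos_of_nonneg_of_pos h1.1 (h3.2 a b ha' hb hab)

theorem Good.of_subsingleton {M N : Type u} [AddCommGroup M] [Module R M] [AddCommGroup N]
    [Module R N] (h : Subsingleton M) : Good R d M N := (SP.of_subsingleton h).good

theorem Good.congr {M N M' : Type u} [AddCommGroup M] [Module R M] [AddCommGroup N]
    [Module R N] [AddCommGroup M'] [Module R M'] (e : M ≃ₗ[R] M') (h : Good R d M N) :
    Good R d M' N := by
  unfold Good at h ⊢
  rw [← eulerTor_congr e (LinearEquiv.refl R N), ← Module.supportDim_eq_of_equiv e]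
  exact h

include hd in
/-- Devissage to prime cyclic modules in the first variable. -/
theorem good_dev (M N : Type u) [AddCommGroup M] [Module R M] [Module.Finite R M]
    [AddCommGroup N] [Module R N] [Module.Finite R N]
    (hlen : Module.length R (M ⊗[R] N) ≠ ⊤)
    (h : ∀ P : Ideal R, P.IsPrime → Module.annihilator R M ≤ P → Good R d (R ⧸ P) N) :
    Good R d M N := by
  refine IsNoetherianRing.induction_on_isQuotientEquivQuotientPrime R (M := M) inferInstance
    (motive := fun X => Module.annihilator R M ≤ Module.annihilator R X → Good R d X N)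
    ?_ ?_ ?_ le_rfl
  · intro X _ _ _ hX _
    exact Good.of_subsingleton hX
  · intro X _ _ _ q e hle
    refine Good.congr e.symm (h q.1 q.2 ?_)
    rw [e.annihilator_eq, Ideal.annihilator_quotient] at hle
    exact hle
  · intro X₁ _ _ _ X₂ _ _ _ X₃ _ _ _ i g hi hg hex h1 h3 hle
    refine Good.of_exact' hd i g hi hg hex ?_ (h1 ?_) (h3 ?_)
    · exact length_tensor_ne_top_of_annihilator_le M X₂ N hlen hle
    · exact hle.trans (LinearMap.annihilator_le_of_injective i hi)
    · exact hle.trans (LinearMap.annihilator_le_of_surjective g hg)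

include hd in
/-- Devissage to prime cyclic modules in both variables. -/
theorem good_dev₂ (M N : Type u) [AddCommGroup M] [Module R M] [Module.Finite R M]
    [AddCommGroup N] [Module R N] [Module.Finite R N]
    (hlen : Module.length R (M ⊗[R] N) ≠ ⊤)
    (h : ∀ P Q : Ideal R, P.IsPrime → Q.IsPrime → Module.annihilator R M ≤ P →
      Module.annihilator R N ≤ Q → Module.length R ((R ⧸ P) ⊗[R] (R ⧸ Q)) ≠ ⊤ →
      Good R d (R ⧸ P) (R ⧸ Q)) :
    Good R d M N := by
  refine good_dev hd M N hlen fun P hP hle => ?_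
  have h1 : Module.length R ((R ⧸ P) ⊗[R] N) ≠ ⊤ :=
    length_tensor_ne_top_of_annihilator_le M (R ⧸ P) N hlen (by
      rw [Ideal.annihilator_quotient]
      exact hle)
  have h2 : Module.length R (N ⊗[R] (R ⧸ P)) ≠ ⊤ := by
    rw [(TensorProduct.comm R N (R ⧸ P)).length_eq]
    exact h1
  refine (good_dev hd N (R ⧸ P) h2 fun Q hQ hleQ => ?_).symm
  have h3 : Module.length R ((R ⧸ Q) ⊗[R] (R ⧸ P)) ≠ ⊤ :=
    length_tensor_ne_top_of_annihilator_le N (R ⧸ Q) (R ⧸ P) h2 (by
      rw [Ideal.annihilator_quotient]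
      exact hleQ)
  refine (h P Q hP hQ hle hleQ ?_).symm
  rw [(TensorProduct.comm R (R ⧸ P) (R ⧸ Q)).length_eq]
  exact h3

end dev

/-! ### Good pairs -/

/-- A prime cyclic module over a tame regular quotient. -/
theorem sp_of_tame {R R' : Type u} [CommRing R] [IsRegularLocalRing R] {d : ℕ}
    (hd : ringKrullDim R = d) [CommRing R'] (ψ : R →+* R') (hψ : Surjective ψ) (ht : Tame R')
    (P : Ideal R) (hP : RingHom.ker ψ ≤ P) (N : Type u) [AddCommGroup N] [Module R N]
    [Module.Finite R N] (hlen : Module.length R ((R ⧸ P) ⊗[R] N) ≠ ⊤) : SP R d (R ⧸ P) N := by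
  obtain ⟨hreg, hall⟩ := tame_serreAll ht
  obtain ⟨d', hd'⟩ := exists_nat_eq_ringKrullDim R'
  exact sp_of_quotient hd hd' ψ hψ (hall d' hd') P hP N hlen

theorem sp_of_transversal {R C : Type u} [CommRing R] [IsRegularLocalRing R] {d : ℕ}
    (hd : ringKrullDim R = d) [CommRing C] [IsRegularLocalRing C] (φ₁ : R →+* C)
    (hφ₁ : FlatFiniteFibre φ₁) {P₀ Q₀ : Ideal R} (h : Transversal φ₁ P₀ Q₀) (P Q : Ideal R)
    (hP : P₀ ≤ P) (hQ : Q₀ ≤ Q) (hlen : Module.length R ((R ⧸ P) ⊗[R] (R ⧸ Q)) ≠ ⊤) :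
    SP R d (R ⧸ P) (R ⧸ Q) := by
  obtain ⟨r, x, c, hr, hx, hu, htr⟩ := h
  have hdC : ringKrullDim C = d := by
    obtain ⟨hflat, hle, k, hk⟩ := hφ₁
    let _ : Algebra R C := φ₁.toAlgebra
    have i1 : Module.Flat R C := hflat
    rw [ringKrullDim_eq_of_flat_fibre (R := R) (C := C) hle hk, hd]
  have hrd : r = d := by
    rw [hr] at hdC
    exact_mod_cast hdC
  subst hrd
  obtain ⟨V, _, _, ϖ, hϖ, hV, c', hloc, φ₂, v, hflat₂, hm₂, hX, hv, hC⟩ :=
    exists_presentation_of_uniformizing hdC x hx c hu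
  obtain ⟨hreg, -, -⟩ := quadRing_regular V ϖ hϖ hV r c'
  have hφ := flatFiniteFibre_comp hφ₁ hflat₂ hm₂
  have htr' := TransTo.map φ₂ hm₂ htr
  rw [Ideal.map_map, Ideal.map_map, Ideal.map_span, ← Set.range_comp] at htr'
  obtain ⟨hflat, hle, k, hk⟩ := hφ
  let _ : Algebra R (QuadRing V ϖ r c') := (φ₂.comp φ₁).toAlgebra
  have i1 : Module.Flat R (QuadRing V ϖ r c') := hflat
  have i2 : IsLocalHom (algebraMap R (QuadRing V ϖ r c')) := isLocalHom_of_fibre _ hle
  have hfin : Module.length (QuadRing V ϖ r c') (QuadRing V ϖ r c' ⧸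
      (maximalIdeal R).map (algebraMap R (QuadRing V ϖ r c'))) ≠ ⊤ :=
    length_fibre_ne_top _ hk
  refine serrePair_descend_finite hfin (R ⧸ P) (R ⧸ Q) ?_
  refine serrePair_of_transTo V ϖ hϖ hV r c' (QuadRing V ϖ r c' ⊗[R] (R ⧸ P))
    (QuadRing V ϖ r c' ⊗[R] (R ⧸ Q)) (length_tensor_ne_top_of_fibre hfin _ _ hlen) ?_
  have hann : ∀ I : Ideal R, I.map (φ₂.comp φ₁) ≤
      Module.annihilator (QuadRing V ϖ r c') (QuadRing V ϖ r c' ⊗[R] (R ⧸ I)) := by
    intro I
    refine le_trans ?_ (map_annihilator_le (R ⧸ I))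
    rw [Ideal.annihilator_quotient]
    exact le_rfl
  refine htr'.mono ((Ideal.map_mono hP).trans (hann P)) ((Ideal.map_mono hQ).trans (hann Q)) ?_
  rw [Ideal.span_le]
  rintro _ ⟨i, rfl⟩
  obtain ⟨v', rfl⟩ := hv
  have h1 : (φ₂ ∘ fun i => ∑ j, (c i j + c j i) * x j) i = (↑v'⁻¹ : QuadRing V ϖ r c') *
      ∑ m, Ideal.Quotient.mk (Ideal.span {quadEq V ϖ r c'})
        ((c' i m + c' m i) * MvPowerSeries.X m) := by
    rw [Function.comp_apply, map_sum, Finset.mul_sum]
    refine Finset.sum_congr rfl fun j _ => ?_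
    rw [map_mul, map_mul, map_add, map_add, ← hC, ← hC, hX, ← mul_add, ← mul_assoc, ← mul_assoc,
      Units.inv_mul, one_mul]
  rw [SetLike.mem_coe, h1]
  exact Ideal.mul_mem_left _ _ (Ideal.subset_span ⟨i, rfl⟩)

theorem good_of_hypersurface {R S A C : Type u} [CommRing R] [IsRegularLocalRing R] {d : ℕ}
    (hd : ringKrullDim R = d) [CommRing S] [CommRing A] [IsLocalRing A] [CommRing C]
    [IsLocalRing C] (α : R →+* A) (β : S →+* C) (φ : A →+* C) {P Q : Ideal R}
    (h : OnHypersurface α β P Q) (hφ : FlatFiniteFibre φ)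
    (M N : Type u) [AddCommGroup M] [Module R M] [Module.Finite R M]
    [AddCommGroup N] [Module R N] [Module.Finite R N]
    (hM : P ≤ Module.annihilator R M) (hN : Q ≤ Module.annihilator R N)
    (hlen : Module.length R (M ⊗[R] N) ≠ ⊤) : Good R d M N := by
  obtain ⟨hdS', ht, hα, hβ, ⟨f, hf, hf0, hα'⟩, g, hg0, hβ'⟩ := h
  have hdS : ringKrullDim S = d := hdS'.trans hd
  obtain ⟨hregS, hall⟩ := tame_serreAll ht
  obtain ⟨e, -⟩ : ∃ e : (R ⧸ Ideal.span {f}) ≃+* A, True :=
    ⟨(Ideal.quotEquivOfEq hα'.symm).trans (RingHom.quotientKerEquivOfSurjective hα), trivial⟩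
  have hlA : IsLocalRing (R ⧸ Ideal.span {f}) := e.symm.isLocalRing
  have hφ' : FlatFiniteFibre (φ.comp (e : (R ⧸ Ideal.span {f}) →+* A)) := by
    obtain ⟨h1, h2, k, h3⟩ := hφ
    have he : (maximalIdeal (R ⧸ Ideal.span {f})).map (e : (R ⧸ Ideal.span {f}) →+* A) =
        maximalIdeal A := map_maximalIdeal_of_surjective _ e.surjective
    refine ⟨(RingHom.Flat.of_bijective e.bijective).comp h1, ?_, k, ?_⟩
    · rw [← Ideal.map_map, he]
      exact h2
    · rw [← Ideal.map_map, he]
      exact h3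
  obtain ⟨hflat, hle, k, hk⟩ := hφ'
  let _ : Algebra (R ⧸ Ideal.span {f}) C := (φ.comp (e : (R ⧸ Ideal.span {f}) →+* A)).toAlgebra
  let _ : Algebra S C := β.toAlgebra
  have hnC : IsNoetherianRing C := isNoetherianRing_of_surjective S C β hβ
  have i1 : Module.Flat (R ⧸ Ideal.span {f}) C := hflat
  have i2 : IsLocalHom (algebraMap (R ⧸ Ideal.span {f}) C) := isLocalHom_of_fibre _ hle
  exact good_power_torsion' R d hd f hf0 S hdS (hall d hdS) g
    hg0 C (length_fibre_ne_top _ hk) hβ hβ' M N 1 1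
    (fun x => by rw [pow_one]; exact Module.mem_annihilator.1 (hM hf.1) x)
    (fun x => by rw [pow_one]; exact Module.mem_annihilator.1 (hN hf.2) x) hlen

theorem good_of_goodPair {R : Type u} [CommRing R] [IsRegularLocalRing R] {d : ℕ}
    (hd : ringKrullDim R = d) {P₀ Q₀ : Ideal R} (h : GoodPair P₀ Q₀) (P Q : Ideal R)
    (hPp : P.IsPrime) (hP : P₀ ≤ P) (hQ : Q₀ ≤ Q)
    (hlen : Module.length R ((R ⧸ P) ⊗[R] (R ⧸ Q)) ≠ ⊤) : Good R d (R ⧸ P) (R ⧸ Q) := by
  have hlen' : Module.length R ((R ⧸ Q) ⊗[R] (R ⧸ P)) ≠ ⊤ := by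
    rw [(TensorProduct.comm R (R ⧸ Q) (R ⧸ P)).length_eq]
    exact hlen
  cases h with
  | tame ψ hψ hker ht =>
    rcases hker with hker | hker
    · exact (sp_of_tame hd ψ hψ ht P (hker.trans hP) _ hlen).good
    · exact (sp_of_tame hd ψ hψ ht Q (hker.trans hQ) _ hlen').symm.good
  | transversal φ hφ h => exact (sp_of_transversal hd φ hφ h P Q hP hQ hlen).good
  | hypersurface α β φ h hφ =>
    refine good_of_hypersurface hd α β φ h hφ (R ⧸ P) (R ⧸ Q) ?_ ?_ hlen
    · rw [Ideal.annihilator_quotient]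
      exact hP
    · rw [Ideal.annihilator_quotient]
      exact hQ
  | residual p hp hp0 hmem =>
    have : Fact p.Prime := ⟨hp⟩
    refine good_p_power R d hd p hp0 (IsLocalRing.le_maximalIdeal hPp.ne_top (hP hmem.1))
      (R ⧸ P) (R ⧸ Q) 1 1 (fun x => ?_) (fun x => ?_) hlen
    · rw [pow_one]
      refine Module.mem_annihilator.1 ?_ x
      rw [Ideal.annihilator_quotient]
      exact hP hmem.1
    · rw [pow_one]
      refine Module.mem_annihilator.1 ?_ x
      rw [Ideal.annihilator_quotient]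
      exact hQ hmem.2

theorem goodCase : GoodCase.{u} := by
  intro R _ _ d hd M N _ _ _ _ _ _ h hlen
  refine serreHolds_of_sp hd hlen ?_
  refine good_dev₂ hd M N hlen fun P Q hP hQ hle hleQ hl => ?_
  obtain ⟨P₀, hP₀, hPP⟩ := Ideal.exists_minimalPrimes_le hle
  obtain ⟨Q₀, hQ₀, hQQ⟩ := Ideal.exists_minimalPrimes_le hleQ
  exact good_of_goodPair hd (h P₀ hP₀ Q₀ hQ₀) P Q hP hPP hQQ hl

theorem essSmoothCase : EssSmoothCase.{u} := by
  intro A R _ _ _ _ _ _ _ d hd M N _ _ _ _ _ _ hfib hlen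
  have hreg := (regular_flat_of_essSmooth A R).1
  have h := serre_essSmooth_loc A R d hd M N hfib hlen
  exact ⟨hreg, serreHolds_of_sp hd hlen ⟨h.1, fun a b ha hb hab => (h.2 a b ha hb).2 hab⟩⟩

end Vale.Agent.P177
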