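import Vale.Agent.P177.HBc
import Vale.Agent.P177.Devissage

/-!
Pairs of modules supported on a common hypersurface: transfer between two regular local rings,
along a flat local map with closed fibre of finite length.
-/

namespace Vale.Agent.P177

open CategoryTheory TensorProduct Function IsLocalRing RingTheory.Sequence Pointwise

universe u

section data

variable (A : Type u) [CommRing A] [IsLocalRing A] [IsNoetherianRing A]
    (C : Type u) [CommRing C] [IsLocalRing C] [IsNoetherianRing C] [Algebra A C] [Module.Flat A C]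
    [IsLocalHom (algebraMap A C)]
    (hfin : Module.length C (C ⧸ (maximalIdeal A).map (algebraMap A C)) ≠ ⊤)
    (S : Type u) [CommRing S] [Algebra S C]
    (hφ : Surjective (algebraMap S C))

include hfin hφ in
/-- Data over `S` attached to a pair of `A`-modules. -/
theorem exists_modules_of_surjective' (d : ℕ) (hS : SerreAll S d)
    (M N : Type u) [AddCommGroup M] [Module A M] [Module.Finite A M]
    [AddCommGroup N] [Module A N] [Module.Finite A N]
    (hlen : Module.length A (M ⊗[A] N) ≠ ⊤) :
    ∃ (X Y : Type u) (_ : AddCommGroup X) (_ : Module C X) (_ : Module S X)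
      (_ : IsScalarTower S C X)
      (_ : AddCommGroup Y) (_ : Module C Y) (_ : Module S Y)
      (_ : IsScalarTower S C Y),
      (∀ n, Module.length C (TorM C n X Y) = Module.length A (TorM A n M N) *
        Module.length C (C ⧸ (maximalIdeal A).map (algebraMap A C))) ∧
      (0 ≤ eulerTor S (d + 1) X Y) ∧
      (Module.Finite S X) ∧ (Module.Finite S Y) ∧
      (∀ a b : ℕ, (a : WithBot ℕ∞) ≤ Module.supportDim A M →
        (b : WithBot ℕ∞) ≤ Module.supportDim A N →
        (a + b ≤ d) ∧ (d ≤ a + b → 0 < eulerTor S (d + 1) X Y)) := by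
  obtain ⟨X, _, _, _, _, φ, hφX⟩ := exists_baseChange (R := A) C M
  obtain ⟨Y, _, _, _, _, ψ, hψY⟩ := exists_baseChange (R := A) C N
  let mX : Module S X := Module.compHom X (algebraMap S C)
  let mY : Module S Y := Module.compHom Y (algebraMap S C)
  have sX : IsScalarTower S C X := ⟨fun s b t => by
    rw [Algebra.smul_def, mul_smul]
    rfl⟩
  have sY : IsScalarTower S C Y := ⟨fun s b t => by
    rw [Algebra.smul_def, mul_smul]
    rfl⟩
  have fX : Module.Finite C X := Module.Finite.of_surjective hφX.equiv.toLinearMap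
    hφX.equiv.surjective
  have fY : Module.Finite C Y := Module.Finite.of_surjective hψY.equiv.toLinearMap
    hψY.equiv.surjective
  have fC : Module.Finite S C :=
    Module.Finite.of_surjective (Algebra.linearMap _ C) hφ
  have fX' : Module.Finite S X := Module.Finite.trans C X
  have fY' : Module.Finite S Y := Module.Finite.trans C Y
  have ht : ∀ n, Module.length C (TorM C n X Y) = Module.length A (TorM A n M N) *
      Module.length C (C ⧸ (maximalIdeal A).map (algebraMap A C)) := fun n => by
    obtain ⟨e⟩ := exists_tor_baseChange (A := A) n hφX hψY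
    rw [e.length_eq, IsLocalRing.length_baseChange]
  have hlenS : Module.length S (X ⊗[S] Y) ≠ ⊤ := by
    rw [length_tensor_baseChange hφ (isBaseChange_id_of_surjective hφ X) Y,
      ← (torZero X Y).length_eq, ht 0, (torZero M N).length_eq]
    exact WithTop.mul_ne_top hlen hfin
  obtain ⟨h1, h2⟩ := hS X Y hlenS
  have hdim : ∀ (M : Type u) [AddCommGroup M] [Module A M] [Module.Finite A M]
      (X : Type u) [AddCommGroup X] [Module A X] [Module C X] [IsScalarTower A C X]
      [Module S X] [IsScalarTower S C X]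
      [Module.Finite S X]
      (φ : M →ₗ[A] X), IsBaseChange C φ →
      Module.supportDim A M ≤ Module.supportDim S X := by
    intro M _ _ _ X _ _ _ _ _ _ _ φ hφX
    rw [supportDim_eq_of_surjective hφ X, ← Module.supportDim_eq_of_equiv hφX.equiv]
    have h6 : Module.FaithfullyFlat A C := Module.FaithfullyFlat.of_flat_of_isLocalHom
    exact supportDim_le_baseChange_of_faithfullyFlat M
  refine ⟨X, Y, inferInstance, inferInstance, mX, sX, inferInstance, inferInstance, mY, sY, ht, h1,
    fX', fY', ?_⟩
  intro a b ha hb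
  exact h2 a b (ha.trans (hdim M X φ hφX)) (hb.trans (hdim N Y ψ hψY))

end data

section base

variable (R : Type u) [CommRing R] [IsRegularLocalRing R] (d : ℕ) (hd : ringKrullDim R = d)
  (f : R) (hf0 : f ≠ 0)
  (S : Type u) [CommRing S] [IsRegularLocalRing S] (hdS : ringKrullDim S = d)
  (hS : SerreAll S d) (g : S) (hg0 : g ≠ 0)
  (C : Type u) [CommRing C] [IsLocalRing C] [IsNoetherianRing C]
  [Algebra (R ⧸ Ideal.span {f}) C]
  [Module.Flat (R ⧸ Ideal.span {f}) C] [IsLocalRing (R ⧸ Ideal.span {f})]
  [IsLocalHom (algebraMap (R ⧸ Ideal.span {f}) C)]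
  (hfin : Module.length C (C ⧸ (maximalIdeal (R ⧸ Ideal.span {f})).map
    (algebraMap (R ⧸ Ideal.span {f}) C)) ≠ ⊤)
  [Algebra S C] (hφ : Surjective (algebraMap S C))
  (hker : RingHom.ker (algebraMap S C) = Ideal.span {g})

include hd hf0 hdS hS hg0 hfin hφ hker in
theorem good_hypersurface_aux'
    (M N : Type u) [AddCommGroup M] [Module R M] [Module.Finite R M]
    [Module (R ⧸ Ideal.span {f}) M] [IsScalarTower R (R ⧸ Ideal.span {f}) M]
    [AddCommGroup N] [Module R N] [Module.Finite R N]
    [Module (R ⧸ Ideal.span {f}) N] [IsScalarTower R (R ⧸ Ideal.span {f}) N]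
    (hlen : Module.length R (M ⊗[R] N) ≠ ⊤) : Good R d M N := by
  have hdom : IsDomain R := regular_isDomain R
  have hdomS : IsDomain S := regular_isDomain S
  have hsurj : Surjective (algebraMap R (R ⧸ Ideal.span {f})) :=
    Ideal.Quotient.mk_surjective
  have fM : Module.Finite (R ⧸ Ideal.span {f}) M :=
    Module.Finite.of_restrictScalars_finite R _ M
  have fN : Module.Finite (R ⧸ Ideal.span {f}) N :=
    Module.Finite.of_restrictScalars_finite R _ N
  have H : IsHypersurface R (R ⧸ Ideal.span {f}) f :=
    { regular := fun x y hxy => mul_left_cancel₀ hf0 hxy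
      surj := hsurj
      ker := Ideal.mk_ker }
  have H' : IsHypersurface S C g :=
    { regular := fun x y hxy => mul_left_cancel₀ hg0 hxy
      surj := hφ
      ker := hker }
  have hlenA : Module.length (R ⧸ Ideal.span {f})
      (M ⊗[R ⧸ Ideal.span {f}] N) ≠ ⊤ := by
    rw [← length_tensor_baseChange hsurj (isBaseChange_id_of_surjective hsurj M) N]
    exact hlen
  obtain ⟨X, Y, _, _, _, _, _, _, _, _, ht, h1, fX, fY, h2⟩ :=
    exists_modules_of_surjective' (R ⧸ Ideal.span {f}) C hfin S hφ d hS M N hlenA
  have hfinA : ∀ n, Module.length (R ⧸ Ideal.span {f})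
      (TorM (R ⧸ Ideal.span {f}) n M N) ≠ ⊤ := fun n =>
    tor_length_ne_top n M N hlenA
  have hfinC : ∀ n, Module.length C (TorM C n X Y) ≠ ⊤ := fun n => by
    rw [ht]
    exact WithTop.mul_ne_top (hfinA n) hfin
  have hRv : Module.length R (TorM R (d + 1) M N) = 0 := by
    have := regular_tor_vanish R d hd M N (d + 1) le_rfl
    exact Module.length_eq_zero
  have hSv : Module.length S (TorM S (d + 1) X Y) = 0 := by
    have := regular_tor_vanish S d hdS X Y (d + 1) le_rfl
    exact Module.length_eq_zero
  have hc : 0 < ((Module.length C (C ⧸ (maximalIdeal (R ⧸ Ideal.span {f})).map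
      (algebraMap (R ⧸ Ideal.span {f}) C))).toNat : ℤ) := by
    have h3 := ENat.toNat_pos (length_fibre_pos (R := R ⧸ Ideal.span {f}) (C := C)).ne' hfin
    exact_mod_cast h3
  have heq : eulerTor S (d + 1) X Y = ((Module.length C
      (C ⧸ (maximalIdeal (R ⧸ Ideal.span {f})).map
      (algebraMap (R ⧸ Ideal.span {f}) C))).toNat : ℤ) * eulerTor R (d + 1) M N := by
    rw [H.eulerTor_eq M N hfinA d hRv, H'.eulerTor_eq X Y hfinC d hSv, ht, ht, ENat.toNat_mul,
      ENat.toNat_mul]
    push_cast
    ring
  rw [heq] at h1 h2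
  refine ⟨nonneg_of_mul_nonneg_right h1 hc, ?_⟩
  intro a b ha hb hab
  rw [supportDim_eq_of_surjective hsurj M] at ha
  rw [supportDim_eq_of_surjective hsurj N] at hb
  exact (mul_pos_iff_of_pos_left hc).1 ((h2 a b ha hb).2 hab)

include hd hf0 hdS hS hg0 hfin hφ hker in
theorem good_killed_by'
    (M N : Type u) [AddCommGroup M] [Module R M] [Module.Finite R M]
    [AddCommGroup N] [Module R N] [Module.Finite R N]
    (hM : ∀ m : M, f • m = 0) (hN : ∀ m : N, f • m = 0)
    (hlen : Module.length R (M ⊗[R] N) ≠ ⊤) : Good R d M N := by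
  have tM : Module.IsTorsionBySet R M (Ideal.span {f} : Set R) := by
    intro x a
    obtain ⟨c, hc⟩ := Ideal.mem_span_singleton'.1 a.2
    rw [← hc, mul_smul, hM, smul_zero]
  have tN : Module.IsTorsionBySet R N (Ideal.span {f} : Set R) := by
    intro x a
    obtain ⟨c, hc⟩ := Ideal.mem_span_singleton'.1 a.2
    rw [← hc, mul_smul, hN, smul_zero]
  let _ : Module (R ⧸ Ideal.span {f}) M := tM.module
  let _ : Module (R ⧸ Ideal.span {f}) N := tN.module
  have _ : IsScalarTower R (R ⧸ Ideal.span {f}) M := tM.isScalarTower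
  have _ : IsScalarTower R (R ⧸ Ideal.span {f}) N := tN.isScalarTower
  exact good_hypersurface_aux' R d hd f hf0 S hdS hS g hg0 C hfin hφ hker M N hlen

include hd hf0 hdS hS hg0 hfin hφ hker in
theorem good_power_torsion'
    (M N : Type u) [AddCommGroup M] [Module R M] [Module.Finite R M]
    [AddCommGroup N] [Module R N] [Module.Finite R N] (a b : ℕ)
    (hM : ∀ x : M, f ^ a • x = 0) (hN : ∀ x : N, f ^ b • x = 0)
    (hlen : Module.length R (M ⊗[R] N) ≠ ⊤) : Good R d M N := by
  refine good_devissage hd f N ?_ a M hM hlen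
  intro X _ _ _ hX hlenX
  apply Good.symm
  have hsymm : ∀ (Y : Type u) [AddCommGroup Y] [Module R Y],
      Module.length R (X ⊗[R] Y) = Module.length R (Y ⊗[R] X) := fun Y _ _ =>
    (TensorProduct.comm R X Y).length_eq
  refine good_devissage hd f X ?_ b N hN (by rwa [← hsymm])
  intro Y _ _ _ hY hlenY
  exact good_killed_by' R d hd f hf0 S hdS hS g hg0 C hfin hφ hker Y X hY hX hlenY

end base

end Vale.Agent.P177
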