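import Vale.Agent.P177.DQB

/-!
The ring `T` attached to a quadratic hypersurface, relative version with fixed parameters.
-/

namespace Vale.Agent.P177

open TensorProduct IsLocalRing MvPolynomial RingTheory.Sequence

universe u

/-- The data attached to a hypersurface `G` in a regular local ring `B`, with fixed parameters
`y`. -/
structure RData (s d : ℕ) (B Γ : Type u) [CommRing B] [IsRegularLocalRing B] [CommRing Γ]
    [IsRegularLocalRing Γ] where
  a₁ : B →+* Γ
  a₂ : B →+* Γ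
  μ : Γ →+* B
  μ₁ : ∀ b, μ (a₁ b) = b
  μ₂ : ∀ b, μ (a₂ b) = b
  y : Fin s → B
  hy : ∀ i, a₂ (y i) = a₁ (y i)
  x : Fin d → B
  G : B
  u : Fin d → Γ
  β : Matrix (Fin d) (Fin d) Γ
  γ : Matrix (Fin d) (Fin d) Γ
  dimB : ringKrullDim B = ((s + d + 1 : ℕ) : WithBot ℕ∞)
  dimΓ : ringKrullDim Γ = ((s + 2 * d + 1 : ℕ) : WithBot ℕ∞)
  maxB : maximalIdeal B = Ideal.span {G} ⊔ (Ideal.span (Set.range y) ⊔
    Ideal.span (Set.range x))
  maxΓ : maximalIdeal Γ = Ideal.span {a₁ G} ⊔ (Ideal.span (Set.range fun i => a₁ (y i)) ⊔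
    Ideal.span (Set.range fun i => a₁ (x i))) ⊔
    Ideal.span (Set.range fun i => a₂ (x i) - a₁ (x i))
  hG : a₂ G = a₁ G - ∑ i, (a₂ (x i) - a₁ (x i)) * u i
  hu : ∀ i, u i = ∑ m, β i m * a₁ (x m) + ∑ m, γ i m * (a₂ (x m) - a₁ (x m))
  diag : ∀ b, a₂ b - a₁ b ∈ Ideal.span (Set.range fun i => a₂ (x i) - a₁ (x i))

namespace RData

variable {s d : ℕ} {B Γ : Type u} [CommRing B] [IsRegularLocalRing B] [CommRing Γ]
  [IsRegularLocalRing Γ] (D : RData s d B Γ)

/-- The elements generating the diagonal ideal. -/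
def h (i : Fin d) : Γ := D.a₂ (D.x i) - D.a₁ (D.x i)

/-- The data of the ring `T`. -/
structure TD (T : Type u) [CommRing T] [IsRegularLocalRing T] where
  f : MvPolynomial (Fin d × Fin d) Γ →+* T
  hE : ∀ i, f (altElt D.h D.u i) = 0
  hG : f (C (D.a₁ D.G)) = 0
  maxT : maximalIdeal T = (Ideal.span (Set.range fun i => f (C (D.a₁ (D.y i)))) ⊔
    Ideal.span (Set.range fun i => f (C (D.a₁ (D.x i))))) ⊔
    Ideal.span (Set.range fun p => f (X p))
  dimT : ringKrullDim T = ((s + d + d * d : ℕ) : WithBot ℕ∞)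
  ht : ∀ Q : Ideal T, Q.IsPrime → (Q.comap f).height ≤ Q.height + ((d + 1 : ℕ) : ℕ∞)
  ν : T →+* B ⧸ Ideal.span {D.G}
  hν : ∀ y, ν (f (C y)) = Ideal.Quotient.mk _ (D.μ y)
  hνX : ∀ p, ν (f (X p)) = 0

theorem h_eq {T : Type*} [CommRing T] (f : MvPolynomial (Fin d × Fin d) Γ →+* T)
    (hE : ∀ i, f (altElt D.h D.u i) = 0) (i : Fin d) :
    f (C (D.h i)) = ∑ l, (f (X (i, l)) - f (X (l, i))) * f (C (D.u l)) := by
  have h1 := hE i
  rw [altElt, map_sub, sub_eq_zero, map_sum] at h1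
  rw [h1]
  refine Finset.sum_congr rfl fun l _ => ?_
  rw [map_mul, map_sub]

theorem ofList_ofFn {R : Type*} [CommRing R] {n : ℕ} (g : Fin n → R) :
    Ideal.ofList (List.ofFn g) = Ideal.span (Set.range g) := by
  rw [Ideal.ofList]
  congr 1
  ext y
  simp [List.mem_ofFn]

theorem ofList_toList {R : Type*} [CommRing R] {ι : Type*} [Fintype ι] (g : ι → R) :
    Ideal.ofList ((Finset.univ : Finset ι).toList.map g) = Ideal.span (Set.range g) := by
  rw [Ideal.ofList]
  congr 1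
  ext y
  simp

theorem exists_TD : ∃ (T : Type u) (_ : CommRing T) (_ : IsRegularLocalRing T),
    Nonempty (D.TD T) := by
  let E : Fin (d + 1) → MvPolynomial (Fin d × Fin d) Γ :=
    Fin.cons (C (D.a₁ D.G)) (altElt D.h D.u)
  have hE0 : E 0 = C (D.a₁ D.G) := rfl
  have hEs : ∀ i : Fin d, E i.succ = altElt D.h D.u i := fun i => rfl
  have hh : ∀ i, D.h i ∈ maximalIdeal Γ := by
    intro i
    rw [D.maxΓ]
    exact Ideal.mem_sup_right (Ideal.subset_span ⟨i, rfl⟩)
  have hcE : ∀ i, constantCoeff (altElt D.h D.u i) = D.h i := by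
    intro i
    simp [altElt]
  obtain ⟨T, _, _, _, f, h1, h2, h3, h4, h5⟩ := exists_local_quotient (Γ := Γ) (Fin d × Fin d)
    (s + 2 * d + 1) D.dimΓ (d + 1) E (by
      intro i
      refine Fin.cases ?_ (fun i => ?_) i
      · rw [hE0, constantCoeff_C, D.maxΓ]
        exact Ideal.mem_sup_left (Ideal.mem_sup_left (Ideal.subset_span rfl))
      · rw [hEs, hcE]
        exact hh i)
  have fG : f (C (D.a₁ D.G)) = 0 := h1 0
  have fE : ∀ i, f (altElt D.h D.u i) = 0 := fun i => h1 i.succ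
  have hmax : maximalIdeal T = (Ideal.span (Set.range fun i => f (C (D.a₁ (D.y i)))) ⊔
      Ideal.span (Set.range fun i => f (C (D.a₁ (D.x i))))) ⊔
      Ideal.span (Set.range fun p => f (X p)) := by
    rw [h2, D.maxΓ, Ideal.map_sup, Ideal.map_sup, Ideal.map_sup, Ideal.map_span, Ideal.map_span,
      Ideal.map_span, Ideal.map_span,
      Set.image_singleton, RingHom.comp_apply, fG, Ideal.span_singleton_eq_bot.2 rfl, bot_sup_eq,
      ← Set.range_comp, ← Set.range_comp, ← Set.range_comp]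
    refine le_antisymm ?_ ?_
    · refine sup_le (sup_le ?_ ?_) le_sup_right
      · exact le_sup_left
      · refine le_sup_of_le_right ?_
        rw [Ideal.span_le]
        rintro _ ⟨i, rfl⟩
        change f (C (D.h i)) ∈ _
        rw [D.h_eq f fE i]
        exact Ideal.sum_mem _ fun l _ => Ideal.mul_mem_right _ _
          (Ideal.sub_mem _ (Ideal.subset_span ⟨_, rfl⟩) (Ideal.subset_span ⟨_, rfl⟩))
    · exact sup_le_sup_right le_sup_left _
  obtain ⟨t, ht⟩ := QData.exists_nat_ringKrullDim T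
  have hcard : Fintype.card (Fin d × Fin d) = d * d := by simp
  rw [ht, hcard] at h3
  have h3' : s + 2 * d + 1 + d * d ≤ t + (d + 1) := by exact_mod_cast h3
  let rs : List T := (List.ofFn (fun i => f (C (D.a₁ (D.y i)))) ++
    List.ofFn (fun i => f (C (D.a₁ (D.x i))))) ++
    (Finset.univ : Finset (Fin d × Fin d)).toList.map (fun p => f (X p))
  have hrs : Ideal.ofList rs = maximalIdeal T := by
    rw [Ideal.ofList_append, Ideal.ofList_append, hmax, ofList_ofFn, ofList_ofFn, ofList_toList]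
  have hrl : rs.length = s + d + d * d := by
    simp [rs, add_assoc]
  obtain ⟨hreg, hdim⟩ := isRegularLocalRing_of_list rs hrs (by
    rw [ht, hrl]
    exact_mod_cast (by omega : s + d + d * d ≤ t))
  let φ : MvPolynomial (Fin d × Fin d) Γ →+* B ⧸ Ideal.span {D.G} :=
    eval₂Hom ((Ideal.Quotient.mk _).comp D.μ) (fun _ => 0)
  have hφ : ∀ p, φ p = Ideal.Quotient.mk _ (D.μ (constantCoeff p)) := by
    intro p
    have h6 : φ = ((Ideal.Quotient.mk _).comp D.μ).comp constantCoeff := by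
      apply MvPolynomial.ringHom_ext
      · intro a
        simp [φ]
      · intro p
        simp [φ]
    rw [h6]
    rfl
  obtain ⟨ν, hν⟩ := h5 (B ⧸ Ideal.span {D.G}) φ (by
    intro i
    rw [hφ]
    refine Fin.cases ?_ (fun i => ?_) i
    · rw [hE0, constantCoeff_C, D.μ₁]
      exact Ideal.Quotient.eq_zero_iff_mem.2 (Ideal.subset_span rfl)
    · rw [hEs, hcE, RData.h, map_sub, D.μ₁, D.μ₂, sub_self, map_zero]) (by
    intro p hp
    rw [hφ]
    rw [mem_maximalIdeal, mem_nonunits_iff, not_not] at hp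
    exact (hp.map D.μ).map _)
  refine ⟨T, inferInstance, hreg, ⟨{
    f := f
    hE := fE
    hG := fG
    maxT := hmax
    dimT := by rw [hdim, hrl]
    ht := h4
    ν := ν
    hν := fun y => ?_
    hνX := fun p => ?_ }⟩⟩
  · have := RingHom.congr_fun hν (C y)
    rw [RingHom.comp_apply, hφ, constantCoeff_C] at this
    exact this
  · have := RingHom.congr_fun hν (X p)
    rw [RingHom.comp_apply, hφ, constantCoeff_X, map_zero, map_zero] at this
    exact this

theorem G_mem : D.G ∈ maximalIdeal B := by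
  rw [D.maxB]
  exact Ideal.mem_sup_left (Ideal.subset_span rfl)

theorem x_memB (i : Fin d) : D.x i ∈ maximalIdeal B := by
  rw [D.maxB]
  exact Ideal.mem_sup_right (Ideal.mem_sup_right (Ideal.subset_span ⟨i, rfl⟩))

theorem y_memB (i : Fin s) : D.y i ∈ maximalIdeal B := by
  rw [D.maxB]
  exact Ideal.mem_sup_right (Ideal.mem_sup_left (Ideal.subset_span ⟨i, rfl⟩))

/-- The list of parameters of `B/G`. -/
noncomputable def xs : List (B ⧸ Ideal.span {D.G}) :=
  List.ofFn (fun i => Ideal.Quotient.mk (Ideal.span {D.G}) (D.y i)) ++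
  List.ofFn (fun i => Ideal.Quotient.mk (Ideal.span {D.G}) (D.x i))

theorem length_xs : D.xs.length = s + d := by simp [xs]

theorem nontrivial_quot : Nontrivial (B ⧸ Ideal.span {D.G}) := by
  apply Ideal.Quotient.nontrivial_iff.2
  rw [Ne, Ideal.span_singleton_eq_top]
  exact D.G_mem

theorem isLocal_quot : IsLocalRing (B ⧸ Ideal.span {D.G}) :=
  have := D.nontrivial_quot
  .of_surjective' (Ideal.Quotient.mk _) Ideal.Quotient.mk_surjective

theorem ofList_xs : Ideal.ofList D.xs =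
    Ideal.span (Set.range fun i => Ideal.Quotient.mk (Ideal.span {D.G}) (D.y i)) ⊔
    Ideal.span (Set.range fun i => Ideal.Quotient.mk (Ideal.span {D.G}) (D.x i)) := by
  rw [xs, Ideal.ofList_append, ofList_ofFn, ofList_ofFn]

theorem quot_regular : ∃ (_ : IsRegularLocalRing (B ⧸ Ideal.span {D.G})),
    Ideal.ofList D.xs = maximalIdeal (B ⧸ Ideal.span {D.G}) ∧
    ringKrullDim (B ⧸ Ideal.span {D.G}) = ((s + d : ℕ) : WithBot ℕ∞) := by
  have h0 := D.nontrivial_quot
  have h1 := D.isLocal_quot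
  have hm : (maximalIdeal B).map (Ideal.Quotient.mk (Ideal.span {D.G})) =
      maximalIdeal (B ⧸ Ideal.span {D.G}) :=
    map_maximalIdeal_of_surjective _ Ideal.Quotient.mk_surjective
  have h2 : Ideal.ofList D.xs = maximalIdeal (B ⧸ Ideal.span {D.G}) := by
    rw [← hm, D.maxB, Ideal.map_sup, Ideal.map_sup, Ideal.map_quotient_self, bot_sup_eq,
      Ideal.map_span, Ideal.map_span, ← Set.range_comp, ← Set.range_comp, D.ofList_xs]
    rfl
  obtain ⟨t, ht⟩ := QData.exists_nat_ringKrullDim (B ⧸ Ideal.span {D.G})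
  have h3 := ringKrullDim_le_ringKrullDim_quotient_add_card ({D.G} : Finset B) (by
    rw [IsLocalRing.ringJacobson_eq_maximalIdeal]
    simpa using D.G_mem)
  rw [Finset.coe_singleton, D.dimB, ht, Finset.card_singleton] at h3
  have h4 : s + d + 1 ≤ t + 1 := by exact_mod_cast h3
  have hlen : D.xs.length = s + d := D.length_xs
  obtain ⟨h5, h6⟩ := isRegularLocalRing_of_list D.xs h2 (by
    rw [ht, hlen]
    exact_mod_cast (by omega : s + d ≤ t))
  refine ⟨h5, h2, ?_⟩
  rw [h6, hlen]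

theorem height_comap_mk (p : Ideal (B ⧸ Ideal.span {D.G})) [p.IsPrime] (r s' : ℕ)
    (hr : p.height = r) (hs : (p.comap (Ideal.Quotient.mk (Ideal.span {D.G}))).height = s') :
    r + 1 ≤ s' := by
  obtain ⟨h1, -, h2⟩ := D.quot_regular
  obtain ⟨r', hr', hle, h3⟩ := supportDim_prime_eq h2 p
  obtain ⟨s'', hs', hle', h4⟩ := supportDim_prime_eq D.dimB
    (p.comap (Ideal.Quotient.mk (Ideal.span {D.G})))
  rw [hr] at hr'
  rw [hs] at hs'
  have e1 : r = r' := by exact_mod_cast hr'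
  have e2 : s' = s'' := by exact_mod_cast hs'
  rw [Module.supportDim_quotient_eq_ringKrullDim] at h3 h4
  have h5 : ringKrullDim (B ⧸ p.comap (Ideal.Quotient.mk (Ideal.span {D.G}))) =
      ringKrullDim ((B ⧸ Ideal.span {D.G}) ⧸ p) := by
    apply ringKrullDim_eq_of_ringEquiv
    have hs : Function.Surjective ((Ideal.Quotient.mk p).comp
        (Ideal.Quotient.mk (Ideal.span {D.G}))) :=
      Ideal.Quotient.mk_surjective.comp Ideal.Quotient.mk_surjective
    refine (Ideal.quotEquivOfEq ?_).trans (RingHom.quotientKerEquivOfSurjective hs)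
    ext y
    rw [RingHom.mem_ker, RingHom.comp_apply, Ideal.Quotient.eq_zero_iff_mem, Ideal.mem_comap]
  rw [h3, h4] at h5
  have h6 : s + d + 1 - s'' = s + d - r' := by exact_mod_cast h5
  omega

section TD

variable {D} {T : Type u} [CommRing T] [IsRegularLocalRing T] (t : D.TD T)

theorem TD.f_a₂G : t.f (C (D.a₂ D.G)) = 0 := by
  rw [D.hG, map_sub, map_sub, t.hG, zero_sub, neg_eq_zero, map_sum, map_sum]
  have h1 : ∀ i, t.f (C ((D.a₂ (D.x i) - D.a₁ (D.x i)) * D.u i)) =
      t.f (C (D.u i)) * ∑ l, (t.f (X (i, l)) - t.f (X (l, i))) * t.f (C (D.u l)) := by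
    intro i
    rw [map_mul, map_mul, ← D.h_eq t.f t.hE i, mul_comm]
    rfl
  rw [Finset.sum_congr rfl fun i _ => h1 i]
  exact sum_alt_eq_zero (fun p => t.f (X p)) (fun i => t.f (C (D.u i)))

/-- The first map. -/
noncomputable def TD.i₁ : B ⧸ Ideal.span {D.G} →+* T :=
  Ideal.Quotient.lift _ ((t.f.comp C).comp D.a₁) (fun a ha => by
    have h1 : Ideal.span {D.G} ≤ RingHom.ker ((t.f.comp C).comp D.a₁) := by
      rw [Ideal.span_singleton_le_iff_mem, RingHom.mem_ker]
      exact t.hG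
    exact h1 ha)

/-- The second map. -/
noncomputable def TD.i₂ : B ⧸ Ideal.span {D.G} →+* T :=
  Ideal.Quotient.lift _ ((t.f.comp C).comp D.a₂) (fun a ha => by
    have h1 : Ideal.span {D.G} ≤ RingHom.ker ((t.f.comp C).comp D.a₂) := by
      rw [Ideal.span_singleton_le_iff_mem, RingHom.mem_ker]
      exact t.f_a₂G
    exact h1 ha)

theorem TD.i₁_mk (b : B) : t.i₁ (Ideal.Quotient.mk _ b) = t.f (C (D.a₁ b)) :=
  Ideal.Quotient.lift_mk _ _ _

theorem TD.i₂_mk (b : B) : t.i₂ (Ideal.Quotient.mk _ b) = t.f (C (D.a₂ b)) :=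
  Ideal.Quotient.lift_mk _ _ _

theorem TD.i₂_y (i : Fin s) : t.i₂ (Ideal.Quotient.mk _ (D.y i)) =
    t.i₁ (Ideal.Quotient.mk _ (D.y i)) := by
  rw [t.i₁_mk, t.i₂_mk, D.hy]

theorem TD.ν_i₁ (r : B ⧸ Ideal.span {D.G}) : t.ν (t.i₁ r) = r := by
  obtain ⟨b, rfl⟩ := Ideal.Quotient.mk_surjective r
  rw [t.i₁_mk, t.hν, D.μ₁]

theorem TD.ν_i₂ (r : B ⧸ Ideal.span {D.G}) : t.ν (t.i₂ r) = r := by
  obtain ⟨b, rfl⟩ := Ideal.Quotient.mk_surjective r
  rw [t.i₂_mk, t.hν, D.μ₂]

theorem TD.isLocalHom₁ : IsLocalHom t.i₁ := ⟨fun s hs => by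
    have := hs.map t.ν
    rwa [t.ν_i₁] at this⟩

theorem TD.isLocalHom₂ : IsLocalHom t.i₂ := ⟨fun s hs => by
    have := hs.map t.ν
    rwa [t.ν_i₂] at this⟩

/-- The list of the variables. -/
noncomputable def TD.z : List T :=
  (Finset.univ : Finset (Fin d × Fin d)).toList.map (fun p => t.f (X p))

theorem TD.length_z : t.z.length = d * d := by simp [TD.z]

theorem TD.ofList_z : Ideal.ofList t.z = Ideal.span (Set.range fun p => t.f (X p)) :=
  ofList_toList _

theorem TD.h_mem (i : Fin d) : t.f (C (D.h i)) ∈ Ideal.ofList t.z := by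
  rw [D.h_eq t.f t.hE i, t.ofList_z]
  exact Ideal.sum_mem _ fun l _ => Ideal.mul_mem_right _ _
    (Ideal.sub_mem _ (Ideal.subset_span ⟨_, rfl⟩) (Ideal.subset_span ⟨_, rfl⟩))

theorem TD.ofList_i₁ : Ideal.ofList (D.xs.map t.i₁) =
    Ideal.span (Set.range fun i => t.f (C (D.a₁ (D.y i)))) ⊔
    Ideal.span (Set.range fun i => t.f (C (D.a₁ (D.x i)))) := by
  rw [xs, List.map_append, List.map_ofFn, List.map_ofFn, Ideal.ofList_append, ofList_ofFn,
    ofList_ofFn]
  rfl

theorem TD.ofList_i₂ : Ideal.ofList (D.xs.map t.i₂) =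
    Ideal.span (Set.range fun i => t.f (C (D.a₁ (D.y i)))) ⊔
    Ideal.span (Set.range fun i => t.f (C (D.a₂ (D.x i)))) := by
  rw [xs, List.map_append, List.map_ofFn, List.map_ofFn, Ideal.ofList_append, ofList_ofFn,
    ofList_ofFn]
  congr 3
  funext i
  rw [Function.comp_apply, t.i₂_y, t.i₁_mk]

theorem TD.max₁ : Ideal.ofList (D.xs.map t.i₁) ⊔ Ideal.ofList t.z = maximalIdeal T := by
  rw [t.maxT, t.ofList_z, t.ofList_i₁]

theorem TD.a₂_eq (i : Fin d) : t.f (C (D.a₂ (D.x i))) = t.f (C (D.a₁ (D.x i))) +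
    t.f (C (D.h i)) := by
  rw [← map_add, ← map_add, RData.h, add_sub_cancel]

theorem TD.max₂ : Ideal.ofList (D.xs.map t.i₂) ⊔ Ideal.ofList t.z = maximalIdeal T := by
  rw [← t.max₁, t.ofList_i₁, t.ofList_i₂]
  apply le_antisymm
  · refine sup_le (sup_le ?_ (Ideal.span_le.2 ?_)) le_sup_right
    · exact le_sup_left.trans le_sup_left
    rintro _ ⟨i, rfl⟩
    simp only [t.a₂_eq]
    exact Ideal.add_mem _ (Ideal.mem_sup_left (Ideal.mem_sup_right (Ideal.subset_span ⟨i, rfl⟩)))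
      (Ideal.mem_sup_right (t.h_mem i))
  · refine sup_le (sup_le ?_ (Ideal.span_le.2 ?_)) le_sup_right
    · exact le_sup_left.trans le_sup_left
    rintro _ ⟨i, rfl⟩
    have h1 : t.f (C (D.a₁ (D.x i))) = t.f (C (D.a₂ (D.x i))) - t.f (C (D.h i)) := by
      rw [t.a₂_eq, add_sub_cancel_right]
    simp only [h1]
    exact Ideal.sub_mem _ (Ideal.mem_sup_left (Ideal.mem_sup_right (Ideal.subset_span ⟨i, rfl⟩)))
      (Ideal.mem_sup_right (t.h_mem i))

theorem TD.isRegular_append (rs : List T) (hrs : Ideal.ofList rs ⊔ Ideal.ofList t.z =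
    maximalIdeal T) (hlen : rs.length = s + d) :
    IsWeaklyRegular T (rs ++ t.z) ∧ IsWeaklyRegular T (t.z ++ rs) := by
  constructor
  · refine (isRegular_of_ofList_eq_maximalIdeal T (rs ++ t.z) ?_ ?_).toIsWeaklyRegular
    · rw [Ideal.ofList_append, hrs]
    · rw [t.dimT, List.length_append, hlen, t.length_z]
  · refine (isRegular_of_ofList_eq_maximalIdeal T (t.z ++ rs) ?_ ?_).toIsWeaklyRegular
    · rw [Ideal.ofList_append, sup_comm, hrs]
    · rw [t.dimT, List.length_append, hlen, t.length_z, add_comm]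

omit [IsRegularLocalRing T] in
theorem TD.length_xs_map (i : B ⧸ Ideal.span {D.G} →+* T) : (D.xs.map i).length = s + d := by
  rw [List.length_map, D.length_xs]

theorem TD.z_regular : IsWeaklyRegular T t.z :=
  ((isWeaklyRegular_append_iff _ _ _).mp
    (t.isRegular_append _ t.max₁ (TD.length_xs_map _)).2).1

theorem TD.flat₁ : t.i₁.Flat := by
  obtain ⟨h1, h2, h3⟩ := D.quot_regular
  let _ : Algebra (B ⧸ Ideal.span {D.G}) T := t.i₁.toAlgebra
  have hl : IsLocalHom (algebraMap (B ⧸ Ideal.span {D.G}) T) := t.isLocalHom₁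
  refine flat_of_weaklyRegular D.xs h2 (isRegular_of_ofList_eq_maximalIdeal _ D.xs h2 ?_).toIsWeaklyRegular
    ((isWeaklyRegular_append_iff _ _ _).mp
      (t.isRegular_append _ t.max₁ (TD.length_xs_map _)).1).1
  rw [h3, D.length_xs]

theorem TD.flat₂ : t.i₂.Flat := by
  obtain ⟨h1, h2, h3⟩ := D.quot_regular
  let _ : Algebra (B ⧸ Ideal.span {D.G}) T := t.i₂.toAlgebra
  have hl : IsLocalHom (algebraMap (B ⧸ Ideal.span {D.G}) T) := t.isLocalHom₂
  refine flat_of_weaklyRegular D.xs h2 (isRegular_of_ofList_eq_maximalIdeal _ D.xs h2 ?_).toIsWeaklyRegular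
    ((isWeaklyRegular_append_iff _ _ _).mp
      (t.isRegular_append _ t.max₂ (TD.length_xs_map _)).1).1
  rw [h3, D.length_xs]

end TD

end RData

end Vale.Agent.P177
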