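import Vale.Agent.P177.K9
import Vale.Agent.P177.EGonf

/-!
Presentation of regular local rings as quadratic hypersurfaces with parameters.
-/

namespace Vale.Agent.P177

open TensorProduct IsLocalRing RingTheory.Sequence Function

universe u

/-- The parameters. -/
abbrev zElim {R : Type*} {r s : ℕ} (x : Fin r → R) (y : Fin s → R) : Fin r ⊕ Fin s → R :=
  Sum.elim x y

theorem exists_evalHom_surjective' {A L : Type u} [CommRing A] [IsLocalRing A]
    [IsNoetherianRing A] [IsAdicComplete (maximalIdeal A) A] [CommRing L] [IsLocalRing L]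
    [IsAdicComplete (maximalIdeal L) L] (σ : L →+* A)
    (hσ : Function.Surjective (fun x => residue A (σ x))) {r s : ℕ} (x : Fin r → A)
    (t : Fin s → L) (ht : ∀ i, t i ∈ maximalIdeal L)
    (hle : maximalIdeal L ≤ (maximalIdeal A).comap σ)
    (hx : Ideal.span (Set.range fun i => σ (t i)) ⊔ Ideal.span (Set.range x) = maximalIdeal A) :
    ∃ φ : MvPowerSeries (Fin r) L →+* A, Function.Surjective φ ∧
      (∀ v, φ (MvPowerSeries.C v) = σ v) ∧ ∀ i, φ (MvPowerSeries.X i) = x i := by
  have hxm : Ideal.span (Set.range x) ≤ maximalIdeal A := hx ▸ le_sup_right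
  obtain ⟨φ, hφ⟩ := exists_evalHom (maximalIdeal A) σ x
    (fun i => hxm (Ideal.subset_span ⟨i, rfl⟩))
  have hC : ∀ r, φ (MvPowerSeries.C r) = σ r := by
    intro r
    rw [← MvPolynomial.coe_C, hφ]
    simp
  have hX : ∀ i, φ (MvPowerSeries.X i) = x i := by
    intro i
    rw [← MvPolynomial.coe_X, hφ]
    simp
  refine ⟨φ, ?_, hC, hX⟩
  have hmap : (Ideal.span (Set.range MvPowerSeries.X) : Ideal (MvPowerSeries (Fin r) L)).map φ =
      Ideal.span (Set.range x) := by
    rw [Ideal.map_span, ← Set.range_comp]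
    congr 2
    ext i
    exact hX i
  -- the base ring surjects onto the quotient
  let A' := A ⧸ Ideal.span (Set.range x)
  have hnt : Nontrivial A' := Ideal.Quotient.nontrivial_iff.2 fun h =>
    (maximalIdeal.isMaximal A).ne_top (top_le_iff.1 (h ▸ hxm))
  have hlA : IsLocalRing A' := .of_surjective' (Ideal.Quotient.mk _) Ideal.Quotient.mk_surjective
  let q : A →+* A' := Ideal.Quotient.mk _
  have hmA : (maximalIdeal A).map q = maximalIdeal A' :=
    map_maximalIdeal_of_surjective _ Ideal.Quotient.mk_surjective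
  have hmL : (maximalIdeal L).map (q.comp σ) ≤ maximalIdeal A' := by
    rw [← Ideal.map_map, ← hmA]
    exact Ideal.map_mono (Ideal.map_le_iff_le_comap.2 hle)
  have hH' : IsHausdorff ((maximalIdeal L).map (q.comp σ)) A' :=
    IsHausdorff.of_le_jacobson _ _ (hmL.trans (IsLocalRing.maximalIdeal_le_jacobson ⊥))
  have hsurj' : Surjective (q.comp σ) := by
    apply surjective_of_mk_map_comp_surjective (I := maximalIdeal L) (q.comp σ)
    intro y
    obtain ⟨a', rfl⟩ := Ideal.Quotient.mk_surjective y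
    obtain ⟨a, rfl⟩ : ∃ a, q a = a' := Ideal.Quotient.mk_surjective a'
    obtain ⟨v, hv⟩ := hσ (residue A a)
    refine ⟨v, ?_⟩
    rw [RingHom.comp_apply, RingHom.comp_apply, Ideal.Quotient.mk_eq_mk_iff_sub_mem, ← map_sub]
    have h1 : σ v - a ∈ maximalIdeal A := by
      rw [← residue_eq_zero_iff, map_sub, sub_eq_zero]
      exact hv
    rw [← hx] at h1
    have h2 : Ideal.span (Set.range fun i => σ (t i)) ⊔ Ideal.span (Set.range x) ≤
        ((maximalIdeal L).map (q.comp σ)).comap q := by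
      refine sup_le ?_ ?_
      · rw [Ideal.span_le]
        rintro _ ⟨i, rfl⟩
        exact Ideal.mem_map_of_mem (q.comp σ) (ht i)
      · rw [Ideal.span_le]
        rintro _ ⟨i, rfl⟩
        rw [SetLike.mem_coe, Ideal.mem_comap]
        have h3 : q (x i) = 0 := Ideal.Quotient.eq_zero_iff_mem.2 (Ideal.subset_span ⟨i, rfl⟩)
        rw [h3]
        exact Ideal.zero_mem _
    exact h2 h1
  have hH : IsHausdorff ((Ideal.span (Set.range MvPowerSeries.X) :
      Ideal (MvPowerSeries (Fin r) L)).map φ) A := by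
    rw [hmap]
    exact IsHausdorff.of_le_jacobson _ _ (hxm.trans (IsLocalRing.maximalIdeal_le_jacobson ⊥))
  apply surjective_of_mk_map_comp_surjective (I := Ideal.span (Set.range MvPowerSeries.X)) φ
  intro y
  obtain ⟨a, rfl⟩ := Ideal.Quotient.mk_surjective y
  obtain ⟨v, hv⟩ := hsurj' (q a)
  refine ⟨MvPowerSeries.C v, ?_⟩
  rw [RingHom.comp_apply, hC, Ideal.Quotient.mk_eq_mk_iff_sub_mem, hmap]
  rw [← Ideal.Quotient.mk_eq_mk_iff_sub_mem]
  exact hv

/-- Presentation over a regular local ring of dimension `s + 1` with the same residue field. -/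
theorem exists_parRing_equiv {S : Type u} [CommRing S] [IsRegularLocalRing S]
    [IsAdicComplete (maximalIdeal S) S] {r s : ℕ}
    (hd : ringKrullDim S = ((s + r : ℕ) : WithBot ℕ∞)) (x : Fin r → S) (y : Fin s → S)
    (hx : Ideal.span (Set.range y) ⊔ Ideal.span (Set.range x) = maximalIdeal S)
    (c : Fin r ⊕ Fin s → Fin r ⊕ Fin s → S)
    (hc : IsUnit (Matrix.det (Matrix.of fun l m =>
      c (Sum.inl l) (Sum.inl m) + c (Sum.inl m) (Sum.inl l))))
    (L : Type u) [CommRing L] [IsRegularLocalRing L] (f : L) (t : Fin s → L)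
    (hf : maximalIdeal L = Ideal.span {f} ⊔ Ideal.span (Set.range t))
    (hL : ringKrullDim L = ((s + 1 : ℕ) : WithBot ℕ∞)) (σ : L →+* S)
    (hσ : Function.Surjective (fun v => residue S (σ v))) (hσt : ∀ i, σ (t i) = y i)
    (hσf : σ f = ∑ i, ∑ j, zElim x y i * c i j * zElim x y j) :
    ∃ (L' : Type u) (_ : CommRing L') (_ : IsRegularLocalRing L') (f' : L') (t' : Fin s → L')
      (_ : maximalIdeal L' = Ideal.span {f'} ⊔ Ideal.span (Set.range t'))
      (_ : ringKrullDim L' = ((s + 1 : ℕ) : WithBot ℕ∞))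
      (c' : Fin r ⊕ Fin s → Fin r ⊕ Fin s → MvPowerSeries (Fin r) L')
      (_ : IsUnit (Matrix.det (Matrix.of fun l m =>
        c' (Sum.inl l) (Sum.inl m) + c' (Sum.inl m) (Sum.inl l)))),
      Nonempty (ParRing L' f' t' r c' ≃+* S) := by
  have hzm : ∀ i, zElim x y i ∈ maximalIdeal S := by
    rw [← hx]
    rintro (i | i)
    · exact Ideal.mem_sup_right (Ideal.subset_span ⟨i, rfl⟩)
    · exact Ideal.mem_sup_left (Ideal.subset_span ⟨i, rfl⟩)
  have hle : maximalIdeal L ≤ (maximalIdeal S).comap σ := by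
    rw [hf]
    refine sup_le ?_ ?_
    · rw [Ideal.span_singleton_le_iff_mem, Ideal.mem_comap, hσf]
      exact Ideal.sum_mem _ fun i _ => Ideal.sum_mem _ fun j _ => Ideal.mul_mem_left _ _ (hzm j)
    · rw [Ideal.span_le]
      rintro _ ⟨i, rfl⟩
      rw [SetLike.mem_coe, Ideal.mem_comap, hσt]
      exact hzm (Sum.inr i)
  obtain ⟨L', _, _, _, hflat, hloc, hm, hL', hcomp, huniv⟩ := exists_regular_completion L hL
  obtain ⟨g, hg⟩ := huniv S (maximalIdeal S) σ hle
  have hg' : ∀ v, g (algebraMap L L' v) = σ v := fun v => by rw [← hg]; rfl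
  have hgres : Function.Surjective (fun v => residue S (g v)) := by
    intro z
    obtain ⟨v, hv⟩ := hσ z
    exact ⟨algebraMap L L' v, by simp only [hg']; exact hv⟩
  let t' : Fin s → L' := fun i => algebraMap L L' (t i)
  have hm' : maximalIdeal L' = Ideal.span {algebraMap L L' f} ⊔ Ideal.span (Set.range t') := by
    rw [← hm, hf, Ideal.map_sup, Ideal.map_span, Ideal.map_span, Set.image_singleton,
      ← Set.range_comp]
    rfl
  have ht' : ∀ i, t' i ∈ maximalIdeal L' := fun i => by
    rw [hm']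
    exact Ideal.mem_sup_right (Ideal.subset_span ⟨i, rfl⟩)
  have hgle : maximalIdeal L' ≤ (maximalIdeal S).comap g := by
    rw [← hm, Ideal.map_le_iff_le_comap, Ideal.comap_comap, hg]
    exact hle
  obtain ⟨φ, hφ, hC, hX⟩ := exists_evalHom_surjective' g hgres x t' ht' hgle (by
    have h1 : (fun i => g (t' i)) = y := by
      funext i
      rw [← hσt]
      exact hg' _
    rw [h1]
    exact hx)
  choose k hk using hφ
  let c' : Fin r ⊕ Fin s → Fin r ⊕ Fin s → MvPowerSeries (Fin r) L' := fun i j => k (c i j)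
  have hz : ∀ i, φ (parZ L' t' r i) = zElim x y i := by
    rintro (i | i)
    · exact hX i
    · change φ (MvPowerSeries.C (t' i)) = y i
      rw [hC, ← hσt]
      exact hg' _
  have hq : ∀ a ∈ Ideal.span {parEq L' (algebraMap L L' f) t' r c'}, φ a = 0 := by
    intro a ha
    have h1 : Ideal.span {parEq L' (algebraMap L L' f) t' r c'} ≤ RingHom.ker φ := by
      rw [Ideal.span_singleton_le_iff_mem, RingHom.mem_ker, parEq, map_sub, hC, hg', hσf, map_sum,
        sub_eq_zero]
      refine Finset.sum_congr rfl fun i _ => ?_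
      rw [map_sum]
      refine Finset.sum_congr rfl fun j _ => ?_
      rw [map_mul, map_mul, hz, hz, hk]
    exact h1 ha
  have hregL := mvPowerSeries_regular (A := L') r (Equiv.refl (Fin r)) hL'
  obtain ⟨hregB, -⟩ := hregL
  have hc' : IsUnit (Matrix.det (Matrix.of fun l m =>
      c' (Sum.inl l) (Sum.inl m) + c' (Sum.inl m) (Sum.inl l))) := by
    have h4 : IsLocalHom φ := IsLocalHom.of_surjective _ fun z => ⟨k z, hk z⟩
    have h5 : φ (Matrix.det (Matrix.of fun l m =>
        c' (Sum.inl l) (Sum.inl m) + c' (Sum.inl m) (Sum.inl l))) =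
        Matrix.det (Matrix.of fun l m =>
          c (Sum.inl l) (Sum.inl m) + c (Sum.inl m) (Sum.inl l)) := by
      rw [RingHom.map_det]
      congr 1
      ext l m
      simp only [RingHom.mapMatrix_apply, Matrix.map_apply, Matrix.of_apply]
      rw [map_add, hk, hk]
    refine isUnit_of_map_unit φ _ ?_
    rw [h5]
    exact hc
  obtain ⟨hR, hdR⟩ := parRing_regular L' (algebraMap L L' f) t' hm' hL' r c' hc'
  let ψ : ParRing L' (algebraMap L L' f) t' r c' →+* S := Ideal.Quotient.lift _ φ hq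
  have hψ : Surjective ψ := fun z => ⟨Ideal.Quotient.mk _ (k z), hk z⟩
  have hinj : Injective ψ := by
    rw [RingHom.injective_iff_ker_eq_bot]
    refine ker_eq_bot_of_dim_eq ψ hψ ?_
    rw [hd, hdR]
  exact ⟨L', inferInstance, inferInstance, _, t', hm', hL', c', hc',
    ⟨RingEquiv.ofBijective ψ ⟨hinj, hψ⟩⟩⟩

end Vale.Agent.P177
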