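import Vale.Agent.P177.K10

/-!
Serre's positivity conjecture for regular local rings in which a uniformizing element is given by
a quadratic form of corank at most one.
-/

namespace Vale.Agent.P177

open TensorProduct IsLocalRing RingTheory.Sequence Function

universe u

section base

variable {R S : Type u} [CommRing R] [IsRegularLocalRing R] [CommRing S] [IsRegularLocalRing S]
  [Algebra R S] [Module.Flat R S]

/-- Serre's statements descend along a flat local map with trivial closed fibre. -/
theorem serreAll_of_flat (hm : (maximalIdeal R).map (algebraMap R S) = maximalIdeal S) {d : ℕ}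
    (h : SerreAll S d) : SerreAll R d :=
  SerreAll.descend hm h

/-- Serre's statements and ring isomorphisms. -/
theorem serreAll_of_equiv {R S : Type u} [CommRing R] [IsRegularLocalRing R] [CommRing S]
    [IsRegularLocalRing S] (e : R ≃+* S) {d : ℕ} (h : SerreAll S d) : SerreAll R d := by
  let _ : Algebra R S := (e : R →+* S).toAlgebra
  have : Module.Flat R S := by
    rw [← RingHom.flat_algebraMap_iff]
    exact RingHom.Flat.of_bijective e.bijective
  exact serreAll_of_flat (S := S) (map_maximalIdeal_of_surjective _ e.surjective) h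

theorem serreAll_of_base (hLOC : LocStmtRel.{u})
    (hm : (maximalIdeal R).map (algebraMap R S) = maximalIdeal S)
    [IsAdicComplete (maximalIdeal S) S] {r s : ℕ} (hs : s ≤ 1)
    (hd : ringKrullDim S = ((s + r : ℕ) : WithBot ℕ∞)) (x : Fin r → R) (y : Fin s → R)
    (hx : Ideal.span (Set.range y) ⊔ Ideal.span (Set.range x) = maximalIdeal R)
    (c : Fin r ⊕ Fin s → Fin r ⊕ Fin s → R)
    (hc : IsUnit (Matrix.det (Matrix.of fun l m =>
      c (Sum.inl l) (Sum.inl m) + c (Sum.inl m) (Sum.inl l))))
    (L : Type u) [CommRing L] [IsRegularLocalRing L] (f : L) (t : Fin s → L)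
    (hf : maximalIdeal L = Ideal.span {f} ⊔ Ideal.span (Set.range t))
    (hL : ringKrullDim L = ((s + 1 : ℕ) : WithBot ℕ∞)) (σ : L →+* S)
    (hσ : Function.Surjective (fun v => residue S (σ v)))
    (hσt : ∀ i, σ (t i) = algebraMap R S (y i))
    (hσf : σ f = algebraMap R S (∑ i, ∑ j, zElim x y i * c i j * zElim x y j)) :
    SerreAll R (s + r) := by
  have hxS : Ideal.span (Set.range fun i => algebraMap R S (y i)) ⊔
      Ideal.span (Set.range fun i => algebraMap R S (x i)) = maximalIdeal S := by
    rw [← hm, ← hx, Ideal.map_sup, Ideal.map_span, Ideal.map_span, ← Set.range_comp,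
      ← Set.range_comp]
    rfl
  have hz : ∀ i, algebraMap R S (zElim x y i) =
      zElim (fun i => algebraMap R S (x i)) (fun i => algebraMap R S (y i)) i := by
    rintro (i | i) <;> rfl
  obtain ⟨L', _, _, f', t', hm', hL', c', hc', ⟨e⟩⟩ := exists_parRing_equiv hd
    (fun i => algebraMap R S (x i)) (fun i => algebraMap R S (y i)) hxS
    (fun i j => algebraMap R S (c i j)) (by
      have h1 : (Matrix.of fun l m => algebraMap R S (c (Sum.inl l) (Sum.inl m)) +
          algebraMap R S (c (Sum.inl m) (Sum.inl l))) =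
          (algebraMap R S).mapMatrix (Matrix.of fun l m =>
            c (Sum.inl l) (Sum.inl m) + c (Sum.inl m) (Sum.inl l)) := by
        ext l m
        simp only [RingHom.mapMatrix_apply, Matrix.map_apply, Matrix.of_apply, map_add]
      rw [h1, ← RingHom.map_det]
      exact hc.map _) L f t hf hL σ hσ hσt (by
      rw [hσf, map_sum]
      refine Finset.sum_congr rfl fun i _ => ?_
      rw [map_sum]
      refine Finset.sum_congr rfl fun j _ => ?_
      rw [map_mul, map_mul, hz, hz])
  obtain ⟨hreg, -⟩ := parRing_regular L' f' t' hm' hL' r c' hc'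
  exact serreAll_of_flat hm (serreAll_of_equiv e.symm
    (serreAll_parRing hLOC L' f' hs t' hm' hL' r c' hc'))

end base

/-- The element `ϖ` is a prime number, or `ϖ`, `y_1, …, y_s` are the images of a regular system of
parameters of a regular local ring `L` of dimension `s + 1` under a ring homomorphism `ψ : L → R`
such that `L → R/m` is surjective. -/
def IsUnif {R : Type u} [CommRing R] [IsLocalRing R] (ϖ : R) {s : ℕ} (y : Fin s → R) : Prop :=
  (∃ p : ℕ, p.Prime ∧ (p : R) = ϖ) ∨
  ∃ (L : Type u) (_ : CommRing L) (_ : IsRegularLocalRing L) (f : L) (t : Fin s → L) (ψ : L →+* R),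
    ringKrullDim L = (s + 1 : ℕ) ∧
    maximalIdeal L = Ideal.span {f} ⊔ Ideal.span (Set.range t) ∧ ψ f = ϖ ∧
    (∀ i, ψ (t i) = y i) ∧ ∀ r : R, ∃ v : L, r - ψ v ∈ maximalIdeal R

theorem serreAll_of_isUnif (hLOC : LocStmtRel.{u}) {R : Type u} [CommRing R]
    [IsRegularLocalRing R] {r s : ℕ} (hs : s ≤ 1)
    (hd : ringKrullDim R = ((s + r : ℕ) : WithBot ℕ∞)) (x : Fin r → R) (y : Fin s → R)
    (hx : Ideal.span (Set.range y) ⊔ Ideal.span (Set.range x) = maximalIdeal R)
    (c : Fin r ⊕ Fin s → Fin r ⊕ Fin s → R)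
    (hu : IsUnif (∑ i, ∑ j, zElim x y i * c i j * zElim x y j) y)
    (hc : IsUnit (Matrix.det (Matrix.of fun l m =>
      c (Sum.inl l) (Sum.inl m) + c (Sum.inl m) (Sum.inl l)))) :
    SerreAll R (s + r) := by
  have hzm : ∀ i, zElim x y i ∈ maximalIdeal R := by
    rw [← hx]
    rintro (i | i)
    · exact Ideal.mem_sup_right (Ideal.subset_span ⟨i, rfl⟩)
    · exact Ideal.mem_sup_left (Ideal.subset_span ⟨i, rfl⟩)
  have hmem : ∑ i, ∑ j, zElim x y i * c i j * zElim x y j ∈ maximalIdeal R :=
    Ideal.sum_mem _ fun i _ => Ideal.sum_mem _ fun j _ => Ideal.mul_mem_left _ _ (hzm j)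
  rcases hu with ⟨p, hp, hpc⟩ | ⟨L, _, _, f, t, ψ, hL, hf, hψf, hψt, hres⟩
  · have : Fact p.Prime := ⟨hp⟩
    have : CharP (ResidueField R) p := by
      rw [CharP.charP_iff_prime_eq_zero hp]
      have h1 : residue R (p : R) = 0 := by
        rw [residue_eq_zero_iff, hpc]
        exact hmem
      rwa [map_natCast] at h1
    obtain ⟨S, _, _, _, hflat, hm, hdS, hcomp, hch, hpr⟩ := exists_gonflement R p hd
    obtain ⟨hV1, hV2, hV3⟩ := witt_dim_one (ResidueField S) p
    obtain ⟨σ, hσ⟩ := exists_witt_hom (S := S) p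
    obtain ⟨hregL, hdimL⟩ := mvPowerSeries_regular (A := WittVector p (ResidueField S)) s
      (Equiv.refl (Fin s)) hV3
    obtain ⟨φ, hφ⟩ := exists_evalHom (maximalIdeal S) σ (fun i => algebraMap R S (y i))
      (fun i => by
        rw [← hm]
        exact Ideal.mem_map_of_mem _ (hzm (Sum.inr i)))
    have hC : ∀ v, φ (MvPowerSeries.C v) = σ v := by
      intro v
      rw [← MvPolynomial.coe_C, hφ]
      simp
    have hX : ∀ i, φ (MvPowerSeries.X i) = algebraMap R S (y i) := by
      intro i
      rw [← MvPolynomial.coe_X, hφ]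
      simp
    refine serreAll_of_base hLOC hm hs hdS x y hx c hc
      (MvPowerSeries (Fin s) (WittVector p (ResidueField S))) (MvPowerSeries.C (p : _))
      MvPowerSeries.X ?_ ?_ φ ?_ hX ?_
    · rw [mvPowerSeries_maximalIdeal_gen, hV2, Ideal.map_span, Set.image_singleton]
    · rw [hdimL]
      congr 1
      omega
    · intro z
      refine ⟨MvPowerSeries.C (WittVector.teichmuller p z), ?_⟩
      simp only [hC]
      rw [hσ, WittVector.teichmuller_coeff_zero]
    · rw [hC, map_natCast, ← hpc, map_natCast]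
  · obtain ⟨S, _, _, _, hflat, hm, hdS, hcomp, hres'⟩ := exists_completion_residue R hd
    refine serreAll_of_base hLOC hm hs hdS x y hx c hc L f t hf hL ((algebraMap R S).comp ψ)
      ?_ ?_ ?_
    · intro z
      obtain ⟨w, hw⟩ := hres' z
      obtain ⟨v, hv⟩ := hres w
      refine ⟨v, ?_⟩
      simp only
      rw [← hw]
      refine (sub_eq_zero.1 ?_).symm
      rw [← map_sub, residue_eq_zero_iff, RingHom.comp_apply, ← map_sub, ← hm]
      exact Ideal.mem_map_of_mem _ hv
    · intro i
      rw [RingHom.comp_apply, hψt]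
    · rw [RingHom.comp_apply, hψf]

end Vale.Agent.P177
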