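import Vale.Agent.P177.K11

/-!
Bases of dimension `s + 1` attached to an equation `p = u ϖ^a ∏ y_i^(b_i)` with `a` prime to `p`.
-/

namespace Vale.Agent.P177

open TensorProduct IsLocalRing RingTheory.Sequence Function

universe u

/-- A unit which is congruent to `1` is an `a`-th power if `a` is invertible. -/
theorem exists_root_of_one {S : Type u} [CommRing S] [IsLocalRing S]
    [IsAdicComplete (maximalIdeal S) S] (a : ℕ) (ha : residue S (a : S) ≠ 0) (u : S)
    (hu : u - 1 ∈ maximalIdeal S) : ∃ v : S, v ^ a = u ∧ IsUnit v := by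
  have ha0 : a ≠ 0 := by
    rintro rfl
    apply ha
    rw [Nat.cast_zero, map_zero]
  obtain ⟨v, hv, hv1⟩ := HenselianRing.is_henselian (I := maximalIdeal S)
    (Polynomial.X ^ a - Polynomial.C u) (Polynomial.monic_X_pow_sub_C u ha0) 1 (by
      rw [Polynomial.eval_sub, Polynomial.eval_pow, Polynomial.eval_X, Polynomial.eval_C, one_pow,
        ← neg_mem_iff, neg_sub]
      exact hu) (by
      rw [Polynomial.derivative_sub, Polynomial.derivative_C, sub_zero,
        Polynomial.derivative_X_pow, Polynomial.eval_mul, Polynomial.eval_pow, Polynomial.eval_X,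
        one_pow, mul_one, Polynomial.eval_C]
      exact isUnit_iff_ne_zero.2 ha)
  refine ⟨v, ?_, ?_⟩
  · have h1 : Polynomial.eval v (Polynomial.X ^ a - Polynomial.C u) = 0 := hv
    rw [Polynomial.eval_sub, Polynomial.eval_pow, Polynomial.eval_X, Polynomial.eval_C,
      sub_eq_zero] at h1
    exact h1
  · by_contra hn
    have h2 : (v : S) ∈ maximalIdeal S := (mem_maximalIdeal _).2 hn
    have h3 : (1 : S) ∈ maximalIdeal S := by
      have := Ideal.sub_mem _ h2 hv1
      rwa [sub_sub_cancel] at this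
    exact (maximalIdeal.isMaximal S).ne_top ((Ideal.eq_top_iff_one _).2 h3)

theorem exists_base_of_prime {S : Type u} [CommRing S] [IsRegularLocalRing S]
    [IsAdicComplete (maximalIdeal S) S] (p : ℕ) [Fact p.Prime] [CharP (ResidueField S) p]
    [PerfectRing (ResidueField S) p] {s : ℕ} (ϖ : S) (hϖ : ϖ ∈ maximalIdeal S) (y : Fin s → S)
    (hy : ∀ i, y i ∈ maximalIdeal S) (a : ℕ) (b : Fin s → ℕ) (u : S) (ha : ¬ p ∣ a)
    (hu : IsUnit u) (h : (p : S) = u * ϖ ^ a * ∏ i, y i ^ b i) :
    ∃ (L : Type u) (_ : CommRing L) (_ : IsRegularLocalRing L) (f : L) (t : Fin s → L)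
      (σ : L →+* S) (v : S), IsUnit v ∧
      maximalIdeal L = Ideal.span {f} ⊔ Ideal.span (Set.range t) ∧
      ringKrullDim L = ((s + 1 : ℕ) : WithBot ℕ∞) ∧
      Surjective (fun z => residue S (σ z)) ∧ (∀ i, σ (t i) = y i) ∧ σ f = v * ϖ := by
  have hp : p.Prime := Fact.out
  have ha0 : a ≠ 0 := by
    rintro rfl
    exact ha (dvd_zero p)
  let W := WittVector p (ResidueField S)
  obtain ⟨hV1, hV2, hV3⟩ := witt_dim_one (ResidueField S) p
  obtain ⟨τ, hτ⟩ := exists_witt_hom (S := S) p
  let w : W := WittVector.teichmuller p (residue S u)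
  have hw : residue S (τ w) = residue S u := by
    rw [hτ, WittVector.teichmuller_coeff_zero]
  have hwu : IsUnit (τ w) := by
    rw [← isUnit_map_iff (residue S), hw]
    exact hu.map _
  obtain ⟨w', hw'⟩ := hwu
  -- the root
  have hres : residue S (a : S) ≠ 0 := by
    rw [map_natCast, Ne, CharP.cast_eq_zero_iff (ResidueField S) p a]
    exact ha
  obtain ⟨v, hv, hvu⟩ := exists_root_of_one a hres (u * (↑w'⁻¹ : S)) (by
    rw [← residue_eq_zero_iff, map_sub, map_one, map_mul, sub_eq_zero, ← hw, ← hw', ← map_mul,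
      Units.mul_inv, map_one])
  have hvw : τ w * v ^ a = u := by
    rw [hv, ← hw', mul_comm u, Units.mul_inv_cancel_left]
  -- the power series ring
  obtain ⟨hregB, hdimB⟩ := mvPowerSeries_regular (A := W) (s + 1) (Equiv.refl (Fin (s + 1))) hV3
  let B := MvPowerSeries (Fin (s + 1)) W
  let q : B := MvPowerSeries.C w * MvPowerSeries.X 0 ^ a * ∏ i : Fin s,
    MvPowerSeries.X i.succ ^ b i
  let g : B := MvPowerSeries.C (p : W) - q
  have hmB : maximalIdeal B = Ideal.span {MvPowerSeries.C (p : W)} ⊔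
      Ideal.span (Set.range MvPowerSeries.X) := by
    rw [mvPowerSeries_maximalIdeal_gen, hV2, Ideal.map_span, Set.image_singleton]
  have hqX : q ∈ Ideal.span {(MvPowerSeries.X 0 : B)} := by
    refine Ideal.mul_mem_right _ _ (Ideal.mul_mem_left _ _ ?_)
    obtain ⟨n, rfl⟩ := Nat.exists_eq_succ_of_ne_zero ha0
    rw [pow_succ]
    exact Ideal.mul_mem_left _ _ (Ideal.subset_span rfl)
  have hXle : Ideal.span {(MvPowerSeries.X 0 : B)} ≤ Ideal.span (Set.range MvPowerSeries.X) := by
    rw [Ideal.span_singleton_le_iff_mem]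
    exact Ideal.subset_span ⟨0, rfl⟩
  have hg : g ∈ maximalIdeal B := by
    rw [hmB]
    exact Ideal.sub_mem _ (Ideal.mem_sup_left (Ideal.subset_span rfl))
      (Ideal.mem_sup_right (hXle hqX))
  have hcc : (maximalIdeal B).map (MvPowerSeries.constantCoeff (σ := Fin (s + 1)) (R := W)) ≤
      Ideal.span {(p : W)} := by
    rw [Ideal.map_le_iff_le_comap, hmB]
    refine sup_le ?_ ?_
    · rw [Ideal.span_singleton_le_iff_mem, Ideal.mem_comap, MvPowerSeries.constantCoeff_C]
      exact Ideal.subset_span rfl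
    · rw [Ideal.span_le]
      rintro _ ⟨i, rfl⟩
      rw [SetLike.mem_coe, Ideal.mem_comap, MvPowerSeries.constantCoeff_X]
      exact Ideal.zero_mem _
  have hq0 : MvPowerSeries.constantCoeff q = 0 := by
    obtain ⟨e, he⟩ := Ideal.mem_span_singleton'.1 hqX
    rw [← he, map_mul, MvPowerSeries.constantCoeff_X, mul_zero]
  have hg2 : g ∉ maximalIdeal B ^ 2 := by
    intro h2
    have h3 : MvPowerSeries.constantCoeff g ∈ Ideal.span {(p : W)} ^ 2 := by
      have h4 := Ideal.mem_map_of_mem (MvPowerSeries.constantCoeff (σ := Fin (s + 1)) (R := W)) h2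
      rw [Ideal.map_pow] at h4
      exact Ideal.pow_right_mono hcc 2 h4
    rw [map_sub, MvPowerSeries.constantCoeff_C, hq0, sub_zero, ← hV2] at h3
    have h5 : maximalIdeal W ≤ maximalIdeal W ^ 2 := by
      conv_lhs => rw [hV2]
      rw [Ideal.span_singleton_le_iff_mem]
      exact h3
    have h6 : maximalIdeal W ≤ ⊥ := by
      refine Submodule.le_of_le_smul_of_le_jacobson_bot
        ((maximalIdeal W).fg_of_isNoetherianRing) (IsLocalRing.maximalIdeal_le_jacobson ⊥) ?_
      rw [smul_eq_mul, ← pow_two, bot_sup_eq]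
      exact h5
    have h7 : (maximalIdeal W).height = 0 := by
      rw [le_bot_iff.1 h6]
      exact Ideal.height_bot
    have h8 : ringKrullDim W = 0 := by
      rw [← IsLocalRing.maximalIdeal_height_eq_ringKrullDim, h7]
      rfl
    rw [hV3] at h8
    exact absurd h8 (by norm_num)
  obtain ⟨hregL, hdimL⟩ := regular_quotient B g hg hg2
  obtain ⟨φ, hφ⟩ := exists_evalHom (maximalIdeal S) τ (Fin.cons (v * ϖ) y : Fin (s + 1) → S)
    (fun i => by
      refine Fin.cases ?_ (fun j => ?_) i
      · exact Ideal.mul_mem_left _ _ hϖ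
      · exact hy j)
  have hC : ∀ r, φ (MvPowerSeries.C r) = τ r := by
    intro r
    rw [← MvPolynomial.coe_C, hφ]
    simp
  have hX : ∀ i, φ (MvPowerSeries.X i) = (Fin.cons (v * ϖ) y : Fin (s + 1) → S) i := by
    intro i
    rw [← MvPolynomial.coe_X, hφ]
    simp
  have hφg : ∀ z ∈ Ideal.span {g}, φ z = 0 := by
    intro z hz
    have h1 : Ideal.span {g} ≤ RingHom.ker φ := by
      rw [Ideal.span_singleton_le_iff_mem, RingHom.mem_ker, map_sub, hC, map_natCast, map_mul,
        map_mul, hC, map_pow, hX, map_prod, sub_eq_zero, h]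
      have h2 : ∏ i : Fin s, φ (MvPowerSeries.X i.succ ^ b i) = ∏ i, y i ^ b i := by
        refine Finset.prod_congr rfl fun i _ => ?_
        rw [map_pow, hX, Fin.cons_succ]
      rw [h2, Fin.cons_zero, mul_pow, ← mul_assoc, hvw]
    exact h1 hz
  let σ : B ⧸ Ideal.span {g} →+* S := Ideal.Quotient.lift _ φ hφg
  have hσ : ∀ z, σ (Ideal.Quotient.mk _ z) = φ z := fun z => Ideal.Quotient.lift_mk _ _ _
  refine ⟨B ⧸ Ideal.span {g}, inferInstance, hregL, Ideal.Quotient.mk _ (MvPowerSeries.X 0),
    fun i => Ideal.Quotient.mk _ (MvPowerSeries.X i.succ), σ, v, hvu, ?_, ?_, ?_, ?_, ?_⟩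
  · have h1 : (maximalIdeal B).map (Ideal.Quotient.mk (Ideal.span {g})) =
        maximalIdeal (B ⧸ Ideal.span {g}) :=
      map_maximalIdeal_of_surjective _ Ideal.Quotient.mk_surjective
    have h2 : Ideal.span (Set.range (MvPowerSeries.X : Fin (s + 1) → B)) =
        Ideal.span {(MvPowerSeries.X 0 : B)} ⊔
          Ideal.span (Set.range fun i : Fin s => (MvPowerSeries.X i.succ : B)) := by
      rw [← Ideal.span_union]
      congr 1
      ext z
      simp only [Set.mem_range, Set.mem_union, Set.mem_singleton_iff, Fin.exists_fin_succ]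
      exact or_congr eq_comm Iff.rfl
    rw [← h1, hmB, h2, Ideal.map_sup, Ideal.map_sup, Ideal.map_span, Ideal.map_span,
      Ideal.map_span, Set.image_singleton, Set.image_singleton, ← Set.range_comp]
    apply le_antisymm
    · refine sup_le ?_ le_rfl
      rw [Ideal.span_singleton_le_iff_mem]
      have h3 : (Ideal.Quotient.mk (Ideal.span {g})) (MvPowerSeries.C (p : W)) =
          Ideal.Quotient.mk _ q := by
        rw [Ideal.Quotient.mk_eq_mk_iff_sub_mem]
        exact Ideal.subset_span rfl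
      rw [h3]
      obtain ⟨e, he⟩ := Ideal.mem_span_singleton'.1 hqX
      rw [← he, map_mul]
      exact Ideal.mem_sup_left (Ideal.mul_mem_left _ _ (Ideal.subset_span rfl))
    · exact le_sup_right
  · rw [hdimB] at hdimL
    obtain ⟨n, hn⟩ := exists_nat_eq_ringKrullDim (B ⧸ Ideal.span {g})
    rw [hn] at hdimL ⊢
    have h3 : n + 1 = 1 + (s + 1) := by exact_mod_cast hdimL
    have h4 : n = s + 1 := by omega
    rw [h4]
  · intro z
    refine ⟨Ideal.Quotient.mk _ (MvPowerSeries.C (WittVector.teichmuller p z)), ?_⟩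
    simp only [hσ, hC]
    rw [hτ, WittVector.teichmuller_coeff_zero]
  · intro i
    rw [hσ, hX, Fin.cons_succ]
  · rw [hσ, hX, Fin.cons_zero]

end Vale.Agent.P177
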