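import Vale.Agent.P177.K12
import Vale.Agent.P177.HDefs2

/-!
Serre's positivity conjecture for regular local rings in which a uniformizing element is given by
a quadratic form of corank at most one.
-/

namespace Vale.Agent.P177

open TensorProduct IsLocalRing RingTheory.Sequence Function Serre

universe u

/-- The ring of a presentation: a flat complete extension `S`, a base `L` and a unit `v`. -/
theorem exists_base_of_uniformizing {R : Type u} [CommRing R] [IsRegularLocalRing R] {d s : ℕ}
    (hd : ringKrullDim R = (d : WithBot ℕ∞)) (ϖ : R) (hϖ : ϖ ∈ maximalIdeal R) (y : Fin s → R)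
    (hy : ∀ i, y i ∈ maximalIdeal R) (h : IsUniformizing ϖ y) :
    ∃ (S : Type u) (_ : CommRing S) (_ : IsRegularLocalRing S) (_ : Algebra R S),
      Module.Flat R S ∧ (maximalIdeal R).map (algebraMap R S) = maximalIdeal S ∧
      ringKrullDim S = (d : WithBot ℕ∞) ∧ IsAdicComplete (maximalIdeal S) S ∧
      ∃ (L : Type u) (_ : CommRing L) (_ : IsRegularLocalRing L) (f : L) (t : Fin s → L)
      (σ : L →+* S) (v : S), IsUnit v ∧
      maximalIdeal L = Ideal.span {f} ⊔ Ideal.span (Set.range t) ∧
      ringKrullDim L = ((s + 1 : ℕ) : WithBot ℕ∞) ∧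
      Surjective (fun z => residue S (σ z)) ∧ (∀ i, σ (t i) = algebraMap R S (y i)) ∧
      σ f = v * algebraMap R S ϖ := by
  rcases h with ⟨p, a, b, u, hp, ha, hu, hpu⟩ |
    ⟨L, _, _, ψ, hL, ⟨f, t, hf, hψf, hψt⟩, hres⟩
  · have : Fact p.Prime := ⟨hp⟩
    have ha0 : a ≠ 0 := by
      rintro rfl
      exact ha (dvd_zero p)
    have : CharP (ResidueField R) p := by
      rw [CharP.charP_iff_prime_eq_zero hp]
      have h1 : residue R (p : R) = 0 := by
        rw [residue_eq_zero_iff, hpu]
        exact Ideal.mul_mem_right _ _ (Ideal.mul_mem_left _ _ (Ideal.pow_mem_of_mem _ hϖ _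
          (Nat.pos_of_ne_zero ha0)))
      rwa [map_natCast] at h1
    obtain ⟨S, _, _, _, hflat, hm, hdS, hcomp, hch, hpr⟩ := exists_gonflement R p hd
    have hmem : ∀ z ∈ maximalIdeal R, algebraMap R S z ∈ maximalIdeal S := fun z hz => by
      rw [← hm]
      exact Ideal.mem_map_of_mem _ hz
    refine ⟨S, inferInstance, inferInstance, inferInstance, hflat, hm, hdS, hcomp, ?_⟩
    exact exists_base_of_prime p (algebraMap R S ϖ) (hmem _ hϖ) (fun i => algebraMap R S (y i))
      (fun i => hmem _ (hy i)) a b (algebraMap R S u) ha (hu.map _) (by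
        rw [← map_natCast (algebraMap R S), hpu, map_mul, map_mul, map_pow, map_prod]
        simp only [map_pow])
  · obtain ⟨S, _, _, _, hflat, hm, hdS, hcomp, hres'⟩ := exists_completion_residue R hd
    refine ⟨S, inferInstance, inferInstance, inferInstance, hflat, hm, hdS, hcomp, L,
      inferInstance, inferInstance, f, t, (algebraMap R S).comp ψ, 1, isUnit_one, hf, hL, ?_,
      ?_, ?_⟩
    · intro z
      obtain ⟨w, hw⟩ := hres' z
      obtain ⟨v, hv⟩ := hres w
      refine ⟨v, ?_⟩
      simp only
      rw [← hw]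
      refine (sub_eq_zero.1 ?_).symm
      rw [← map_sub, residue_eq_zero_iff, RingHom.comp_apply, ← map_sub, ← hm]
      exact Ideal.mem_map_of_mem _ hv
    · intro i
      rw [RingHom.comp_apply, hψt]
    · rw [RingHom.comp_apply, hψf, one_mul]

theorem isUnit_det_smul {S : Type*} [CommRing S] {n : ℕ} (v : S) (hv : IsUnit v)
    (c : Fin n → Fin n → S) (hc : IsUnit (Matrix.det (Matrix.of fun i j => c i j + c j i))) :
    IsUnit (Matrix.det (Matrix.of fun i j => v * c i j + v * c j i)) := by
  have h1 : (Matrix.of fun i j => v * c i j + v * c j i) =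
      v • (Matrix.of fun i j => c i j + c j i) := by
    ext i j
    simp only [Matrix.of_apply, Matrix.smul_apply, smul_eq_mul]
    ring
  rw [h1, Matrix.det_smul]
  exact (hv.pow _).mul hc

/-- **Serre's positivity conjecture for corank at most one.** -/
theorem serreAll_of_uniformizing (hLOC : LocStmtRel.{u}) {R : Type u} [CommRing R]
    [IsRegularLocalRing R] {r s : ℕ} (hs : s ≤ 1)
    (hd : ringKrullDim R = ((r + s : ℕ) : WithBot ℕ∞)) (z : Fin r ⊕ Fin s → R)
    (c : Fin r ⊕ Fin s → Fin r ⊕ Fin s → R) (hz : Ideal.span (Set.range z) = maximalIdeal R)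
    (hu : IsUniformizing (∑ i, ∑ j, z i * c i j * z j) (z ∘ Sum.inr))
    (hc : IsUnit (Matrix.det (Matrix.of fun i j =>
      c (Sum.inl i) (Sum.inl j) + c (Sum.inl j) (Sum.inl i)))) :
    SerreAll R (r + s) := by
  have hzm : ∀ i, z i ∈ maximalIdeal R := fun i => by
    rw [← hz]
    exact Ideal.subset_span ⟨i, rfl⟩
  obtain ⟨S, _, _, _, hflat, hm, hdS, hcomp, L, _, _, f, t, σ, v, hv, hf, hL, hσ, hσt, hσf⟩ :=
    exists_base_of_uniformizing hd _ (Ideal.sum_mem _ fun i _ => Ideal.sum_mem _ fun j _ =>
      Ideal.mul_mem_left _ _ (hzm j)) (z ∘ Sum.inr) (fun i => hzm _) hu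
  rw [add_comm r s] at hdS ⊢
  have hsplit : ∀ {A : Type u} [CommRing A] (w : Fin r ⊕ Fin s → A),
      Ideal.span (Set.range fun i => w (Sum.inr i)) ⊔
        Ideal.span (Set.range fun i => w (Sum.inl i)) = Ideal.span (Set.range w) := by
    intro A _ w
    rw [← Ideal.span_union]
    congr 1
    ext y
    simp only [Set.mem_union, Set.mem_range, Sum.exists]
    tauto
  have hzS : Ideal.span (Set.range fun i => algebraMap R S (z i)) = maximalIdeal S := by
    rw [← hm, ← hz, Ideal.map_span, ← Set.range_comp]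
    rfl
  have helim : ∀ i, zElim (fun i => algebraMap R S (z (Sum.inl i)))
      (fun i => algebraMap R S (z (Sum.inr i))) i = algebraMap R S (z i) := by
    rintro (i | i) <;> rfl
  obtain ⟨L', _, _, f', t', hm', hL', c', hc', ⟨e⟩⟩ := exists_parRing_equiv hdS
    (fun i => algebraMap R S (z (Sum.inl i))) (fun i => algebraMap R S (z (Sum.inr i)))
    (by
      rw [← hzS]
      exact hsplit fun i => algebraMap R S (z i))
    (fun i j => v * algebraMap R S (c i j)) (by
      refine isUnit_det_smul v hv
        (fun i j => algebraMap R S (c (Sum.inl i) (Sum.inl j))) ?_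
      have h1 : (Matrix.of fun l m => algebraMap R S (c (Sum.inl l) (Sum.inl m)) +
          algebraMap R S (c (Sum.inl m) (Sum.inl l))) =
          (algebraMap R S).mapMatrix (Matrix.of fun l m =>
            c (Sum.inl l) (Sum.inl m) + c (Sum.inl m) (Sum.inl l)) := by
        ext l m
        simp only [RingHom.mapMatrix_apply, Matrix.map_apply, Matrix.of_apply, map_add]
      rw [h1, ← RingHom.map_det]
      exact hc.map _) L f t hf hL σ hσ hσt (by
      rw [hσf, map_sum, Finset.mul_sum]
      refine Finset.sum_congr rfl fun i _ => ?_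
      rw [map_sum, Finset.mul_sum]
      refine Finset.sum_congr rfl fun j _ => ?_
      rw [map_mul, map_mul, helim, helim]
      ring)
  obtain ⟨hreg, -⟩ := parRing_regular L' f' t' hm' hL' r c' hc'
  exact serreAll_of_flat hm (serreAll_of_equiv e.symm
    (serreAll_parRing hLOC L' f' hs t' hm' hL' r c' hc'))

/-- The presentation as a quadric, after a flat local extension with trivial closed fibre. -/
theorem exists_presentation_of_uniformizing {C : Type u} [CommRing C] [IsRegularLocalRing C]
    {d : ℕ} (hd : ringKrullDim C = d) (x : Fin d → C)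
    (hx : Ideal.span (Set.range x) = maximalIdeal C) (c : Fin d → Fin d → C)
    (h : IsUniformizing (∑ i, ∑ j, x i * c i j * x j) ![]) :
    ∃ (V : Type u) (_ : CommRing V) (_ : IsRegularLocalRing V) (ϖ : V)
      (_ : maximalIdeal V = Ideal.span {ϖ}) (_ : ringKrullDim V = (1 : ℕ))
      (c' : Fin d → Fin d → MvPowerSeries (Fin d) V)
      (_ : IsLocalRing (QuadRing V ϖ d c')) (φ : C →+* QuadRing V ϖ d c')
      (v : QuadRing V ϖ d c'), φ.Flat ∧
      (maximalIdeal C).map φ = maximalIdeal (QuadRing V ϖ d c') ∧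
      (∀ i, φ (x i) = Ideal.Quotient.mk _ (MvPowerSeries.X i)) ∧ IsUnit v ∧
      ∀ i j, v * φ (c i j) = Ideal.Quotient.mk _ (c' i j) := by
  have hxm : ∀ i, x i ∈ maximalIdeal C := fun i => by
    rw [← hx]
    exact Ideal.subset_span ⟨i, rfl⟩
  obtain ⟨S, _, _, _, hflat, hm, hdS, hcomp, L, _, _, f, t, σ, v, hv, hf, hL, hσ, hσt, hσf⟩ :=
    exists_base_of_uniformizing hd _ (Ideal.sum_mem _ fun i _ => Ideal.sum_mem _ fun j _ =>
      Ideal.mul_mem_left _ _ (hxm j)) ![] (fun i => i.elim0) h
  have hf' : maximalIdeal L = Ideal.span {f} := by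
    rw [hf, Set.range_eq_empty, Ideal.span_empty, sup_bot_eq]
  have hx' : Ideal.span (Set.range (fun i => algebraMap C S (x i))) = maximalIdeal S := by
    rw [← hm, ← hx, Ideal.map_span, ← Set.range_comp]
    rfl
  obtain ⟨c', e, he1, he2⟩ := exists_quadRing_equiv_of_hom hdS (fun i => algebraMap C S (x i)) hx'
    (fun i j => v * algebraMap C S (c i j)) L f hf' hL σ hσ (by
      rw [hσf, map_sum, Finset.mul_sum]
      refine Finset.sum_congr rfl fun i _ => ?_
      rw [map_sum, Finset.mul_sum]
      refine Finset.sum_congr rfl fun j _ => ?_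
      rw [map_mul, map_mul]
      ring)
  obtain ⟨hreg, -, -⟩ := quadRing_regular L f hf' hL d c'
  refine ⟨L, inferInstance, inferInstance, f, hf', hL, c', inferInstance,
    (e.symm : S →+* QuadRing L f d c').comp (algebraMap C S), e.symm v, ?_, ?_, ?_, ?_, ?_⟩
  · have hflat' : (algebraMap C S).Flat := by
      rw [RingHom.flat_algebraMap_iff]
      exact hflat
    exact hflat'.comp (RingHom.Flat.of_bijective e.symm.bijective)
  · rw [← Ideal.map_map, hm]
    exact map_maximalIdeal_of_surjective _ e.symm.surjective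
  · intro i
    rw [RingHom.comp_apply, ← he1]
    exact e.symm_apply_apply _
  · exact hv.map e.symm
  · intro i j
    rw [← e.symm_apply_apply (Ideal.Quotient.mk _ (c' i j)), he2, RingHom.comp_apply]
    exact (map_mul e.symm _ _).symm

end Vale.Agent.P177
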