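import Vale.Agent.P177.K1

/-!
Relative version: height inequality and minimal primes for the ring `T`.
-/

namespace Vale.Agent.P177

open TensorProduct IsLocalRing MvPolynomial RingTheory.Sequence

universe u

namespace RData

variable {s d : ℕ} {B Γ : Type u} [CommRing B] [IsRegularLocalRing B] [CommRing Γ]
  [IsRegularLocalRing Γ] {D : RData s d B Γ}

section TD

variable {T : Type u} [CommRing T] [IsRegularLocalRing T] (t : D.TD T)

theorem TD.quot_z : ∃ (_ : IsRegularLocalRing (T ⧸ Ideal.ofList t.z)),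
    ringKrullDim (T ⧸ Ideal.ofList t.z) = ((s + d : ℕ) : WithBot ℕ∞) := by
  have hzm : Ideal.ofList t.z ≤ maximalIdeal T := by
    rw [← t.max₁]
    exact le_sup_right
  have h0 : Nontrivial (T ⧸ Ideal.ofList t.z) := Ideal.Quotient.nontrivial_iff.2
    (fun h => (maximalIdeal.isMaximal T).ne_top (top_le_iff.1 (h ▸ hzm)))
  have h1 : IsLocalRing (T ⧸ Ideal.ofList t.z) :=
    .of_surjective' (Ideal.Quotient.mk _) Ideal.Quotient.mk_surjective
  have hm : (maximalIdeal T).map (Ideal.Quotient.mk (Ideal.ofList t.z)) =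
      maximalIdeal (T ⧸ Ideal.ofList t.z) :=
    map_maximalIdeal_of_surjective _ Ideal.Quotient.mk_surjective
  have h2 : Ideal.ofList ((D.xs.map t.i₁).map (Ideal.Quotient.mk (Ideal.ofList t.z))) =
      maximalIdeal (T ⧸ Ideal.ofList t.z) := by
    rw [← hm, ← t.max₁, Ideal.map_sup, Ideal.map_quotient_self, sup_bot_eq, Ideal.map_ofList]
  have h3 : ringKrullDim (T ⧸ Ideal.ofList t.z) = ((s + d : ℕ) : WithBot ℕ∞) := by
    have hreg : IsRegular T t.z := by
      refine ⟨t.z_regular, ?_⟩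
      intro h
      have h1 : (Ideal.ofList t.z • ⊤ : Ideal T) ≤ maximalIdeal T := by
        rw [smul_eq_mul, Ideal.mul_top]
        exact hzm
      rw [← h] at h1
      exact (maximalIdeal.isMaximal T).ne_top (top_le_iff.1 h1)
    have h2 := ringKrullDim_add_length_eq_ringKrullDim_of_isRegular _ hreg
    rw [t.dimT, t.length_z] at h2
    obtain ⟨e, he⟩ := QData.exists_nat_ringKrullDim (T ⧸ Ideal.ofList t.z)
    rw [he] at h2 ⊢
    have h3 : e + d * d = s + d + d * d := by exact_mod_cast h2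
    have h4 : e = s + d := by omega
    rw [h4]
  obtain ⟨h5, h6⟩ := isRegularLocalRing_of_list _ h2 (by
    rw [h3, List.length_map, TD.length_xs_map])
  exact ⟨h5, h3⟩

theorem TD.ker_ν : RingHom.ker t.ν = Ideal.ofList t.z := by
  have hz : Ideal.ofList t.z ≤ RingHom.ker t.ν := by
    rw [t.ofList_z, Ideal.span_le]
    rintro _ ⟨p, rfl⟩
    exact t.hνX p
  obtain ⟨h1, h2⟩ := t.quot_z
  have hdom : IsDomain (T ⧸ Ideal.ofList t.z) := regular_isDomain _
  obtain ⟨-, -, h3⟩ := D.quot_regular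
  let g : T ⧸ Ideal.ofList t.z →+* B ⧸ Ideal.span {D.G} :=
    Ideal.Quotient.lift _ t.ν (fun a ha => hz ha)
  have hg : Function.Surjective g := Ideal.Quotient.lift_surjective_of_surjective _ _
    (fun r => ⟨t.i₁ r, t.ν_i₁ r⟩)
  have hinj := injective_of_surjective_of_dim g hg (s + d) h2 h3
  refine le_antisymm ?_ hz
  intro a ha
  rw [← Ideal.Quotient.eq_zero_iff_mem]
  apply hinj
  rw [map_zero]
  exact ha

theorem TD.height_le (Q : Ideal T) [Q.IsPrime] (j : Fin d) (hj : t.f (C (D.u j)) ∉ Q)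
    (r₁ r₂ q : ℕ) (h₁ : (Q.comap t.i₁).height = r₁) (h₂ : (Q.comap t.i₂).height = r₂)
    (hq : Q.height = q) : r₁ + r₂ ≤ q + (s + 1) := by
  have hQp : (Q.comap t.f).IsPrime := Ideal.IsPrime.comap _
  have hrp : ((Q.comap t.f).comap C).IsPrime := Ideal.IsPrime.comap _
  have e1 := elim_main D.h D.u (Q.comap t.f) (fun i => by
    rw [Ideal.mem_comap, t.hE]
    exact Q.zero_mem) j hj
  have e2 := t.ht Q inferInstance
  have hfin : ((Q.comap t.f).comap C).height ≠ ⊤ := Ideal.height_ne_top_of_isPrime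
  have hfin2 : (Q.comap t.f).height ≠ ⊤ := Ideal.height_ne_top_of_isPrime
  have hf1 : (((Q.comap t.f).comap C).comap D.a₁).IsPrime := Ideal.IsPrime.comap _
  have hf2 : (((Q.comap t.f).comap C).comap D.a₂).IsPrime := Ideal.IsPrime.comap _
  obtain ⟨s', hs⟩ := ENat.ne_top_iff_exists.1 hfin
  obtain ⟨v, hv⟩ := ENat.ne_top_iff_exists.1 hfin2
  obtain ⟨s₁, hs₁⟩ := ENat.ne_top_iff_exists.1
    (Ideal.height_ne_top_of_isPrime (I := ((Q.comap t.f).comap C).comap D.a₁))
  obtain ⟨s₂, hs₂⟩ := ENat.ne_top_iff_exists.1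
    (Ideal.height_ne_top_of_isPrime (I := ((Q.comap t.f).comap C).comap D.a₂))
  rw [← hs, ← hv] at e1
  rw [← hv, hq] at e2
  have e1' : s' + d ≤ v + 1 := by exact_mod_cast e1
  have e2' : v ≤ q + (d + 1) := by exact_mod_cast e2
  have hsup : (maximalIdeal B).map D.a₁ ⊔ (maximalIdeal B).map D.a₂ = maximalIdeal Γ := by
    have hloc₁ : IsLocalHom D.a₁ := ⟨fun s hs => by
      have := hs.map D.μ
      rwa [D.μ₁] at this⟩
    have hloc₂ : IsLocalHom D.a₂ := ⟨fun s hs => by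
      have := hs.map D.μ
      rwa [D.μ₂] at this⟩
    apply le_antisymm
    · exact sup_le (((IsLocalRing.local_hom_TFAE D.a₁).out 0 2).mp hloc₁)
        (((IsLocalRing.local_hom_TFAE D.a₂).out 0 2).mp hloc₂)
    · rw [D.maxΓ]
      refine sup_le (sup_le ?_ (sup_le ?_ ?_)) ?_
      · rw [Ideal.span_singleton_le_iff_mem]
        exact Ideal.mem_sup_left (Ideal.mem_map_of_mem _ D.G_mem)
      · rw [Ideal.span_le]
        rintro _ ⟨i, rfl⟩
        exact Ideal.mem_sup_left (Ideal.mem_map_of_mem _ (D.y_memB i))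
      · rw [Ideal.span_le]
        rintro _ ⟨i, rfl⟩
        exact Ideal.mem_sup_left (Ideal.mem_map_of_mem _ (D.x_memB i))
      · rw [Ideal.span_le]
        rintro _ ⟨i, rfl⟩
        exact Ideal.sub_mem _ (Ideal.mem_sup_right (Ideal.mem_map_of_mem _ (D.x_memB i)))
          (Ideal.mem_sup_left (Ideal.mem_map_of_mem _ (D.x_memB i)))
  have e3 := height_le_of_sup D.a₁ D.a₂ D.dimB D.dimΓ hsup (a := s + 1) (by omega)
    ((Q.comap t.f).comap C) s₁ s₂ s' hs₁.symm hs₂.symm hs.symm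
  have k₁ : (Q.comap t.i₁).comap (Ideal.Quotient.mk (Ideal.span {D.G})) =
      ((Q.comap t.f).comap C).comap D.a₁ := by
    ext b
    change t.i₁ (Ideal.Quotient.mk _ b) ∈ Q ↔ t.f (C (D.a₁ b)) ∈ Q
    rw [t.i₁_mk]
  have k₂ : (Q.comap t.i₂).comap (Ideal.Quotient.mk (Ideal.span {D.G})) =
      ((Q.comap t.f).comap C).comap D.a₂ := by
    ext b
    change t.i₂ (Ideal.Quotient.mk _ b) ∈ Q ↔ t.f (C (D.a₂ b)) ∈ Q
    rw [t.i₂_mk]
  have hq1 : (Q.comap t.i₁).IsPrime := Ideal.IsPrime.comap _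
  have hq2 : (Q.comap t.i₂).IsPrime := Ideal.IsPrime.comap _
  have e4 := D.height_comap_mk (Q.comap t.i₁) r₁ s₁ h₁ (by rw [k₁, ← hs₁])
  have e5 := D.height_comap_mk (Q.comap t.i₂) r₂ s₂ h₂ (by rw [k₂, ← hs₂])
  omega

/-- If all `u_j` are in `Q` then the two maps agree modulo `Q`. -/
theorem TD.sub_mem_of_u_mem (Q : Ideal T)
    (hu : ∀ j, t.f (C (D.u j)) ∈ Q) (r : B ⧸ Ideal.span {D.G}) : t.i₂ r - t.i₁ r ∈ Q := by
  have hh : ∀ i, t.f (C (D.h i)) ∈ Q := by
    intro i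
    rw [D.h_eq t.f t.hE i]
    exact Ideal.sum_mem _ fun l _ => Ideal.mul_mem_left _ _ (hu l)
  obtain ⟨b, rfl⟩ := Ideal.Quotient.mk_surjective r
  rw [t.i₁_mk, t.i₂_mk, ← map_sub, ← map_sub]
  have h1 : Ideal.span (Set.range fun i => D.a₂ (D.x i) - D.a₁ (D.x i)) ≤
      Q.comap (t.f.comp C) := by
    rw [Ideal.span_le]
    rintro _ ⟨i, rfl⟩
    exact hh i
  exact h1 (D.diag b)

/-- The prime ideal generated by the parameters. -/
noncomputable def TD.m : Ideal T := Ideal.ofList (D.xs.map t.i₁)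

theorem TD.m_eq : t.m = Ideal.span (Set.range fun i => t.f (C (D.a₁ (D.y i)))) ⊔
    Ideal.span (Set.range fun i => t.f (C (D.a₁ (D.x i)))) := t.ofList_i₁

theorem TD.m_le : t.m ≤ maximalIdeal T := by
  rw [← t.max₁]
  exact le_sup_left

theorem TD.m_prime : t.m.IsPrime := by
  have hzm : t.m ≤ maximalIdeal T := t.m_le
  have h0 : Nontrivial (T ⧸ t.m) := Ideal.Quotient.nontrivial_iff.2
    (fun h => (maximalIdeal.isMaximal T).ne_top (top_le_iff.1 (h ▸ hzm)))
  have h1 : IsLocalRing (T ⧸ t.m) :=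
    .of_surjective' (Ideal.Quotient.mk _) Ideal.Quotient.mk_surjective
  have hm : (maximalIdeal T).map (Ideal.Quotient.mk t.m) = maximalIdeal (T ⧸ t.m) :=
    map_maximalIdeal_of_surjective _ Ideal.Quotient.mk_surjective
  have h2 : Ideal.ofList (t.z.map (Ideal.Quotient.mk t.m)) = maximalIdeal (T ⧸ t.m) := by
    rw [← hm, ← t.max₁, Ideal.map_sup, show Ideal.ofList (D.xs.map t.i₁) = t.m from rfl,
      Ideal.map_quotient_self, bot_sup_eq, Ideal.map_ofList]
  have h3 : ringKrullDim (T ⧸ t.m) = ((d * d : ℕ) : WithBot ℕ∞) := by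
    have hreg : IsRegular T (D.xs.map t.i₁) := by
      refine ⟨((isWeaklyRegular_append_iff _ _ _).mp
        (t.isRegular_append _ t.max₁ (TD.length_xs_map _)).1).1, ?_⟩
      intro h
      have h1 : (Ideal.ofList (D.xs.map t.i₁) • ⊤ : Ideal T) ≤ maximalIdeal T := by
        rw [smul_eq_mul, Ideal.mul_top]
        exact hzm
      rw [← h] at h1
      exact (maximalIdeal.isMaximal T).ne_top (top_le_iff.1 h1)
    have h2 := ringKrullDim_add_length_eq_ringKrullDim_of_isRegular _ hreg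
    rw [t.dimT, TD.length_xs_map] at h2
    change ringKrullDim (T ⧸ t.m) + _ = _ at h2
    obtain ⟨e, he⟩ := QData.exists_nat_ringKrullDim (T ⧸ t.m)
    rw [he] at h2 ⊢
    have h3 : e + (s + d) = s + d + d * d := by exact_mod_cast h2
    have h4 : e = d * d := by omega
    rw [h4]
  obtain ⟨h5, h6⟩ := isRegularLocalRing_of_list _ h2 (by
    rw [h3, List.length_map, t.length_z])
  have h7 : IsDomain (T ⧸ t.m) := regular_isDomain _
  exact (Ideal.Quotient.isDomain_iff_prime _).1 h7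

theorem TD.X_mem (p : Fin d × Fin d) : t.f (X p) ∈ maximalIdeal T := by
  rw [← t.max₁, t.ofList_z]
  exact Ideal.mem_sup_right (Ideal.subset_span ⟨p, rfl⟩)

theorem TD.exists_η : ∃ η : Matrix (Fin d) (Fin d) T,
    (∀ i, t.f (C (D.h i)) = ∑ m, η i m * t.f (C (D.a₁ (D.x m)))) ∧
    (∀ i m, η i m = ∑ l, (t.f (X (i, l)) - t.f (X (l, i))) *
      (t.f (C (D.β l m)) + ∑ j, t.f (C (D.γ l j)) * η j m)) := by
  classical
  let Λ : Matrix (Fin d) (Fin d) T := fun i l => t.f (X (i, l)) - t.f (X (l, i))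
  let βT : Matrix (Fin d) (Fin d) T := fun i l => t.f (C (D.β i l))
  let γT : Matrix (Fin d) (Fin d) T := fun i l => t.f (C (D.γ i l))
  let hv : Fin d → T := fun i => t.f (C (D.h i))
  let Xv : Fin d → T := fun i => t.f (C (D.a₁ (D.x i)))
  let uv : Fin d → T := fun i => t.f (C (D.u i))
  have e1 : hv = Λ.mulVec uv := by
    funext i
    exact D.h_eq t.f t.hE i
  have e2 : uv = βT.mulVec Xv + γT.mulVec hv := by
    funext i
    change t.f (C (D.u i)) = ∑ m, t.f (C (D.β i m)) * t.f (C (D.a₁ (D.x m))) +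
      ∑ m, t.f (C (D.γ i m)) * t.f (C (D.h m))
    rw [D.hu, map_add, map_add, map_sum, map_sum, map_sum, map_sum]
    simp only [map_mul]
    rfl
  let M₁ : Matrix (Fin d) (Fin d) T := 1 - Λ * γT
  have hdet : IsUnit M₁.det := by
    have h2 : ∀ p, residue T (t.f (X p)) = 0 := fun p => (residue_eq_zero_iff _).2 (t.X_mem p)
    have hΛ : (residue T).mapMatrix Λ = 0 := by
      ext i l
      change residue T (t.f (X (i, l)) - t.f (X (l, i))) = 0
      rw [map_sub, h2, h2, sub_zero]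
    have h1 : (residue T).mapMatrix M₁ = 1 := by
      rw [show M₁ = 1 - Λ * γT from rfl, map_sub, map_one, map_mul, hΛ, zero_mul, sub_zero]
    have h2 : residue T M₁.det = 1 := by
      rw [RingHom.map_det, h1, Matrix.det_one]
    by_contra hcon
    have h3 : residue T M₁.det = 0 := (residue_eq_zero_iff _).2 ((mem_maximalIdeal _).2 hcon)
    rw [h2] at h3
    exact one_ne_zero h3
  let η : Matrix (Fin d) (Fin d) T := M₁⁻¹ * (Λ * βT)
  have e3 : M₁ * η = Λ * βT := by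
    rw [← Matrix.mul_assoc, Matrix.mul_nonsing_inv _ hdet, Matrix.one_mul]
  have e4 : η = Λ * (βT + γT * η) := by
    have h1 : η - Λ * γT * η = Λ * βT := by
      rw [← e3]
      simp only [M₁, Matrix.sub_mul, Matrix.one_mul]
    rw [Matrix.mul_add, ← Matrix.mul_assoc, ← h1]
    abel
  have e5 : M₁.mulVec hv = (Λ * βT).mulVec Xv := by
    have h1 : hv = (Λ * βT).mulVec Xv + (Λ * γT).mulVec hv := by
      conv_lhs => rw [e1, e2]
      rw [Matrix.mulVec_add, Matrix.mulVec_mulVec, Matrix.mulVec_mulVec]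
    rw [show M₁ = 1 - Λ * γT from rfl, Matrix.sub_mulVec, Matrix.one_mulVec, sub_eq_iff_eq_add]
    exact h1
  have e6 : hv = η.mulVec Xv := by
    have h1 : M₁⁻¹.mulVec (M₁.mulVec hv) = M₁⁻¹.mulVec ((Λ * βT).mulVec Xv) := by rw [e5]
    rw [Matrix.mulVec_mulVec, Matrix.mulVec_mulVec, Matrix.nonsing_inv_mul _ hdet,
      Matrix.one_mulVec] at h1
    exact h1
  refine ⟨η, fun i => congrFun e6 i, fun i m => ?_⟩
  have h1 := congrFun (congrFun e4 i) m
  rw [Matrix.mul_apply] at h1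
  exact h1

theorem TD.x_mem (i : Fin d) : t.f (C (D.a₁ (D.x i))) ∈ t.m := by
  rw [t.m_eq]
  exact Ideal.mem_sup_right (Ideal.subset_span ⟨i, rfl⟩)

theorem TD.y_mem (i : Fin s) : t.f (C (D.a₁ (D.y i))) ∈ t.m := by
  rw [t.m_eq]
  exact Ideal.mem_sup_left (Ideal.subset_span ⟨i, rfl⟩)

theorem TD.h_mem_m (i : Fin d) : t.f (C (D.h i)) ∈ t.m := by
  obtain ⟨η, h1, -⟩ := t.exists_η
  rw [h1]
  exact Ideal.sum_mem _ fun m _ => Ideal.mul_mem_left _ _ (t.x_mem m)

theorem TD.fC_mem (y : Γ) (hy : y ∈ maximalIdeal Γ) : t.f (C y) ∈ t.m := by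
  have h1 : maximalIdeal Γ ≤ t.m.comap (t.f.comp C) := by
    rw [D.maxΓ]
    refine sup_le (sup_le ?_ (sup_le ?_ ?_)) ?_
    · rw [Ideal.span_singleton_le_iff_mem]
      change t.f (C (D.a₁ D.G)) ∈ t.m
      rw [t.hG]
      exact t.m.zero_mem
    · rw [Ideal.span_le]
      rintro _ ⟨i, rfl⟩
      exact t.y_mem i
    · rw [Ideal.span_le]
      rintro _ ⟨i, rfl⟩
      exact t.x_mem i
    · rw [Ideal.span_le]
      rintro _ ⟨i, rfl⟩
      exact t.h_mem_m i
  exact h1 hy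

theorem TD.fC_sub_mem (y : Γ) : t.f (C y) - t.i₁ (Ideal.Quotient.mk _ (D.μ y)) ∈ t.m := by
  rw [t.i₁_mk, ← map_sub, ← map_sub]
  apply t.fC_mem
  rw [mem_maximalIdeal, mem_nonunits_iff]
  intro hu
  have h1 := hu.map D.μ
  rw [map_sub, D.μ₁, sub_self] at h1
  exact not_isUnit_zero h1

theorem TD.height_m_le : t.m.height ≤ (s + d : ℕ) := by
  classical
  have hm := t.m_prime
  let S : Finset T := (Finset.univ : Finset (Fin s)).image (fun i => t.f (C (D.a₁ (D.y i)))) ∪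
    (Finset.univ : Finset (Fin d)).image (fun i => t.f (C (D.a₁ (D.x i))))
  have hs : t.m = Ideal.span (S : Set T) := by
    rw [t.m_eq, ← Ideal.span_union]
    congr 1
    simp [S]
  have h2 : t.m ∈ (Ideal.span (S : Set T)).minimalPrimes := by
    rw [← hs]
    exact ⟨⟨hm, le_rfl⟩, fun q hq _ => hq.2⟩
  refine (Ideal.height_le_card_of_mem_minimalPrimes_span_finset h2).trans ?_
  have h3 : S.card ≤ s + d := by
    refine (Finset.card_union_le _ _).trans (add_le_add ?_ ?_)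
    · refine Finset.card_image_le.trans ?_
      simp
    · refine Finset.card_image_le.trans ?_
      simp
  exact_mod_cast h3

include t in
theorem TD.height_C : ((s + 2 * d + 1 : ℕ) : ℕ∞) ≤ ((maximalIdeal Γ).map
    (C : Γ →+* MvPolynomial (Fin d × Fin d) Γ)).height ∧ ((maximalIdeal Γ).map
    (C : Γ →+* MvPolynomial (Fin d × Fin d) Γ)).IsPrime := by
  have hp : ((maximalIdeal Γ).map (C : Γ →+* MvPolynomial (Fin d × Fin d) Γ)).IsPrime := by
    have e := MvPolynomial.quotientEquivQuotientMvPolynomial (σ := Fin d × Fin d) (maximalIdeal Γ)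
    have hdom : IsDomain (MvPolynomial (Fin d × Fin d) Γ ⧸ (maximalIdeal Γ).map C) :=
      e.symm.toMulEquiv.isDomain _
    exact (Ideal.Quotient.isDomain_iff_prime _).1 hdom
  refine ⟨?_, hp⟩
  have h5 := height_comap_le_of_flat (R := Γ) (S := MvPolynomial (Fin d × Fin d) Γ)
    ((maximalIdeal Γ).map C)
  have h6 : ((maximalIdeal Γ).map C).comap (algebraMap Γ (MvPolynomial (Fin d × Fin d) Γ)) =
      maximalIdeal Γ := by
    apply le_antisymm
    · apply le_maximalIdeal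
      exact Ideal.comap_ne_top _ hp.ne_top
    · exact Ideal.le_comap_map
  rw [h6] at h5
  have h7 : ((maximalIdeal Γ).height : WithBot ℕ∞) = ((s + 2 * d + 1 : ℕ) : WithBot ℕ∞) := by
    rw [IsLocalRing.maximalIdeal_height_eq_ringKrullDim, D.dimΓ]
  have h8 : (maximalIdeal Γ).height = ((s + 2 * d + 1 : ℕ) : ℕ∞) := WithBot.coe_injective h7
  rwa [h8] at h5

theorem TD.comap_m : t.m.comap t.f = (maximalIdeal Γ).map C := by
  have hm := t.m_prime
  obtain ⟨h4, hp⟩ := t.height_C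
  have hQ : (t.m.comap t.f).IsPrime := Ideal.IsPrime.comap _
  have hle : (maximalIdeal Γ).map C ≤ t.m.comap t.f := by
    rw [Ideal.map_le_iff_le_comap]
    intro y hy
    exact t.fC_mem y hy
  have h1 := t.height_m_le
  have h2 := t.ht t.m hm
  by_contra hne
  have hlt : (maximalIdeal Γ).map C < t.m.comap t.f := lt_of_le_of_ne hle (Ne.symm hne)
  have h3 := Ideal.height_add_one_le_of_lt_of_isPrime hlt
  have h5 : ((s + 2 * d + 1 : ℕ) : ℕ∞) + 1 ≤ ((s + d : ℕ) : ℕ∞) + ((d + 1 : ℕ) : ℕ∞) :=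
    (add_le_add_left h4 1).trans (h3.trans (h2.trans (add_le_add_left h1 _)))
  have h6 : s + 2 * d + 1 + 1 ≤ s + d + (d + 1) := by exact_mod_cast h5
  omega

theorem TD.height_m : t.m.height = ((s + d : ℕ) : ℕ∞) := by
  have hm := t.m_prime
  refine le_antisymm t.height_m_le ?_
  have h2 := t.ht t.m hm
  rw [t.comap_m] at h2
  have h5 := t.height_C.1.trans h2
  have hfin : t.m.height ≠ ⊤ := Ideal.height_ne_top_of_isPrime
  obtain ⟨s', hs⟩ := ENat.ne_top_iff_exists.1 hfin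
  rw [← hs] at h5 ⊢
  have h6 : s + 2 * d + 1 ≤ s' + (d + 1) := by exact_mod_cast h5
  exact_mod_cast (by omega : s + d ≤ s')

theorem TD.sub_mem_m (r : B ⧸ Ideal.span {D.G}) : t.i₂ r - t.i₁ r ∈ t.m := by
  obtain ⟨b, rfl⟩ := Ideal.Quotient.mk_surjective r
  rw [t.i₁_mk, t.i₂_mk, ← map_sub, ← map_sub]
  have h1 : Ideal.span (Set.range fun i => D.a₂ (D.x i) - D.a₁ (D.x i)) ≤
      t.m.comap (t.f.comp C) := by
    rw [Ideal.span_le]
    rintro _ ⟨i, rfl⟩
    exact t.h_mem_m i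
  exact h1 (D.diag b)

theorem TD.comap_m₁ [IsLocalRing (B ⧸ Ideal.span {D.G})]
    (h : Ideal.ofList D.xs = maximalIdeal (B ⧸ Ideal.span {D.G})) :
    t.m.comap t.i₁ = maximalIdeal (B ⧸ Ideal.span {D.G}) := by
  have hm := t.m_prime
  have hp : (t.m.comap t.i₁).IsPrime := Ideal.IsPrime.comap _
  refine le_antisymm (le_maximalIdeal hp.ne_top) ?_
  rw [← Ideal.map_le_iff_le_comap, ← h, Ideal.map_ofList]
  rfl

theorem TD.comap_m₂ [IsLocalRing (B ⧸ Ideal.span {D.G})]
    (h : Ideal.ofList D.xs = maximalIdeal (B ⧸ Ideal.span {D.G})) :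
    t.m.comap t.i₂ = maximalIdeal (B ⧸ Ideal.span {D.G}) := by
  rw [← t.comap_m₁ h]
  ext r
  rw [Ideal.mem_comap, Ideal.mem_comap]
  have h1 := t.sub_mem_m r
  constructor
  · intro h2
    have := Ideal.sub_mem _ h2 h1
    rwa [sub_sub_cancel] at this
  · intro h2
    have := Ideal.add_mem _ h1 h2
    rwa [sub_add_cancel] at this

/-- A prime containing the polar forms and the extensions of two ideals whose sum is primary to
the maximal ideal contains `mT`. -/
theorem TD.m_le_of_u_mem [IsLocalRing (B ⧸ Ideal.span {D.G})]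
    (h : Ideal.ofList D.xs = maximalIdeal (B ⧸ Ideal.span {D.G}))
    (I J : Ideal (B ⧸ Ideal.span {D.G}))
    (hIJ : maximalIdeal (B ⧸ Ideal.span {D.G}) ≤ (I ⊔ J).radical)
    (Q : Ideal T) [hQ : Q.IsPrime] (h₁ : I.map t.i₁ ≤ Q) (h₂ : J.map t.i₂ ≤ Q)
    (hu : ∀ j, t.f (C (D.u j)) ∈ Q) : t.m ≤ Q := by
  have hJ : J ≤ Q.comap t.i₁ := by
    intro r hr
    have h1 : t.i₂ r ∈ Q := h₂ (Ideal.mem_map_of_mem _ hr)
    have h2 := t.sub_mem_of_u_mem Q hu r
    have := Ideal.sub_mem _ h1 h2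
    rwa [sub_sub_cancel] at this
  have hI : I ≤ Q.comap t.i₁ := Ideal.map_le_iff_le_comap.1 h₁
  have hle : maximalIdeal (B ⧸ Ideal.span {D.G}) ≤ Q.comap t.i₁ := by
    refine hIJ.trans ?_
    rw [← (hQ.comap t.i₁).radical]
    exact Ideal.radical_mono (sup_le hI hJ)
  rw [← h, ← Ideal.map_le_iff_le_comap, Ideal.map_ofList] at hle
  exact hle

theorem TD.m_eq_span₂ : t.m = Ideal.ofList (D.xs.map t.i₂) := by
  obtain ⟨η, hη1, hη2⟩ := t.exists_η
  have hη : ∀ i m, η i m ∈ maximalIdeal T := by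
    intro i m
    rw [hη2]
    exact Ideal.sum_mem _ fun l _ => Ideal.mul_mem_right _ _
      (Ideal.sub_mem _ (t.X_mem _) (t.X_mem _))
  rw [t.ofList_i₂]
  refine le_antisymm ?_ ?_
  · refine Submodule.le_of_le_smul_of_le_jacobson_bot (I := maximalIdeal T)
      (IsNoetherian.noetherian _) (IsLocalRing.maximalIdeal_le_jacobson _) ?_
    conv_lhs => rw [t.m_eq]
    refine sup_le ((le_sup_left.trans le_sup_left)) ?_
    rw [Ideal.span_le]
    rintro _ ⟨i, rfl⟩
    have h2 : t.f (C (D.a₁ (D.x i))) = t.f (C (D.a₂ (D.x i))) -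
        ∑ m, η i m * t.f (C (D.a₁ (D.x m))) := by
      rw [← hη1, t.a₂_eq, add_sub_cancel_right]
    simp only [SetLike.mem_coe]
    rw [h2]
    refine Ideal.sub_mem _ (Ideal.mem_sup_left (Ideal.mem_sup_right (Ideal.subset_span ⟨i, rfl⟩)))
      (Ideal.mem_sup_right ?_)
    exact Ideal.sum_mem _ fun m _ => Ideal.mul_mem_mul (hη i m) (t.x_mem m)
  · refine sup_le ?_ ?_
    · rw [t.m_eq]
      exact le_sup_left
    rw [Ideal.span_le]
    rintro _ ⟨i, rfl⟩
    simp only [SetLike.mem_coe, t.a₂_eq]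
    exact Ideal.add_mem _ (t.x_mem i) (t.h_mem_m i)

end TD

end RData

end Vale.Agent.P177
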