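import Vale.Agent.P177.K2
import Vale.Agent.P177.FDefs

/-!
Relative version: positivity at the prime generated by the parameters.
-/

namespace Vale.Agent.P177

open TensorProduct IsLocalRing MvPolynomial RingTheory.Sequence

universe u

namespace RData

variable {s d : ℕ} {B Γ : Type u} [CommRing B] [IsRegularLocalRing B] [CommRing Γ]
  [IsRegularLocalRing Γ] {D : RData s d B Γ}

section TD

variable {T : Type u} [CommRing T] [IsRegularLocalRing T] (t : D.TD T)

theorem TD.injective_eval {k K : Type u} [Field k] [Field K] (ι : k →+* K) (κ : T →+* K)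
    (hκ : RingHom.ker κ = t.m) (ρ : B ⧸ Ideal.span {D.G} →+* k) (hρs : Function.Surjective ρ)
    (hρ : ∀ r, ι (ρ r) = κ (t.i₁ r)) :
    Function.Injective (eval₂Hom ι (fun p => κ (t.f (X p))) :
      MvPolynomial (Fin d × Fin d) k →+* K) := by
  have hκm : ∀ y ∈ t.m, κ y = 0 := fun y hy => by
    rw [← hκ] at hy
    exact hy
  let τ : Γ →+* k := (ρ.comp (Ideal.Quotient.mk _)).comp D.μ
  have hκC : ∀ y : Γ, κ (t.f (C y)) = ι (τ y) := by
    intro y
    have h1 := hκm _ (t.fC_sub_mem y)
    rw [map_sub, sub_eq_zero] at h1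
    rw [h1, ← hρ]
    rfl
  have hτs : Function.Surjective τ := by
    intro a
    obtain ⟨r, rfl⟩ := hρs a
    obtain ⟨b, rfl⟩ := Ideal.Quotient.mk_surjective r
    exact ⟨D.a₁ b, by simp [τ, D.μ₁]⟩
  rw [injective_iff_map_eq_zero]
  intro p hp
  obtain ⟨q, rfl⟩ := MvPolynomial.map_surjective τ hτs p
  have h1 : κ (t.f q) = 0 := by
    have h2 : (κ.comp t.f) = (eval₂Hom ι (fun p => κ (t.f (X p))) :
        MvPolynomial (Fin d × Fin d) k →+* K).comp (MvPolynomial.map τ) := by
      apply MvPolynomial.ringHom_ext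
      · intro y
        simp [hκC]
      · intro p
        simp
    have h3 := RingHom.congr_fun h2 q
    rw [RingHom.comp_apply] at h3
    rw [h3]
    exact hp
  have h2 : q ∈ t.m.comap t.f := by
    rw [Ideal.mem_comap, ← hκ]
    exact h1
  rw [t.comap_m, MvPolynomial.mem_map_C_iff] at h2
  ext m
  rw [MvPolynomial.coeff_map, MvPolynomial.coeff_zero]
  have h3 := h2 m
  by_contra hne
  -- `τ` kills the maximal ideal
  have h5 : ¬ IsUnit (coeff m q) := (mem_maximalIdeal _).1 h3
  apply h5
  have hμ : IsUnit (D.μ (coeff m q)) := by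
    by_contra hcon
    apply hne
    have h6 : D.μ (coeff m q) ∈ maximalIdeal B := (mem_maximalIdeal _).2 hcon
    have hkerρ : RingHom.ker (ρ.comp (Ideal.Quotient.mk (Ideal.span {D.G}))) =
        maximalIdeal B := by
      apply IsLocalRing.eq_maximalIdeal
      exact RingHom.ker_isMaximal_of_surjective _
        (hρs.comp Ideal.Quotient.mk_surjective)
    have h7 : D.μ (coeff m q) ∈ RingHom.ker (ρ.comp (Ideal.Quotient.mk (Ideal.span {D.G}))) := by
      rw [hkerρ]
      exact h6
    exact h7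
  have hloc : IsLocalHom D.μ :=
    IsLocalHom.of_surjective D.μ (fun b => ⟨D.a₁ b, D.μ₁ b⟩)
  exact isUnit_of_map_unit D.μ _ hμ

end TD

section one

variable {D : RData 1 d B Γ} {T : Type u} [CommRing T] [IsRegularLocalRing T] (t : D.TD T)

theorem TD.pos_at (hLOC : LocStmtRel.{u}) [hm : t.m.IsPrime]
    [hR : IsRegularLocalRing (B ⧸ Ideal.span {D.G})]
    (hxs : Ideal.ofList D.xs = maximalIdeal (B ⧸ Ideal.span {D.G}))
    (hdR : ringKrullDim (B ⧸ Ideal.span {D.G}) = ((1 + d : ℕ) : WithBot ℕ∞))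
    (hdet : IsUnit (Matrix.det (Matrix.of fun l m => D.μ (D.β l m))))
    (P Q : Ideal (B ⧸ Ideal.span {D.G})) [P.IsPrime] [Q.IsPrime]
    (hyP : Ideal.Quotient.mk _ (D.y 0) ∉ P) (hyQ : Ideal.Quotient.mk _ (D.y 0) ∉ Q)
    (hFP : maximalIdeal (Localization.AtPrime t.m) ≤
      (P.map ((algebraMap T (Localization.AtPrime t.m)).comp t.i₁) ⊔
      Q.map ((algebraMap T (Localization.AtPrime t.m)).comp t.i₂)).radical)
    (hdims : ∀ e g : ℕ, (e : WithBot ℕ∞) ≤ Module.supportDim (B ⧸ Ideal.span {D.G})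
        ((B ⧸ Ideal.span {D.G}) ⧸ P) →
      (g : WithBot ℕ∞) ≤ Module.supportDim (B ⧸ Ideal.span {D.G})
        ((B ⧸ Ideal.span {D.G}) ⧸ Q) → e + g ≤ d + 1) :
    PosAlong ((algebraMap T (Localization.AtPrime t.m)).comp t.i₁)
      ((algebraMap T (Localization.AtPrime t.m)).comp t.i₂) (d + 1)
      ((B ⧸ Ideal.span {D.G}) ⧸ P) ((B ⧸ Ideal.span {D.G}) ⧸ Q) := by
  classical
  let R := B ⧸ Ideal.span {D.G}
  let W := Localization.AtPrime t.m
  have hWreg : IsRegularLocalRing W := isRegularLocalRing_localization T t.m W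
  let j₁ : R →+* W := (algebraMap T W).comp t.i₁
  let j₂ : R →+* W := (algebraMap T W).comp t.i₂
  have hc₁ : (maximalIdeal W).comap j₁ = maximalIdeal R := by
    rw [← Ideal.comap_comap, ← t.comap_m₁ hxs]
    exact congrArg (Ideal.comap t.i₁) Localization.AtPrime.under_maximalIdeal
  have hc₂ : (maximalIdeal W).comap j₂ = maximalIdeal R := by
    rw [← Ideal.comap_comap, ← t.comap_m₂ hxs]
    exact congrArg (Ideal.comap t.i₂) Localization.AtPrime.under_maximalIdeal
  have hl₁ : IsLocalHom j₁ := ((IsLocalRing.local_hom_TFAE j₁).out 0 4).mpr hc₁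
  have hl₂ : IsLocalHom j₂ := ((IsLocalRing.local_hom_TFAE j₂).out 0 4).mpr hc₂
  have hfW : (algebraMap T W).Flat := by
    rw [RingHom.flat_algebraMap_iff]
    exact IsLocalization.flat W t.m.primeCompl
  let x : Fin d → R := fun i => Ideal.Quotient.mk _ (D.x i)
  have hx : Ideal.span {(Ideal.Quotient.mk _ (D.y 0) : R)} ⊔ Ideal.span (Set.range x) =
      maximalIdeal R := by
    rw [← hxs, D.ofList_xs]
    congr 2
    ext r
    constructor
    · rintro rfl
      exact ⟨0, rfl⟩
    · rintro ⟨i, rfl⟩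
      rw [Subsingleton.elim i 0]
      rfl
  have hmW : ∀ y, algebraMap T W y ∈ maximalIdeal W ↔ y ∈ t.m := fun y =>
    IsLocalization.AtPrime.to_map_mem_maximal_iff _ t.m y
  have hmax₁ : (maximalIdeal R).map j₁ = maximalIdeal W := by
    rw [← Ideal.map_map, ← hxs, Ideal.map_ofList]
    exact Localization.AtPrime.map_eq_maximalIdeal
  have hmax₂ : (maximalIdeal R).map j₂ = maximalIdeal W := by
    rw [← Ideal.map_map, ← hxs, Ideal.map_ofList, ← t.m_eq_span₂]
    exact Localization.AtPrime.map_eq_maximalIdeal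
  obtain ⟨η, hη1, hη2⟩ := t.exists_η
  let θ : Fin d → Fin d → W := fun i l => (if i = l then 1 else 0) + algebraMap T W (η i l)
  have hθ : ∀ i, j₂ (x i) = ∑ l, θ i l * j₁ (x l) := by
    intro i
    change algebraMap T W (t.i₂ (Ideal.Quotient.mk _ (D.x i))) =
      ∑ l, θ i l * algebraMap T W (t.i₁ (Ideal.Quotient.mk _ (D.x l)))
    simp only [t.i₁_mk, t.i₂_mk, θ, add_mul, Finset.sum_add_distrib, ite_mul, one_mul, zero_mul,
      Finset.sum_ite_eq, Finset.mem_univ, if_true]
    rw [t.a₂_eq, map_add, hη1, map_sum]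
    simp only [map_mul]
  -- residues
  let κ : T →+* ResidueField W := (residue W).comp (algebraMap T W)
  have hκ : RingHom.ker κ = t.m := by
    ext y
    rw [RingHom.mem_ker]
    change residue W (algebraMap T W y) = 0 ↔ _
    rw [residue_eq_zero_iff, hmW]
  have hκ12 : ∀ r : R, κ (t.i₂ r) = κ (t.i₁ r) := by
    intro r
    rw [← sub_eq_zero, ← map_sub, ← RingHom.mem_ker, hκ]
    exact t.sub_mem_m r
  have hκC : ∀ y : Γ, κ (t.f (C y)) = κ (t.i₁ (Ideal.Quotient.mk _ (D.μ y))) := by
    intro y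
    rw [← sub_eq_zero, ← map_sub, ← RingHom.mem_ker, hκ]
    exact t.fC_sub_mem y
  have hres : ResidueField.map j₁ = ResidueField.map j₂ := by
    apply RingHom.ext
    intro a
    obtain ⟨r, rfl⟩ := residue_surjective a
    rw [ResidueField.map_residue, ResidueField.map_residue]
    exact (hκ12 r).symm
  have hκR : ∀ y : Γ, κ (t.f (C y)) = ResidueField.map j₁
      (residue R (Ideal.Quotient.mk _ (D.μ y))) := by
    intro y
    rw [hκC, ResidueField.map_residue]
    rfl
  have hdR' : ringKrullDim R = ((d + 1 : ℕ) : WithBot ℕ∞) := by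
    rw [hdR, add_comm 1 d]
  refine hLOC R W j₁ j₂ (t.flat₁.comp hfW) (t.flat₂.comp hfW) d hdR'
    (by
      rw [IsLocalization.AtPrime.ringKrullDim_eq_height t.m W, t.height_m, add_comm 1 d]
      rfl) (Ideal.Quotient.mk _ (D.y 0)) x hx hmax₁ hmax₂ ?_ hres θ hθ ?_ P Q hyP hyQ hFP hdims
  · change algebraMap T W (t.i₁ _) = algebraMap T W (t.i₂ _)
    rw [t.i₂_y]
  · refine ⟨fun p => κ (t.f (X p)), fun l m => residue R (Ideal.Quotient.mk _ (D.μ (D.β l m))),
      fun l m => residue R (Ideal.Quotient.mk _ (D.μ (D.γ l m))), ?_, ?_, ?_⟩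
    · exact t.injective_eval (ResidueField.map j₁) κ hκ (residue R) residue_surjective
        (fun r => ResidueField.map_residue j₁ r)
    · have h1 := (hdet.map (Ideal.Quotient.mk (Ideal.span {D.G}))).map (residue R)
      rw [RingHom.map_det, RingHom.map_det] at h1
      exact h1
    · have h1 : ∀ i m, residue W (θ i m) - (if i = m then 1 else 0) = κ (η i m) := by
        intro i m
        change residue W ((if i = m then 1 else 0) + algebraMap T W (η i m)) - _ = _
        rw [map_add]
        have h2 : residue W (if i = m then (1 : W) else 0) = if i = m then 1 else 0 := by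
          split_ifs <;> simp
        rw [h2, add_sub_cancel_left]
        rfl
      intro i m
      simp only [h1]
      rw [hη2, map_sum]
      refine Finset.sum_congr rfl fun l _ => ?_
      rw [map_mul, map_sub, map_add, map_sum, hκR]
      simp only [map_mul, hκR]

end one

end RData

end Vale.Agent.P177
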