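import Vale.Agent.P177.EQuotB

/-!
Devissage to pairs of prime cyclic modules.
-/

namespace Vale.Agent.P177

open CategoryTheory TensorProduct Function IsLocalRing RingTheory.Sequence

universe u

/-- Devissage to prime cyclic modules in the first variable. -/
theorem sp_dev {R : Type u} [CommRing R] [IsRegularLocalRing R] {d : ℕ}
    (hd : ringKrullDim R = d) (M N : Type u) [AddCommGroup M] [Module R M] [Module.Finite R M]
    [AddCommGroup N] [Module R N] [Module.Finite R N]
    (hlen : Module.length R (M ⊗[R] N) ≠ ⊤)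
    (h : ∀ P : Ideal R, P.IsPrime → Module.annihilator R M ≤ P → SP R d (R ⧸ P) N) :
    SP R d M N := by
  refine IsNoetherianRing.induction_on_isQuotientEquivQuotientPrime R (M := M) inferInstance
    (motive := fun X => Module.annihilator R M ≤ Module.annihilator R X → SP R d X N)
    ?_ ?_ ?_ le_rfl
  · intro X _ _ _ hX _
    exact SP.of_subsingleton hX
  · intro X _ _ _ q e hle
    refine SP.congr e.symm (LinearEquiv.refl R N) (h q.1 q.2 ?_)
    rw [e.annihilator_eq, Ideal.annihilator_quotient] at hle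
    exact hle
  · intro X₁ _ _ _ X₂ _ _ _ X₃ _ _ _ i g hi hg hex h1 h3 hle
    refine SP.of_exact hd i g hi hg hex ?_ (h1 ?_) (h3 ?_)
    · exact length_tensor_ne_top_of_annihilator_le M X₂ N hlen hle
    · exact hle.trans (LinearMap.annihilator_le_of_injective i hi)
    · exact hle.trans (LinearMap.annihilator_le_of_surjective g hg)

/-- Devissage to prime cyclic modules in both variables. -/
theorem sp_dev₂ {R : Type u} [CommRing R] [IsRegularLocalRing R] {d : ℕ}
    (hd : ringKrullDim R = d) (M N : Type u) [AddCommGroup M] [Module R M] [Module.Finite R M]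
    [AddCommGroup N] [Module R N] [Module.Finite R N]
    (hlen : Module.length R (M ⊗[R] N) ≠ ⊤)
    (h : ∀ P Q : Ideal R, P.IsPrime → Q.IsPrime → Module.annihilator R M ≤ P →
      Module.annihilator R N ≤ Q → Module.length R ((R ⧸ P) ⊗[R] (R ⧸ Q)) ≠ ⊤ →
      SP R d (R ⧸ P) (R ⧸ Q)) :
    SP R d M N := by
  refine sp_dev hd M N hlen fun P hP hle => ?_
  have h1 : Module.length R ((R ⧸ P) ⊗[R] N) ≠ ⊤ :=
    length_tensor_ne_top_of_annihilator_le M (R ⧸ P) N hlen (by
      rw [Ideal.annihilator_quotient]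
      exact hle)
  have h2 : Module.length R (N ⊗[R] (R ⧸ P)) ≠ ⊤ := by
    rw [(TensorProduct.comm R N (R ⧸ P)).length_eq]
    exact h1
  refine (sp_dev hd N (R ⧸ P) h2 fun Q hQ hleQ => ?_).symm
  have h3 : Module.length R ((R ⧸ Q) ⊗[R] (R ⧸ P)) ≠ ⊤ :=
    length_tensor_ne_top_of_annihilator_le N (R ⧸ Q) (R ⧸ P) h2 (by
      rw [Ideal.annihilator_quotient]
      exact hleQ)
  refine (h P Q hP hQ hle hleQ ?_).symm
  rw [(TensorProduct.comm R (R ⧸ P) (R ⧸ Q)).length_eq]
  exact h3

/-- A prime cyclic module killed by the kernel of a surjection to a regular ring on which Serre's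
statements hold. -/
theorem sp_of_quotient {R R' : Type u} [CommRing R] [IsRegularLocalRing R] [CommRing R']
    [IsRegularLocalRing R'] {d d' : ℕ}
    (hd : ringKrullDim R = d) (hd' : ringKrullDim R' = d') (ψ : R →+* R') (hψ : Surjective ψ)
    (hall : SerreAll R' d') (P : Ideal R) (hP : RingHom.ker ψ ≤ P)
    (N : Type u) [AddCommGroup N] [Module R N] [Module.Finite R N]
    (hlen : Module.length R ((R ⧸ P) ⊗[R] N) ≠ ⊤) : SP R d (R ⧸ P) N := by
  let _ : Algebra R R' := ψ.toAlgebra
  let M := R' ⧸ P.map ψ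
  have hker' : RingHom.ker ((Ideal.Quotient.mk (P.map ψ)).comp ψ) = P := by
    ext x
    rw [RingHom.mem_ker, RingHom.comp_apply, Ideal.Quotient.eq_zero_iff_mem]
    constructor
    · intro hx
      obtain ⟨y, hy, hyx⟩ := (Ideal.mem_map_iff_of_surjective ψ hψ).1 hx
      have h1 : x - y ∈ RingHom.ker ψ := by
        rw [RingHom.mem_ker, map_sub, hyx, sub_self]
      have h2 := Ideal.add_mem _ (hP h1) hy
      rwa [sub_add_cancel] at h2
    · intro hx
      exact Ideal.mem_map_of_mem _ hx
  have hlin : LinearMap.ker (Algebra.linearMap R M) = P := by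
    ext x
    rw [LinearMap.mem_ker, Algebra.linearMap_apply]
    exact (SetLike.ext_iff.1 hker' x)
  have hsurj : Surjective (Algebra.linearMap R M) :=
    Ideal.Quotient.mk_surjective.comp hψ
  let e : (R ⧸ P) ≃ₗ[R] M :=
    (Submodule.quotEquivOfEq _ _ hlin.symm) ≪≫ₗ
      (Algebra.linearMap R M).quotKerEquivOfSurjective hsurj
  refine SP.congr e.symm (LinearEquiv.refl R N) ?_
  refine serre_of_regular_quotient hψ hd hd' M (fun N' _ _ _ hl => hall M N' hl) N ?_
  rw [← (TensorProduct.congr e (LinearEquiv.refl R N)).length_eq]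
  exact hlen

end Vale.Agent.P177
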