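import Vale.Agent.P177.K3
import Vale.Agent.P177.KDev
import Vale.Agent.P177.DGe

/-!
Relative version: Serre's statements for pairs of prime cyclic modules.
-/

namespace Vale.Agent.P177

open CategoryTheory TensorProduct Function IsLocalRing RingTheory.Sequence Pointwise

universe u

theorem global_pos_primes_aux {R₁ R₂ T : Type u} [CommRing R₁] [CommRing R₂] [CommRing T]
    [IsRegularLocalRing R₁] [IsRegularLocalRing R₂] [IsRegularLocalRing T]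
    [Algebra R₁ T] [Algebra R₂ T] [Module.Flat R₁ T] [Module.Flat R₂ T]
    (μ : T →+* R₁) (hμ : ∀ s, μ (algebraMap R₁ T s) = s) (z : List T)
    (hkerμ : RingHom.ker μ = Ideal.ofList z) (hz : IsWeaklyRegular T z)
    (θ : R₂ ≃+* R₁) (hθ : ∀ s, μ (algebraMap R₂ T s) = θ s)
    (d : ℕ) (hd : ringKrullDim R₁ = d)
    (P : Ideal R₂) [hP : P.IsPrime] (Q : Ideal R₁) [hQp : Q.IsPrime] [Module R₂ (R₁ ⧸ Q)]
    (𝔪 : Ideal T) [𝔪.IsPrime] (h𝔪₁ : 𝔪.comap (algebraMap R₁ T) = maximalIdeal R₁)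
    (h𝔪₂ : 𝔪.comap (algebraMap R₂ T) = maximalIdeal R₂)
    (hdW : ringKrullDim (Localization.AtPrime 𝔪) = d)
    (hex : ∀ (Q' : Ideal T) [Q'.IsPrime], Q.map (algebraMap R₁ T) ≤ Q' →
      P.map (algebraMap R₂ T) ≤ Q' → 𝔪 ≤ Q' ∨
      ∀ (r₁ r₂ q : ℕ), (Q'.comap (algebraMap R₁ T)).height = r₁ →
      (Q'.comap (algebraMap R₂ T)).height = r₂ → Q'.height = q → r₁ + r₂ ≤ q + 4)
    (hW : maximalIdeal (Localization.AtPrime 𝔪) ≤ (Q.map
        ((algebraMap T (Localization.AtPrime 𝔪)).comp (algebraMap R₁ T)) ⊔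
        P.map ((algebraMap T (Localization.AtPrime 𝔪)).comp (algebraMap R₂ T))).radical →
      PosAlong ((algebraMap T (Localization.AtPrime 𝔪)).comp (algebraMap R₁ T))
        ((algebraMap T (Localization.AtPrime 𝔪)).comp (algebraMap R₂ T)) d (R₁ ⧸ Q) (R₂ ⧸ P))
    (hN : ∀ (s : R₂) (t : R₁ ⧸ Q), s • t = θ s • t)
    (hlen : Module.length R₂ ((R₂ ⧸ P) ⊗[R₂] (R₁ ⧸ Q)) ≠ ⊤) :
    0 ≤ eulerTor R₂ (d + 1) (R₂ ⧸ P) (R₁ ⧸ Q) ∧ ∀ m n : ℕ,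
      (m : WithBot ℕ∞) ≤ Module.supportDim R₂ (R₂ ⧸ P) →
      (n : WithBot ℕ∞) ≤ Module.supportDim R₁ (R₁ ⧸ Q) →
      (m + n ≤ d) ∧ (d ≤ m + n → 0 < eulerTor R₂ (d + 1) (R₂ ⧸ P) (R₁ ⧸ Q)) := by
  have hd₂ : ringKrullDim R₂ = d := by rw [ringKrullDim_eq_of_ringEquiv θ, hd]
  have hQne := hQp.ne_top
  have hPne := hP.ne_top
  have key : ∀ (Q' : Ideal T) [Q'.IsPrime], Q' ∈ (Q.map (algebraMap R₁ T) ⊔
      P.map (algebraMap R₂ T)).minimalPrimes →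
      LocPosAt (T := T) R₁ R₂ (R₁ ⧸ Q) (R₂ ⧸ P) Q' := by
    intro Q' _ hQ'
    have hQ1 := le_sup_left.trans hQ'.1.2
    have hQ2 := le_sup_right.trans hQ'.1.2
    rcases hex Q' hQ1 hQ2 with h | h
    · have hle : Q.map (algebraMap R₁ T) ⊔ P.map (algebraMap R₂ T) ≤ 𝔪 := by
        refine sup_le ?_ ?_
        · rw [Ideal.map_le_iff_le_comap, h𝔪₁]
          exact le_maximalIdeal hQne
        · rw [Ideal.map_le_iff_le_comap, h𝔪₂]
          exact le_maximalIdeal hPne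
      have heq : Q' = 𝔪 := le_antisymm (hQ'.2 ⟨‹_›, hle⟩ h) h
      subst heq
      refine locPosAt_top' (R₁ ⧸ Q) (R₂ ⧸ P) Q' h𝔪₁ h𝔪₂ d hd hd₂ hdW (hW ?_)
      have h3 := maximalIdeal_le_radical_of_minimal _ Q' hQ'
      rwa [Ideal.map_sup, Ideal.map_map, Ideal.map_map] at h3
    · exact locPosAt_of_locPos 4 locPos_four _ _ Q' h
  refine global_pos_of_loc μ hμ z hkerμ hz θ hθ d hd (R₂ ⧸ P) (R₁ ⧸ Q) ?_ ?_ hN hlen
  · intro Q' _ hQ'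
    rw [Ideal.annihilator_quotient, Ideal.annihilator_quotient] at hQ'
    exact key Q' hQ'
  · intro p₁ p₂ hp₁ hp₂ Q' _ hQ'
    rw [Ideal.annihilator_quotient] at hp₁ hp₂
    have e₁ : p₁.asIdeal = Q := le_antisymm (hp₁.2 ⟨hQp, le_rfl⟩ hp₁.1.2) hp₁.1.2
    have e₂ : p₂.asIdeal = P := le_antisymm (hp₂.2 ⟨hP, le_rfl⟩ hp₂.1.2) hp₂.1.2
    rw [e₁, e₂] at hQ'
    obtain ⟨p₁, hp₁p⟩ := p₁
    obtain ⟨p₂, hp₂p⟩ := p₂
    simp only at e₁ e₂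
    subst e₁ e₂
    exact key Q' hQ'

/-- The same with ring homomorphisms. -/
theorem global_pos_primes {R₁ R₂ T : Type u} [CommRing R₁] [CommRing R₂] [CommRing T]
    [IsRegularLocalRing R₁] [IsRegularLocalRing R₂] [IsRegularLocalRing T]
    (i₁ : R₁ →+* T) (i₂ : R₂ →+* T) (f₁ : i₁.Flat) (f₂ : i₂.Flat)
    (μ : T →+* R₁) (hμ : ∀ s, μ (i₁ s) = s) (z : List T)
    (hkerμ : RingHom.ker μ = Ideal.ofList z) (hz : IsWeaklyRegular T z)
    (θ : R₂ ≃+* R₁) (hθ : ∀ s, μ (i₂ s) = θ s)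
    (d : ℕ) (hd : ringKrullDim R₁ = d)
    (P : Ideal R₂) [hP : P.IsPrime] (Q : Ideal R₁) [hQp : Q.IsPrime] [Module R₂ (R₁ ⧸ Q)]
    (𝔪 : Ideal T) [𝔪.IsPrime] (h𝔪₁ : 𝔪.comap i₁ = maximalIdeal R₁)
    (h𝔪₂ : 𝔪.comap i₂ = maximalIdeal R₂)
    (hdW : ringKrullDim (Localization.AtPrime 𝔪) = d)
    (hex : ∀ (Q' : Ideal T) [Q'.IsPrime], Q.map i₁ ≤ Q' →
      P.map i₂ ≤ Q' → 𝔪 ≤ Q' ∨
      ∀ (r₁ r₂ q : ℕ), (Q'.comap i₁).height = r₁ →
      (Q'.comap i₂).height = r₂ → Q'.height = q → r₁ + r₂ ≤ q + 4)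
    (hW : maximalIdeal (Localization.AtPrime 𝔪) ≤ (Q.map
        ((algebraMap T (Localization.AtPrime 𝔪)).comp i₁) ⊔
        P.map ((algebraMap T (Localization.AtPrime 𝔪)).comp i₂)).radical →
      PosAlong ((algebraMap T (Localization.AtPrime 𝔪)).comp i₁)
        ((algebraMap T (Localization.AtPrime 𝔪)).comp i₂) d (R₁ ⧸ Q) (R₂ ⧸ P))
    (hN : ∀ (s : R₂) (t : R₁ ⧸ Q), s • t = θ s • t)
    (hlen : Module.length R₂ ((R₂ ⧸ P) ⊗[R₂] (R₁ ⧸ Q)) ≠ ⊤) :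
    0 ≤ eulerTor R₂ (d + 1) (R₂ ⧸ P) (R₁ ⧸ Q) ∧ ∀ m n : ℕ,
      (m : WithBot ℕ∞) ≤ Module.supportDim R₂ (R₂ ⧸ P) →
      (n : WithBot ℕ∞) ≤ Module.supportDim R₁ (R₁ ⧸ Q) →
      (m + n ≤ d) ∧ (d ≤ m + n → 0 < eulerTor R₂ (d + 1) (R₂ ⧸ P) (R₁ ⧸ Q)) := by
  let _ : Algebra R₁ T := i₁.toAlgebra
  let _ : Algebra R₂ T := i₂.toAlgebra
  have : Module.Flat R₁ T := f₁
  have : Module.Flat R₂ T := f₂
  exact global_pos_primes_aux μ hμ z hkerμ hz θ hθ d hd P Q 𝔪 h𝔪₁ h𝔪₂ hdW hex hW hN hlen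

namespace RData

theorem isHypersurface {s d : ℕ} {B Γ : Type u} [CommRing B] [IsRegularLocalRing B] [CommRing Γ]
    [IsRegularLocalRing Γ] (D : RData s d B Γ)
    (hdR : ringKrullDim (B ⧸ Ideal.span {D.G}) = ((s + d : ℕ) : WithBot ℕ∞)) :
    IsHypersurface B (B ⧸ Ideal.span {D.G}) D.G := by
  have hdom : IsDomain B := regular_isDomain B
  have hne : D.G ≠ 0 := by
    intro h0
    have h1 : Function.Injective (Ideal.Quotient.mk (Ideal.span {D.G})) := by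
      rw [RingHom.injective_iff_ker_eq_bot, Ideal.mk_ker, h0]
      exact Ideal.span_singleton_eq_bot.2 rfl
    have e : B ≃+* B ⧸ Ideal.span {D.G} :=
      RingEquiv.ofBijective _ ⟨h1, Ideal.Quotient.mk_surjective⟩
    have h2 := ringKrullDim_eq_of_ringEquiv e
    rw [hdR, D.dimB] at h2
    have h3 : s + d + 1 = s + d := by exact_mod_cast h2
    omega
  refine ⟨?_, Ideal.Quotient.mk_surjective, Ideal.mk_ker⟩
  intro a b hab
  exact mul_left_cancel₀ hne hab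

variable {d : ℕ} {B Γ : Type u} [CommRing B] [IsRegularLocalRing B] [CommRing Γ]
  [IsRegularLocalRing Γ]

/-- Serre's statements for a pair of primes which do not contain the fixed parameter. -/
theorem sp_primes (hLOC : LocStmtRel.{u}) (D : RData 1 d B Γ) (hB : SerreAll B (1 + d + 1))
    (hdet : IsUnit (Matrix.det (Matrix.of fun l m => D.μ (D.β l m))))
    (P Q : Ideal (B ⧸ Ideal.span {D.G})) [hPp : P.IsPrime] [hQp : Q.IsPrime]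
    (hyP : Ideal.Quotient.mk _ (D.y 0) ∉ P) (hyQ : Ideal.Quotient.mk _ (D.y 0) ∉ Q)
    (hlen : Module.length (B ⧸ Ideal.span {D.G}) (((B ⧸ Ideal.span {D.G}) ⧸ P)
      ⊗[B ⧸ Ideal.span {D.G}] ((B ⧸ Ideal.span {D.G}) ⧸ Q)) ≠ ⊤) :
    SP (B ⧸ Ideal.span {D.G}) (1 + d) ((B ⧸ Ideal.span {D.G}) ⧸ P)
      ((B ⧸ Ideal.span {D.G}) ⧸ Q) := by
  obtain ⟨hR, hxs, hdR⟩ := D.quot_regular
  obtain ⟨T, _, _, ⟨t⟩⟩ := D.exists_TD
  have hm := t.m_prime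
  have H := D.isHypersurface hdR
  refine global_pos_primes t.i₁ t.i₂ t.flat₁ t.flat₂ t.ν t.ν_i₁ t.z t.ker_ν t.z_regular
    (RingEquiv.refl _) (fun s => t.ν_i₂ s) (1 + d) hdR P Q t.m (t.comap_m₁ hxs) (t.comap_m₂ hxs)
    ?_ ?_ ?_ (fun s t => rfl) hlen
  · rw [IsLocalization.AtPrime.ringKrullDim_eq_height t.m, t.height_m]
    rfl
  · intro Q' hQ' h1 h2
    by_cases hu : ∀ j, t.f (MvPolynomial.C (D.u j)) ∈ Q'
    · left
      obtain ⟨k, hk⟩ := exists_pow_le_sup_annihilator _ _ hlen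
      rw [Ideal.annihilator_quotient, Ideal.annihilator_quotient] at hk
      refine t.m_le_of_u_mem hxs Q P ?_ Q' h1 h2 hu
      intro a ha
      refine ⟨k, ?_⟩
      rw [sup_comm]
      exact hk (Ideal.pow_mem_pow ha k)
    · right
      push Not at hu
      obtain ⟨j, hj⟩ := hu
      intro r₁ r₂ q hr₁ hr₂ hq
      have := t.height_le Q' j hj r₁ r₂ q hr₁ hr₂ hq
      omega
  · intro hFP
    have h1 := t.pos_at hLOC hxs hdR hdet Q P hyQ hyP hFP (by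
      intro e g he hg
      have := dimension_inequality_hypersurface H (1 + d) D.dimB hdR hB _ _ hlen g e hg he
      omega)
    rw [add_comm 1 d]
    exact h1

end RData

end Vale.Agent.P177
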