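import Vale.Agent.P177.K1
import Vale.Agent.P177.DPoly

/-!
The data attached to a quadratic hypersurface in a power series ring over a regular local ring.
-/

namespace Vale.Agent.P177

open TensorProduct IsLocalRing RingTheory.Sequence Function

universe u

section mk

variable (L : Type u) [CommRing L] [IsRegularLocalRing L] (f : L) (d : ℕ)
  (c : Fin d → Fin d → MvPowerSeries (Fin d) L)

theorem exists_RData {s : ℕ} (y : Fin s → L)
    (hf : maximalIdeal L = Ideal.span {f} ⊔ Ideal.span (Set.range y))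
    (hL : ringKrullDim L = ((s + 1 : ℕ) : WithBot ℕ∞)) :
    ∃ (_ : IsRegularLocalRing (MvPowerSeries (Fin d) L))
      (_ : IsRegularLocalRing (MvPowerSeries (Fin d ⊕ Fin d) L))
      (D : RData s d (MvPowerSeries (Fin d) L) (MvPowerSeries (Fin d ⊕ Fin d) L)),
      D.G = quadEq L f d c ∧ D.x = MvPowerSeries.X ∧ (D.y = fun i => MvPowerSeries.C (y i)) ∧
      ∀ l m, D.μ (D.β l m) - polarMatrix L d c l m ∈
        maximalIdeal (MvPowerSeries (Fin d) L) := by
  obtain ⟨hregB, hdimB⟩ := mvPowerSeries_regular (A := L) d (Equiv.refl (Fin d)) hL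
  obtain ⟨hregΓ, hdimΓ⟩ :=
    mvPowerSeries_regular (A := L) (d + d) (finSumFinEquiv (m := d) (n := d)) hL
  let a₁ : MvPowerSeries (Fin d) L →+* MvPowerSeries (Fin d ⊕ Fin d) L :=
    (MvPowerSeries.rename (R := L) (Embedding.inl : Fin d ↪ Fin d ⊕ Fin d)).toRingHom
  let a₂ : MvPowerSeries (Fin d) L →+* MvPowerSeries (Fin d ⊕ Fin d) L :=
    (MvPowerSeries.rename (R := L) (Embedding.inr : Fin d ↪ Fin d ⊕ Fin d)).toRingHom
  let μ : MvPowerSeries (Fin d ⊕ Fin d) L →+* MvPowerSeries (Fin d) L :=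
    (MvPowerSeries.rename (R := L) (Sum.elim id id : Fin d ⊕ Fin d → Fin d)).toRingHom
  have hμ₁ : ∀ b, μ (a₁ b) = b := by
    intro p
    change MvPowerSeries.rename (Sum.elim id id) (MvPowerSeries.rename
      (Function.Embedding.inl : Fin d ↪ Fin d ⊕ Fin d) p) = p
    rw [MvPowerSeries.rename_rename]
    exact MvPowerSeries.rename_id_apply p
  have hμ₂ : ∀ b, μ (a₂ b) = b := by
    intro p
    change MvPowerSeries.rename (Sum.elim id id) (MvPowerSeries.rename
      (Function.Embedding.inr : Fin d ↪ Fin d ⊕ Fin d) p) = p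
    rw [MvPowerSeries.rename_rename]
    exact MvPowerSeries.rename_id_apply p
  have hX₁ : ∀ i, a₁ (MvPowerSeries.X i) = MvPowerSeries.X (Sum.inl i) := fun i =>
    MvPowerSeries.rename_X _ _
  have hX₂ : ∀ i, a₂ (MvPowerSeries.X i) = MvPowerSeries.X (Sum.inr i) := fun i =>
    MvPowerSeries.rename_X _ _
  have hC₁ : ∀ v, a₁ (MvPowerSeries.C v) = MvPowerSeries.C v := fun v =>
    MvPowerSeries.rename_C _ _
  have hC₂ : ∀ v, a₂ (MvPowerSeries.C v) = MvPowerSeries.C v := fun v =>
    MvPowerSeries.rename_C _ _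
  have hdiag : ∀ b, a₂ b - a₁ b ∈ Ideal.span (Set.range fun i =>
      a₂ (MvPowerSeries.X i) - a₁ (MvPowerSeries.X i)) := by
    intro b
    have h1 : a₂ b - a₁ b ∈ RingHom.ker μ := by
      rw [RingHom.mem_ker, map_sub, hμ₁, hμ₂, sub_self]
    rw [ker_rename_elim, ofList_diagListGen] at h1
    have h2 : Ideal.span (Set.range (fun j : Fin d =>
        (MvPowerSeries.X (Sum.inl j) - MvPowerSeries.X (Sum.inr j) :
        MvPowerSeries (Fin d ⊕ Fin d) L))) ≤ Ideal.span (Set.range fun i =>
          a₂ (MvPowerSeries.X i) - a₁ (MvPowerSeries.X i)) := by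
      rw [Ideal.span_le]
      rintro _ ⟨i, rfl⟩
      rw [SetLike.mem_coe, ← neg_mem_iff, neg_sub, ← hX₁, ← hX₂]
      exact Ideal.subset_span ⟨i, rfl⟩
    exact h2 h1
  obtain ⟨w, hw1, hw2⟩ := exists_polar a₁ a₂ MvPowerSeries.X c hdiag
  let yB : Fin s → MvPowerSeries (Fin d) L := fun i => MvPowerSeries.C (y i)
  have hmaxB : maximalIdeal (MvPowerSeries (Fin d) L) = Ideal.span {MvPowerSeries.C f} ⊔
      (Ideal.span (Set.range yB) ⊔ Ideal.span (Set.range MvPowerSeries.X)) := by
    rw [mvPowerSeries_maximalIdeal_gen, hf, Ideal.map_sup, Ideal.map_span, Set.image_singleton,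
      Ideal.map_span, ← Set.range_comp, sup_assoc]
    rfl
  have hgX : ∑ i, ∑ j, MvPowerSeries.X i * c i j * MvPowerSeries.X j ∈
      (Ideal.span (Set.range MvPowerSeries.X) : Ideal (MvPowerSeries (Fin d) L)) :=
    Ideal.sum_mem _ fun i _ => Ideal.sum_mem _ fun j _ =>
      Ideal.mul_mem_left _ _ (Ideal.subset_span ⟨j, rfl⟩)
  let β : Matrix (Fin d) (Fin d) (MvPowerSeries (Fin d ⊕ Fin d) L) := fun l m =>
    a₂ (c l m) + a₂ (c m l) + w l m
  have hβ : ∀ l m, μ (β l m) - polarMatrix L d c l m ∈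
      maximalIdeal (MvPowerSeries (Fin d) L) := by
    intro l m
    have h1 : μ (β l m) - polarMatrix L d c l m = μ (w l m) := by
      change μ (a₂ (c l m) + a₂ (c m l) + w l m) - (c l m + c m l) = _
      rw [map_add μ, map_add μ, hμ₂, hμ₂]
      ring
    rw [h1, hmaxB]
    apply Ideal.mem_sup_right
    apply Ideal.mem_sup_right
    have h3 : Ideal.span (Set.range fun i => a₁ (MvPowerSeries.X i)) ≤
        (Ideal.span (Set.range MvPowerSeries.X) :
          Ideal (MvPowerSeries (Fin d) L)).comap μ := by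
      rw [Ideal.span_le]
      rintro _ ⟨i, rfl⟩
      rw [SetLike.mem_coe, Ideal.mem_comap, hμ₁]
      exact Ideal.subset_span ⟨i, rfl⟩
    exact h3 (hw1 l m)
  refine ⟨hregB, hregΓ, {
    a₁ := a₁
    a₂ := a₂
    μ := μ
    μ₁ := hμ₁
    μ₂ := hμ₂
    y := yB
    hy := fun i => by
      change a₂ (MvPowerSeries.C (y i)) = a₁ (MvPowerSeries.C (y i))
      rw [hC₁, hC₂]
    x := MvPowerSeries.X
    G := quadEq L f d c
    u := fun l => ∑ m, (a₂ (c l m) + a₂ (c m l) + w l m) * a₁ (MvPowerSeries.X m) +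
          ∑ m, a₂ (c l m) * (a₂ (MvPowerSeries.X m) - a₁ (MvPowerSeries.X m))
    β := β
    γ := fun l m => a₂ (c l m)
    dimB := by rw [hdimB]; congr 1; omega
    dimΓ := by rw [hdimΓ]; congr 1; omega
    maxB := ?_
    maxΓ := ?_
    hG := ?_
    hu := fun i => rfl
    diag := hdiag }, rfl, rfl, rfl, hβ⟩
  · rw [hmaxB]
    apply le_antisymm
    · refine sup_le ?_ le_sup_right
      rw [Ideal.span_singleton_le_iff_mem]
      have h1 : MvPowerSeries.C f = quadEq L f d c +
          ∑ i, ∑ j, MvPowerSeries.X i * c i j * MvPowerSeries.X j := by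
        rw [quadEq, sub_add_cancel]
      rw [h1]
      exact Ideal.add_mem _ (Ideal.mem_sup_left (Ideal.subset_span rfl))
        (Ideal.mem_sup_right (Ideal.mem_sup_right hgX))
    · refine sup_le ?_ le_sup_right
      rw [Ideal.span_singleton_le_iff_mem, quadEq]
      exact Ideal.sub_mem _ (Ideal.mem_sup_left (Ideal.subset_span rfl))
        (Ideal.mem_sup_right (Ideal.mem_sup_right hgX))
  · have hg₁ : a₁ (∑ i, ∑ j, MvPowerSeries.X i * c i j * MvPowerSeries.X j) ∈
        Ideal.span (Set.range fun i => a₁ (MvPowerSeries.X i)) := by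
      rw [map_sum]
      refine Ideal.sum_mem _ fun i _ => ?_
      rw [map_sum]
      refine Ideal.sum_mem _ fun j _ => ?_
      rw [map_mul]
      exact Ideal.mul_mem_left _ _ (Ideal.subset_span ⟨j, rfl⟩)
    have hyC : ∀ i, a₁ (yB i) = MvPowerSeries.C (y i) := fun i => hC₁ _
    rw [mvPowerSeries_maximalIdeal_gen, hf, Ideal.map_sup, Ideal.map_span, Set.image_singleton,
      Ideal.map_span, ← Set.range_comp]
    have hyr : Ideal.span (Set.range (MvPowerSeries.C ∘ y : Fin s →
        MvPowerSeries (Fin d ⊕ Fin d) L)) = Ideal.span (Set.range fun i => a₁ (yB i)) := by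
      congr 2
      funext i
      exact (hyC i).symm
    rw [hyr]
    apply le_antisymm
    · refine sup_le (sup_le ?_ ?_) ?_
      · rw [Ideal.span_singleton_le_iff_mem]
        have h1 : MvPowerSeries.C f = a₁ (quadEq L f d c) +
            a₁ (∑ i, ∑ j, MvPowerSeries.X i * c i j * MvPowerSeries.X j) := by
          rw [← map_add, quadEq, sub_add_cancel, hC₁]
        rw [h1]
        exact Ideal.mem_sup_left (Ideal.add_mem _ (Ideal.mem_sup_left (Ideal.subset_span rfl))
          (Ideal.mem_sup_right (Ideal.mem_sup_right hg₁)))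
      · exact (le_sup_left.trans le_sup_right).trans le_sup_left
      · rw [Ideal.span_le]
        rintro _ ⟨i | i, rfl⟩
        · rw [SetLike.mem_coe, ← hX₁]
          exact Ideal.mem_sup_left (Ideal.mem_sup_right (Ideal.mem_sup_right
            (Ideal.subset_span ⟨i, rfl⟩)))
        · rw [SetLike.mem_coe, ← hX₂]
          have h1 : a₂ (MvPowerSeries.X i) = a₁ (MvPowerSeries.X i) +
              (a₂ (MvPowerSeries.X i) - a₁ (MvPowerSeries.X i)) := by ring
          rw [h1]
          exact Ideal.add_mem _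
            (Ideal.mem_sup_left (Ideal.mem_sup_right (Ideal.mem_sup_right
              (Ideal.subset_span ⟨i, rfl⟩))))
            (Ideal.mem_sup_right (Ideal.subset_span ⟨i, rfl⟩))
    · have hle : Ideal.span (Set.range fun i => a₁ (MvPowerSeries.X i)) ≤
          (Ideal.span {MvPowerSeries.C f} ⊔ Ideal.span (Set.range fun i => a₁ (yB i)) ⊔
            Ideal.span (Set.range MvPowerSeries.X) :
            Ideal (MvPowerSeries (Fin d ⊕ Fin d) L)) := by
        rw [Ideal.span_le]
        rintro _ ⟨i, rfl⟩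
        simp only [hX₁]
        exact Ideal.mem_sup_right (Ideal.subset_span ⟨_, rfl⟩)
      refine sup_le (sup_le ?_ (sup_le ?_ hle)) ?_
      · rw [Ideal.span_singleton_le_iff_mem, quadEq, map_sub, hC₁]
        exact Ideal.sub_mem _ (Ideal.mem_sup_left (Ideal.mem_sup_left (Ideal.subset_span rfl)))
          (hle hg₁)
      · exact le_sup_right.trans le_sup_left
      · rw [Ideal.span_le]
        rintro _ ⟨i, rfl⟩
        simp only [hX₁, hX₂]
        exact Ideal.sub_mem _ (Ideal.mem_sup_right (Ideal.subset_span ⟨_, rfl⟩))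
          (Ideal.mem_sup_right (Ideal.subset_span ⟨_, rfl⟩))
  · rw [quadEq, map_sub, map_sub, hC₁, hC₂]
    rw [← hw2]
    ring

end mk

end Vale.Agent.P177
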