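import Vale.Agent.P177.K4
import Vale.Agent.P177.K5
import Vale.Agent.P177.DGg

/-!
Serre's statements over a quadratic hypersurface in a power series ring over a regular local ring
of dimension two.
-/

namespace Vale.Agent.P177

open CategoryTheory TensorProduct IsLocalRing RingTheory.Sequence Function

universe u

/-- The quadratic hypersurface over a regular local ring `L` with parameters `f`, `y`. -/
theorem relQuad_regular (L : Type u) [CommRing L] [IsRegularLocalRing L] (f : L) {s : ℕ}
    (y : Fin s → L) (hf : maximalIdeal L = Ideal.span {f} ⊔ Ideal.span (Set.range y))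
    (hL : ringKrullDim L = ((s + 1 : ℕ) : WithBot ℕ∞)) (r : ℕ)
    (c : Fin r → Fin r → MvPowerSeries (Fin r) L) :
    ∃ (_ : IsRegularLocalRing (QuadRing L f r c)),
    Ideal.span (Set.range (fun i => (Ideal.Quotient.mk _ (MvPowerSeries.C (y i)) :
        QuadRing L f r c))) ⊔
      Ideal.span (Set.range (fun i => (Ideal.Quotient.mk _ (MvPowerSeries.X i) :
        QuadRing L f r c))) = maximalIdeal (QuadRing L f r c) ∧
    ringKrullDim (QuadRing L f r c) = ((s + r : ℕ) : WithBot ℕ∞) := by
  obtain ⟨h1, h2, D, hG, hx, hy, -⟩ := exists_RData L f r c y hf hL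
  have key : ∀ (g : MvPowerSeries (Fin r) L) (x : Fin r → MvPowerSeries (Fin r) L)
      (z : Fin s → MvPowerSeries (Fin r) L), D.G = g →
      D.x = x → D.y = z → ∃ (_ : IsRegularLocalRing (MvPowerSeries (Fin r) L ⧸ Ideal.span {g})),
      Ideal.span (Set.range (fun i => (Ideal.Quotient.mk (Ideal.span {g}) (z i)))) ⊔
      Ideal.span (Set.range (fun i => (Ideal.Quotient.mk (Ideal.span {g}) (x i)))) =
        maximalIdeal (MvPowerSeries (Fin r) L ⧸ Ideal.span {g}) ∧
      ringKrullDim (MvPowerSeries (Fin r) L ⧸ Ideal.span {g}) = ((s + r : ℕ) : WithBot ℕ∞) := by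
    rintro g x z rfl rfl rfl
    obtain ⟨k1, k2, k3⟩ := D.quot_regular
    refine ⟨k1, ?_, k3⟩
    rw [← k2, D.ofList_xs]
  exact key _ _ _ hG hx hy

theorem exists_series {r : ℕ} {A : Type u} [CommRing A] (g : (Fin r →₀ ℕ) → A) :
    ∃ p : MvPowerSeries (Fin r) A, ∀ n, MvPowerSeries.coeff n p = g n :=
  ⟨(g : MvPowerSeries (Fin r) A), fun _ => rfl⟩

theorem map_surjective' {L L' : Type u} [CommRing L] [CommRing L'] (π : L →+* L')
    (hπ : Surjective π) (r : ℕ) : Surjective (MvPowerSeries.map (σ := Fin r) π) := by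
  intro p
  choose g hg using hπ
  obtain ⟨q, hq⟩ := exists_series (r := r) fun n => g (MvPowerSeries.coeff n p)
  refine ⟨q, ?_⟩
  ext n
  rw [MvPowerSeries.coeff_map, hq, hg]

/-- The quadratic hypersurface over a quotient of the base ring. -/
theorem exists_quadRing_map {L L' : Type u} [CommRing L] [CommRing L'] (π : L →+* L')
    (hπ : Surjective π) (y : L) (hker : RingHom.ker π = Ideal.span {y}) (f : L) (r : ℕ)
    (c : Fin r → Fin r → MvPowerSeries (Fin r) L) :
    ∃ ψ : QuadRing L f r c →+* QuadRing L' (π f) r (fun i j => MvPowerSeries.map π (c i j)),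
      Surjective ψ ∧
      RingHom.ker ψ ≤ Ideal.span {(Ideal.Quotient.mk _ (MvPowerSeries.C y) : QuadRing L f r c)} := by
  let c' : Fin r → Fin r → MvPowerSeries (Fin r) L' := fun i j => MvPowerSeries.map π (c i j)
  have hq : MvPowerSeries.map π (quadEq L f r c) = quadEq L' (π f) r c' := by
    rw [quadEq, quadEq, map_sub, MvPowerSeries.map_C, map_sum]
    congr 1
    refine Finset.sum_congr rfl fun i _ => ?_
    rw [map_sum]
    refine Finset.sum_congr rfl fun j _ => ?_
    rw [map_mul, map_mul, MvPowerSeries.map_X, MvPowerSeries.map_X]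
  have hsurj := map_surjective' π hπ r
  have hle : Ideal.span {quadEq L f r c} ≤
      (Ideal.span {quadEq L' (π f) r c'}).comap (MvPowerSeries.map π) := by
    rw [Ideal.span_singleton_le_iff_mem, Ideal.mem_comap, hq]
    exact Ideal.subset_span rfl
  refine ⟨Ideal.quotientMap _ (MvPowerSeries.map π) hle,
    Ideal.quotientMap_surjective hsurj, ?_⟩
  intro a ha
  obtain ⟨p, rfl⟩ := Ideal.Quotient.mk_surjective a
  rw [RingHom.mem_ker, Ideal.quotientMap_mk, Ideal.Quotient.eq_zero_iff_mem,
    Ideal.mem_span_singleton'] at ha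
  obtain ⟨b', hb'⟩ := ha
  obtain ⟨b, rfl⟩ := hsurj b'
  rw [← hq, ← map_mul] at hb'
  have h1 : ∀ n, ∃ e, MvPowerSeries.coeff n (p - b * quadEq L f r c) = y * e := by
    intro n
    have h2 : MvPowerSeries.coeff n (p - b * quadEq L f r c) ∈ RingHom.ker π := by
      rw [RingHom.mem_ker, ← MvPowerSeries.coeff_map, map_sub, hb', sub_self]
      exact map_zero _
    rw [hker, Ideal.mem_span_singleton'] at h2
    obtain ⟨e, he⟩ := h2
    exact ⟨e, by rw [← he, mul_comm]⟩
  choose e he using h1
  obtain ⟨e', he'⟩ := exists_series e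
  have h3 : p - b * quadEq L f r c = MvPowerSeries.C y * e' := by
    ext n
    rw [he, MvPowerSeries.coeff_C_mul, he']
  have h4 : (Ideal.Quotient.mk (Ideal.span {quadEq L f r c})) p =
      Ideal.Quotient.mk _ (MvPowerSeries.C y) * Ideal.Quotient.mk _ e' := by
    rw [← map_mul, ← h3, Ideal.Quotient.mk_eq_mk_iff_sub_mem]
    have h5 : p - (p - b * quadEq L f r c) = b * quadEq L f r c := by ring
    rw [h5]
    exact Ideal.mul_mem_left _ _ (Ideal.subset_span rfl)
  rw [h4]
  exact Ideal.mul_mem_right _ _ (Ideal.subset_span rfl)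

/-- Serre's positivity conjecture for nondegenerate quadratic hypersurfaces over a regular local
ring of dimension two. -/
theorem serreAll_of_dim_two (hLOC : LocStmtRel.{u}) (L : Type u) [CommRing L]
    [IsRegularLocalRing L] (f y : L) (hf : maximalIdeal L = Ideal.span {f} ⊔ Ideal.span {y})
    (hL : ringKrullDim L = ((1 + 1 : ℕ) : WithBot ℕ∞)) (r : ℕ)
    (c : Fin r → Fin r → MvPowerSeries (Fin r) L) (hc : IsUnit (polarMatrix L r c).det) :
    SerreAll (QuadRing L f r c) (1 + r) := by
  have hrange : Ideal.span (Set.range (fun _ : Fin 1 => y)) = Ideal.span {y} := by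
    rw [Set.range_const]
  have hf' : maximalIdeal L = Ideal.span {f} ⊔ Ideal.span (Set.range (fun _ : Fin 1 => y)) := by
    rw [hrange]
    exact hf
  obtain ⟨hreg, hmax, hdim⟩ := relQuad_regular L f (fun _ : Fin 1 => y) hf' hL r c
  -- the quotient by `y`
  have hy : y ∈ maximalIdeal L := by
    rw [hf]
    exact Ideal.mem_sup_right (Ideal.subset_span rfl)
  have hy2 : y ∉ maximalIdeal L ^ 2 := by
    intro h2
    have h3 : maximalIdeal L ≤ Ideal.span {f} ⊔ maximalIdeal L ^ 2 := by
      conv_lhs => rw [hf]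
      refine sup_le le_sup_left ?_
      rw [Ideal.span_singleton_le_iff_mem]
      exact Ideal.mem_sup_right h2
    have h4 : maximalIdeal L ≤ Ideal.span {f} := by
      refine Submodule.le_of_le_smul_of_le_jacobson_bot
        ((maximalIdeal L).fg_of_isNoetherianRing) (IsLocalRing.maximalIdeal_le_jacobson ⊥) ?_
      rw [smul_eq_mul, ← pow_two]
      exact h3
    have h5 : ringKrullDim L ≤ 1 := by
      rw [← IsLocalRing.maximalIdeal_height_eq_ringKrullDim]
      have h6 : (maximalIdeal L).height ≤ 1 := by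
        have h7 : (maximalIdeal L) ∈ (Ideal.span {f}).minimalPrimes := by
          refine ⟨⟨inferInstance, ?_⟩, fun J hJ _ => h4.trans hJ.2⟩
          rw [Ideal.span_singleton_le_iff_mem, hf]
          exact Ideal.mem_sup_left (Ideal.subset_span rfl)
        exact Ideal.height_le_one_of_isPrincipal_of_mem_minimalPrimes _ _ h7
      exact_mod_cast h6
    rw [hL] at h5
    exact absurd h5 (by exact_mod_cast (by omega : ¬ (1 + 1 ≤ 1)))
  obtain ⟨hregV, hdimV⟩ := regular_quotient L y hy hy2
  have hV1 : ringKrullDim (L ⧸ Ideal.span {y}) = (1 : ℕ) := by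
    rw [hL] at hdimV
    obtain ⟨n, hn⟩ := exists_nat_eq_ringKrullDim (L ⧸ Ideal.span {y})
    rw [hn] at hdimV ⊢
    have : n + 1 = 1 + 1 := by exact_mod_cast hdimV
    have : n = 1 := by omega
    rw [this]
  have hmV : maximalIdeal (L ⧸ Ideal.span {y}) =
      Ideal.span {Ideal.Quotient.mk (Ideal.span {y}) f} := by
    have h1 : (maximalIdeal L).map (Ideal.Quotient.mk (Ideal.span {y})) =
        maximalIdeal (L ⧸ Ideal.span {y}) :=
      map_maximalIdeal_of_surjective _ Ideal.Quotient.mk_surjective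
    rw [← h1, hf, Ideal.map_sup, Ideal.map_span, Ideal.map_span, Set.image_singleton,
      Set.image_singleton, Ideal.Quotient.mk_singleton_self, Ideal.span_singleton_zero, sup_bot_eq]
  obtain ⟨ψ, hψ, hker⟩ := exists_quadRing_map (Ideal.Quotient.mk (Ideal.span {y}))
    Ideal.Quotient.mk_surjective y Ideal.mk_ker f r c
  have hdet' : IsUnit (polarMatrix (L ⧸ Ideal.span {y}) r (fun i j =>
      MvPowerSeries.map (Ideal.Quotient.mk (Ideal.span {y})) (c i j))).det := by
    have h1 : polarMatrix (L ⧸ Ideal.span {y}) r (fun i j =>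
        MvPowerSeries.map (Ideal.Quotient.mk (Ideal.span {y})) (c i j)) =
        (MvPowerSeries.map (Ideal.Quotient.mk (Ideal.span {y}))).mapMatrix
          (polarMatrix L r c) := by
      ext i j : 2
      simp only [polarMatrix, RingHom.mapMatrix_apply, Matrix.map_apply, map_add]
    rw [h1, ← RingHom.map_det]
    exact hc.map _
  obtain ⟨hreg', -, hdim'⟩ := quadRing_regular (L ⧸ Ideal.span {y})
    (Ideal.Quotient.mk (Ideal.span {y}) f) hmV hV1 r (fun i j =>
      MvPowerSeries.map (Ideal.Quotient.mk (Ideal.span {y})) (c i j))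
  have hall := serreAll_of_nondegenerate (L ⧸ Ideal.span {y})
    (Ideal.Quotient.mk (Ideal.span {y}) f) hmV hV1 r (fun i j =>
      MvPowerSeries.map (Ideal.Quotient.mk (Ideal.span {y})) (c i j)) hdet'
  have hkill : ∀ P : Ideal (QuadRing L f r c), Ideal.Quotient.mk _ (MvPowerSeries.C y) ∈ P →
      RingHom.ker ψ ≤ P := fun P hP => hker.trans (by
    rw [Ideal.span_singleton_le_iff_mem]
    exact hP)
  intro M N _ _ _ _ _ _ hlen
  refine sp_dev₂ hdim M N hlen fun P Q hP hQ _ _ hl => ?_
  by_cases hyP : (Ideal.Quotient.mk _ (MvPowerSeries.C y) : QuadRing L f r c) ∈ P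
  · exact sp_of_quotient hdim hdim' ψ hψ hall P (hkill P hyP) _ hl
  by_cases hyQ : (Ideal.Quotient.mk _ (MvPowerSeries.C y) : QuadRing L f r c) ∈ Q
  · refine (sp_of_quotient hdim hdim' ψ hψ hall Q (hkill Q hyQ) _ ?_).symm
    rw [(TensorProduct.comm _ (QuadRing L f r c ⧸ Q) (QuadRing L f r c ⧸ P)).length_eq]
    exact hl
  obtain ⟨h1, h2, D, hG, hx, hDy, hβ⟩ := exists_RData L f r c (fun _ : Fin 1 => y) hf' hL
  have hB : SerreAll (MvPowerSeries (Fin r) L) (1 + r + 1) :=
    serreAll_powerSeries 4 locPos_four L (by rw [hL]; exact_mod_cast (by omega : 1 + 1 ≤ 4)) r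
      (1 + r + 1) D.dimB
  have hdet : IsUnit (Matrix.det (Matrix.of fun l m => D.μ (D.β l m))) := by
    have h3 : residue _ (Matrix.det (Matrix.of fun l m => D.μ (D.β l m))) =
        residue _ (polarMatrix L r c).det := by
      rw [RingHom.map_det, RingHom.map_det]
      congr 1
      ext l m
      rw [RingHom.mapMatrix_apply, RingHom.mapMatrix_apply, Matrix.map_apply, Matrix.map_apply,
        ← sub_eq_zero, ← map_sub, residue_eq_zero_iff]
      exact hβ l m
    rw [← isUnit_map_iff (residue (MvPowerSeries (Fin r) L)), h3]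
    exact hc.map _
  have key : ∀ (g : MvPowerSeries (Fin r) L) (z : Fin 1 → MvPowerSeries (Fin r) L), D.G = g →
      D.y = z → ∀ (P Q : Ideal (MvPowerSeries (Fin r) L ⧸ Ideal.span {g})) [P.IsPrime]
      [Q.IsPrime], Ideal.Quotient.mk _ (z 0) ∉ P → Ideal.Quotient.mk _ (z 0) ∉ Q →
      Module.length (MvPowerSeries (Fin r) L ⧸ Ideal.span {g})
        (((MvPowerSeries (Fin r) L ⧸ Ideal.span {g}) ⧸ P)
        ⊗[MvPowerSeries (Fin r) L ⧸ Ideal.span {g}]
          ((MvPowerSeries (Fin r) L ⧸ Ideal.span {g}) ⧸ Q)) ≠ ⊤ →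
      SP (MvPowerSeries (Fin r) L ⧸ Ideal.span {g}) (1 + r)
        ((MvPowerSeries (Fin r) L ⧸ Ideal.span {g}) ⧸ P)
        ((MvPowerSeries (Fin r) L ⧸ Ideal.span {g}) ⧸ Q) := by
    rintro g z rfl rfl P Q _ _ hyP hyQ hl
    exact D.sp_primes hLOC hB hdet P Q hyP hyQ hl
  exact key _ _ hG hDy P Q hyP hyQ hl

end Vale.Agent.P177
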