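import Vale.Agent.P177.K1
import Vale.Agent.P177.DPoly

/-!
Change of coordinates in the data of a quadratic hypersurface with fixed parameters.
-/

namespace Vale.Agent.P177

open TensorProduct IsLocalRing RingTheory.Sequence Function

universe u

theorem exists_polar' {ι : Type*} [Fintype ι] {B Γ : Type*} [CommRing B] [CommRing Γ]
    (a₁ a₂ : B →+* Γ)
    (x : ι → B) (c : ι → ι → B)
    (diag : ∀ b, a₂ b - a₁ b ∈ Ideal.span (Set.range fun i => a₂ (x i) - a₁ (x i))) :
    ∃ w : ι → ι → Γ, (∀ l m, w l m ∈ Ideal.span (Set.range fun i => a₁ (x i))) ∧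
      a₂ (∑ i, ∑ j, x i * c i j * x j) - a₁ (∑ i, ∑ j, x i * c i j * x j) =
        ∑ l, (a₂ (x l) - a₁ (x l)) * (∑ m, (a₂ (c l m) + a₂ (c m l) + w l m) * a₁ (x m) +
          ∑ m, a₂ (c l m) * (a₂ (x m) - a₁ (x m))) := by
  have h1 : ∀ i j, ∃ e : ι → Γ, ∑ l, e l * (a₂ (x l) - a₁ (x l)) =
      a₂ (c i j) - a₁ (c i j) := fun i j =>
    (Ideal.mem_span_range_iff_exists_fun).1 (diag (c i j))
  choose e he using h1
  refine ⟨fun l m => ∑ i, a₁ (x i) * e i m l, ?_, ?_⟩
  · intro l m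
    exact Ideal.sum_mem _ fun i _ => Ideal.mul_mem_right _ _ (Ideal.subset_span ⟨i, rfl⟩)
  · simp only [map_sum, map_mul]
    set X : ι → Γ := fun i => a₁ (x i) with hX
    set Y : ι → Γ := fun i => a₂ (x i) with hY
    have hXi : ∀ i, a₁ (x i) = X i := fun i => rfl
    have hYi : ∀ i, a₂ (x i) = Y i := fun i => rfl
    simp only [hXi, hYi] at he ⊢
    have e1 : ∀ i j, Y i * a₂ (c i j) * Y j - X i * a₁ (c i j) * X j =
        (Y i - X i) * a₂ (c i j) * X j + X i * a₂ (c i j) * (Y j - X j) +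
        (Y i - X i) * a₂ (c i j) * (Y j - X j) +
          ∑ l, X i * e i j l * (Y l - X l) * X j := by
      intro i j
      have h2 : ∑ l, X i * e i j l * (Y l - X l) * X j =
          X i * (a₂ (c i j) - a₁ (c i j)) * X j := by
        rw [← he, Finset.mul_sum, Finset.sum_mul]
        refine Finset.sum_congr rfl fun l _ => ?_
        ring
      rw [h2]
      ring
    have e2 : ∑ i, ∑ j, Y i * a₂ (c i j) * Y j - ∑ i, ∑ j, X i * a₁ (c i j) * X j =
        ∑ i, ∑ j, (Y i - X i) * a₂ (c i j) * X j + ∑ i, ∑ j, X i * a₂ (c i j) * (Y j - X j) +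
        ∑ i, ∑ j, (Y i - X i) * a₂ (c i j) * (Y j - X j) +
          ∑ i, ∑ j, ∑ l, X i * e i j l * (Y l - X l) * X j := by
      simp only [← Finset.sum_sub_distrib, ← Finset.sum_add_distrib]
      exact Finset.sum_congr rfl fun i _ => Finset.sum_congr rfl fun j _ => e1 i j
    rw [e2]
    have e3 : ∑ l, (Y l - X l) * (∑ m, (a₂ (c l m) + a₂ (c m l) + ∑ i, X i * e i m l) * X m +
        ∑ m, a₂ (c l m) * (Y m - X m)) =
        ∑ l, ∑ m, (Y l - X l) * a₂ (c l m) * X m + ∑ l, ∑ m, (Y l - X l) * a₂ (c m l) * X m +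
        ∑ l, ∑ m, (Y l - X l) * a₂ (c l m) * (Y m - X m) +
          ∑ l, ∑ m, ∑ i, X i * e i m l * (Y l - X l) * X m := by
      simp only [← Finset.sum_add_distrib]
      refine Finset.sum_congr rfl fun l _ => ?_
      rw [Finset.mul_sum]
      refine Finset.sum_congr rfl fun m _ => ?_
      have h2 : ∑ i, X i * e i m l * (Y l - X l) * X m =
          (Y l - X l) * (∑ i, X i * e i m l) * X m := by
        rw [Finset.mul_sum, Finset.sum_mul]
        refine Finset.sum_congr rfl fun i _ => ?_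
        ring
      rw [h2]
      ring
    rw [e3]
    congr 1
    · congr 1
      congr 1
      rw [Finset.sum_comm]
      refine Finset.sum_congr rfl fun l _ => Finset.sum_congr rfl fun m _ => ?_
      ring
    · symm
      calc ∑ l, ∑ m, ∑ i, X i * e i m l * (Y l - X l) * X m =
          ∑ m, ∑ l, ∑ i, X i * e i m l * (Y l - X l) * X m := Finset.sum_comm
        _ = ∑ m, ∑ i, ∑ l, X i * e i m l * (Y l - X l) * X m :=
          Finset.sum_congr rfl fun m _ => Finset.sum_comm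
        _ = _ := Finset.sum_comm

theorem span_range_eq_of_mul_eq {R : Type*} [CommRing R] {n : ℕ} (M : Matrix (Fin n) (Fin n) R)
    (hM : IsUnit M.det) (h h' : Fin n → R) (e : ∀ l, h' l = ∑ m, M l m * h m) :
    (∀ m, h m = ∑ k, M⁻¹ m k * h' k) ∧
      Ideal.span (Set.range h') = Ideal.span (Set.range h) := by
  have h1 : ∀ m, h m = ∑ k, M⁻¹ m k * h' k := by
    intro m
    simp only [e, Finset.mul_sum]
    rw [Finset.sum_comm]
    have h2 := Matrix.nonsing_inv_mul M hM
    rw [Finset.sum_eq_single m]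
    · have h3 := congrFun (congrFun h2 m) m
      rw [Matrix.mul_apply, Matrix.one_apply_eq] at h3
      simp only [← mul_assoc, ← Finset.sum_mul]
      rw [h3, one_mul]
    · intro k _ hk
      have h3 := congrFun (congrFun h2 m) k
      rw [Matrix.mul_apply, Matrix.one_apply_ne (Ne.symm hk)] at h3
      simp only [← mul_assoc, ← Finset.sum_mul]
      rw [h3, zero_mul]
    · simp
  refine ⟨h1, le_antisymm ?_ ?_⟩
  · rw [Ideal.span_le]
    rintro _ ⟨l, rfl⟩
    rw [SetLike.mem_coe, e]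
    exact Ideal.sum_mem _ fun m _ => Ideal.mul_mem_left _ _ (Ideal.subset_span ⟨m, rfl⟩)
  · rw [Ideal.span_le]
    rintro _ ⟨l, rfl⟩
    rw [SetLike.mem_coe, h1]
    exact Ideal.sum_mem _ fun m _ => Ideal.mul_mem_left _ _ (Ideal.subset_span ⟨m, rfl⟩)

theorem exists_change {s d : ℕ} {B Γ : Type u} [CommRing B] [IsRegularLocalRing B] [CommRing Γ]
    [IsRegularLocalRing Γ] (a₁ a₂ : B →+* Γ) (μ : Γ →+* B) (μ₁ : ∀ b, μ (a₁ b) = b)
    (μ₂ : ∀ b, μ (a₂ b) = b) (y : Fin s → B) (hy : ∀ i, a₂ (y i) = a₁ (y i)) (x : Fin d → B)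
    (G : B) (u : Fin d → Γ) (β γ : Matrix (Fin d) (Fin d) Γ) (δ : Fin d → Γ)
    (dimB : ringKrullDim B = ((s + d + 1 : ℕ) : WithBot ℕ∞))
    (dimΓ : ringKrullDim Γ = ((s + 2 * d + 1 : ℕ) : WithBot ℕ∞))
    (maxB : maximalIdeal B = Ideal.span {G} ⊔ (Ideal.span (Set.range y) ⊔
      Ideal.span (Set.range x)))
    (maxΓ : maximalIdeal Γ = Ideal.span {a₁ G} ⊔ (Ideal.span (Set.range fun i => a₁ (y i)) ⊔
      Ideal.span (Set.range fun i => a₁ (x i))) ⊔
      Ideal.span (Set.range fun i => a₂ (x i) - a₁ (x i)))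
    (hG : a₂ G = a₁ G - ∑ i, (a₂ (x i) - a₁ (x i)) * u i)
    (hu : ∀ i, u i = ∑ m, β i m * a₁ (x m) + δ i + ∑ m, γ i m * (a₂ (x m) - a₁ (x m)))
    (hδ : ∀ i, δ i ∈ Ideal.span (Set.range fun i => a₁ (y i)))
    (diag : ∀ b, a₂ b - a₁ b ∈ Ideal.span (Set.range fun i => a₂ (x i) - a₁ (x i)))
    (hker : RingHom.ker μ ≤ Ideal.span (Set.range fun i => a₂ (x i) - a₁ (x i)))
    (hdet : IsUnit (Matrix.det (Matrix.of fun l m => μ (β l m)))) :
    ∃ D : RData s d B Γ, D.G = G ∧ D.y = y ∧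
      IsUnit (Matrix.det (Matrix.of fun l m => D.μ (D.β l m))) := by
  let A : Matrix (Fin d) (Fin d) B := Matrix.of fun l m => μ (β l m)
  let x' : Fin d → B := fun l => μ (u l)
  let h : Fin d → Γ := fun i => a₂ (x i) - a₁ (x i)
  have hh : ∀ i, a₂ (x i) - a₁ (x i) = h i := fun i => rfl
  have hx' : ∀ l, x' l = ∑ m, A l m * x m + μ (δ l) := by
    intro l
    change μ (u l) = _
    rw [hu, map_add, map_add, map_sum, map_sum]
    have h1 : ∑ m, μ (γ l m * (a₂ (x m) - a₁ (x m))) = 0 := by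
      refine Finset.sum_eq_zero fun m _ => ?_
      rw [map_mul, map_sub, μ₁, μ₂, sub_self, mul_zero]
    rw [h1, add_zero]
    congr 1
    refine Finset.sum_congr rfl fun m _ => ?_
    rw [map_mul, μ₁]
    rfl
  have hδ' : ∀ l, μ (δ l) ∈ Ideal.span (Set.range y) := by
    intro l
    have h1 : Ideal.span (Set.range fun i => a₁ (y i)) ≤ (Ideal.span (Set.range y)).comap μ := by
      rw [Ideal.span_le]
      rintro _ ⟨i, rfl⟩
      rw [SetLike.mem_coe, Ideal.mem_comap, μ₁]
      exact Ideal.subset_span ⟨i, rfl⟩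
    exact h1 (hδ l)
  have hxx : Ideal.span (Set.range y) ⊔ Ideal.span (Set.range x') =
      Ideal.span (Set.range y) ⊔ Ideal.span (Set.range x) := by
    apply le_antisymm
    · refine sup_le le_sup_left ?_
      rw [Ideal.span_le]
      rintro _ ⟨l, rfl⟩
      rw [SetLike.mem_coe, hx']
      exact Ideal.add_mem _ (Ideal.mem_sup_right (Ideal.sum_mem _ fun m _ =>
        Ideal.mul_mem_left _ _ (Ideal.subset_span ⟨m, rfl⟩))) (Ideal.mem_sup_left (hδ' l))
    · refine sup_le le_sup_left ?_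
      have h1 := (span_range_eq_of_mul_eq A hdet x (fun l => x' l - μ (δ l)) (fun l => by
        rw [hx', add_sub_cancel_right])).2
      rw [← h1, Ideal.span_le]
      rintro _ ⟨l, rfl⟩
      exact Ideal.sub_mem _ (Ideal.mem_sup_right (Ideal.subset_span ⟨l, rfl⟩))
        (Ideal.mem_sup_left (hδ' l))
  have hxm : ∀ m, a₁ (x m) ∈ maximalIdeal Γ := fun m => by
    rw [maxΓ]
    exact Ideal.mem_sup_left (Ideal.mem_sup_right (Ideal.mem_sup_right
      (Ideal.subset_span ⟨m, rfl⟩)))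
  have hym : ∀ m, a₁ (y m) ∈ maximalIdeal Γ := fun m => by
    rw [maxΓ]
    exact Ideal.mem_sup_left (Ideal.mem_sup_right (Ideal.mem_sup_left
      (Ideal.subset_span ⟨m, rfl⟩)))
  have hE : ∀ l, ∃ E : Fin d → Γ, (∀ k, E k ∈ maximalIdeal Γ) ∧
      ∑ k, E k * h k = a₂ (x' l) - a₁ (x' l) - ∑ m, a₂ (A l m) * h m := by
    intro l
    obtain ⟨e, he⟩ := (Ideal.mem_span_range_iff_exists_fun).1 (hδ' l)
    have h1 : a₂ (x' l) - a₁ (x' l) - ∑ m, a₂ (A l m) * h m =
        ∑ m, a₁ (x m) * (a₂ (A l m) - a₁ (A l m)) + ∑ j, a₁ (y j) * (a₂ (e j) - a₁ (e j)) := by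
      rw [hx', ← he]
      simp only [map_add, map_sum, map_mul, hy]
      have h2 : ∑ m, a₁ (x m) * (a₂ (A l m) - a₁ (A l m)) =
          ∑ m, a₂ (A l m) * a₂ (x m) - ∑ m, a₁ (A l m) * a₁ (x m) - ∑ m, a₂ (A l m) * h m := by
        simp only [← Finset.sum_sub_distrib]
        refine Finset.sum_congr rfl fun m _ => ?_
        simp only [← hh]
        ring
      have h3 : ∑ j, a₁ (y j) * (a₂ (e j) - a₁ (e j)) =
          ∑ j, a₂ (e j) * a₁ (y j) - ∑ j, a₁ (e j) * a₁ (y j) := by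
        simp only [← Finset.sum_sub_distrib]
        refine Finset.sum_congr rfl fun m _ => ?_
        ring
      rw [h2, h3]
      ring
    have h2 : a₂ (x' l) - a₁ (x' l) - ∑ m, a₂ (A l m) * h m ∈
        maximalIdeal Γ • Ideal.span (Set.range h) := by
      rw [h1, smul_eq_mul]
      exact Ideal.add_mem _ (Ideal.sum_mem _ fun m _ => Ideal.mul_mem_mul (hxm m) (diag _))
        (Ideal.sum_mem _ fun m _ => Ideal.mul_mem_mul (hym m) (diag _))
    obtain ⟨a, ha, hsum⟩ := (Submodule.mem_ideal_smul_span_iff_exists_sum _ _ _).1 h2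
    refine ⟨a, ha, ?_⟩
    rw [← hsum]
    exact (Finsupp.sum_fintype a (fun i c => c • h i) (fun i => zero_smul _ _)).symm
  choose E hEm hEs using hE
  let M : Matrix (Fin d) (Fin d) Γ := Matrix.of fun l m => a₂ (A l m) + E l m
  have hM : ∀ l, a₂ (x' l) - a₁ (x' l) = ∑ m, M l m * h m := by
    intro l
    have h1 : ∑ m, M l m * h m = ∑ m, a₂ (A l m) * h m + ∑ m, E l m * h m := by
      rw [← Finset.sum_add_distrib]
      exact Finset.sum_congr rfl fun m _ => add_mul _ _ _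
    rw [h1, hEs]
    ring
  have hMdet : IsUnit M.det := by
    have h1 : residue Γ M.det = residue Γ (a₂ A.det) := by
      rw [RingHom.map_det, RingHom.map_det, RingHom.map_det]
      congr 1
      ext l m
      simp only [RingHom.mapMatrix_apply, Matrix.map_apply]
      change residue Γ (a₂ (A l m) + E l m) = _
      rw [map_add, (residue_eq_zero_iff _).2 (hEm l m), add_zero]
    rw [← isUnit_map_iff (residue Γ), h1]
    exact (hdet.map a₂).map _
  obtain ⟨hinv, hspan⟩ := span_range_eq_of_mul_eq M hMdet h (fun l => a₂ (x' l) - a₁ (x' l)) hM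
  have hN : ∀ i, ∃ N : Fin d → Γ, ∑ k, N k * (a₂ (x' k) - a₁ (x' k)) = u i - a₁ (x' i) := by
    intro i
    refine (Ideal.mem_span_range_iff_exists_fun).1 ?_
    rw [hspan]
    refine hker ?_
    rw [RingHom.mem_ker, map_sub, μ₁, sub_self]
  choose N hN using hN
  have hux : ∀ i, u i = a₁ (x' i) + ∑ m, N i m * (a₂ (x' m) - a₁ (x' m)) := fun i => by
    rw [hN]
    ring
  have hB' : Ideal.span {G} ⊔ (Ideal.span (Set.range y) ⊔ Ideal.span (Set.range x')) =
      maximalIdeal B := by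
    rw [hxx, maxB]
  refine ⟨{
    a₁ := a₁
    a₂ := a₂
    μ := μ
    μ₁ := μ₁
    μ₂ := μ₂
    y := y
    hy := hy
    x := x'
    G := G
    u := fun k => ∑ i, M⁻¹ i k * u i
    β := fun k i => M⁻¹ i k
    γ := fun k m => ∑ i, M⁻¹ i k * N i m
    dimB := dimB
    dimΓ := dimΓ
    maxB := hB'.symm
    maxΓ := ?_
    hG := ?_
    hu := ?_
    diag := ?_ }, rfl, rfl, ?_⟩
  · have h1 : Ideal.span (Set.range fun i => a₁ (y i)) ⊔ Ideal.span (Set.range fun i => a₁ (x' i)) =
        Ideal.span (Set.range fun i => a₁ (y i)) ⊔ Ideal.span (Set.range fun i => a₁ (x i)) := by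
      have h2 : ∀ {n : ℕ} (z : Fin n → B), Ideal.span (Set.range fun i => a₁ (z i)) =
          (Ideal.span (Set.range z)).map a₁ := by
        intro n z
        rw [Ideal.map_span, ← Set.range_comp]
        rfl
      rw [h2, h2, h2, ← Ideal.map_sup, ← Ideal.map_sup, hxx]
    rw [h1, hspan]
    exact maxΓ
  · rw [hG]
    congr 1
    simp only [hh]
    have h1 : ∀ i, h i * u i = ∑ k, (a₂ (x' k) - a₁ (x' k)) * (M⁻¹ i k * u i) := by
      intro i
      rw [hinv i, Finset.sum_mul]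
      refine Finset.sum_congr rfl fun k _ => ?_
      ring
    simp only [h1]
    rw [Finset.sum_comm]
    refine Finset.sum_congr rfl fun k _ => ?_
    rw [Finset.mul_sum]
  · intro k
    have h1 : ∀ i, M⁻¹ i k * u i = M⁻¹ i k * a₁ (x' i) +
        ∑ m, M⁻¹ i k * N i m * (a₂ (x' m) - a₁ (x' m)) := by
      intro i
      conv_lhs => rw [hux i]
      rw [mul_add, Finset.mul_sum]
      congr 1
      refine Finset.sum_congr rfl fun m _ => ?_
      ring
    simp only [h1]
    rw [Finset.sum_add_distrib, Finset.sum_comm (f := fun i m =>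
      M⁻¹ i k * N i m * (a₂ (x' m) - a₁ (x' m)))]
    congr 1
    refine Finset.sum_congr rfl fun m _ => ?_
    rw [Finset.sum_mul]
  · intro b
    rw [hspan]
    exact diag b
  · have h1 : (Matrix.of fun l m => μ (M⁻¹ m l)) = Matrix.transpose (μ.mapMatrix M⁻¹) := by
      ext l m
      rfl
    change IsUnit (Matrix.det (Matrix.of fun l m => μ (M⁻¹ m l)))
    rw [h1, Matrix.det_transpose, ← RingHom.map_det]
    exact ((Matrix.isUnit_nonsing_inv_det_iff).2 hMdet).map μ

end Vale.Agent.P177
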