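import Vale.Agent.P177.K7

/-!
The data attached to a quadratic hypersurface in a power series ring over a regular local ring,
with parameters.
-/

namespace Vale.Agent.P177

open TensorProduct IsLocalRing RingTheory.Sequence Function

universe u

section mk

variable (L : Type u) [CommRing L] (f : L) {s : ℕ} (t : Fin s → L) (r : ℕ)
  (c : Fin r ⊕ Fin s → Fin r ⊕ Fin s → MvPowerSeries (Fin r) L)

/-- The parameters `x_1, …, x_r, t_1, …, t_s` of `L[[x]]`. -/
noncomputable def parZ : Fin r ⊕ Fin s → MvPowerSeries (Fin r) L :=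
  Sum.elim MvPowerSeries.X fun i => MvPowerSeries.C (t i)

/-- The equation `f - ∑ z_i c_ij z_j`, where `z = (x, t)`. -/
noncomputable def parEq : MvPowerSeries (Fin r) L :=
  MvPowerSeries.C f - ∑ i, ∑ j, parZ L t r i * c i j * parZ L t r j

theorem exists_RData' [IsRegularLocalRing L]
    (hf : maximalIdeal L = Ideal.span {f} ⊔ Ideal.span (Set.range t))
    (hL : ringKrullDim L = ((s + 1 : ℕ) : WithBot ℕ∞))
    (hc : IsUnit (Matrix.det (Matrix.of fun l m =>
      c (Sum.inl l) (Sum.inl m) + c (Sum.inl m) (Sum.inl l)))) :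
    ∃ (_ : IsRegularLocalRing (MvPowerSeries (Fin r) L))
      (_ : IsRegularLocalRing (MvPowerSeries (Fin r ⊕ Fin r) L))
      (D : RData s r (MvPowerSeries (Fin r) L) (MvPowerSeries (Fin r ⊕ Fin r) L)),
      D.G = parEq L f t r c ∧ (D.y = fun i => MvPowerSeries.C (t i)) ∧
      IsUnit (Matrix.det (Matrix.of fun l m => D.μ (D.β l m))) := by
  obtain ⟨hregB, hdimB⟩ := mvPowerSeries_regular (A := L) r (Equiv.refl (Fin r)) hL
  obtain ⟨hregΓ, hdimΓ⟩ :=
    mvPowerSeries_regular (A := L) (r + r) (finSumFinEquiv (m := r) (n := r)) hL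
  let a₁ : MvPowerSeries (Fin r) L →+* MvPowerSeries (Fin r ⊕ Fin r) L :=
    (MvPowerSeries.rename (R := L) (Embedding.inl : Fin r ↪ Fin r ⊕ Fin r)).toRingHom
  let a₂ : MvPowerSeries (Fin r) L →+* MvPowerSeries (Fin r ⊕ Fin r) L :=
    (MvPowerSeries.rename (R := L) (Embedding.inr : Fin r ↪ Fin r ⊕ Fin r)).toRingHom
  let μ : MvPowerSeries (Fin r ⊕ Fin r) L →+* MvPowerSeries (Fin r) L :=
    (MvPowerSeries.rename (R := L) (Sum.elim id id : Fin r ⊕ Fin r → Fin r)).toRingHom
  have hμ₁ : ∀ b, μ (a₁ b) = b := by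
    intro p
    change MvPowerSeries.rename (Sum.elim id id) (MvPowerSeries.rename
      (Function.Embedding.inl : Fin r ↪ Fin r ⊕ Fin r) p) = p
    rw [MvPowerSeries.rename_rename]
    exact MvPowerSeries.rename_id_apply p
  have hμ₂ : ∀ b, μ (a₂ b) = b := by
    intro p
    change MvPowerSeries.rename (Sum.elim id id) (MvPowerSeries.rename
      (Function.Embedding.inr : Fin r ↪ Fin r ⊕ Fin r) p) = p
    rw [MvPowerSeries.rename_rename]
    exact MvPowerSeries.rename_id_apply p
  have hX₁ : ∀ i, a₁ (MvPowerSeries.X i) = MvPowerSeries.X (Sum.inl i) := fun i =>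
    MvPowerSeries.rename_X _ _
  have hX₂ : ∀ i, a₂ (MvPowerSeries.X i) = MvPowerSeries.X (Sum.inr i) := fun i =>
    MvPowerSeries.rename_X _ _
  have hC₁ : ∀ v, a₁ (MvPowerSeries.C v) = MvPowerSeries.C v := fun v =>
    MvPowerSeries.rename_C _ _
  have hC₂ : ∀ v, a₂ (MvPowerSeries.C v) = MvPowerSeries.C v := fun v =>
    MvPowerSeries.rename_C _ _
  let y : Fin s → MvPowerSeries (Fin r) L := fun i => MvPowerSeries.C (t i)
  have hy : ∀ i, a₂ (y i) = a₁ (y i) := fun i => by
    change a₂ (MvPowerSeries.C (t i)) = a₁ (MvPowerSeries.C (t i))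
    rw [hC₁, hC₂]
  have hspanle : Ideal.span (Set.range (fun j : Fin r =>
        (MvPowerSeries.X (Sum.inl j) - MvPowerSeries.X (Sum.inr j) :
        MvPowerSeries (Fin r ⊕ Fin r) L))) ≤ Ideal.span (Set.range fun i =>
          a₂ (MvPowerSeries.X i) - a₁ (MvPowerSeries.X i)) := by
    rw [Ideal.span_le]
    rintro _ ⟨i, rfl⟩
    rw [SetLike.mem_coe, ← neg_mem_iff, neg_sub, ← hX₁, ← hX₂]
    exact Ideal.subset_span ⟨i, rfl⟩
  have hker : RingHom.ker μ ≤ Ideal.span (Set.range fun i =>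
      a₂ (MvPowerSeries.X i) - a₁ (MvPowerSeries.X i)) := by
    rw [ker_rename_elim, ofList_diagListGen]
    exact hspanle
  have hdiag : ∀ b, a₂ b - a₁ b ∈ Ideal.span (Set.range fun i =>
      a₂ (MvPowerSeries.X i) - a₁ (MvPowerSeries.X i)) := by
    intro b
    refine hker ?_
    rw [RingHom.mem_ker, map_sub, hμ₁, hμ₂, sub_self]
  let z : Fin r ⊕ Fin s → MvPowerSeries (Fin r) L := parZ L t r
  have hzl : ∀ i, z (Sum.inl i) = MvPowerSeries.X i := fun i => rfl
  have hzr : ∀ i, z (Sum.inr i) = y i := fun i => rfl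
  have hdiagz : ∀ b, a₂ b - a₁ b ∈ Ideal.span (Set.range fun i => a₂ (z i) - a₁ (z i)) := by
    intro b
    refine Ideal.span_mono ?_ (hdiag b)
    rintro _ ⟨i, rfl⟩
    exact ⟨Sum.inl i, rfl⟩
  obtain ⟨w, hw1, hw2⟩ := exists_polar' a₁ a₂ z c hdiagz
  -- the maximal ideals
  have hzspan : Ideal.span (Set.range z) = Ideal.span (Set.range y) ⊔
      Ideal.span (Set.range MvPowerSeries.X) := by
    apply le_antisymm
    · rw [Ideal.span_le]
      rintro _ ⟨i | i, rfl⟩
      · exact Ideal.mem_sup_right (Ideal.subset_span ⟨i, rfl⟩)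
      · exact Ideal.mem_sup_left (Ideal.subset_span ⟨i, rfl⟩)
    · refine sup_le ?_ ?_
      · rw [Ideal.span_le]
        rintro _ ⟨i, rfl⟩
        exact Ideal.subset_span ⟨Sum.inr i, rfl⟩
      · rw [Ideal.span_le]
        rintro _ ⟨i, rfl⟩
        exact Ideal.subset_span ⟨Sum.inl i, rfl⟩
  have hmaxB0 : maximalIdeal (MvPowerSeries (Fin r) L) = Ideal.span {MvPowerSeries.C f} ⊔
      (Ideal.span (Set.range y) ⊔ Ideal.span (Set.range MvPowerSeries.X)) := by
    rw [mvPowerSeries_maximalIdeal_gen, hf, Ideal.map_sup, Ideal.map_span, Set.image_singleton,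
      Ideal.map_span, ← Set.range_comp, sup_assoc]
    rfl
  have hq : ∑ i, ∑ j, z i * c i j * z j ∈ Ideal.span (Set.range z) :=
    Ideal.sum_mem _ fun i _ => Ideal.sum_mem _ fun j _ =>
      Ideal.mul_mem_left _ _ (Ideal.subset_span ⟨j, rfl⟩)
  have hGeq : parEq L f t r c = MvPowerSeries.C f - ∑ i, ∑ j, z i * c i j * z j := rfl
  have hmaxB : maximalIdeal (MvPowerSeries (Fin r) L) = Ideal.span {parEq L f t r c} ⊔
      (Ideal.span (Set.range y) ⊔ Ideal.span (Set.range MvPowerSeries.X)) := by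
    rw [hmaxB0, ← hzspan]
    apply le_antisymm
    · refine sup_le ?_ le_sup_right
      rw [Ideal.span_singleton_le_iff_mem]
      have h1 : MvPowerSeries.C f = parEq L f t r c + ∑ i, ∑ j, z i * c i j * z j := by
        rw [hGeq, sub_add_cancel]
      rw [h1]
      exact Ideal.add_mem _ (Ideal.mem_sup_left (Ideal.subset_span rfl))
        (Ideal.mem_sup_right hq)
    · refine sup_le ?_ le_sup_right
      rw [Ideal.span_singleton_le_iff_mem, hGeq]
      exact Ideal.sub_mem _ (Ideal.mem_sup_left (Ideal.subset_span rfl))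
        (Ideal.mem_sup_right hq)
  have hzm : ∀ i, z i ∈ maximalIdeal (MvPowerSeries (Fin r) L) := fun i => by
    rw [hmaxB0, ← hzspan]
    exact Ideal.mem_sup_right (Ideal.subset_span ⟨i, rfl⟩)
  have hwm : ∀ l m, μ (w l m) ∈ maximalIdeal (MvPowerSeries (Fin r) L) := by
    intro l m
    have h1 : Ideal.span (Set.range fun i => a₁ (z i)) ≤
        (maximalIdeal (MvPowerSeries (Fin r) L)).comap μ := by
      rw [Ideal.span_le]
      rintro _ ⟨i, rfl⟩
      rw [SetLike.mem_coe, Ideal.mem_comap, hμ₁]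
      exact hzm i
    exact h1 (hw1 l m)
  let β : Fin r ⊕ Fin s → Fin r ⊕ Fin s → MvPowerSeries (Fin r ⊕ Fin r) L := fun l m =>
    a₂ (c l m) + a₂ (c m l) + w l m
  refine ⟨hregB, hregΓ, exists_change a₁ a₂ μ hμ₁ hμ₂ y hy MvPowerSeries.X (parEq L f t r c)
    (fun l => ∑ m, β (Sum.inl l) m * a₁ (z m) +
      ∑ m, a₂ (c (Sum.inl l) m) * (a₂ (z m) - a₁ (z m)))
    (fun l m => β (Sum.inl l) (Sum.inl m)) (fun l m => a₂ (c (Sum.inl l) (Sum.inl m)))
    (fun l => ∑ m : Fin s, β (Sum.inl l) (Sum.inr m) * a₁ (y m))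
    (by rw [hdimB]; congr 1; omega) (by rw [hdimΓ]; congr 1; omega) hmaxB ?_ ?_ ?_ ?_ hdiag
    hker ?_⟩
  · have hg₁ : a₁ (∑ i, ∑ j, z i * c i j * z j) ∈
        (Ideal.span (Set.range fun i => a₁ (y i)) ⊔
          Ideal.span (Set.range fun i => a₁ (MvPowerSeries.X i)) :
          Ideal (MvPowerSeries (Fin r ⊕ Fin r) L)) := by
      have h1 : (Ideal.span (Set.range z)).map a₁ =
          Ideal.span (Set.range fun i => a₁ (y i)) ⊔
          Ideal.span (Set.range fun i => a₁ (MvPowerSeries.X i)) := by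
        rw [hzspan, Ideal.map_sup, Ideal.map_span, Ideal.map_span, ← Set.range_comp,
          ← Set.range_comp]
        rfl
      rw [← h1]
      exact Ideal.mem_map_of_mem _ hq
    have hyC : ∀ i, a₁ (y i) = MvPowerSeries.C (t i) := fun i => hC₁ _
    rw [mvPowerSeries_maximalIdeal_gen, hf, Ideal.map_sup, Ideal.map_span, Set.image_singleton,
      Ideal.map_span, ← Set.range_comp]
    have hyr : Ideal.span (Set.range (MvPowerSeries.C ∘ t : Fin s →
        MvPowerSeries (Fin r ⊕ Fin r) L)) = Ideal.span (Set.range fun i => a₁ (y i)) := by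
      congr 2
      funext i
      exact (hyC i).symm
    rw [hyr]
    apply le_antisymm
    · refine sup_le (sup_le ?_ ?_) ?_
      · rw [Ideal.span_singleton_le_iff_mem]
        have h1 : MvPowerSeries.C f = a₁ (parEq L f t r c) +
            a₁ (∑ i, ∑ j, z i * c i j * z j) := by
          rw [← map_add, hGeq, sub_add_cancel, hC₁]
        rw [h1]
        exact Ideal.mem_sup_left (Ideal.add_mem _ (Ideal.mem_sup_left (Ideal.subset_span rfl))
          (Ideal.mem_sup_right hg₁))
      · exact (le_sup_left.trans le_sup_right).trans le_sup_left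
      · rw [Ideal.span_le]
        rintro _ ⟨i | i, rfl⟩
        · rw [SetLike.mem_coe, ← hX₁]
          exact Ideal.mem_sup_left (Ideal.mem_sup_right (Ideal.mem_sup_right
            (Ideal.subset_span ⟨i, rfl⟩)))
        · rw [SetLike.mem_coe, ← hX₂]
          have h1 : a₂ (MvPowerSeries.X i) = a₁ (MvPowerSeries.X i) +
              (a₂ (MvPowerSeries.X i) - a₁ (MvPowerSeries.X i)) := by ring
          rw [h1]
          exact Ideal.add_mem _
            (Ideal.mem_sup_left (Ideal.mem_sup_right (Ideal.mem_sup_right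
              (Ideal.subset_span ⟨i, rfl⟩))))
            (Ideal.mem_sup_right (Ideal.subset_span ⟨i, rfl⟩))
    · have hle : Ideal.span (Set.range fun i => a₁ (MvPowerSeries.X i)) ≤
          (Ideal.span {MvPowerSeries.C f} ⊔ Ideal.span (Set.range fun i => a₁ (y i)) ⊔
            Ideal.span (Set.range MvPowerSeries.X) :
            Ideal (MvPowerSeries (Fin r ⊕ Fin r) L)) := by
        rw [Ideal.span_le]
        rintro _ ⟨i, rfl⟩
        simp only [hX₁]
        exact Ideal.mem_sup_right (Ideal.subset_span ⟨_, rfl⟩)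
      refine sup_le (sup_le ?_ (sup_le ?_ hle)) ?_
      · rw [Ideal.span_singleton_le_iff_mem, hGeq, map_sub, hC₁]
        exact Ideal.sub_mem _ (Ideal.mem_sup_left (Ideal.mem_sup_left (Ideal.subset_span rfl)))
          ((sup_le (le_sup_right.trans le_sup_left) hle) hg₁)
      · exact le_sup_right.trans le_sup_left
      · rw [Ideal.span_le]
        rintro _ ⟨i, rfl⟩
        simp only [hX₁, hX₂]
        exact Ideal.sub_mem _ (Ideal.mem_sup_right (Ideal.subset_span ⟨_, rfl⟩))
          (Ideal.mem_sup_right (Ideal.subset_span ⟨_, rfl⟩))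
  · rw [hGeq, map_sub, map_sub, hC₁, hC₂]
    have h1 : a₂ (∑ i, ∑ j, z i * c i j * z j) = a₁ (∑ i, ∑ j, z i * c i j * z j) +
        ∑ l, (a₂ (MvPowerSeries.X l) - a₁ (MvPowerSeries.X l)) *
          (∑ m, β (Sum.inl l) m * a₁ (z m) +
            ∑ m, a₂ (c (Sum.inl l) m) * (a₂ (z m) - a₁ (z m))) := by
      rw [← sub_eq_iff_eq_add', hw2, Fintype.sum_sum_type]
      have h2 : ∑ l : Fin s, (a₂ (z (Sum.inr l)) - a₁ (z (Sum.inr l))) *
          (∑ m, (a₂ (c (Sum.inr l) m) + a₂ (c m (Sum.inr l)) + w (Sum.inr l) m) * a₁ (z m) +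
            ∑ m, a₂ (c (Sum.inr l) m) * (a₂ (z m) - a₁ (z m))) = 0 := by
        refine Finset.sum_eq_zero fun l _ => ?_
        rw [hzr, hy, sub_self, zero_mul]
      rw [h2, add_zero]
      rfl
    rw [h1]
    ring
  · intro l
    rw [Fintype.sum_sum_type, Fintype.sum_sum_type]
    have h2 : ∑ m : Fin s, a₂ (c (Sum.inl l) (Sum.inr m)) *
        (a₂ (z (Sum.inr m)) - a₁ (z (Sum.inr m))) = 0 := by
      refine Finset.sum_eq_zero fun m _ => ?_
      rw [hzr, hy, sub_self, mul_zero]
    rw [h2, add_zero]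
    rfl
  · intro l
    exact Ideal.sum_mem _ fun m _ => Ideal.mul_mem_left _ _ (Ideal.subset_span ⟨m, rfl⟩)
  · have h3 : residue _ (Matrix.det (Matrix.of fun l m => μ (β (Sum.inl l) (Sum.inl m)))) =
        residue _ (Matrix.det (Matrix.of fun l m =>
          c (Sum.inl l) (Sum.inl m) + c (Sum.inl m) (Sum.inl l))) := by
      rw [RingHom.map_det, RingHom.map_det]
      congr 1
      ext l m
      rw [RingHom.mapMatrix_apply, RingHom.mapMatrix_apply, Matrix.map_apply, Matrix.map_apply,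
        ← sub_eq_zero, ← map_sub, residue_eq_zero_iff]
      have h1 : μ (β (Sum.inl l) (Sum.inl m)) -
          (c (Sum.inl l) (Sum.inl m) + c (Sum.inl m) (Sum.inl l)) =
          μ (w (Sum.inl l) (Sum.inl m)) := by
        change μ (a₂ (c (Sum.inl l) (Sum.inl m)) + a₂ (c (Sum.inl m) (Sum.inl l)) +
          w (Sum.inl l) (Sum.inl m)) - _ = _
        rw [map_add μ, map_add μ, hμ₂, hμ₂]
        ring
      change μ (β (Sum.inl l) (Sum.inl m)) -
          (c (Sum.inl l) (Sum.inl m) + c (Sum.inl m) (Sum.inl l)) ∈ _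
      rw [h1]
      exact hwm _ _
    rw [← isUnit_map_iff (residue (MvPowerSeries (Fin r) L)), h3]
    exact hc.map _

end mk

end Vale.Agent.P177
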