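import Vale.Agent.P177.K4
import Vale.Agent.P177.K8
import Vale.Agent.P177.DGg

/-!
Serre's statements over a quadratic hypersurface with at most one parameter.
-/

namespace Vale.Agent.P177

open CategoryTheory TensorProduct IsLocalRing RingTheory.Sequence Function

universe u

/-- The quotient ring. -/
abbrev ParRing (L : Type u) [CommRing L] (f : L) {s : ℕ} (t : Fin s → L) (r : ℕ)
    (c : Fin r ⊕ Fin s → Fin r ⊕ Fin s → MvPowerSeries (Fin r) L) : Type u :=
  MvPowerSeries (Fin r) L ⧸ Ideal.span {parEq L f t r c}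

theorem parRing_regular (L : Type u) [CommRing L] [IsRegularLocalRing L] (f : L) {s : ℕ}
    (t : Fin s → L) (hf : maximalIdeal L = Ideal.span {f} ⊔ Ideal.span (Set.range t))
    (hL : ringKrullDim L = ((s + 1 : ℕ) : WithBot ℕ∞)) (r : ℕ)
    (c : Fin r ⊕ Fin s → Fin r ⊕ Fin s → MvPowerSeries (Fin r) L)
    (hc : IsUnit (Matrix.det (Matrix.of fun l m =>
      c (Sum.inl l) (Sum.inl m) + c (Sum.inl m) (Sum.inl l)))) :
    ∃ (_ : IsRegularLocalRing (ParRing L f t r c)),
      ringKrullDim (ParRing L f t r c) = ((s + r : ℕ) : WithBot ℕ∞) := by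
  obtain ⟨h1, h2, D, hG, -, -⟩ := exists_RData' L f t r c hf hL hc
  have key : ∀ (g : MvPowerSeries (Fin r) L), D.G = g →
      ∃ (_ : IsRegularLocalRing (MvPowerSeries (Fin r) L ⧸ Ideal.span {g})),
      ringKrullDim (MvPowerSeries (Fin r) L ⧸ Ideal.span {g}) = ((s + r : ℕ) : WithBot ℕ∞) := by
    rintro g rfl
    obtain ⟨k1, k2, k3⟩ := D.quot_regular
    exact ⟨k1, k3⟩
  exact key _ hG

theorem exists_series {r : ℕ} {A : Type u} [CommRing A] (g : (Fin r →₀ ℕ) → A) :
    ∃ p : MvPowerSeries (Fin r) A, ∀ n, MvPowerSeries.coeff n p = g n :=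
  ⟨(g : MvPowerSeries (Fin r) A), fun _ => rfl⟩

theorem map_surjective' {L L' : Type u} [CommRing L] [CommRing L'] (π : L →+* L')
    (hπ : Surjective π) (r : ℕ) : Surjective (MvPowerSeries.map (σ := Fin r) π) := by
  intro p
  choose g hg using hπ
  obtain ⟨q, hq⟩ := exists_series (r := r) fun n => g (MvPowerSeries.coeff n p)
  refine ⟨q, ?_⟩
  ext n
  rw [MvPowerSeries.coeff_map, hq, hg]

/-- The hypersurface over a quotient of the base ring. -/
theorem exists_parRing_map {L L' : Type u} [CommRing L] [CommRing L'] (π : L →+* L')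
    (hπ : Surjective π) {s : ℕ} (t : Fin s → L) (hker : RingHom.ker π = Ideal.span (Set.range t))
    (f : L) (r : ℕ) (c : Fin r ⊕ Fin s → Fin r ⊕ Fin s → MvPowerSeries (Fin r) L) :
    ∃ ψ : ParRing L f t r c →+* QuadRing L' (π f) r (fun i j =>
        MvPowerSeries.map π (c (Sum.inl i) (Sum.inl j))),
      Surjective ψ ∧ RingHom.ker ψ ≤ Ideal.span (Set.range fun i =>
        (Ideal.Quotient.mk _ (MvPowerSeries.C (t i)) : ParRing L f t r c)) := by
  let c' : Fin r → Fin r → MvPowerSeries (Fin r) L' := fun i j =>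
    MvPowerSeries.map π (c (Sum.inl i) (Sum.inl j))
  have hz : ∀ i : Fin s, MvPowerSeries.map π (parZ L t r (Sum.inr i)) = 0 := fun i => by
    have h1 : parZ L t r (Sum.inr i) = MvPowerSeries.C (t i) := rfl
    have h2 : π (t i) = 0 := by
      rw [← RingHom.mem_ker, hker]
      exact Ideal.subset_span ⟨i, rfl⟩
    rw [h1, MvPowerSeries.map_C, h2, map_zero]
  have hz' : ∀ i : Fin r, MvPowerSeries.map π (parZ L t r (Sum.inl i)) =
      MvPowerSeries.X i := fun i => MvPowerSeries.map_X _ _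
  have hq : MvPowerSeries.map π (parEq L f t r c) = quadEq L' (π f) r c' := by
    rw [parEq, quadEq, map_sub, MvPowerSeries.map_C, map_sum, Fintype.sum_sum_type]
    have e1 : ∑ x : Fin s, MvPowerSeries.map π (∑ j, parZ L t r (Sum.inr x) *
        c (Sum.inr x) j * parZ L t r j) = 0 := by
      refine Finset.sum_eq_zero fun x _ => ?_
      rw [map_sum]
      refine Finset.sum_eq_zero fun j _ => ?_
      rw [map_mul, map_mul, hz, zero_mul, zero_mul]
    have e2 : ∀ x : Fin r, MvPowerSeries.map π (∑ j, parZ L t r (Sum.inl x) *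
        c (Sum.inl x) j * parZ L t r j) = ∑ j, MvPowerSeries.X x * c' x j *
          MvPowerSeries.X j := by
      intro x
      rw [map_sum, Fintype.sum_sum_type]
      have e3 : ∑ j : Fin s, MvPowerSeries.map π (parZ L t r (Sum.inl x) *
          c (Sum.inl x) (Sum.inr j) * parZ L t r (Sum.inr j)) = 0 := by
        refine Finset.sum_eq_zero fun j _ => ?_
        rw [map_mul, hz, mul_zero]
      rw [e3, add_zero]
      refine Finset.sum_congr rfl fun j _ => ?_
      rw [map_mul, map_mul, hz', hz']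
    rw [e1, add_zero]
    congr 1
    exact Finset.sum_congr rfl fun x _ => e2 x
  have hsurj := map_surjective' π hπ r
  have hle : Ideal.span {parEq L f t r c} ≤
      (Ideal.span {quadEq L' (π f) r c'}).comap (MvPowerSeries.map π) := by
    rw [Ideal.span_singleton_le_iff_mem, Ideal.mem_comap, hq]
    exact Ideal.subset_span rfl
  refine ⟨Ideal.quotientMap _ (MvPowerSeries.map π) hle,
    Ideal.quotientMap_surjective hsurj, ?_⟩
  intro a ha
  obtain ⟨p, rfl⟩ := Ideal.Quotient.mk_surjective a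
  rw [RingHom.mem_ker, Ideal.quotientMap_mk, Ideal.Quotient.eq_zero_iff_mem,
    Ideal.mem_span_singleton'] at ha
  obtain ⟨b', hb'⟩ := ha
  obtain ⟨b, rfl⟩ := hsurj b'
  rw [← hq, ← map_mul] at hb'
  have h1 : ∀ n, ∃ e : Fin s → L, ∑ i, e i * t i =
      MvPowerSeries.coeff n (p - b * parEq L f t r c) := by
    intro n
    have h2 : MvPowerSeries.coeff n (p - b * parEq L f t r c) ∈ RingHom.ker π := by
      rw [RingHom.mem_ker, ← MvPowerSeries.coeff_map, map_sub, hb', sub_self]
      exact map_zero _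
    rw [hker] at h2
    exact (Ideal.mem_span_range_iff_exists_fun).1 h2
  choose e he using h1
  have h2 : ∀ i, ∃ p : MvPowerSeries (Fin r) L, ∀ n, MvPowerSeries.coeff n p = e n i :=
    fun i => exists_series fun n => e n i
  choose e' he' using h2
  have h3 : p - b * parEq L f t r c = ∑ i, MvPowerSeries.C (t i) * e' i := by
    ext n
    rw [← he, map_sum]
    refine Finset.sum_congr rfl fun i _ => ?_
    rw [MvPowerSeries.coeff_C_mul, he', mul_comm]
  have h4 : (Ideal.Quotient.mk (Ideal.span {parEq L f t r c})) p =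
      ∑ i, Ideal.Quotient.mk _ (MvPowerSeries.C (t i)) * Ideal.Quotient.mk _ (e' i) := by
    simp only [← map_mul]
    rw [← map_sum, ← h3, Ideal.Quotient.mk_eq_mk_iff_sub_mem]
    have h5 : p - (p - b * parEq L f t r c) = b * parEq L f t r c := by ring
    rw [h5]
    exact Ideal.mul_mem_left _ _ (Ideal.subset_span rfl)
  rw [h4]
  exact Ideal.sum_mem _ fun i _ => Ideal.mul_mem_right _ _ (Ideal.subset_span ⟨i, rfl⟩)

theorem exists_base_dim_one (L : Type u) [CommRing L] [IsRegularLocalRing L] (f : L) {s : ℕ}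
    (hs : s ≤ 1) (t : Fin s → L)
    (hf : maximalIdeal L = Ideal.span {f} ⊔ Ideal.span (Set.range t))
    (hL : ringKrullDim L = ((s + 1 : ℕ) : WithBot ℕ∞)) :
    ∃ (V : Type u) (_ : CommRing V) (_ : IsRegularLocalRing V) (π : L →+* V), Surjective π ∧
      RingHom.ker π = Ideal.span (Set.range t) ∧ maximalIdeal V = Ideal.span {π f} ∧
      ringKrullDim V = (1 : ℕ) := by
  obtain rfl | rfl : s = 0 ∨ s = 1 := by omega
  · have h0 : Ideal.span (Set.range t) = ⊥ := by
      rw [Set.range_eq_empty, Ideal.span_empty]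
    refine ⟨L, inferInstance, inferInstance, RingHom.id L, fun x => ⟨x, rfl⟩, ?_, ?_, ?_⟩
    · rw [h0, RingHom.ker_eq_bot_iff_eq_zero]
      exact fun x hx => hx
    · rw [hf, h0, sup_bot_eq]
      rfl
    · rw [hL]
  · have hrange : Ideal.span (Set.range t) = Ideal.span {t 0} := by
      congr 1
      ext x
      simp [Fin.exists_fin_one, eq_comm]
    rw [hrange] at hf ⊢
    have hy : t 0 ∈ maximalIdeal L := by
      rw [hf]
      exact Ideal.mem_sup_right (Ideal.subset_span rfl)
    have hy2 : t 0 ∉ maximalIdeal L ^ 2 := by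
      intro h2
      have h3 : maximalIdeal L ≤ Ideal.span {f} ⊔ maximalIdeal L ^ 2 := by
        conv_lhs => rw [hf]
        refine sup_le le_sup_left ?_
        rw [Ideal.span_singleton_le_iff_mem]
        exact Ideal.mem_sup_right h2
      have h4 : maximalIdeal L ≤ Ideal.span {f} := by
        refine Submodule.le_of_le_smul_of_le_jacobson_bot
          ((maximalIdeal L).fg_of_isNoetherianRing) (IsLocalRing.maximalIdeal_le_jacobson ⊥) ?_
        rw [smul_eq_mul, ← pow_two]
        exact h3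
      have h5 : ringKrullDim L ≤ 1 := by
        rw [← IsLocalRing.maximalIdeal_height_eq_ringKrullDim]
        have h6 : (maximalIdeal L).height ≤ 1 := by
          have h7 : (maximalIdeal L) ∈ (Ideal.span {f}).minimalPrimes := by
            refine ⟨⟨inferInstance, ?_⟩, fun J hJ _ => h4.trans hJ.2⟩
            rw [Ideal.span_singleton_le_iff_mem, hf]
            exact Ideal.mem_sup_left (Ideal.subset_span rfl)
          exact Ideal.height_le_one_of_isPrincipal_of_mem_minimalPrimes _ _ h7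
        exact_mod_cast h6
      rw [hL] at h5
      exact absurd h5 (by exact_mod_cast (by omega : ¬ (1 + 1 ≤ 1)))
    obtain ⟨hregV, hdimV⟩ := regular_quotient L (t 0) hy hy2
    refine ⟨L ⧸ Ideal.span {t 0}, inferInstance, hregV, Ideal.Quotient.mk _,
      Ideal.Quotient.mk_surjective, Ideal.mk_ker, ?_, ?_⟩
    · have h1 : (maximalIdeal L).map (Ideal.Quotient.mk (Ideal.span {t 0})) =
          maximalIdeal (L ⧸ Ideal.span {t 0}) :=
        map_maximalIdeal_of_surjective _ Ideal.Quotient.mk_surjective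
      rw [← h1, hf, Ideal.map_sup, Ideal.map_span, Ideal.map_span, Set.image_singleton,
        Set.image_singleton, Ideal.Quotient.mk_singleton_self, Ideal.span_singleton_zero,
        sup_bot_eq]
    · rw [hL] at hdimV
      obtain ⟨n, hn⟩ := exists_nat_eq_ringKrullDim (L ⧸ Ideal.span {t 0})
      rw [hn] at hdimV ⊢
      have : n + 1 = 1 + 1 := by exact_mod_cast hdimV
      have : n = 1 := by omega
      rw [this]

/-- Serre's positivity conjecture for quadratic hypersurfaces of corank at most one. -/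
theorem serreAll_parRing (hLOC : LocStmtRel.{u}) (L : Type u) [CommRing L]
    [IsRegularLocalRing L] (f : L) {s : ℕ} (hs : s ≤ 1) (t : Fin s → L)
    (hf : maximalIdeal L = Ideal.span {f} ⊔ Ideal.span (Set.range t))
    (hL : ringKrullDim L = ((s + 1 : ℕ) : WithBot ℕ∞)) (r : ℕ)
    (c : Fin r ⊕ Fin s → Fin r ⊕ Fin s → MvPowerSeries (Fin r) L)
    (hc : IsUnit (Matrix.det (Matrix.of fun l m =>
      c (Sum.inl l) (Sum.inl m) + c (Sum.inl m) (Sum.inl l)))) :
    SerreAll (ParRing L f t r c) (s + r) := by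
  obtain ⟨hreg, hdim⟩ := parRing_regular L f t hf hL r c hc
  obtain ⟨V, _, hregV, π, hπ, hkerπ, hmV, hV1⟩ := exists_base_dim_one L f hs t hf hL
  obtain ⟨ψ, hψ, hker⟩ := exists_parRing_map π hπ t hkerπ f r c
  have hdet' : IsUnit (polarMatrix V r (fun i j =>
      MvPowerSeries.map π (c (Sum.inl i) (Sum.inl j)))).det := by
    have h1 : polarMatrix V r (fun i j => MvPowerSeries.map π (c (Sum.inl i) (Sum.inl j))) =
        (MvPowerSeries.map π).mapMatrix (Matrix.of fun l m =>
          c (Sum.inl l) (Sum.inl m) + c (Sum.inl m) (Sum.inl l)) := by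
      ext i j : 2
      simp only [polarMatrix, RingHom.mapMatrix_apply, Matrix.map_apply, map_add, Matrix.of_apply]
    rw [h1, ← RingHom.map_det]
    exact hc.map _
  obtain ⟨hreg', -, hdim'⟩ := quadRing_regular V (π f) hmV hV1 r (fun i j =>
      MvPowerSeries.map π (c (Sum.inl i) (Sum.inl j)))
  have hall := serreAll_of_nondegenerate V (π f) hmV hV1 r (fun i j =>
      MvPowerSeries.map π (c (Sum.inl i) (Sum.inl j))) hdet'
  intro M N _ _ _ _ _ _ hlen
  refine sp_dev₂ hdim M N hlen fun P Q hP hQ _ _ hl => ?_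
  by_cases hyP : RingHom.ker ψ ≤ P
  · exact sp_of_quotient hdim hdim' ψ hψ hall P hyP _ hl
  by_cases hyQ : RingHom.ker ψ ≤ Q
  · refine (sp_of_quotient hdim hdim' ψ hψ hall Q hyQ _ ?_).symm
    rw [(TensorProduct.comm _ (ParRing L f t r c ⧸ Q) (ParRing L f t r c ⧸ P)).length_eq]
    exact hl
  obtain rfl | rfl : s = 0 ∨ s = 1 := by omega
  · refine absurd (hker.trans ?_) hyP
    rw [Set.range_eq_empty, Ideal.span_empty]
    exact bot_le
  have hnot : ∀ P' : Ideal (ParRing L f t r c), ¬ RingHom.ker ψ ≤ P' →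
      (Ideal.Quotient.mk _ (MvPowerSeries.C (t 0)) : ParRing L f t r c) ∉ P' := by
    intro P' h1 h2
    refine h1 (hker.trans ?_)
    rw [Ideal.span_le]
    rintro _ ⟨i, rfl⟩
    have : i = 0 := Subsingleton.elim _ _
    subst this
    exact h2
  obtain ⟨h1, h2, D, hG, hDy, hdet⟩ := exists_RData' L f t r c hf hL hc
  have hB : SerreAll (MvPowerSeries (Fin r) L) (1 + r + 1) :=
    serreAll_powerSeries 4 locPos_four L (by rw [hL]; exact_mod_cast (by omega : 1 + 1 ≤ 4)) r
      (1 + r + 1) D.dimB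
  have key : ∀ (g : MvPowerSeries (Fin r) L) (z : Fin 1 → MvPowerSeries (Fin r) L), D.G = g →
      D.y = z → ∀ (P Q : Ideal (MvPowerSeries (Fin r) L ⧸ Ideal.span {g})) [P.IsPrime]
      [Q.IsPrime], Ideal.Quotient.mk _ (z 0) ∉ P → Ideal.Quotient.mk _ (z 0) ∉ Q →
      Module.length (MvPowerSeries (Fin r) L ⧸ Ideal.span {g})
        (((MvPowerSeries (Fin r) L ⧸ Ideal.span {g}) ⧸ P)
        ⊗[MvPowerSeries (Fin r) L ⧸ Ideal.span {g}]
          ((MvPowerSeries (Fin r) L ⧸ Ideal.span {g}) ⧸ Q)) ≠ ⊤ →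
      SP (MvPowerSeries (Fin r) L ⧸ Ideal.span {g}) (1 + r)
        ((MvPowerSeries (Fin r) L ⧸ Ideal.span {g}) ⧸ P)
        ((MvPowerSeries (Fin r) L ⧸ Ideal.span {g}) ⧸ Q) := by
    rintro g z rfl rfl P Q _ _ hyP hyQ hl
    exact D.sp_primes hLOC hB hdet P Q hyP hyQ hl
  exact key _ _ hG hDy P Q (hnot P hyP) (hnot Q hyQ) hl

end Vale.Agent.P177
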