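import Vale.Agent.P177.GlobalSum

/-!
Localizing a flat map `R → T` at a prime `Q` of `T`.
-/

namespace Vale.Agent.P177

open CategoryTheory TensorProduct Function IsLocalRing RingTheory.Sequence Pointwise

universe u

section loc

variable (R T : Type u) [CommRing R] [CommRing T] [Algebra R T] [Module.Flat R T]
  [IsRegularLocalRing R]

/-- Localization data at a prime. -/
structure LocData (Q : Ideal T) [Q.IsPrime] (L : Type u) [CommRing L] [Algebra R L]
    [Algebra L (Localization.AtPrime Q)] : Prop where
  reg : IsRegularLocalRing L
  flat : Module.Flat L (Localization.AtPrime Q)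
  loc : IsLocalHom (algebraMap L (Localization.AtPrime Q))
  dim : ringKrullDim L = (Q.comap (algebraMap R T)).height
  isloc : IsLocalization (Q.comap (algebraMap R T)).primeCompl L
  tower : IsScalarTower R L (Localization.AtPrime Q)

theorem exists_locData (Q : Ideal T) [Q.IsPrime] :
    ∃ (L : Type u) (_ : CommRing L) (_ : Algebra R L)
      (_ : Algebra L (Localization.AtPrime Q)), LocData R T Q L := by
  let P := Q.under R
  let _ := Localization.AtPrime.algebraOfLiesOver P Q
  have hloc : IsLocalHom (algebraMap (Localization.AtPrime P) (Localization.AtPrime Q)) := by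
    rw [RingHom.algebraMap_toAlgebra]
    exact Localization.isLocalHom_localRingHom P Q (algebraMap R T) Ideal.LiesOver.over
  refine ⟨Localization.AtPrime P, inferInstance, inferInstance, inferInstance, ?_⟩
  exact
    { reg := isRegularLocalRing_localization R P (Localization.AtPrime P)
      flat := inferInstance
      loc := hloc
      dim := IsLocalization.AtPrime.ringKrullDim_eq_height P (Localization.AtPrime P)
      isloc := inferInstanceAs (IsLocalization P.primeCompl (Localization.AtPrime P))
      tower := inferInstance }

end loc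

section cancel

variable {R T : Type u} [CommRing R] [CommRing T] [Algebra R T]

theorem exists_cancel_loc (Q : Ideal T) [Q.IsPrime] (L : Type u) [CommRing L] [Algebra R L]
    [Algebra L (Localization.AtPrime Q)] [IsScalarTower R L (Localization.AtPrime Q)]
    (M : Type u) [AddCommGroup M] [Module R M] :
    Nonempty ((Localization.AtPrime Q ⊗[L] (L ⊗[R] M)) ≃ₗ[Localization.AtPrime Q]
      (Localization.AtPrime Q ⊗[T] (T ⊗[R] M))) :=
  ⟨AlgebraTensorModule.cancelBaseChange R L (Localization.AtPrime Q) (Localization.AtPrime Q) M
    ≪≫ₗ (AlgebraTensorModule.cancelBaseChange R T (Localization.AtPrime Q)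
      (Localization.AtPrime Q) M).symm⟩

end cancel

section ann

variable {R L : Type u} [CommRing R] [CommRing L] [Algebra R L]

theorem map_annihilator_le (M : Type u) [AddCommGroup M] [Module R M] :
    (Module.annihilator R M).map (algebraMap R L) ≤ Module.annihilator L (L ⊗[R] M) := by
  rw [Ideal.map_le_iff_le_comap]
  intro a ha
  rw [Ideal.mem_comap, Module.mem_annihilator]
  intro z
  induction z using TensorProduct.induction_on with
  | zero => exact smul_zero _
  | tmul b x =>
    rw [TensorProduct.smul_tmul', smul_eq_mul, ← Algebra.smul_def, TensorProduct.smul_tmul,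
      Module.mem_annihilator.1 ha, TensorProduct.tmul_zero]
  | add x y hx hy => rw [smul_add, hx, hy, add_zero]

end ann

section dims

theorem krullDim_mono_of_subset {α : Type*} [Preorder α] {s t : Set α} (h : s ⊆ t) :
    Order.krullDim s ≤ Order.krullDim t :=
  Order.krullDim_le_of_strictMono (Set.inclusion h) (fun _ _ hab => hab)

/-- Lower bound for the dimension of a localization. -/
theorem le_supportDim_localization (R : Type u) [CommRing R] [IsRegularLocalRing R]
    (P P₀ : Ideal R) [P.IsPrime] [hP₀ : P₀.IsPrime] (hle : P₀ ≤ P)
    (L : Type u) [CommRing L] [Algebra R L] [IsLocalization P.primeCompl L]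
    [IsRegularLocalRing L] (M : Type u) [AddCommGroup M] [Module R M] [Module.Finite R M]
    (hM : (⟨P₀, hP₀⟩ : PrimeSpectrum R) ∈ Module.support R M) (p p₀ : ℕ)
    (hp : P.height = p) (hp₀ : P₀.height = p₀) :
    ((p - p₀ : ℕ) : WithBot ℕ∞) ≤ Module.supportDim L (L ⊗[R] M) := by
  have hdisj : Disjoint (P.primeCompl : Set R) P₀ := by
    rw [Set.disjoint_left]
    intro x hx hx0
    exact hx (hle hx0)
  have hprime : (P₀.map (algebraMap R L)).IsPrime :=
    IsLocalization.isPrime_of_isPrime_disjoint P.primeCompl L P₀ hP₀ hdisj
  have hcomap : (P₀.map (algebraMap R L)).comap (algebraMap R L) = P₀ :=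
    IsLocalization.comap_map_of_isPrime_disjoint P.primeCompl L hP₀ hdisj
  have hht : (P₀.map (algebraMap R L)).height = p₀ := by
    rw [IsLocalization.height_map_of_disjoint P.primeCompl P₀ hdisj, hp₀]
  have hL : IsLocalization.AtPrime L P := ‹_›
  have hdimL : ringKrullDim L = (p : WithBot ℕ∞) := by
    rw [IsLocalization.AtPrime.ringKrullDim_eq_height P L, hp]
    rfl
  obtain ⟨zs, -, -, -, h1, h2, -⟩ := exists_ci hdimL (P₀.map (algebraMap R L))
  have h3 : zs.length = p₀ := by
    rw [hht] at h1
    exact_mod_cast h1.symm
  rw [h3] at h2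
  rw [← h2]
  apply krullDim_mono_of_subset
  intro Q hQ
  rw [support_quotient_prime] at hQ
  have hflat : Module.Flat R L := IsLocalization.flat L P.primeCompl
  apply mem_support_baseChange
  refine Module.mem_support_mono ?_ hM
  change P₀ ≤ Q.asIdeal.comap (algebraMap R L)
  rw [← hcomap]
  exact Ideal.comap_mono hQ

end dims

end Vale.Agent.P177
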