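import Vale.Agent.P177.LocalValue
import Vale.Agent.P177.COne

/-!
The local contributions, with a local hypothesis at one prime only.
-/

namespace Vale.Agent.P177

open CategoryTheory TensorProduct Function IsLocalRing RingTheory.Sequence Pointwise

universe u

section

variable {R₁ R₂ T : Type u} [CommRing R₁] [CommRing R₂] [CommRing T]
    [IsRegularLocalRing R₁] [IsRegularLocalRing R₂] [IsRegularLocalRing T]
    [Algebra R₁ T] [Algebra R₂ T] [Module.Flat R₁ T] [Module.Flat R₂ T]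

variable (R₁ R₂) in
/-- Local positivity at the prime `Q`. -/
def LocPosAt (N M : Type u) [AddCommGroup N] [Module R₁ N] [AddCommGroup M] [Module R₂ M]
    (Q : Ideal T) [Q.IsPrime] : Prop :=
  ∀ (L₁ L₂ : Type u) [CommRing L₁] [CommRing L₂] [Algebra R₁ L₁] [Algebra R₂ L₂]
    [Algebra L₁ (Localization.AtPrime Q)] [Algebra L₂ (Localization.AtPrime Q)],
    LocData R₁ T Q L₁ → LocData R₂ T Q L₂ →
    ∀ (r₁ r₂ q b : ℕ), ringKrullDim L₁ = r₁ → ringKrullDim L₂ = r₂ →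
    ringKrullDim (Localization.AtPrime Q) = q → r₁ + r₂ = q + b →
    FP L₁ L₂ (Localization.AtPrime Q) (L₁ ⊗[R₁] N) (L₂ ⊗[R₂] M) →
    (∀ e g : ℕ, (e : WithBot ℕ∞) ≤ Module.supportDim L₁ (L₁ ⊗[R₁] N) →
      (g : WithBot ℕ∞) ≤ Module.supportDim L₂ (L₂ ⊗[R₂] M) → e + g ≤ b) ∧
    0 ≤ eulerTor (Localization.AtPrime Q) (q + 1) (Localization.AtPrime Q ⊗[L₁] (L₁ ⊗[R₁] N))
      (Localization.AtPrime Q ⊗[L₂] (L₂ ⊗[R₂] M)) ∧
    (∀ e g : ℕ, (e : WithBot ℕ∞) ≤ Module.supportDim L₁ (L₁ ⊗[R₁] N) →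
      (g : WithBot ℕ∞) ≤ Module.supportDim L₂ (L₂ ⊗[R₂] M) → b ≤ e + g →
      0 < eulerTor (Localization.AtPrime Q) (q + 1)
        (Localization.AtPrime Q ⊗[L₁] (L₁ ⊗[R₁] N)) (Localization.AtPrime Q ⊗[L₂] (L₂ ⊗[R₂] M)))

theorem locPosAt_of_locPos (a : ℕ) (hLoc : LocPos.{u} a) (N M : Type u) [AddCommGroup N]
    [Module R₁ N] [Module.Finite R₁ N] [AddCommGroup M] [Module R₂ M] [Module.Finite R₂ M]
    (Q : Ideal T) [Q.IsPrime]
    (hb : ∀ (r₁ r₂ q : ℕ), (Q.comap (algebraMap R₁ T)).height = r₁ →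
      (Q.comap (algebraMap R₂ T)).height = r₂ → Q.height = q → r₁ + r₂ ≤ q + a) :
    LocPosAt (T := T) R₁ R₂ N M Q := by
  intro L₁ L₂ _ _ _ _ _ _ D₁ D₂ r₁ r₂ q b h₁ h₂ hq hrb hFP
  have i0 : IsRegularLocalRing (Localization.AtPrime Q) :=
    isRegularLocalRing_localization T Q (Localization.AtPrime Q)
  have i1 := D₁.reg
  have i2 := D₂.reg
  have i3 := D₁.flat
  have i4 := D₂.flat
  have i5 := D₁.loc
  have i6 := D₂.loc
  have k₁ : (Q.comap (algebraMap R₁ T)).height = r₁ := by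
    have := D₁.dim
    rw [h₁] at this
    exact_mod_cast this.symm
  have k₂ : (Q.comap (algebraMap R₂ T)).height = r₂ := by
    have := D₂.dim
    rw [h₂] at this
    exact_mod_cast this.symm
  have kq : Q.height = q := by
    have := IsLocalization.AtPrime.ringKrullDim_eq_height Q (Localization.AtPrime Q)
    rw [hq] at this
    exact_mod_cast this.symm
  have hb' := hb r₁ r₂ q k₁ k₂ kq
  exact hLoc L₁ L₂ (Localization.AtPrime Q) r₁ r₂ q b h₁ h₂ hq hrb (by omega)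
    (L₁ ⊗[R₁] N) (L₂ ⊗[R₂] M) hFP

theorem local_value_of_loc (N M : Type u) [AddCommGroup N] [Module R₁ N]
    [Module.Finite R₁ N] [AddCommGroup M] [Module R₂ M] [Module.Finite R₂ M]
    (Q : Ideal T) [hQp : Q.IsPrime]
    (hQ : Q ∈ ((Module.annihilator R₁ N).map (algebraMap R₁ T) ⊔
      (Module.annihilator R₂ M).map (algebraMap R₂ T)).minimalPrimes)
    (r₁ r₂ q : ℕ) (h₁ : (Q.comap (algebraMap R₁ T)).height = r₁)
    (h₂ : (Q.comap (algebraMap R₂ T)).height = r₂) (hq : Q.height = q)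
    (H : LocPosAt (T := T) R₁ R₂ N M Q) (n : ℕ) (hn : q + 1 ≤ n) :
    ∃ b : ℕ, r₁ + r₂ = q + b ∧ 0 ≤ locEul Q n (T ⊗[R₁] N) (T ⊗[R₂] M) ∧
      ∀ (P₁ P₂ : ℕ) (p₁ : PrimeSpectrum R₁) (p₂ : PrimeSpectrum R₂), p₁ ∈ Module.support R₁ N →
        p₂ ∈ Module.support R₂ M → p₁.asIdeal ≤ Q.comap (algebraMap R₁ T) →
        p₂.asIdeal ≤ Q.comap (algebraMap R₂ T) → p₁.asIdeal.height = P₁ →
        p₂.asIdeal.height = P₂ →
        (r₁ - P₁) + (r₂ - P₂) ≤ b ∧ (b ≤ (r₁ - P₁) + (r₂ - P₂) →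
          0 < locEul Q n (T ⊗[R₁] N) (T ⊗[R₂] M)) := by
  have hUreg : IsRegularLocalRing (Localization.AtPrime Q) :=
    isRegularLocalRing_localization T Q (Localization.AtPrime Q)
  obtain ⟨L₁, _, _, _, D₁⟩ := exists_locData R₁ T Q
  obtain ⟨L₂, _, _, _, D₂⟩ := exists_locData R₂ T Q
  have i1 := D₁.reg
  have i2 := D₂.reg
  have i3 := D₁.flat
  have i4 := D₂.flat
  have i5 := D₁.loc
  have i6 := D₂.loc
  have i7 := D₁.isloc
  have i8 := D₂.isloc
  have i9 := D₁.tower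
  have i10 := D₂.tower
  have d₁ : ringKrullDim L₁ = r₁ := by rw [D₁.dim, h₁]; rfl
  have d₂ : ringKrullDim L₂ = r₂ := by rw [D₂.dim, h₂]; rfl
  have dU : ringKrullDim (Localization.AtPrime Q) = q := by
    rw [IsLocalization.AtPrime.ringKrullDim_eq_height Q, hq]; rfl
  -- the radical condition
  have hrad := maximalIdeal_le_radical_of_minimal _ Q hQ
  have hmap₁ : ∀ I : Ideal R₁, (I.map (algebraMap R₁ T)).map
      (algebraMap T (Localization.AtPrime Q)) =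
      (I.map (algebraMap R₁ L₁)).map (algebraMap L₁ (Localization.AtPrime Q)) := by
    intro I
    rw [Ideal.map_map, Ideal.map_map, ← IsScalarTower.algebraMap_eq,
      ← IsScalarTower.algebraMap_eq]
  have hmap₂ : ∀ I : Ideal R₂, (I.map (algebraMap R₂ T)).map
      (algebraMap T (Localization.AtPrime Q)) =
      (I.map (algebraMap R₂ L₂)).map (algebraMap L₂ (Localization.AtPrime Q)) := by
    intro I
    rw [Ideal.map_map, Ideal.map_map, ← IsScalarTower.algebraMap_eq,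
      ← IsScalarTower.algebraMap_eq]
  rw [Ideal.map_sup, hmap₁, hmap₂] at hrad
  have hFP : FP L₁ L₂ (Localization.AtPrime Q) (L₁ ⊗[R₁] N) (L₂ ⊗[R₂] M) := by
    unfold FP
    refine hrad.trans (Ideal.radical_mono (sup_le_sup ?_ ?_))
    · exact Ideal.map_mono (map_annihilator_le N)
    · exact Ideal.map_mono (map_annihilator_le M)
  -- dimension bound
  have hle₁ : (Module.annihilator R₁ N).map (algebraMap R₁ L₁) ≤ maximalIdeal L₁ := by
    rw [← IsLocalization.AtPrime.map_eq_maximalIdeal (Q.comap (algebraMap R₁ T)) L₁]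
    apply Ideal.map_mono
    rw [← Ideal.map_le_iff_le_comap]
    exact le_sup_left.trans hQ.1.2
  have hle₂ : (Module.annihilator R₂ M).map (algebraMap R₂ L₂) ≤ maximalIdeal L₂ := by
    rw [← IsLocalization.AtPrime.map_eq_maximalIdeal (Q.comap (algebraMap R₂ T)) L₂]
    apply Ideal.map_mono
    rw [← Ideal.map_le_iff_le_comap]
    exact le_sup_right.trans hQ.1.2
  have hdim := ringKrullDim_le_add_of_radical L₁ L₂ (Localization.AtPrime Q) r₁ r₂ d₁ d₂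
    (hrad.trans (Ideal.radical_mono (sup_le_sup (Ideal.map_mono hle₁) (Ideal.map_mono hle₂))))
  rw [dU] at hdim
  have hqle : q ≤ r₁ + r₂ := by exact_mod_cast hdim
  obtain ⟨b, hbq⟩ := Nat.exists_eq_add_of_le hqle
  obtain ⟨c1, c2, c3⟩ := H L₁ L₂ D₁ D₂ r₁ r₂ q b d₁ d₂ dU hbq hFP
  -- comparison
  obtain ⟨e₁⟩ := exists_cancel_loc (R := R₁) (T := T) Q L₁ N
  obtain ⟨e₂⟩ := exists_cancel_loc (R := R₂) (T := T) Q L₂ M
  have hval : locEul Q n (T ⊗[R₁] N) (T ⊗[R₂] M) =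
      eulerTor (Localization.AtPrime Q) (q + 1) (Localization.AtPrime Q ⊗[L₁] (L₁ ⊗[R₁] N))
        (Localization.AtPrime Q ⊗[L₂] (L₂ ⊗[R₂] M)) := by
    rw [locEul_eq, eulerTor_congr e₁ e₂]
    apply eulerTor_shrink _ _ _ _ hn
    intro j hj
    exact regular_tor_vanish _ q dU _ _ j hj
  rw [hval]
  refine ⟨b, hbq, c2, ?_⟩
  intro P₁ P₂ p₁ p₂ hp₁ hp₂ hp₁Q hp₂Q hP₁ hP₂
  have k₁ := le_supportDim_localization R₁ (Q.comap (algebraMap R₁ T)) p₁.asIdeal hp₁Q L₁ N hp₁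
    r₁ P₁ h₁ hP₁
  have k₂ := le_supportDim_localization R₂ (Q.comap (algebraMap R₂ T)) p₂.asIdeal hp₂Q L₂ M hp₂
    r₂ P₂ h₂ hP₂
  exact ⟨c1 _ _ k₁ k₂, c3 _ _ k₁ k₂⟩

end

end Vale.Agent.P177
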