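import Mathlib.Algebra.Category.ModuleCat.Projective
import Mathlib.Algebra.Homology.HomologicalComplexAbelian
import Mathlib.Algebra.Homology.HomologySequence
import Mathlib.Algebra.Module.StablyFree.Basic
import Mathlib.Algebra.MvPolynomial.Comap
import Mathlib.Algebra.Order.PUnit
import Mathlib.Algebra.Order.Ring.Star
import Mathlib.Algebra.Ring.IsFormallyReal
import Mathlib.CategoryTheory.Monoidal.Closed.Braided
import Mathlib.CategoryTheory.Monoidal.Tor
import Mathlib.CategoryTheory.Sites.Types
import Mathlib.Combinatorics.Quiver.ReflQuiver
import Mathlib.Computability.Reduce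
import Mathlib.Data.ENat.BigOperators
import Mathlib.Data.Int.Star
import Mathlib.GroupTheory.CosetCover
import Mathlib.LinearAlgebra.Quotient.Pi
import Mathlib.Order.CompletePartialOrder
import Mathlib.RingTheory.AdicCompletion.LocalRing
import Mathlib.RingTheory.AdicCompletion.Noetherian
import Mathlib.RingTheory.AdicCompletion.RingHom
import Mathlib.RingTheory.Etale.Weakly
import Mathlib.RingTheory.Flat.CategoryTheory
import Mathlib.RingTheory.GradedAlgebra.Radical
import Mathlib.RingTheory.Henselian
import Mathlib.RingTheory.Ideal.AssociatedPrime.Localization
import Mathlib.RingTheory.Ideal.HasGoingUp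
import Mathlib.RingTheory.KrullDimension.Regular
import Mathlib.RingTheory.LocalRing.Length
import Mathlib.RingTheory.MvPolynomial.IrreducibleQuadratic
import Mathlib.RingTheory.PicardGroup
import Mathlib.RingTheory.Polynomial.UniversalFactorizationRing
import Mathlib.RingTheory.Regular.Flat
import Mathlib.RingTheory.RegularLocalRing.Polynomial
import Mathlib.RingTheory.SimpleRing.Principal
import Mathlib.RingTheory.TotallySplit
import Mathlib.RingTheory.WittVector.DiscreteValuationRing
import Mathlib.RingTheory.WittVector.TeichmullerSeries
import Mathlib.Tactic
import Mathlib.Topology.Order.Hom.Esakia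

/-! The part of Mathlib that the development of this folder uses. -/
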