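import Vale.Agent.P177.EGonf
import Vale.Agent.P177.KDev
import Vale.Agent.P177.DDim
import Vale.Agent.P177.Devissage

/-!
The outer shell of Serre's positivity conjecture: reduction to pairs of prime cyclic modules over
complete ramified regular local rings with perfect residue field.
-/

namespace Vale.Agent.P177

open TensorProduct IsLocalRing RingTheory.Sequence Function

universe u

/-- The core statement for pairs `P`, `Q` with `C P Q`. -/
def CoreStmt (C : ∀ (_ : ℕ) (R : Type u) [CommRing R], Ideal R → Ideal R → Prop) : Prop :=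
  ∀ (p : ℕ) [Fact p.Prime] (R : Type u) [CommRing R] [IsRegularLocalRing R]
    [IsAdicComplete (maximalIdeal R) R] [CharP (ResidueField R) p] [PerfectRing (ResidueField R) p]
    (d : ℕ), ringKrullDim R = d → (p : R) ≠ 0 → (p : R) ∈ maximalIdeal R ^ 2 →
    ∀ (P Q : Ideal R), P.IsPrime → Q.IsPrime → C p R P Q →
      Module.length R ((R ⧸ P) ⊗[R] (R ⧸ Q)) ≠ ⊤ →
      ∀ a b : ℕ, ringKrullDim (R ⧸ P) = a → ringKrullDim (R ⧸ Q) = b →
        (a + b < d → 0 ≤ eulerTor R (d + 1) (R ⧸ P) (R ⧸ Q)) ∧
        (a + b = d → 0 < eulerTor R (d + 1) (R ⧸ P) (R ⧸ Q))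

/-- The core statement for the pairs with `p ∉ P` and `p ∉ Q`. -/
def CoreStmt₀ : Prop := CoreStmt.{u} fun p R _ P Q => (p : R) ∉ P ∧ (p : R) ∉ Q

/-- The core statement for the pairs with `p ∉ P` and `p ∈ Q`. -/
def CoreStmt₁ : Prop := CoreStmt.{u} fun p R _ P Q => (p : R) ∉ P ∧ (p : R) ∈ Q

/-- Presentation of a complete ramified regular local ring with perfect residue field. -/
theorem exists_core_presentation (p : ℕ) [Fact p.Prime] (R : Type u) [CommRing R]
    [IsRegularLocalRing R] [IsAdicComplete (maximalIdeal R) R] [CharP (ResidueField R) p]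
    [PerfectRing (ResidueField R) p] (d : ℕ) (hd : ringKrullDim R = d)
    (hp2 : (p : R) ∈ maximalIdeal R ^ 2) :
    ∃ (c : Fin d → Fin d → MvPowerSeries (Fin d) (WittVector p (ResidueField R)))
      (φ : MvPowerSeries (Fin d) (WittVector p (ResidueField R)) →+* R), Surjective φ ∧
      RingHom.ker φ = Ideal.span {quadEq (WittVector p (ResidueField R)) (p : WittVector p _) d c} ∧
      Ideal.span (Set.range fun i => φ (MvPowerSeries.X i)) = maximalIdeal R ∧
      ∀ w : WittVector p (ResidueField R), residue R (φ (MvPowerSeries.C w)) = w.coeff 0 := by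
  obtain ⟨rs, hrs, hlen⟩ := exists_list_maximalIdeal R
  have hl : rs.length = d := by
    rw [hd] at hlen
    exact_mod_cast hlen
  subst hl
  let x : Fin rs.length → R := fun i => rs.get i
  have hx : Ideal.span (Set.range x) = maximalIdeal R := by
    rw [← hrs, Ideal.ofList]
    congr 1
    ext y
    simp only [x, Set.mem_range, Set.mem_ofPred_eq, List.mem_iff_get]
  -- the quadratic form
  obtain ⟨c, hc⟩ : ∃ c : Fin rs.length → Fin rs.length → R,
      (p : R) = ∑ i, ∑ j, x i * c i j * x j := by
    rw [← hx, pow_two] at hp2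
    have h1 : ∀ y ∈ Ideal.span (Set.range x) * Ideal.span (Set.range x),
        ∃ c : Fin rs.length → Fin rs.length → R, y = ∑ i, ∑ j, x i * c i j * x j := by
      intro y hy
      refine Submodule.mul_induction_on hy ?_ ?_
      · intro a ha b hb
        obtain ⟨α, rfl⟩ := (Ideal.mem_span_range_iff_exists_fun).1 ha
        obtain ⟨β, rfl⟩ := (Ideal.mem_span_range_iff_exists_fun).1 hb
        refine ⟨fun i j => α i * β j, ?_⟩
        rw [Finset.sum_mul_sum]
        refine Finset.sum_congr rfl fun i _ => Finset.sum_congr rfl fun j _ => ?_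
        ring
      · rintro a b ⟨α, rfl⟩ ⟨β, rfl⟩
        refine ⟨fun i j => α i j + β i j, ?_⟩
        simp only [← Finset.sum_add_distrib]
        refine Finset.sum_congr rfl fun i _ => Finset.sum_congr rfl fun j _ => ?_
        ring
    exact h1 _ hp2
  obtain ⟨σ, hσ⟩ := exists_witt_hom (S := R) p
  obtain ⟨hreg, hmax, hdim⟩ := witt_dim_one (ResidueField R) p
  obtain ⟨φ, hφ, hC, hX⟩ := exists_evalHom_surjective σ (fun y =>
    ⟨WittVector.teichmuller p y, by
      change residue R (σ (WittVector.teichmuller p y)) = y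
      rw [hσ, WittVector.teichmuller_coeff_zero]⟩) x hx
  choose g hg using hφ
  let c' : Fin rs.length → Fin rs.length →
    MvPowerSeries (Fin rs.length) (WittVector p (ResidueField R)) := fun i j => g (c i j)
  have hle : Ideal.span {quadEq (WittVector p (ResidueField R)) (p : WittVector p _) rs.length c'} ≤
      RingHom.ker φ := by
    rw [Ideal.span_singleton_le_iff_mem, RingHom.mem_ker, quadEq, map_sub, hC, map_natCast, hc,
      map_sum, sub_eq_zero]
    refine Finset.sum_congr rfl fun i _ => ?_
    rw [map_sum]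
    refine Finset.sum_congr rfl fun j _ => ?_
    rw [map_mul, map_mul, hX, hX, hg]
  obtain ⟨hR, -, hdR⟩ := quadRing_regular (WittVector p (ResidueField R)) (p : WittVector p _)
    hmax hdim rs.length c'
  refine ⟨c', φ, fun y => ⟨g y, hg y⟩, le_antisymm ?_ hle, ?_, fun w => ?_⟩
  · let ψ : QuadRing (WittVector p (ResidueField R)) (p : WittVector p _) rs.length c' →+* R :=
      Ideal.Quotient.lift _ φ fun a ha => hle ha
    have hψ : Surjective ψ := fun s => ⟨Ideal.Quotient.mk _ (g s), hg s⟩
    have hinj : RingHom.ker ψ = ⊥ := ker_eq_bot_of_dim_eq ψ hψ (by rw [hd, hdR])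
    intro a ha
    rw [← Ideal.Quotient.eq_zero_iff_mem]
    have h1 : Ideal.Quotient.mk _ a ∈ RingHom.ker ψ := by
      rw [RingHom.mem_ker]
      exact ha
    rwa [hinj, Ideal.mem_bot] at h1
  · rw [← hx]
    congr 1
    ext y
    simp only [Set.mem_range, hX]
  · rw [hC, hσ]

end Vale.Agent.P177
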