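import Vale.Agent.P177.OCore
import Vale.Agent.P177.CDim
import Vale.Agent.P177.CPrime
import Vale.Agent.P177.CLocZero

/-!
Complete intersections inside a prime ideal, in general position with respect to another prime.
-/

namespace Vale.Agent.P177

open TensorProduct IsLocalRing RingTheory.Sequence Function

universe u

variable {T : Type u} [CommRing T] [IsRegularLocalRing T] {t : ℕ}

/-- The associated primes of a complete intersection have the expected dimension. -/
theorem le_supportDim_of_isAssociatedPrime_ci (ht : ringKrullDim T = t) (rs : List T)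
    (hreg : IsWeaklyRegular T rs) (hle : rs.length ≤ t) (q : Ideal T)
    (hq : IsAssociatedPrime q (T ⧸ (Ideal.ofList rs • ⊤ : Submodule T T))) :
    ((t - rs.length : ℕ) : WithBot ℕ∞) ≤ Module.supportDim T (T ⧸ q) := by
  obtain ⟨ws, hlen, hws, hwreg⟩ := exists_regular_ext_list ht
    (T ⧸ (Ideal.ofList rs • ⊤ : Submodule T T)) [] (IsWeaklyRegular.nil _ _) rs.length
    (fun j hj => tor_subsingleton_list rs T hreg (T ⧸ maximalIdeal T) 1
      (fun j hj => tor_self_residue_subsingleton T j hj) j (by omega))
    (t - rs.length) (by simp; omega)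
  rw [List.nil_append] at hwreg
  rw [← hlen]
  exact length_le_supportDim_of_isAssociatedPrime ws hws _ hwreg q hq

theorem isSMulRegular_of_forall_notMem {R M : Type*} [CommRing R] [IsNoetherianRing R]
    [AddCommGroup M] [Module R M] (z : R)
    (h : ∀ q : Ideal R, IsAssociatedPrime q M → z ∉ q) : IsSMulRegular M z := by
  intro x y hxy
  by_contra hne
  have h1 : x - y ≠ 0 := sub_ne_zero.2 hne
  obtain ⟨q, hq, hle⟩ := exists_le_isAssociatedPrime_of_isNoetherianRing R (x - y) h1
  exact h q hq (hle (by
    rw [Submodule.mem_colon_singleton, smul_sub, Submodule.mem_bot]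
    exact sub_eq_zero.2 hxy))

/-- A complete intersection `hs` in the prime `Q`, of the height of `Q`, such that `π ∉ Q` is
regular modulo `hs` and `P + (hs)` is primary to the maximal ideal. -/
theorem exists_hs (ht : ringKrullDim T = t) (P Q : Ideal T) [hP : P.IsPrime] [hQ : Q.IsPrime]
    (π : T) (hπ : π ∈ maximalIdeal T) (hπ0 : π ≠ 0) (hπQ : π ∉ Q)
    (hrad : maximalIdeal T ≤ (P ⊔ Q).radical) (a b : ℕ)
    (ha : Module.supportDim T (T ⧸ P) = a) (hb : Module.supportDim T (T ⧸ Q) = b)
    (hab : a + b ≤ t) :
    ∃ hs : List T, (∀ h ∈ hs, h ∈ Q) ∧ IsWeaklyRegular T (hs ++ [π]) ∧ hs.length + b = t ∧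
      maximalIdeal T ≤ (P ⊔ Ideal.ofList hs).radical := by
  have hdom : IsDomain T := regular_isDomain T
  have key : ∀ i : ℕ, i + b ≤ t → ∃ hs : List T, (∀ h ∈ hs, h ∈ Q) ∧
      IsWeaklyRegular T (hs ++ [π]) ∧ hs.length = i ∧
      Module.supportDim T (T ⧸ (P ⊔ Ideal.ofList hs)) ≤ ((a - i : ℕ) : WithBot ℕ∞) := by
    intro i
    induction i with
    | zero =>
      intro _
      refine ⟨[], by simp, ?_, rfl, ?_⟩
      · rw [List.nil_append, isWeaklyRegular_singleton_iff]
        exact fun x y hxy => mul_left_cancel₀ hπ0 hxy
      · rw [Ideal.ofList_nil, sup_bot_eq, ha]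
        exact le_rfl
    | succ i ih =>
      intro hi
      obtain ⟨hs, hsQ, hreg, hlen, hdim⟩ := ih (by omega)
      have hreg' : IsWeaklyRegular T hs := ((isWeaklyRegular_append_iff _ _ _).1 hreg).1
      -- the primes to avoid
      let F : Set (Ideal T) :=
        {q | IsAssociatedPrime q (T ⧸ (Ideal.ofList hs • ⊤ : Submodule T T))} ∪
        {q | IsAssociatedPrime q (T ⧸ (Ideal.ofList (hs ++ [π]) • ⊤ : Submodule T T))}
      have hF : F.Finite := (associatedPrimes.finite T _).union (associatedPrimes.finite T _)
      have hFp : ∀ q ∈ F, q.IsPrime ∧ ¬ (Q ≤ q) := by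
        rintro q (hq | hq)
        · refine ⟨hq.isPrime, fun hle => ?_⟩
          have h1 := le_supportDim_of_isAssociatedPrime_ci ht hs hreg' (by omega) q hq
          have h2 := h1.trans (supportDim_quotient_mono hle)
          rw [hb] at h2
          have h3 : t - hs.length ≤ b := by exact_mod_cast h2
          omega
        · refine ⟨hq.isPrime, fun hle => ?_⟩
          have h1 := le_supportDim_of_isAssociatedPrime_ci ht (hs ++ [π]) hreg
            (by simp; omega) q hq
          have hπq : π ∈ q := by
            have h4 := hq.annihilator_le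
            rw [Submodule.annihilator_top, annihilator_quot_list] at h4
            exact h4 (Ideal.subset_span (by simp))
          have hlt : Q < q := lt_of_le_of_ne hle fun h => hπQ (h ▸ hπq)
          have h2 := supportDim_quotient_strict hlt _ h1
          rw [hb] at h2
          have h3 : t - (hs ++ [π]).length + 1 ≤ b := by exact_mod_cast h2
          rw [List.length_append, List.length_singleton] at h3
          omega
      obtain ⟨z, hzQ, hzF, hzdim⟩ := exists_cut (R := T) (T := T) Q F hF hFp
        (P ⊔ Ideal.ofList hs) (a - (i + 1)) (hdim.trans (by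
          have : a - i ≤ a - (i + 1) + 1 := by omega
          exact_mod_cast this)) (hrad.trans (Ideal.radical_mono (by
          rw [Algebra.algebraMap_self, Ideal.map_id]
          exact sup_le (le_sup_left.trans le_sup_left) le_sup_right)))
      have hz1 : IsSMulRegular (T ⧸ (Ideal.ofList hs • ⊤ : Submodule T T)) z :=
        isSMulRegular_of_forall_notMem z fun q hq => hzF q (Or.inl hq)
      have hz2 : IsSMulRegular (T ⧸ (Ideal.ofList (hs ++ [π]) • ⊤ : Submodule T T)) z :=
        isSMulRegular_of_forall_notMem z fun q hq => hzF q (Or.inr hq)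
      have hzm : z ∈ maximalIdeal T := le_maximalIdeal hQ.ne_top hzQ
      refine ⟨hs ++ [z], ?_, ?_, by simp [hlen], ?_⟩
      · intro h hh
        rw [List.mem_append, List.mem_singleton] at hh
        rcases hh with hh | rfl
        · exact hsQ h hh
        · exact hzQ
      · have h5 : IsWeaklyRegular T ((hs ++ [π]) ++ [z]) := by
          rw [isWeaklyRegular_append_iff]
          exact ⟨hreg, (isWeaklyRegular_singleton_iff _ _).2 hz2⟩
        refine IsLocalRing.isWeaklyRegular_of_perm_of_subset_maximalIdeal h5 ?_ ?_
        · rw [List.append_assoc, List.append_assoc]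
          exact List.Perm.append_left _ (List.Perm.swap _ _ _)
        · intro y hy
          simp only [List.mem_append, List.mem_singleton] at hy
          rcases hy with (hy | rfl) | rfl
          · exact le_maximalIdeal hQ.ne_top (hsQ y hy)
          · exact hπ
          · exact hzm
      · rw [Algebra.algebraMap_self, RingHom.id_apply] at hzdim
        have h6 : P ⊔ Ideal.ofList (hs ++ [z]) = P ⊔ Ideal.ofList hs ⊔ Ideal.span {z} := by
          rw [Ideal.ofList_append, Ideal.ofList_singleton, sup_assoc]
        rw [h6]
        exact hzdim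
  obtain ⟨hs, h1, h2, h3, h4⟩ := key (t - b) (by omega)
  refine ⟨hs, h1, h2, by omega, maximalIdeal_le_radical_of_supportDim _ ?_⟩
  have h5 : a - (t - b) = 0 := by omega
  rw [h5] at h4
  exact_mod_cast h4

end Vale.Agent.P177
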