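import Mathlib

/-!
Traces, characters of commutative rings acting on finite dimensional vector spaces, and
independence of characters.
-/

namespace Vale.Agent.P177

open Function Module

section trace

variable {K : Type*} [Field K] {V' V V'' : Type*} [AddCommGroup V'] [Module K V']
  [AddCommGroup V] [Module K V] [AddCommGroup V''] [Module K V''] [FiniteDimensional K V]

/-- The trace is additive in exact sequences. -/
theorem trace_add_of_exact (f : V' →ₗ[K] V) (g : V →ₗ[K] V'') (hf : Injective f)
    (hg : Surjective g) (h : Exact f g) (φ' : V' →ₗ[K] V') (φ : V →ₗ[K] V) (φ'' : V'' →ₗ[K] V'')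
    (h1 : ∀ v, f (φ' v) = φ (f v)) (h2 : ∀ v, g (φ v) = φ'' (g v)) :
    LinearMap.trace K V φ = LinearMap.trace K V' φ' + LinearMap.trace K V'' φ'' := by
  have : FiniteDimensional K V' := FiniteDimensional.of_injective f hf
  have : FiniteDimensional K V'' := Module.Finite.of_surjective g hg
  obtain ⟨s, hs⟩ := g.exists_rightInverse_of_surjective (LinearMap.range_eq_top.2 hg)
  have hs' : ∀ v, g (s v) = v := fun v => LinearMap.congr_fun hs v
  have hmem : ∀ v, (LinearMap.id - s ∘ₗ g : V →ₗ[K] V) v ∈ LinearMap.range f := by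
    intro v
    rw [LinearMap.mem_range, ← Set.mem_range, ← h]
    simp [hs']
  let ρ : V →ₗ[K] V' := (LinearEquiv.ofInjective f hf).symm.toLinearMap ∘ₗ
    (LinearMap.id - s ∘ₗ g : V →ₗ[K] V).codRestrict (LinearMap.range f) hmem
  have hρ : ∀ v, f (ρ v) = v - s (g v) := by
    intro v
    have := LinearEquiv.apply_symm_apply (LinearEquiv.ofInjective f hf)
      ((LinearMap.id - s ∘ₗ g : V →ₗ[K] V).codRestrict (LinearMap.range f) hmem v)
    have h3 := congrArg Subtype.val this
    exact h3
  have hρf : ∀ v, ρ (f v) = v := by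
    intro v
    apply hf
    rw [hρ, h.apply_apply_eq_zero, map_zero, sub_zero]
  have hφ : φ = f ∘ₗ (ρ ∘ₗ φ) + s ∘ₗ (g ∘ₗ φ) := by
    ext v
    simp [hρ]
  have e1 : (ρ ∘ₗ φ) ∘ₗ f = φ' := by
    ext v
    simp [← h1, hρf]
  have e2 : (g ∘ₗ φ) ∘ₗ s = φ'' := by
    ext v
    simp [h2, hs']
  calc LinearMap.trace K V φ = LinearMap.trace K V (f ∘ₗ (ρ ∘ₗ φ)) +
        LinearMap.trace K V (s ∘ₗ (g ∘ₗ φ)) := by rw [← map_add, ← hφ]
    _ = _ := by
      rw [LinearMap.trace_comp_comm' (ρ ∘ₗ φ) f, LinearMap.trace_comp_comm' (g ∘ₗ φ) s, e1, e2]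

end trace

section characters

variable {Ω : Type*} [Field Ω] [IsAlgClosed Ω] {R : Type*} [CommRing R]

theorem exists_common_eigenvector (n : ℕ) : ∀ (V : Type*) [AddCommGroup V] [Module Ω V]
    [FiniteDimensional Ω V] (ρ : R →+* Module.End Ω V), finrank Ω V = n → Nontrivial V →
    ∃ v : V, v ≠ 0 ∧ ∀ r, ∃ c : Ω, ρ r v = c • v := by
  induction n using Nat.strong_induction_on with
  | _ n ih =>
    intro V _ _ _ ρ hn hV
    by_cases hsc : ∀ r, ∃ c : Ω, ∀ v, ρ r v = c • v
    · obtain ⟨v, hv⟩ := exists_ne (0 : V)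
      exact ⟨v, hv, fun r => ⟨(hsc r).choose, (hsc r).choose_spec v⟩⟩
    push Not at hsc
    obtain ⟨r, hr⟩ := hsc
    obtain ⟨c, hc⟩ := Module.End.exists_eigenvalue (ρ r)
    obtain ⟨v, hv⟩ := hc.exists_hasEigenvector
    let W : Submodule Ω V := LinearMap.ker (ρ r - c • LinearMap.id)
    have hvW : v ∈ W := by
      simp only [W, LinearMap.mem_ker, LinearMap.sub_apply, LinearMap.smul_apply,
        LinearMap.id_apply]
      rw [hv.apply_eq_smul, sub_self]
    have hcomm : ∀ (s : R) (w : V), ρ r (ρ s w) = ρ s (ρ r w) := by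
      intro s w
      rw [← Module.End.mul_apply, ← map_mul, mul_comm, map_mul, Module.End.mul_apply]
    have hWst : ∀ s : R, ∀ w ∈ W, ρ s w ∈ W := by
      intro s w hw
      simp only [W, LinearMap.mem_ker, LinearMap.sub_apply, LinearMap.smul_apply,
        LinearMap.id_apply, sub_eq_zero] at hw ⊢
      rw [hcomm, hw, map_smul]
    have hWne : W ≠ ⊤ := by
      intro htop
      obtain ⟨w, hw⟩ := hr c
      apply hw
      have h1 : w ∈ W := htop ▸ Submodule.mem_top
      simpa only [W, LinearMap.mem_ker, LinearMap.sub_apply, LinearMap.smul_apply,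
        LinearMap.id_apply, sub_eq_zero] using h1
    let ρW : R →+* Module.End Ω W :=
      { toFun := fun s => (ρ s).restrict (hWst s)
        map_one' := by ext; simp
        map_mul' := fun a b => by ext; simp
        map_zero' := by ext; simp
        map_add' := fun a b => by ext; simp }
    have hlt : finrank Ω W < n := hn ▸ Submodule.finrank_lt hWne
    have hnt : Nontrivial W := ⟨⟨v, hvW⟩, 0, fun h => hv.2 (congrArg Subtype.val h)⟩
    obtain ⟨w, hw0, hw⟩ := ih _ hlt W ρW rfl hnt
    refine ⟨w.1, fun h => hw0 (Subtype.ext h), fun s => ?_⟩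
    obtain ⟨c', hc'⟩ := hw s
    exact ⟨c', congrArg Subtype.val hc'⟩

/-- A commutative ring acting on a finite dimensional vector space over an algebraically closed
field: the trace is a sum of characters. -/
theorem exists_characters (n : ℕ) : ∀ (V : Type*) [AddCommGroup V] [Module Ω V]
    [FiniteDimensional Ω V] (ρ : R →+* Module.End Ω V), finrank Ω V = n →
    ∃ σ : Fin n → (R →+* Ω), (∀ r, LinearMap.trace Ω V (ρ r) = ∑ j, σ j r) ∧
      ∀ j r (c : Ω), (∀ v, ρ r v = c • v) → σ j r = c := by
  induction n with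
  | zero =>
    intro V _ _ _ ρ hn
    refine ⟨fun j => j.elim0, fun r => ?_, fun j => j.elim0⟩
    have : Subsingleton V := finrank_zero_iff.1 hn
    rw [Subsingleton.elim (ρ r) 0]
    simp
  | succ n ih =>
    intro V _ _ _ ρ hn
    have hnt : Nontrivial V := Module.nontrivial_of_finrank_pos (R := Ω) (by omega)
    obtain ⟨v, hv0, hv⟩ := exists_common_eigenvector (n + 1) V ρ hn hnt
    choose c hc using hv
    have hinj : ∀ a b : Ω, a • v = b • v → a = b := fun a b h =>
      smul_left_injective Ω hv0 h
    let σ₀ : R →+* Ω :=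
      { toFun := c
        map_one' := hinj _ _ (by rw [← hc]; simp)
        map_mul' := fun a b => hinj _ _ (by
          rw [← hc, map_mul, Module.End.mul_apply, hc, map_smul, hc, smul_smul, mul_comm])
        map_zero' := hinj _ _ (by rw [← hc]; simp)
        map_add' := fun a b => hinj _ _ (by rw [← hc, map_add, LinearMap.add_apply, hc, hc,
          add_smul]) }
    let L : Submodule Ω V := Submodule.span Ω {v}
    have hLst : ∀ r, L ≤ L.comap (ρ r) := by
      intro r
      rw [Submodule.span_le, Set.singleton_subset_iff]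
      change ρ r v ∈ L
      rw [hc]
      exact Submodule.smul_mem _ _ (Submodule.mem_span_singleton_self v)
    let ρQ : R →+* Module.End Ω (V ⧸ L) :=
      { toFun := fun r => L.mapQ L (ρ r) (hLst r)
        map_one' := by ext; simp
        map_mul' := fun a b => by ext; simp
        map_zero' := by ext; simp
        map_add' := fun a b => by ext; simp }
    have hfr : finrank Ω (V ⧸ L) = n := by
      have h1 := Submodule.finrank_quotient_add_finrank L
      have h2 : finrank Ω L = 1 := finrank_span_singleton hv0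
      omega
    obtain ⟨σ, hσ, hσ2⟩ := ih (V ⧸ L) ρQ hfr
    refine ⟨Fin.cons σ₀ σ, fun r => ?_, ?_⟩
    · rw [Fin.sum_univ_succ]
      simp only [Fin.cons_zero, Fin.cons_succ]
      rw [← hσ r]
      have h3 := trace_add_of_exact (LinearMap.toSpanSingleton Ω V v) L.mkQ
        (by
          intro a b hab
          exact hinj _ _ (by simpa using hab)) L.mkQ_surjective (by
          rw [LinearMap.exact_iff, Submodule.ker_mkQ, LinearMap.range_toSpanSingleton])
        (c r • LinearMap.id) (ρ r) (ρQ r)
        (fun a => by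
          simp [hc, smul_smul, mul_comm])
        (fun w => rfl)
      rw [h3]
      congr 1
      rw [map_smul]
      simp [σ₀]
    · intro j r a ha
      refine Fin.cases ?_ (fun j => ?_) j
      · simp only [Fin.cons_zero]
        exact hinj _ _ (by
          change c r • v = a • v
          rw [← hc, ha])
      · simp only [Fin.cons_succ]
        refine hσ2 j r a fun w => ?_
        obtain ⟨w, rfl⟩ := L.mkQ_surjective w
        change L.mkQ (ρ r w) = _
        rw [ha, map_smul]

end characters

/-- Independence of characters. -/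
theorem finsupp_eq_of_sum_eq {ι R Ω : Type*} [CommRing R] [Field Ω] [CharZero Ω]
    (χ : ι → (R →+* Ω)) (hχ : Injective χ) (D D' : ι →₀ ℤ)
    (h : ∀ r, D.sum (fun i m => (m : Ω) * χ i r) = D'.sum (fun i m => (m : Ω) * χ i r)) :
    D = D' := by
  have hli := linearIndependent_monoidHom R Ω
  have hli' : LinearIndependent Ω (fun i : ι => (χ i : R → Ω)) :=
    hli.comp (fun i => ((χ i : R →+* Ω) : R →* Ω)) (fun a b hab => hχ (by
      ext r
      exact DFunLike.congr_fun hab r))
  let toΩ : (ι →₀ ℤ) → (ι →₀ Ω) := fun D => D.mapRange (Int.cast : ℤ → Ω) Int.cast_zero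
  have hto : Injective toΩ := Finsupp.mapRange_injective _ _ Int.cast_injective
  apply hto
  apply hli'
  ext r
  have key : ∀ D : ι →₀ ℤ, (Finsupp.linearCombination Ω (fun i : ι => (χ i : R → Ω)) (toΩ D)) r =
      D.sum (fun i m => (m : Ω) * χ i r) := by
    intro D
    rw [Finsupp.linearCombination_apply, Finsupp.sum_mapRange_index (by simp)]
    rw [Finsupp.sum, Finset.sum_apply]
    rfl
  rw [key, key, h]

end Vale.Agent.P177
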