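import Vale.Agent.P177.OEndA
import Vale.Agent.P177.CBase
import Vale.Agent.P177.DFlat

/-!
Complete intersections are free over a Noether normalization.
-/

namespace Vale.Agent.P177

open TensorProduct IsLocalRing RingTheory.Sequence Function

universe u

/-- A system of parameters of a regular local ring is a regular sequence. -/
theorem isWeaklyRegular_of_sop {T : Type u} [CommRing T] [IsRegularLocalRing T] {t : ℕ}
    (ht : ringKrullDim T = t) (zs : List T) (hlen : zs.length = t)
    (hzs : ∀ z ∈ zs, z ∈ maximalIdeal T) (hrad : maximalIdeal T ≤ (Ideal.ofList zs).radical) :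
    IsWeaklyRegular T zs := by
  have key : ∀ (us ws : List T), zs = ws ++ us → IsWeaklyRegular T ws → IsWeaklyRegular T zs := by
    intro us
    induction us with
    | nil =>
      intro ws h1 h2
      rw [h1, List.append_nil]
      exact h2
    | cons z us ih =>
      intro ws h1 h2
      refine ih (ws ++ [z]) (by rw [h1, List.append_assoc]; rfl) ?_
      have hlw : ws.length + (us.length + 1) = t := by
        rw [← hlen, h1, List.length_append, List.length_cons]
      rw [isWeaklyRegular_append_iff]
      refine ⟨h2, (isWeaklyRegular_singleton_iff _ _).2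
        (isSMulRegular_of_forall_notMem z fun q hq hzq => ?_)⟩
      have hqp : q.IsPrime := hq.isPrime
      have h3 := le_supportDim_of_isAssociatedPrime_ci ht ws h2 (by omega) q hq
      have hwq : Ideal.ofList ws ≤ q := by
        have h4 := hq.annihilator_le
        rwa [Submodule.annihilator_top, annihilator_quot_list] at h4
      have h5 : Module.supportDim T (T ⧸ q) ≤ (us.length : WithBot ℕ∞) := by
        refine supportDim_le_length us (fun y hy => hzs y (by rw [h1]; simp [hy])) _ ?_
        refine hrad.trans (Ideal.radical_mono ?_)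
        rw [h1, Ideal.ofList_append, Ideal.ofList_cons, Ideal.annihilator_quotient]
        refine sup_le (hwq.trans le_sup_left) (sup_le ?_ le_sup_right)
        exact ((Ideal.span_singleton_le_iff_mem _).2 hzq).trans le_sup_left
      have h6 : t - ws.length ≤ us.length := by exact_mod_cast h3.trans h5
      omega
  exact key zs [] rfl (IsWeaklyRegular.nil _ _)

/-- A finite module with vanishing `Tor` against the residue field is free. -/
theorem free_of_tor_residue {Λ : Type u} [CommRing Λ] [IsLocalRing Λ] [IsNoetherianRing Λ]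
    (M : Type u) [AddCommGroup M] [Module Λ M] [Module.Finite Λ M]
    (h : ∀ j, 1 ≤ j → Subsingleton (TorM Λ j M (Λ ⧸ maximalIdeal Λ))) : Module.Free Λ M := by
  have hflat : Module.Flat Λ M := flat_of_tor_one M fun I =>
    tor_symm_subsingleton 1 M (Λ ⧸ I) (tor_subsingleton_of_residue M 1 h (Λ ⧸ I) 1 le_rfl)
  exact Module.free_of_flat_of_isLocalRing

/-- A complete intersection is free over a regular local ring of the same dimension over which it is
finite. -/
theorem free_quotient_ofList {R : Type u} [CommRing R] [IsRegularLocalRing R] {d b : ℕ}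
    (hd : ringKrullDim R = d) (hs : List R) (hsm : ∀ h ∈ hs, h ∈ maximalIdeal R)
    (hlen : hs.length + b = d) (Λ : Type u) [CommRing Λ] [IsRegularLocalRing Λ] [Algebra Λ R]
    (hΛ : ringKrullDim Λ = b) [Module.Finite Λ (R ⧸ Ideal.ofList hs)] :
    Module.Free Λ (R ⧸ Ideal.ofList hs) := by
  have hle : Ideal.ofList hs ≤ maximalIdeal R := Ideal.span_le.2 fun h hh => hsm h hh
  have hnt : Nontrivial (R ⧸ Ideal.ofList hs) := Ideal.Quotient.nontrivial_iff.2 fun h =>
    (maximalIdeal.isMaximal R).ne_top (top_le_iff.1 (h ▸ hle))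
  have hloc : IsLocalRing (R ⧸ Ideal.ofList hs) :=
    IsLocalRing.of_surjective' (Ideal.Quotient.mk _) Ideal.Quotient.mk_surjective
  have hint : Algebra.IsIntegral Λ (R ⧸ Ideal.ofList hs) := Algebra.IsIntegral.of_finite _ _
  have hcm : (maximalIdeal (R ⧸ Ideal.ofList hs)).comap (algebraMap Λ (R ⧸ Ideal.ofList hs)) =
      maximalIdeal Λ := by
    have h1 : ((maximalIdeal (R ⧸ Ideal.ofList hs)).comap
        (algebraMap Λ (R ⧸ Ideal.ofList hs))).IsMaximal :=
      Ideal.isMaximal_comap_of_isIntegral_of_isMaximal _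
    exact IsLocalRing.eq_maximalIdeal h1
  have hlh : IsLocalHom (algebraMap Λ (R ⧸ Ideal.ofList hs)) :=
    ((local_hom_TFAE (algebraMap Λ (R ⧸ Ideal.ofList hs))).out 0 4).2 hcm
  obtain ⟨rs, hrs, hrl, hreg⟩ := exists_rsp Λ hΛ
  let rs' : List R := rs.map (algebraMap Λ R)
  have hmk : ∀ x : Λ, algebraMap Λ (R ⧸ Ideal.ofList hs) x =
      Ideal.Quotient.mk (Ideal.ofList hs) (algebraMap Λ R x) := fun x => rfl
  have hmaxR : ∀ x ∈ maximalIdeal Λ, algebraMap Λ R x ∈ maximalIdeal R := by
    intro x hx
    rw [← hcm, Ideal.mem_comap, hmk, mem_maximalIdeal, mem_nonunits_iff] at hx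
    rw [mem_maximalIdeal, mem_nonunits_iff]
    exact fun h => hx (h.map _)
  have hrad : maximalIdeal R ≤ (Ideal.ofList (hs ++ rs')).radical := by
    rw [Ideal.radical_eq_sInf]
    refine le_sInf ?_
    rintro q ⟨hq1, hq2⟩
    rw [Ideal.ofList_append, sup_le_iff] at hq1
    have hmap : (maximalIdeal Λ).map (algebraMap Λ R) ≤ q := by
      rw [← hrs, Ideal.map_ofList]
      exact hq1.2
    -- the prime of the quotient
    have hq' : (q.map (Ideal.Quotient.mk (Ideal.ofList hs))).IsPrime :=
      Ideal.map_isPrime_of_surjective Ideal.Quotient.mk_surjective (by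
        rw [Ideal.mk_ker]
        exact hq1.1)
    have hcq : (q.map (Ideal.Quotient.mk (Ideal.ofList hs))).comap
        (algebraMap Λ (R ⧸ Ideal.ofList hs)) = maximalIdeal Λ := by
      refine le_antisymm (le_maximalIdeal (Ideal.comap_isPrime _ _).ne_top) ?_
      intro x hx
      rw [Ideal.mem_comap, hmk]
      exact Ideal.mem_map_of_mem _ (hmap (Ideal.mem_map_of_mem _ hx))
    have hmax : (q.map (Ideal.Quotient.mk (Ideal.ofList hs))).IsMaximal :=
      Ideal.isMaximal_of_isIntegral_of_isMaximal_comap _ (by
        rw [hcq]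
        exact maximalIdeal.isMaximal Λ)
    have hqm : q.IsMaximal := by
      have h2 : q = (q.map (Ideal.Quotient.mk (Ideal.ofList hs))).comap
          (Ideal.Quotient.mk (Ideal.ofList hs)) := by
        rw [Ideal.comap_map_of_surjective _ Ideal.Quotient.mk_surjective,
          ← RingHom.ker_eq_comap_bot, Ideal.mk_ker, sup_eq_left.2 hq1.1]
      rw [h2]
      exact Ideal.comap_isMaximal_of_surjective _ Ideal.Quotient.mk_surjective
    rw [IsLocalRing.eq_maximalIdeal hqm]
  have hreg' : IsWeaklyRegular R (hs ++ rs') := by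
    refine isWeaklyRegular_of_sop hd _ ?_ ?_ hrad
    · rw [List.length_append, List.length_map, hrl, hlen]
    · intro z hz
      rw [List.mem_append, List.mem_map] at hz
      rcases hz with hz | ⟨y, hy, rfl⟩
      · exact hsm z hz
      · refine hmaxR y ?_
        rw [← hrs]
        exact Ideal.subset_span hy
  have h3 := ((isWeaklyRegular_append_iff _ _ _).1 hreg').2
  have heq : (Ideal.ofList hs • ⊤ : Submodule R R) = Ideal.ofList hs := by
    rw [smul_eq_mul, Ideal.mul_top]
  have h4 : IsWeaklyRegular (R ⧸ Ideal.ofList hs) rs' :=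
    (LinearEquiv.isWeaklyRegular_congr (Submodule.quotEquivOfEq _ _ heq) _).1 h3
  have h5 : IsWeaklyRegular (R ⧸ Ideal.ofList hs)
      (rs.map (algebraMap Λ (R ⧸ Ideal.ofList hs))) := by
    rw [← isWeaklyRegular_map_algebraMap_iff (S := R ⧸ Ideal.ofList hs)
      (M := R ⧸ Ideal.ofList hs)] at h4
    have h6 : rs'.map (algebraMap R (R ⧸ Ideal.ofList hs)) =
        rs.map (algebraMap Λ (R ⧸ Ideal.ofList hs)) := by
      rw [List.map_map]
      rfl
    rwa [h6] at h4
  have hflat : Module.Flat Λ (R ⧸ Ideal.ofList hs) :=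
    flat_of_weaklyRegular rs hrs hreg h5
  exact Module.free_of_flat_of_isLocalRing

end Vale.Agent.P177
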