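import Vale.Agent.P177.OEndB
import Vale.Agent.P177.OEndC
import Vale.Agent.P177.OEndDef

/-!
The formula for the Euler characteristics: from modules free over the Noether normalization to all
modules over the complete intersection.
-/

namespace Vale.Agent.P177

open TensorProduct IsLocalRing RingTheory.Sequence Function

universe u

/-- A finite module killed by `I` is covered by a finite free module over `R/I`. -/
theorem exists_quotient_cover {R : Type u} [CommRing R] (I : Ideal R) (M : Type u)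
    [AddCommGroup M] [Module R M] [Module.Finite R M] (hI : ∀ a ∈ I, ∀ x : M, a • x = 0) :
    ∃ (m : ℕ) (g : (Fin m → R ⧸ I) →ₗ[R] M), Surjective g := by
  obtain ⟨m, x, hx⟩ := Module.Finite.exists_fin (R := R) (M := M)
  let q : Fin m → ((R ⧸ I) →ₗ[R] M) := fun i =>
    Submodule.liftQ I (LinearMap.toSpanSingleton R M (x i)) fun a ha => by
      rw [LinearMap.mem_ker, LinearMap.toSpanSingleton_apply]
      exact hI a ha _
  let g : (Fin m → R ⧸ I) →ₗ[R] M := ∑ i, q i ∘ₗ LinearMap.proj i
  refine ⟨m, g, ?_⟩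
  rw [← LinearMap.range_eq_top, ← top_le_iff, ← hx, Submodule.span_le]
  rintro _ ⟨i, rfl⟩
  refine ⟨Pi.single i (Ideal.Quotient.mk I 1), ?_⟩
  simp only [g, LinearMap.sum_apply, LinearMap.comp_apply, LinearMap.proj_apply]
  rw [Finset.sum_eq_single i]
  · rw [Pi.single_eq_same]
    change Submodule.liftQ I (LinearMap.toSpanSingleton R M (x i)) _ (Submodule.Quotient.mk 1) = _
    rw [Submodule.liftQ_apply, LinearMap.toSpanSingleton_apply, one_smul]
  · intro j _ hj
    rw [Pi.single_eq_of_ne hj, map_zero]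
  · simp

theorem flat_field {Λ Ω : Type u} [CommRing Λ] [IsDomain Λ] [Field Ω] [Algebra Λ Ω]
    [FaithfulSMul Λ Ω] : Module.Flat Λ Ω := by
  let _ : Algebra (FractionRing Λ) Ω := FractionRing.liftAlgebra Λ Ω
  have : IsScalarTower Λ (FractionRing Λ) Ω := FractionRing.isScalarTower_liftAlgebra Λ Ω
  have : Module.Flat Λ (FractionRing Λ) := IsLocalization.flat _ (nonZeroDivisors Λ)
  exact Module.Flat.trans Λ (FractionRing Λ) Ω

section nice

variable {R : Type u} [CommRing R] {Λ : Type u} [CommRing Λ] [Algebra Λ R] {Ω : Type u} [Field Ω]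
  [Algebra Λ Ω]

/-- The trace of an element on the base change of `M`. -/
noncomputable def trΩ (Λ Ω : Type u) [CommRing Λ] [Algebra Λ R] [Field Ω] [Algebra Λ Ω]
    (M : Type u) [AddCommGroup M] [Module R M] [Module Λ M] [IsScalarTower Λ R M] (r : R) : Ω :=
  LinearMap.trace Ω (Ω ⊗[Λ] M) ((Algebra.lsmul Λ Λ M r).baseChange Ω)

/-- The Euler characteristic of `M` is given by the weights `w`. -/
def Nice (d : ℕ) (A : Type u) [AddCommGroup A] [Module R A] (w : (R →ₐ[Λ] Ω) → ℝ) (M : Type u)
    [AddCommGroup M] [Module R M] [Module Λ M] [IsScalarTower Λ R M] : Prop :=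
  ∃ D : (R →ₐ[Λ] Ω) →₀ ℤ, (∀ r, trΩ Λ Ω M r = D.sum fun σ m => (m : Ω) * σ r) ∧
    (eulerTor R (d + 1) A M : ℝ) = D.sum fun σ m => (m : ℝ) * w σ

theorem sum_single_eq {ι S : Type*} [CommRing S] (n : ℕ) (σ : Fin n → ι) (f : ι → S) :
    (∑ j, Finsupp.single (σ j) (1 : ℤ)).sum (fun i m => (m : S) * f i) = ∑ j, f (σ j) := by
  rw [← Finsupp.sum_finsetSum_index (by simp) (by intros; push_cast; ring)]
  refine Finset.sum_congr rfl fun j _ => ?_
  rw [Finsupp.sum_single_index (by simp)]
  simp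

theorem FlagRep.nice {d : ℕ} {A : Type u} [AddCommGroup A] [Module R A] {hs : List R}
    {w : (R →ₐ[Λ] Ω) → ℝ} {L : Type u} [AddCommGroup L] [Module R L]
    [Module Λ L] [IsScalarTower Λ R L] [Module.Free Λ L] [Module.Finite Λ L]
    (h : FlagRep d A Λ Ω hs w L) : Nice d A w L := by
  obtain ⟨n, σ, -, h1, h2⟩ := h
  refine ⟨∑ j, Finsupp.single (σ j) 1, fun r => ?_, ?_⟩
  · rw [sum_single_eq n σ (fun σ => σ r), ← h1, trΩ, LinearMap.trace_baseChange]
  · rw [sum_single_eq n σ w, h2]

variable {d : ℕ} {A : Type u} [AddCommGroup A] [Module R A] {w : (R →ₐ[Λ] Ω) → ℝ}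

theorem sum_sub_eq {ι S : Type*} [CommRing S] (D D' : ι →₀ ℤ) (f : ι → S) :
    (D - D').sum (fun i m => (m : S) * f i) =
      D.sum (fun i m => (m : S) * f i) - D'.sum (fun i m => (m : S) * f i) := by
  refine Finsupp.sum_sub_index ?_
  intros
  push_cast
  ring

theorem sum_nsmul_eq {ι S : Type*} [CommRing S] (k : ℕ) (D : ι →₀ ℤ) (f : ι → S) :
    (k • D).sum (fun i m => (m : S) * f i) = k * D.sum (fun i m => (m : S) * f i) := by
  rw [Finsupp.sum_smul_index' (by simp), Finsupp.mul_sum]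
  refine Finsupp.sum_congr fun i _ => ?_
  rw [nsmul_eq_mul]
  push_cast
  ring

theorem sum_add_eq {ι S : Type*} [CommRing S] (D D' : ι →₀ ℤ) (f : ι → S) :
    (D + D').sum (fun i m => (m : S) * f i) =
      D.sum (fun i m => (m : S) * f i) + D'.sum (fun i m => (m : S) * f i) := by
  classical
  refine Finsupp.sum_add_index (by simp) ?_
  intros
  push_cast
  ring

theorem trΩ_add [Module.Flat Λ Ω] {M' M M'' : Type u} [AddCommGroup M'] [Module R M']
    [Module Λ M'] [IsScalarTower Λ R M'] [AddCommGroup M] [Module R M] [Module Λ M]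
    [IsScalarTower Λ R M] [Module.Finite Λ M] [AddCommGroup M''] [Module R M''] [Module Λ M'']
    [IsScalarTower Λ R M''] (f : M' →ₗ[R] M) (g : M →ₗ[R] M'') (hf : Injective f)
    (hg : Surjective g) (h : Exact f g) (r : R) :
    trΩ Λ Ω M r = trΩ Λ Ω M' r + trΩ Λ Ω M'' r := by
  have hcomp : ∀ {X Y : Type u} [AddCommGroup X] [Module R X] [Module Λ X] [IsScalarTower Λ R X]
      [AddCommGroup Y] [Module R Y] [Module Λ Y] [IsScalarTower Λ R Y] (φ : X →ₗ[R] Y)
      (v : Ω ⊗[Λ] X), (φ.restrictScalars Λ).baseChange Ω ((Algebra.lsmul Λ Λ X r).baseChange Ω v) =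
        (Algebra.lsmul Λ Λ Y r).baseChange Ω ((φ.restrictScalars Λ).baseChange Ω v) := by
    intro X Y _ _ _ _ _ _ _ _ φ v
    rw [← LinearMap.comp_apply, ← LinearMap.comp_apply, ← LinearMap.baseChange_comp,
      ← LinearMap.baseChange_comp]
    congr 2
    ext x
    simp
  refine trace_add_of_exact ((f.restrictScalars Λ).baseChange Ω)
    ((g.restrictScalars Λ).baseChange Ω) ?_ ?_ ?_ _ _ _ (fun v => hcomp f v) (fun v => hcomp g v)
  · exact Module.Flat.lTensor_preserves_injective_linearMap (f.restrictScalars Λ) hf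
  · exact LinearMap.lTensor_surjective Ω (g := g.restrictScalars Λ) hg
  · exact lTensor_exact Ω (f := f.restrictScalars Λ) (g := g.restrictScalars Λ) h hg

theorem trΩ_subsingleton {M : Type u} [AddCommGroup M] [Module R M] [Module Λ M]
    [IsScalarTower Λ R M] [Subsingleton M] (r : R) : trΩ Λ Ω M r = 0 := by
  rw [trΩ, Subsingleton.elim ((Algebra.lsmul Λ Λ M r).baseChange Ω) 0, map_zero]

end nice

section induction

variable {R : Type u} [CommRing R] [IsRegularLocalRing R] {d : ℕ} (hd : ringKrullDim R = d)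
  (hs : List R) (A : Type u) [AddCommGroup A] [Module R A] [Module.Finite R A]
  (hfin : ∀ (X : Type u) [AddCommGroup X] [Module R X] [Module.Finite R X],
    (∀ h ∈ hs, ∀ x : X, h • x = 0) → Module.length R (X ⊗[R] A) ≠ ⊤)

include hd hfin in
theorem eulerTor_add_killed {M' M M'' : Type u} [AddCommGroup M'] [Module R M']
    [Module.Finite R M'] [AddCommGroup M] [Module R M] [Module.Finite R M] [AddCommGroup M'']
    [Module R M''] [Module.Finite R M''] (f : M' →ₗ[R] M) (g : M →ₗ[R] M'') (hf : Injective f)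
    (hg : Surjective g) (h : Exact f g) (hM : ∀ h ∈ hs, ∀ x : M, h • x = 0) :
    eulerTor R (d + 1) A M = eulerTor R (d + 1) A M' + eulerTor R (d + 1) A M'' := by
  have hM' : ∀ h ∈ hs, ∀ x : M', h • x = 0 := fun a ha x => hf (by
    rw [map_smul, hM a ha, map_zero])
  have hM'' : ∀ h ∈ hs, ∀ x : M'', h • x = 0 := fun a ha x => by
    obtain ⟨x, rfl⟩ := hg x
    rw [← map_smul, hM a ha, map_zero]
  rw [eulerTor_symm A, eulerTor_symm A, eulerTor_symm A]
  exact eulerTor_add f g hf hg h A d (fun j => tor_length_ne_top j M' A (hfin M' hM'))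
    (fun j => tor_length_ne_top j M A (hfin M hM))
    (fun j => tor_length_ne_top j M'' A (hfin M'' hM''))
    (regular_tor_vanish R d hd M'' A (d + 1) le_rfl)

variable {Λ : Type u} [CommRing Λ] [Algebra Λ R] {Ω : Type u} [Field Ω] [Algebra Λ Ω]
  [Module.Flat Λ Ω] {w : (R →ₐ[Λ] Ω) → ℝ}

include hd hfin in
theorem Nice.mid {M' M M'' : Type u} [AddCommGroup M'] [Module R M'] [Module.Finite R M']
    [Module Λ M'] [IsScalarTower Λ R M'] [AddCommGroup M] [Module R M] [Module.Finite R M]
    [Module Λ M] [IsScalarTower Λ R M] [Module.Finite Λ M] [AddCommGroup M''] [Module R M'']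
    [Module.Finite R M''] [Module Λ M'']
    [IsScalarTower Λ R M''] (f : M' →ₗ[R] M) (g : M →ₗ[R] M'') (hf : Injective f)
    (hg : Surjective g) (h : Exact f g) (hM : ∀ h ∈ hs, ∀ x : M, h • x = 0)
    (h1 : Nice d A w M') (h3 : Nice d A w M'') : Nice d A w M := by
  obtain ⟨D', t', e'⟩ := h1
  obtain ⟨D'', t'', e''⟩ := h3
  refine ⟨D' + D'', fun r => ?_, ?_⟩
  · rw [sum_add_eq D' D'' (fun σ : R →ₐ[Λ] Ω => σ r), ← t', ← t'']
    exact trΩ_add f g hf hg h r
  · rw [sum_add_eq D' D'' w, ← e', ← e'', eulerTor_add_killed hd hs A hfin f g hf hg h hM]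
    push_cast
    rfl

include hd hfin in
theorem Nice.right {M' M M'' : Type u} [AddCommGroup M'] [Module R M'] [Module.Finite R M']
    [Module Λ M'] [IsScalarTower Λ R M'] [AddCommGroup M] [Module R M] [Module.Finite R M]
    [Module Λ M] [IsScalarTower Λ R M] [Module.Finite Λ M] [AddCommGroup M''] [Module R M'']
    [Module.Finite R M''] [Module Λ M'']
    [IsScalarTower Λ R M''] (f : M' →ₗ[R] M) (g : M →ₗ[R] M'') (hf : Injective f)
    (hg : Surjective g) (h : Exact f g) (hM : ∀ h ∈ hs, ∀ x : M, h • x = 0)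
    (h1 : Nice d A w M') (h2 : Nice d A w M) : Nice d A w M'' := by
  obtain ⟨D', t', e'⟩ := h1
  obtain ⟨D, t, e⟩ := h2
  refine ⟨D - D', fun r => ?_, ?_⟩
  · rw [sum_sub_eq D D' (fun σ : R →ₐ[Λ] Ω => σ r), ← t', ← t, trΩ_add f g hf hg h r]
    ring
  · rw [sum_sub_eq D D' w, ← e', ← e, eulerTor_add_killed hd hs A hfin f g hf hg h hM]
    push_cast
    ring

include hd hfin in
theorem Nice.pi {M : Type u} [AddCommGroup M] [Module R M] [Module.Finite R M]
    [Module Λ M] [IsScalarTower Λ R M] [Module.Finite Λ M] (hM : ∀ h ∈ hs, ∀ x : M, h • x = 0)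
    (h1 : Nice d A w M) (m : ℕ) : Nice d A w (Fin m → M) := by
  induction m with
  | zero =>
    refine ⟨0, fun r => ?_, ?_⟩
    · rw [trΩ_subsingleton, Finsupp.sum_zero_index]
    · have h3 := eulerTor_add_killed hd hs A hfin (M' := Fin 0 → M) (M := Fin 0 → M)
        (M'' := Fin 0 → M) 0 0 (injective_of_subsingleton _)
        (fun x => ⟨x, Subsingleton.elim _ _⟩) (fun x => ⟨fun _ => ⟨x, Subsingleton.elim _ _⟩,
          fun _ => Subsingleton.elim _ _⟩) (fun h hh x => Subsingleton.elim _ _)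
      have h4 : eulerTor R (d + 1) A (Fin 0 → M) = 0 := by linarith
      rw [h4, Finsupp.sum_zero_index]
      simp
  | succ m ih =>
    refine Nice.mid hd hs A hfin (LinearMap.single R (fun _ : Fin (m + 1) => M) 0)
      (LinearMap.funLeft R M Fin.succ) ?_ ?_ ?_ (fun h hh x => by
        ext i
        exact hM h hh (x i)) h1 ih
    · intro a b hab
      have := congrFun hab 0
      simpa using this
    · exact LinearMap.funLeft_surjective_of_injective _ _ _ (Fin.succ_injective m)
    · intro x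
      constructor
      · intro hx
        refine ⟨x 0, ?_⟩
        ext i
        refine Fin.cases ?_ (fun i => ?_) i
        · simp
        · have := congrFun hx i
          simp only [LinearMap.funLeft_apply, Pi.zero_apply] at this
          rw [this]
          simp
      · rintro ⟨y, rfl⟩
        ext i
        simp [LinearMap.funLeft_apply]

theorem smul_quotient_ofList {R : Type u} [CommRing R] (hs : List R) :
    ∀ h ∈ hs, ∀ x : R ⧸ Ideal.ofList hs, h • x = 0 := by
  intro h hh x
  obtain ⟨y, rfl⟩ := Ideal.Quotient.mk_surjective x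
  exact Ideal.Quotient.eq_zero_iff_mem.2 (Ideal.mul_mem_right _ _ (Ideal.subset_span hh))

theorem smul_eq_zero_of_mem_ofList {R : Type u} [CommRing R] {hs : List R} {M : Type u}
    [AddCommGroup M] [Module R M] (hM : ∀ h ∈ hs, ∀ x : M, h • x = 0) :
    ∀ a ∈ Ideal.ofList hs, ∀ x : M, a • x = 0 := by
  intro a ha x
  have h1 : Ideal.ofList hs ≤ Module.annihilator R M := by
    rw [Ideal.ofList, Ideal.span_le]
    intro h hh
    exact Module.mem_annihilator.2 (hM h hh)
  exact Module.mem_annihilator.1 (h1 ha) x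

/-- Modules killed by `hs` are finite over `Λ`. -/
theorem finite_of_killed {R : Type u} [CommRing R] {hs : List R} {Λ : Type u} [CommRing Λ]
    [Algebra Λ R] [Module.Finite Λ (R ⧸ Ideal.ofList hs)] (M : Type u) [AddCommGroup M]
    [Module R M] [Module.Finite R M] [Module Λ M] [IsScalarTower Λ R M]
    (hM : ∀ h ∈ hs, ∀ x : M, h • x = 0) : Module.Finite Λ M := by
  obtain ⟨m, g, hg⟩ := exists_quotient_cover (Ideal.ofList hs) M (smul_eq_zero_of_mem_ofList hM)
  exact Module.Finite.of_surjective (g.restrictScalars Λ) hg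

include hd hfin in
theorem exists_last_syzygy [IsLocalRing Λ] [IsNoetherianRing Λ]
    [Module.Finite Λ (R ⧸ Ideal.ofList hs)] [Module.Free Λ (R ⧸ Ideal.ofList hs)] (n : ℕ) :
    ∀ (M : Type u) [AddCommGroup M] [Module R M] [Module.Finite R M] [Module Λ M]
      [IsScalarTower Λ R M], (∀ h ∈ hs, ∀ x : M, h • x = 0) →
      (∀ j, n + 1 ≤ j → Subsingleton (TorM Λ j M (Λ ⧸ maximalIdeal Λ))) →
      ∃ (L : Type u) (_ : AddCommGroup L) (_ : Module R L) (_ : Module.Finite R L)
        (_ : Module Λ L) (_ : IsScalarTower Λ R L), Module.Free Λ L ∧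
        (∀ h ∈ hs, ∀ x : L, h • x = 0) ∧
        ∀ w : (R →ₐ[Λ] Ω) → ℝ, Nice d A w (R ⧸ Ideal.ofList hs) → Nice d A w L →
          Nice d A w M := by
  induction n with
  | zero =>
    intro M _ _ _ _ _ hM hT
    have hfM := finite_of_killed (Λ := Λ) M hM
    exact ⟨M, inferInstance, inferInstance, inferInstance, inferInstance, inferInstance,
      free_of_tor_residue M hT, hM, fun _ _ h => h⟩
  | succ n ih =>
    intro M _ _ _ _ _ hM hT
    obtain ⟨m, g, hg⟩ := exists_quotient_cover (Ideal.ofList hs) M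
      (smul_eq_zero_of_mem_ofList hM)
    let K := LinearMap.ker g
    have hF : ∀ h ∈ hs, ∀ x : Fin m → R ⧸ Ideal.ofList hs, h • x = 0 := fun h hh x => by
      ext i
      exact smul_quotient_ofList hs h hh (x i)
    have hK : ∀ h ∈ hs, ∀ x : K, h • x = 0 := fun h hh x => Subtype.ext (hF h hh x.1)
    have hex : Exact K.subtype g := by
      rw [LinearMap.exact_iff, Submodule.range_subtype]
    have hKT : ∀ j, n + 1 ≤ j → Subsingleton (TorM Λ j K (Λ ⧸ maximalIdeal Λ)) := by
      intro j hj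
      obtain ⟨i, rfl⟩ : ∃ i, j = i + 1 := ⟨j - 1, by omega⟩
      obtain ⟨e⟩ := tor_shift (K.subtype.restrictScalars Λ) (g.restrictScalars Λ)
        K.subtype_injective hg hex (Λ ⧸ maximalIdeal Λ) i
      have := hT (i + 2) (by omega)
      exact e.symm.injective.subsingleton
    obtain ⟨L, i1, i2, i3, i4, i5, hfree, hL, hw⟩ := ih K hK hKT
    refine ⟨L, i1, i2, i3, i4, i5, hfree, hL, fun w h1 h2 => ?_⟩
    have hpi := Nice.pi hd hs A hfin (Λ := Λ) (Ω := Ω) (w := w) (smul_quotient_ofList hs) h1 m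
    exact Nice.right hd hs A hfin K.subtype g K.subtype_injective hg hex hF (hw w h1 h2) hpi

end induction

end Vale.Agent.P177
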