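import Vale.Agent.P177.OShell
import Vale.Agent.P177.CoefficientField

/-!
Serre's positivity conjecture for equicharacteristic and unramified regular local rings, and the
outer shell for all regular local rings.
-/

namespace Vale.Agent.P177

open TensorProduct IsLocalRing RingTheory.Sequence Function

universe u

theorem exists_evalHom_surjective_base {A L : Type u} [CommRing A] [IsLocalRing A]
    [IsNoetherianRing A] [IsAdicComplete (maximalIdeal A) A] [CommRing L] [IsLocalRing L]
    [IsAdicComplete (maximalIdeal L) L] (σ : L →+* A)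
    (hσ : Function.Surjective (fun x => residue A (σ x))) {r s : ℕ} (x : Fin r → A)
    (t : Fin s → L) (ht : ∀ i, t i ∈ maximalIdeal L)
    (hle : maximalIdeal L ≤ (maximalIdeal A).comap σ)
    (hx : Ideal.span (Set.range fun i => σ (t i)) ⊔ Ideal.span (Set.range x) = maximalIdeal A) :
    ∃ φ : MvPowerSeries (Fin r) L →+* A, Function.Surjective φ ∧
      (∀ v, φ (MvPowerSeries.C v) = σ v) ∧ ∀ i, φ (MvPowerSeries.X i) = x i := by
  have hxm : Ideal.span (Set.range x) ≤ maximalIdeal A := hx ▸ le_sup_right
  obtain ⟨φ, hφ⟩ := exists_evalHom (maximalIdeal A) σ x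
    (fun i => hxm (Ideal.subset_span ⟨i, rfl⟩))
  have hC : ∀ r, φ (MvPowerSeries.C r) = σ r := by
    intro r
    rw [← MvPolynomial.coe_C, hφ]
    simp
  have hX : ∀ i, φ (MvPowerSeries.X i) = x i := by
    intro i
    rw [← MvPolynomial.coe_X, hφ]
    simp
  refine ⟨φ, ?_, hC, hX⟩
  have hmap : (Ideal.span (Set.range MvPowerSeries.X) : Ideal (MvPowerSeries (Fin r) L)).map φ =
      Ideal.span (Set.range x) := by
    rw [Ideal.map_span, ← Set.range_comp]
    congr 2
    ext i
    exact hX i
  -- the base ring surjects onto the quotient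
  let A' := A ⧸ Ideal.span (Set.range x)
  have hnt : Nontrivial A' := Ideal.Quotient.nontrivial_iff.2 fun h =>
    (maximalIdeal.isMaximal A).ne_top (top_le_iff.1 (h ▸ hxm))
  have hlA : IsLocalRing A' := .of_surjective' (Ideal.Quotient.mk _) Ideal.Quotient.mk_surjective
  let q : A →+* A' := Ideal.Quotient.mk _
  have hmA : (maximalIdeal A).map q = maximalIdeal A' :=
    map_maximalIdeal_of_surjective _ Ideal.Quotient.mk_surjective
  have hmL : (maximalIdeal L).map (q.comp σ) ≤ maximalIdeal A' := by
    rw [← Ideal.map_map, ← hmA]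
    exact Ideal.map_mono (Ideal.map_le_iff_le_comap.2 hle)
  have hH' : IsHausdorff ((maximalIdeal L).map (q.comp σ)) A' :=
    IsHausdorff.of_le_jacobson _ _ (hmL.trans (IsLocalRing.maximalIdeal_le_jacobson ⊥))
  have hsurj' : Surjective (q.comp σ) := by
    apply surjective_of_mk_map_comp_surjective (I := maximalIdeal L) (q.comp σ)
    intro y
    obtain ⟨a', rfl⟩ := Ideal.Quotient.mk_surjective y
    obtain ⟨a, rfl⟩ : ∃ a, q a = a' := Ideal.Quotient.mk_surjective a'
    obtain ⟨v, hv⟩ := hσ (residue A a)
    refine ⟨v, ?_⟩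
    rw [RingHom.comp_apply, RingHom.comp_apply, Ideal.Quotient.mk_eq_mk_iff_sub_mem, ← map_sub]
    have h1 : σ v - a ∈ maximalIdeal A := by
      rw [← residue_eq_zero_iff, map_sub, sub_eq_zero]
      exact hv
    rw [← hx] at h1
    have h2 : Ideal.span (Set.range fun i => σ (t i)) ⊔ Ideal.span (Set.range x) ≤
        ((maximalIdeal L).map (q.comp σ)).comap q := by
      refine sup_le ?_ ?_
      · rw [Ideal.span_le]
        rintro _ ⟨i, rfl⟩
        exact Ideal.mem_map_of_mem (q.comp σ) (ht i)
      · rw [Ideal.span_le]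
        rintro _ ⟨i, rfl⟩
        rw [SetLike.mem_coe, Ideal.mem_comap]
        have h3 : q (x i) = 0 := Ideal.Quotient.eq_zero_iff_mem.2 (Ideal.subset_span ⟨i, rfl⟩)
        rw [h3]
        exact Ideal.zero_mem _
    exact h2 h1
  have hH : IsHausdorff ((Ideal.span (Set.range MvPowerSeries.X) :
      Ideal (MvPowerSeries (Fin r) L)).map φ) A := by
    rw [hmap]
    exact IsHausdorff.of_le_jacobson _ _ (hxm.trans (IsLocalRing.maximalIdeal_le_jacobson ⊥))
  apply surjective_of_mk_map_comp_surjective (I := Ideal.span (Set.range MvPowerSeries.X)) φ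
  intro y
  obtain ⟨a, rfl⟩ := Ideal.Quotient.mk_surjective y
  obtain ⟨v, hv⟩ := hsurj' (q a)
  refine ⟨MvPowerSeries.C v, ?_⟩
  rw [RingHom.comp_apply, hC, Ideal.Quotient.mk_eq_mk_iff_sub_mem, hmap]
  rw [← Ideal.Quotient.mk_eq_mk_iff_sub_mem]
  exact hv


theorem serreAll_of_powerSeries_equiv {V S : Type u} [CommRing V] [IsRegularLocalRing V]
    (hV : ringKrullDim V ≤ 4) (n : ℕ) [CommRing S] [IsRegularLocalRing S]
    (e : MvPowerSeries (Fin n) V ≃+* S) (d : ℕ) (hd : ringKrullDim S = d) : SerreAll S d := by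
  let _ : Algebra S (MvPowerSeries (Fin n) V) := e.symm.toRingHom.toAlgebra
  let eA : S ≃ₐ[S] MvPowerSeries (Fin n) V := AlgEquiv.ofRingEquiv (f := e.symm) fun _ => rfl
  have hfl : Module.Flat S (MvPowerSeries (Fin n) V) :=
    Module.Flat.of_linearEquiv eA.symm.toLinearEquiv
  have hreg := mvPowerSeries_regular_fin V n
  refine serreAll_formal 4 locPos_four V (by exact_mod_cast hV) n S ?_ d hd
  exact map_maximalIdeal_of_surjective _ e.symm.surjective

theorem charZero_of_injective_algebraMap_aux {S : Type u} [CommRing S] [IsLocalRing S]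
    [CharZero (ResidueField S)] {I : Ideal S} (hle : I ≤ maximalIdeal S) : CharZero (S ⧸ I) := by
  refine ⟨fun a b hab => ?_⟩
  have h := congrArg (Ideal.Quotient.factor hle) hab
  rw [map_natCast, map_natCast] at h
  exact Nat.cast_injective (R := ResidueField S) h

theorem exists_rsp_fun (S : Type u) [CommRing S] [IsRegularLocalRing S] {d : ℕ}
    (hd : ringKrullDim S = d) : ∃ x : Fin d → S, Ideal.span (Set.range x) = maximalIdeal S := by
  obtain ⟨rs, hrs, hl, -⟩ := exists_rsp S hd
  subst hl
  refine ⟨fun i => rs.get i, ?_⟩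
  rw [← hrs, Ideal.ofList]
  congr 1
  ext y
  simp only [Set.mem_range, Set.mem_ofPred_eq, List.mem_iff_get]

/-- A complete regular local ring with a field over which it has trivial residue extension. -/
theorem serreAll_of_field {S k : Type u} [CommRing S] [IsRegularLocalRing S]
    [IsAdicComplete (maximalIdeal S) S] [Field k] (σ : k →+* S)
    (hσ : Function.Surjective (fun x => residue S (σ x))) (d : ℕ) (hd : ringKrullDim S = d) :
    SerreAll S d := by
  obtain ⟨x, hx⟩ := exists_rsp_fun S hd
  obtain ⟨φ, hφ⟩ := exists_powerSeries_surjective S k σ hσ d x hx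
  have hreg : IsRegularLocalRing (MvPowerSeries (Fin d) k) := mvPowerSeries_isRegularLocalRing _ _
  have hdim : ringKrullDim (MvPowerSeries (Fin d) k) = d := by
    rw [mvPowerSeries_ringKrullDim]
    simp
  have hinj : RingHom.ker φ = ⊥ := ker_eq_bot_of_dim_eq φ hφ (by rw [hd, hdim])
  have hk : ringKrullDim k ≤ 4 := by
    rw [ringKrullDim_eq_zero_of_field]
    norm_num
  exact serreAll_of_powerSeries_equiv hk d (RingEquiv.ofBijective φ
    ⟨(RingHom.injective_iff_ker_eq_bot φ).2 hinj, hφ⟩) d hd

/-- Residue characteristic zero. -/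
theorem serreAll_charZero (R : Type u) [CommRing R] [IsRegularLocalRing R]
    [CharZero (ResidueField R)] (d : ℕ) (hd : ringKrullDim R = d) : SerreAll R d := by
  obtain ⟨S, _, _, _, hflat, hm, hdS, hcomp, hres⟩ := exists_completion_residue R hd
  refine SerreAll.descend hm ?_
  have hloc : IsLocalHom (algebraMap R S) := ((local_hom_TFAE (algebraMap R S)).out 0 2).2 hm.le
  have hcz : CharZero (ResidueField S) :=
    charZero_of_injective_ringHom (f := ResidueField.map (algebraMap R S)) (RingHom.injective _)
  obtain ⟨hQ⟩ : Nonempty (Algebra ℚ S) := by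
    refine (EqualCharZero.nonempty_algebraRat_iff S).2 fun I hI => ?_
    have hle : I ≤ maximalIdeal S := le_maximalIdeal hI
    exact charZero_of_injective_algebraMap_aux hle
  let _ := hQ
  obtain ⟨s, hs⟩ := exists_isTranscendenceBasis ℚ (ResidueField S)
  have halg := hs.isAlgebraic_field
  have hfs : Algebra.FormallySmooth ℚ (ResidueField S) :=
    Algebra.FormallySmooth.of_algebraicIndependent_of_isSeparable hs.1
  let f : ResidueField S →ₐ[ℚ] S ⧸ maximalIdeal S :=
    { (RingHom.id (ResidueField S) : ResidueField S →+* S ⧸ maximalIdeal S) with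
      commutes' := fun r => RingHom.congr_fun (Subsingleton.elim
        ((RingHom.id (ResidueField S) : ResidueField S →+* S ⧸ maximalIdeal S).comp
          (algebraMap ℚ (ResidueField S))) (algebraMap ℚ (S ⧸ maximalIdeal S))) r }
  obtain ⟨g, hg⟩ := @Algebra.FormallySmooth.exists_mkₐ_comp_eq_of_isAdicComplete
    ℚ (ResidueField S) _ _ _ S _ _ hfs (maximalIdeal S) _ f
  exact serreAll_of_field g.toRingHom (fun x => ⟨x, congr($hg x)⟩) d hdS

/-- Equal characteristic `p`. -/
theorem serreAll_charP (p : ℕ) [Fact p.Prime] (R : Type u) [CommRing R] [IsRegularLocalRing R]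
    (hp : (p : R) = 0) (d : ℕ) (hd : ringKrullDim R = d) : SerreAll R d := by
  obtain ⟨S, _, _, _, hflat, hm, hdS, hcomp, hres⟩ := exists_completion_residue R hd
  refine SerreAll.descend hm ?_
  have hpS : (p : S) = 0 := by rw [← map_natCast (algebraMap R S), hp, map_zero]
  have hch : CharP S p := (CharP.charP_iff_prime_eq_zero Fact.out).2 hpS
  obtain ⟨σ, hσ⟩ := exists_coefficientField S p
  exact serreAll_of_field σ (fun x => ⟨x, hσ x⟩) d hdS

/-- The unramified case. -/
theorem serreAll_unramified (p : ℕ) [Fact p.Prime] (R : Type u) [CommRing R]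
    [IsRegularLocalRing R] [CharP (ResidueField R) p] (hp2 : (p : R) ∉ maximalIdeal R ^ 2)
    (d : ℕ) (hd : ringKrullDim R = d) : SerreAll R d := by
  obtain ⟨S, _, _, _, hflat, hm, hdS, hcomp, hch, hperf⟩ := exists_gonflement R p hd
  have hloc : IsLocalHom (algebraMap R S) := ((local_hom_TFAE (algebraMap R S)).out 0 2).2 hm.le
  have hff : Module.FaithfullyFlat R S := Module.FaithfullyFlat.of_flat_of_isLocalHom
  refine SerreAll.descend hm ?_
  have hpm : (p : S) ∈ maximalIdeal S := by
    rw [← residue_eq_zero_iff, map_natCast, CharP.cast_eq_zero]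
  have hpS : (p : S) ∉ maximalIdeal S ^ 2 := by
    rw [← map_natCast (algebraMap R S), ← hm, ← Ideal.map_pow]
    intro h
    apply hp2
    rw [← Ideal.comap_map_eq_self_of_faithfullyFlat (B := S) (maximalIdeal R ^ 2)]
    exact h
  obtain ⟨hAreg, hAdim⟩ := regular_quotient S (p : S) hpm hpS
  obtain ⟨e, he⟩ := exists_nat_eq_ringKrullDim (S ⧸ Ideal.span {(p : S)})
  have hed : e + 1 = d := by
    rw [he, hdS] at hAdim
    exact_mod_cast hAdim
  subst hed
  obtain ⟨x', hx'⟩ := exists_rsp_fun (S ⧸ Ideal.span {(p : S)}) he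
  choose x hx using fun i => Ideal.Quotient.mk_surjective (x' i)
  have hspan : Ideal.span {(p : S)} ⊔ Ideal.span (Set.range x) = maximalIdeal S := by
    have h1 : (maximalIdeal S).map (Ideal.Quotient.mk (Ideal.span {(p : S)})) =
        maximalIdeal (S ⧸ Ideal.span {(p : S)}) :=
      map_maximalIdeal_of_surjective _ Ideal.Quotient.mk_surjective
    have h2 : (Ideal.span (Set.range x)).map (Ideal.Quotient.mk (Ideal.span {(p : S)})) =
        (maximalIdeal S).map (Ideal.Quotient.mk (Ideal.span {(p : S)})) := by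
      rw [h1, ← hx', Ideal.map_span, ← Set.range_comp]
      congr 2
      ext i
      exact hx i
    have h3 := congrArg (Ideal.comap (Ideal.Quotient.mk (Ideal.span {(p : S)}))) h2
    rw [Ideal.comap_map_of_surjective _ Ideal.Quotient.mk_surjective,
      Ideal.comap_map_of_surjective _ Ideal.Quotient.mk_surjective,
      ← RingHom.ker_eq_comap_bot, Ideal.mk_ker] at h3
    rw [sup_comm, h3, sup_eq_left, Ideal.span_singleton_le_iff_mem]
    exact hpm
  obtain ⟨σ, hσ⟩ := exists_witt_hom (S := S) p
  obtain ⟨hreg, hmax, hdim⟩ := witt_dim_one (ResidueField S) p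
  have hW : IsAdicComplete (maximalIdeal (WittVector p (ResidueField S)))
      (WittVector p (ResidueField S)) := by
    rw [hmax]
    infer_instance
  obtain ⟨φ, hφ, -⟩ := exists_evalHom_surjective_base (L := WittVector p (ResidueField S)) σ
    (fun y => ⟨WittVector.teichmuller p y, by
      change residue S (σ (WittVector.teichmuller p y)) = y
      rw [hσ, WittVector.teichmuller_coeff_zero]⟩) x (fun _ : Fin 1 => (p : WittVector p _))
    (fun _ => by rw [hmax]; exact Ideal.mem_span_singleton_self _)
    (by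
      rw [hmax, Ideal.span_singleton_le_iff_mem, Ideal.mem_comap, map_natCast]
      exact hpm)
    (by
      rw [Set.range_const, map_natCast]
      exact hspan)
  have hregB : IsRegularLocalRing (MvPowerSeries (Fin e) (WittVector p (ResidueField S))) :=
    mvPowerSeries_regular_fin _ e
  have hdB : ringKrullDim (MvPowerSeries (Fin e) (WittVector p (ResidueField S))) =
      ((e + 1 : ℕ) : WithBot ℕ∞) := by
    have h := (mvPowerSeries_regular (A := WittVector p (ResidueField S)) e
      (Equiv.refl (Fin e)) hdim).2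
    rw [h]
    norm_cast
    omega
  have hinj : RingHom.ker φ = ⊥ := ker_eq_bot_of_dim_eq φ hφ (by rw [hdS, hdB])
  exact serreAll_of_powerSeries_equiv (by rw [hdim]; norm_num) e (RingEquiv.ofBijective φ
    ⟨(RingHom.injective_iff_ker_eq_bot φ).2 hinj, hφ⟩) (e + 1) hdS

/-- **The outer shell.** The core statements imply Serre's positivity conjecture for all regular
local rings. -/
theorem serreAll_of_core (h₀ : CoreStmt₀.{u}) (h₁ : CoreStmt₁.{u}) (R : Type u) [CommRing R]
    [IsRegularLocalRing R] (d : ℕ) (hd : ringKrullDim R = d) : SerreAll R d := by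
  obtain ⟨p, hp⟩ := CharP.exists (ResidueField R)
  rcases CharP.char_is_prime_or_zero (ResidueField R) p with hpp | rfl
  · have : Fact p.Prime := ⟨hpp⟩
    by_cases hp0 : (p : R) = 0
    · exact serreAll_charP p R hp0 d hd
    by_cases hp2 : (p : R) ∈ maximalIdeal R ^ 2
    · exact serreAll_ramified_of_core h₀ h₁ p R d hd hp0 hp2
    · exact serreAll_unramified p R hp2 d hd
  · have : CharZero (ResidueField R) := CharP.charP_to_charZero _
    exact serreAll_charZero R d hd

end Vale.Agent.P177
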