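import Vale.Agent.P177.OEndD
import Vale.Agent.P177.OUnram

/-!
The end of the proof: the flag formula implies Serre's positivity conjecture.
-/

namespace Vale.Agent.P177

open TensorProduct IsLocalRing RingTheory.Sequence Function

universe u

theorem ringKrullDim_le_of_isIntegral {A B : Type*} [CommRing A] [CommRing B] [Algebra A B]
    [Algebra.IsIntegral A B] : ringKrullDim B ≤ ringKrullDim A := by
  refine Order.krullDim_le_of_strictMono
    (fun q : PrimeSpectrum B => PrimeSpectrum.comap (algebraMap A B) q) fun q q' hlt => ?_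
  have h1 : q.asIdeal < q'.asIdeal := hlt
  obtain ⟨x, hx', hx⟩ := SetLike.exists_of_lt h1
  exact Ideal.comap_lt_comap_of_integral_mem_sdiff h1.le ⟨hx', hx⟩
    (Algebra.IsIntegral.isIntegral x)

theorem injective_of_finite_of_dim {Λ S : Type u} [CommRing Λ] [IsRegularLocalRing Λ]
    [CommRing S] [Algebra Λ S] [Module.Finite Λ S] (b : ℕ) (hΛ : ringKrullDim Λ = b)
    (hS : ringKrullDim S = b) : Injective (algebraMap Λ S) := by
  have hdom : IsDomain Λ := regular_isDomain Λ
  rw [injective_iff_map_eq_zero]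
  intro x hx
  by_contra hx0
  have hle : ringKrullDim S ≤ ringKrullDim (Λ ⧸ Ideal.span {x}) := by
    let φ : Λ ⧸ Ideal.span {x} →+* S := Ideal.Quotient.lift _ (algebraMap Λ S) fun a ha => by
      obtain ⟨y, rfl⟩ := Ideal.mem_span_singleton'.1 ha
      rw [map_mul, hx, mul_zero]
    let _ : Algebra (Λ ⧸ Ideal.span {x}) S := φ.toAlgebra
    have : IsScalarTower Λ (Λ ⧸ Ideal.span {x}) S := IsScalarTower.of_algebraMap_eq fun a => rfl
    have : Module.Finite (Λ ⧸ Ideal.span {x}) S := Module.Finite.of_restrictScalars_finite Λ _ S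
    have : Algebra.IsIntegral (Λ ⧸ Ideal.span {x}) S := Algebra.IsIntegral.of_finite _ _
    exact ringKrullDim_le_of_isIntegral
  have h2 := ringKrullDim_quotient_succ_le_of_nonZeroDivisor (mem_nonZeroDivisors_of_ne_zero hx0)
  rw [hS] at hle
  rw [hΛ] at h2
  have h3 : ((b + 1 : ℕ) : WithBot ℕ∞) ≤ b := by
    refine le_trans ?_ h2
    push_cast
    gcongr
  have h4 : b + 1 ≤ b := by exact_mod_cast h3
  omega

theorem nontrivial_tensor_of_injective {Λ S Ω : Type u} [CommRing Λ] [CommRing S] [Algebra Λ S]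
    [Field Ω] [Algebra Λ Ω] [Module.Flat Λ Ω] (hinj : Injective (algebraMap Λ S)) :
    Nontrivial (Ω ⊗[Λ] S) := by
  have h := Algebra.TensorProduct.includeLeft_injective (S := Λ) (A := Ω) (B := S) hinj
  exact h.nontrivial

/-- The modules with effective trace: positivity. -/
theorem pos_of_nice {R : Type u} [CommRing R] {Λ : Type u} [CommRing Λ] [Algebra Λ R]
    {Ω : Type u} [Field Ω] [IsAlgClosed Ω] [CharZero Ω] [Algebra Λ Ω] {d : ℕ}
    {A : Type u} [AddCommGroup A] [Module R A] {hs : List R} {w : (R →ₐ[Λ] Ω) → ℝ}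
    {strict : Prop}
    (hw : ∀ σ : R →ₐ[Λ] Ω, (∀ h ∈ hs, σ h = 0) → 0 ≤ w σ ∧ (strict → 0 < w σ))
    {M : Type u} [AddCommGroup M] [Module R M] [Module Λ M] [IsScalarTower Λ R M]
    [Module.Finite Λ M] (hM : ∀ h ∈ hs, ∀ x : M, h • x = 0) (hnt : Nontrivial (Ω ⊗[Λ] M))
    (h : Nice d A w M) :
    0 ≤ eulerTor R (d + 1) A M ∧ (strict → 0 < eulerTor R (d + 1) A M) := by
  obtain ⟨D, hD, hE⟩ := h
  let ρ : R →+* Module.End Ω (Ω ⊗[Λ] M) :=
    { toFun := fun r => (Algebra.lsmul Λ Λ M r).baseChange Ω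
      map_one' := by
        rw [map_one]
        exact LinearMap.baseChange_id
      map_mul' := fun a b => by
        rw [map_mul]
        exact LinearMap.baseChange_comp _ _
      map_zero' := by
        rw [map_zero]
        exact LinearMap.baseChange_zero
      map_add' := fun a b => by
        rw [map_add]
        exact LinearMap.baseChange_add _ _ }
  obtain ⟨τ, hτ, hτ2⟩ := exists_characters (Module.finrank Ω (Ω ⊗[Λ] M)) (Ω ⊗[Λ] M) ρ rfl
  have hn : 0 < Module.finrank Ω (Ω ⊗[Λ] M) := Module.finrank_pos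
  -- the characters are `Λ`-linear
  have hsc : ∀ (x : Λ) (v : Ω ⊗[Λ] M), ρ (algebraMap Λ R x) v = algebraMap Λ Ω x • v := by
    intro x v
    change (Algebra.lsmul Λ Λ M (algebraMap Λ R x)).baseChange Ω v = _
    have h1 : Algebra.lsmul Λ Λ M (algebraMap Λ R x) = x • LinearMap.id := by
      ext m
      simp
    rw [h1, LinearMap.baseChange_smul, LinearMap.baseChange_id, LinearMap.smul_apply,
      LinearMap.id_apply, algebraMap_smul]
  let σ : Fin (Module.finrank Ω (Ω ⊗[Λ] M)) → (R →ₐ[Λ] Ω) := fun j =>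
    { τ j with commutes' := fun x => hτ2 j _ _ (hsc x) }
  have hσ0 : ∀ j, ∀ h ∈ hs, σ j h = 0 := by
    intro j h hh
    refine hτ2 j h 0 fun v => ?_
    change (Algebra.lsmul Λ Λ M h).baseChange Ω v = _
    have h1 : Algebra.lsmul Λ Λ M h = 0 := by
      ext m
      exact hM h hh m
    rw [h1, LinearMap.baseChange_zero, zero_smul]
    rfl
  have hDeq : D = ∑ j, Finsupp.single (σ j) (1 : ℤ) := by
    refine finsupp_eq_of_sum_eq (fun s : R →ₐ[Λ] Ω => (s : R →+* Ω))
      (fun s t hst => AlgHom.coe_ringHom_injective hst) _ _ fun r => ?_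
    have h2 := sum_single_eq (S := Ω) (Module.finrank Ω (Ω ⊗[Λ] M)) σ (fun s => s r)
    exact (hD r).symm.trans ((hτ r).trans h2.symm)
  have hsum : (eulerTor R (d + 1) A M : ℝ) = ∑ j, w (σ j) := by
    rw [hE, hDeq, sum_single_eq]
  constructor
  · have h3 : (0 : ℝ) ≤ eulerTor R (d + 1) A M := by
      rw [hsum]
      exact Finset.sum_nonneg fun j _ => (hw _ (hσ0 j)).1
    exact_mod_cast h3
  · intro hst
    have h3 : (0 : ℝ) < eulerTor R (d + 1) A M := by
      rw [hsum]
      exact Finset.sum_pos (fun j _ => (hw _ (hσ0 j)).2 hst) ⟨⟨0, hn⟩, Finset.mem_univ _⟩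
    exact_mod_cast h3

/-- The core statement from the flag formula. -/
theorem coreStmt_of_flag (hflag : FlagStmt.{u}) :
    CoreStmt.{u} fun p R _ _ Q => (p : R) ∉ Q := by
  intro p _ R _ _ _ _ _ d hd hp0 hp2 P Q hP hQ hpQ hlen a b ha hb
  by_cases hab : a + b ≤ d
  swap
  · exact ⟨fun h => absurd h.le hab, fun h => absurd h.le hab⟩
  have hpm : (p : R) ∈ maximalIdeal R := Ideal.pow_le_self two_ne_zero hp2
  have hrad : maximalIdeal R ≤ (P ⊔ Q).radical := by
    obtain ⟨k, hk⟩ := exists_pow_le_sup_annihilator (R ⧸ P) (R ⧸ Q) hlen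
    rw [Ideal.annihilator_quotient, Ideal.annihilator_quotient] at hk
    exact fun x hx => ⟨k, hk (Ideal.pow_mem_pow hx k)⟩
  obtain ⟨hs, hsQ, hreg, hlen', hrad'⟩ := exists_hs hd P Q (p : R) hpm hp0 hpQ hrad a b
    (by rw [supportDim_quotient_eq, ha]) (by rw [supportDim_quotient_eq, hb]) hab
  have hb1 : 1 ≤ b := by
    by_contra hb0
    have hb0' : b = 0 := by omega
    subst hb0'
    have h1 := maximalIdeal_le_radical_of_supportDim Q (by
      rw [supportDim_quotient_eq, hb]
      exact_mod_cast le_rfl)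
    rw [hQ.radical] at h1
    exact hpQ (h1 hpm)
  have hsm : ∀ h ∈ hs, h ∈ maximalIdeal R := fun h hh => le_maximalIdeal hQ.ne_top (hsQ h hh)
  have hregs : IsWeaklyRegular R hs := ((isWeaklyRegular_append_iff _ _ _).1 hreg).1
  have hdimS : ringKrullDim (R ⧸ Ideal.ofList hs) = b := by
    have h1 := supportDim_quot_of_weaklyRegular hd hs hsm hregs
    have heq : (Ideal.ofList hs • ⊤ : Submodule R R) = Ideal.ofList hs := by
      rw [smul_eq_mul, Ideal.mul_top]
    rw [Module.supportDim_eq_of_equiv (Submodule.quotEquivOfEq _ _ heq),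
      supportDim_quotient_eq] at h1
    rw [h1]
    have h2 : d - hs.length = b := by omega
    rw [h2]
  obtain ⟨Λ, _, _, _, Ω, _, _, _, _, _, hfinΛ, hdimΛ, hF⟩ := hflag p R d hd hp0 hp2 P hP hs hsm
    hreg hrad' a b ha hlen' hb1 hdimS hab
  rw [hdimS] at hdimΛ
  have hdomΛ : IsDomain Λ := regular_isDomain Λ
  have hflat : Module.Flat Λ Ω := flat_field
  have hfree := free_quotient_ofList hd hs hsm hlen' Λ hdimΛ
  have hfin : ∀ (X : Type u) [AddCommGroup X] [Module R X] [Module.Finite R X],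
      (∀ h ∈ hs, ∀ x : X, h • x = 0) → Module.length R (X ⊗[R] (R ⧸ P)) ≠ ⊤ := by
    intro X _ _ _ hX
    refine FL.length_ne_top (?_ : FL ([] : List R) (X ⊗[R] (R ⧸ P)))
    refine hrad'.trans (Ideal.radical_mono (sup_le ?_ ?_))
    · refine le_sup_of_le_left fun x hx => Module.mem_annihilator.2 fun z => ?_
      have h1 : ∀ y : R ⧸ P, x • y = 0 := fun y => by
        obtain ⟨y, rfl⟩ := Ideal.Quotient.mk_surjective y
        exact Ideal.Quotient.eq_zero_iff_mem.2 (Ideal.mul_mem_right _ _ hx)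
      induction z using TensorProduct.induction_on with
      | zero => exact smul_zero _
      | tmul y z => rw [TensorProduct.smul_tmul', TensorProduct.smul_tmul, h1,
          TensorProduct.tmul_zero]
      | add y z hy hz => rw [smul_add, hy, hz, add_zero]
    · refine le_sup_of_le_left fun x hx => Module.mem_annihilator.2 fun z => ?_
      have h1 := smul_eq_zero_of_mem_ofList hX x hx
      exact tensor_smul_eq_zero_left x h1 z
  have hMQ : ∀ h ∈ hs, ∀ x : R ⧸ Q, h • x = 0 := fun h hh x => by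
    obtain ⟨y, rfl⟩ := Ideal.Quotient.mk_surjective x
    exact Ideal.Quotient.eq_zero_iff_mem.2 (Ideal.mul_mem_right _ _ (hsQ h hh))
  have hfQ : Module.Finite Λ (R ⧸ Q) := finite_of_killed (Λ := Λ) (hs := hs) (R ⧸ Q) hMQ
  obtain ⟨L, _, _, _, _, _, hLfree, hL, hw⟩ := exists_last_syzygy hd hs (R ⧸ P) hfin (Λ := Λ)
    (Ω := Ω) b (R ⧸ Q) hMQ fun j hj => regular_tor_vanish Λ b hdimΛ (R ⧸ Q) _ j hj
  obtain ⟨w, hwpos, hw1, hw2⟩ := hF (R ⧸ Ideal.ofList hs) L (smul_quotient_ofList hs) hL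
  have hfL : Module.Finite Λ L := finite_of_killed (Λ := Λ) (hs := hs) L hL
  have hnice : Nice d (R ⧸ P) w (R ⧸ Q) := hw w hw1.nice hw2.nice
  have hinj : Injective (algebraMap Λ (R ⧸ Q)) := injective_of_finite_of_dim b hdimΛ hb
  obtain ⟨h1, h2⟩ := pos_of_nice hwpos hMQ (nontrivial_tensor_of_injective hinj) hnice
  exact ⟨fun _ => h1, fun h => h2 h⟩

/-- The core statements from the flag formula. -/
theorem coreStmt₀_of_flag (hflag : FlagStmt.{u}) : CoreStmt₀.{u} := by
  intro p _ R _ _ _ _ _ d hd hp0 hp2 P Q hP hQ hpQ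
  exact coreStmt_of_flag hflag p R d hd hp0 hp2 P Q hP hQ hpQ.2

theorem coreStmt₁_of_flag (hflag : FlagStmt.{u}) : CoreStmt₁.{u} := by
  intro p _ R _ _ _ _ _ d hd hp0 hp2 P Q hP hQ hpQ hlen a b ha hb
  have h := coreStmt_of_flag hflag p R d hd hp0 hp2 Q P hQ hP hpQ.1 (by
    rwa [(TensorProduct.comm R (R ⧸ Q) (R ⧸ P)).length_eq]) b a hb ha
  rw [eulerTor_symm (R ⧸ P) (R ⧸ Q)]
  exact ⟨fun h' => h.1 (by omega), fun h' => h.2 (by omega)⟩

/-- **Serre's positivity conjecture from the flag formula.** -/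
theorem serreAll_of_flag (hflag : FlagStmt.{u}) (R : Type u) [CommRing R] [IsRegularLocalRing R]
    (d : ℕ) (hd : ringKrullDim R = d) : SerreAll R d :=
  serreAll_of_core (coreStmt₀_of_flag hflag) (coreStmt₁_of_flag hflag) R d hd

end Vale.Agent.P177
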