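import Vale.Agent.P177.OCore
import Vale.Agent.P177.CFormal

/-!
The outer shell of Serre's positivity conjecture: from the core statement to all modules over all
regular local rings with residue characteristic `p` in which `p` lies in the square of the maximal
ideal.
-/

namespace Vale.Agent.P177

open TensorProduct IsLocalRing RingTheory.Sequence Function

universe u

theorem supportDim_quotient_eq {R : Type u} [CommRing R] (P : Ideal R) :
    Module.supportDim R (R ⧸ P) = ringKrullDim (R ⧸ P) := by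
  rw [Module.supportDim_eq_ringKrullDim_quotient_annihilator, Ideal.annihilator_quotient]

theorem exists_nat_ringKrullDim_quot {R : Type u} [CommRing R] [IsLocalRing R]
    [IsNoetherianRing R] (P : Ideal R) [P.IsPrime] : ∃ a : ℕ, ringKrullDim (R ⧸ P) = a := by
  have : Nontrivial (R ⧸ P) := Ideal.Quotient.nontrivial_iff.2 (Ideal.IsPrime.ne_top ‹_›)
  have : IsLocalRing (R ⧸ P) :=
    IsLocalRing.of_surjective' (Ideal.Quotient.mk P) Ideal.Quotient.mk_surjective
  exact exists_nat_eq_ringKrullDim (R ⧸ P)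

theorem dimension_inequality_of_presentation {V R : Type u} [CommRing V] [IsRegularLocalRing V]
    (hdim : ringKrullDim V = (1 : ℕ)) [CommRing R] [IsRegularLocalRing R] (d : ℕ)
    (hd : ringKrullDim R = d) (φ : MvPowerSeries (Fin d) V →+* R) (hφ : Surjective φ)
    (f : MvPowerSeries (Fin d) V) (hker : RingHom.ker φ = Ideal.span {f})
    (M N : Type u) [AddCommGroup M] [Module R M] [Module.Finite R M]
    [AddCommGroup N] [Module R N] [Module.Finite R N]
    (hlen : Module.length R (M ⊗[R] N) ≠ ⊤) (a b : ℕ)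
    (ha : (a : WithBot ℕ∞) ≤ Module.supportDim R M)
    (hb : (b : WithBot ℕ∞) ≤ Module.supportDim R N) : a + b ≤ d := by
  have hregB : IsRegularLocalRing (MvPowerSeries (Fin d) V) := mvPowerSeries_regular_fin _ d
  have hdB : ringKrullDim (MvPowerSeries (Fin d) V) = ((d + 1 : ℕ) : WithBot ℕ∞) := by
    have h := (mvPowerSeries_regular (A := V) d (Equiv.refl (Fin d)) hdim).2
    rw [h]
    norm_cast
    omega
  have hS : SerreAll (MvPowerSeries (Fin d) V) (d + 1) :=
    serreAll_powerSeries 4 locPos_four _ (by rw [hdim]; norm_num) d (d + 1) hdB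
  let _ : Algebra (MvPowerSeries (Fin d) V) R := φ.toAlgebra
  have hdom : IsDomain (MvPowerSeries (Fin d) V) := regular_isDomain _
  have hne : f ≠ 0 := by
    intro h0
    have h1 : RingHom.ker φ = ⊥ := by
      rw [hker, h0, Ideal.span_singleton_eq_bot]
    have h2 := ringKrullDim_eq_of_ringEquiv (RingEquiv.ofBijective φ
      ⟨(RingHom.injective_iff_ker_eq_bot φ).2 h1, hφ⟩)
    rw [hdB, hd] at h2
    have h3 : d + 1 = d := by exact_mod_cast h2
    omega
  exact dimension_inequality_hypersurface (B := MvPowerSeries (Fin d) V) (A := R) (f := f)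
    { regular := fun x y hxy => mul_left_cancel₀ hne hxy
      surj := hφ
      ker := hker } d hdB hd hS M N hlen a b ha hb

/-- The dimension inequality over a complete ramified regular local ring with perfect residue
field. -/
theorem dimension_inequality_complete (p : ℕ) [Fact p.Prime] (R : Type u) [CommRing R]
    [IsRegularLocalRing R] [IsAdicComplete (maximalIdeal R) R] [CharP (ResidueField R) p]
    [PerfectRing (ResidueField R) p] (d : ℕ) (hd : ringKrullDim R = d)
    (hp2 : (p : R) ∈ maximalIdeal R ^ 2)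
    (M N : Type u) [AddCommGroup M] [Module R M] [Module.Finite R M]
    [AddCommGroup N] [Module R N] [Module.Finite R N]
    (hlen : Module.length R (M ⊗[R] N) ≠ ⊤) (a b : ℕ)
    (ha : (a : WithBot ℕ∞) ≤ Module.supportDim R M)
    (hb : (b : WithBot ℕ∞) ≤ Module.supportDim R N) : a + b ≤ d := by
  obtain ⟨c, φ, hφ, hker, -, -⟩ := exists_core_presentation p R d hd hp2
  obtain ⟨hreg, hmax, hdim⟩ := witt_dim_one (ResidueField R) p
  exact dimension_inequality_of_presentation hdim d hd φ hφ _ hker M N hlen a b ha hb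

/-- From the core statement to all modules over the complete ramified regular local rings with
perfect residue field. -/
theorem serreAll_complete_of_core (h₀ : CoreStmt₀.{u}) (h₁ : CoreStmt₁.{u}) (p : ℕ)
    [Fact p.Prime] (R : Type u) [CommRing R]
    [IsRegularLocalRing R] [IsAdicComplete (maximalIdeal R) R] [CharP (ResidueField R) p]
    [PerfectRing (ResidueField R) p] (d : ℕ) (hd : ringKrullDim R = d) (hp0 : (p : R) ≠ 0)
    (hp2 : (p : R) ∈ maximalIdeal R ^ 2) : SerreAll R d := by
  intro M N _ _ _ _ _ _ hlen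
  refine sp_dev₂ hd M N hlen fun P Q hP hQ _ _ hl => ?_
  have hcomm : ∀ P Q : Ideal R, Module.length R ((R ⧸ P) ⊗[R] (R ⧸ Q)) ≠ ⊤ →
      Module.length R ((R ⧸ Q) ⊗[R] (R ⧸ P)) ≠ ⊤ := fun P Q h => by
    rwa [(TensorProduct.comm R (R ⧸ Q) (R ⧸ P)).length_eq]
  -- from the core statement for a pair
  have key : ∀ (P Q : Ideal R) (_ : P.IsPrime) (_ : Q.IsPrime)
      (_ : Module.length R ((R ⧸ P) ⊗[R] (R ⧸ Q)) ≠ ⊤),
      (∀ a b : ℕ, ringKrullDim (R ⧸ P) = a → ringKrullDim (R ⧸ Q) = b →
        (a + b < d → 0 ≤ eulerTor R (d + 1) (R ⧸ P) (R ⧸ Q)) ∧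
        (a + b = d → 0 < eulerTor R (d + 1) (R ⧸ P) (R ⧸ Q))) →
      SP R d (R ⧸ P) (R ⧸ Q) := by
    intro P Q hP hQ hl h
    obtain ⟨a, ha⟩ := exists_nat_ringKrullDim_quot P
    obtain ⟨b, hb⟩ := exists_nat_ringKrullDim_quot Q
    obtain ⟨h1, h2⟩ := h a b ha hb
    have hle : a + b ≤ d := dimension_inequality_complete p R d hd hp2 (R ⧸ P) (R ⧸ Q) hl a b
      (by rw [supportDim_quotient_eq, ha]) (by rw [supportDim_quotient_eq, hb])
    refine ⟨?_, fun m n hm hn => ?_⟩
    · rcases hle.lt_or_eq with h3 | h3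
      · exact h1 h3
      · exact (h2 h3).le
    · rw [supportDim_quotient_eq, ha] at hm
      rw [supportDim_quotient_eq, hb] at hn
      have hm' : m ≤ a := by exact_mod_cast hm
      have hn' : n ≤ b := by exact_mod_cast hn
      exact ⟨by omega, fun h4 => h2 (by omega)⟩
  by_cases hpP : (p : R) ∈ P
  · by_cases hpQ : (p : R) ∈ Q
    · have hpm : (p : R) ∈ maximalIdeal R := Ideal.pow_le_self two_ne_zero hp2
      have hg := good_p_power R d hd p hp0 hpm (R ⧸ P) (R ⧸ Q) 1 1 (fun x => by
        rw [pow_one]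
        obtain ⟨y, rfl⟩ := Ideal.Quotient.mk_surjective x
        exact Ideal.Quotient.eq_zero_iff_mem.2 (Ideal.mul_mem_right _ _ hpP)) (fun x => by
        rw [pow_one]
        obtain ⟨y, rfl⟩ := Ideal.Quotient.mk_surjective x
        exact Ideal.Quotient.eq_zero_iff_mem.2 (Ideal.mul_mem_right _ _ hpQ)) hl
      refine key P Q hP hQ hl fun a b ha hb => ⟨fun _ => hg.1, fun hab => ?_⟩
      exact hg.2 a b (by rw [supportDim_quotient_eq, ha]) (by rw [supportDim_quotient_eq, hb])
        hab.ge
    · refine SP.symm (key Q P hQ hP (hcomm P Q hl) fun a b ha hb => ?_)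
      exact h₁ p R d hd hp0 hp2 Q P hQ hP ⟨hpQ, hpP⟩ (hcomm P Q hl) a b ha hb
  · by_cases hpQ : (p : R) ∈ Q
    · exact key P Q hP hQ hl fun a b ha hb =>
        h₁ p R d hd hp0 hp2 P Q hP hQ ⟨hpP, hpQ⟩ hl a b ha hb
    · exact key P Q hP hQ hl fun a b ha hb =>
        h₀ p R d hd hp0 hp2 P Q hP hQ ⟨hpP, hpQ⟩ hl a b ha hb

/-- From the core statement to all modules over the ramified regular local rings. -/
theorem serreAll_ramified_of_core (h₀ : CoreStmt₀.{u}) (h₁ : CoreStmt₁.{u}) (p : ℕ)
    [Fact p.Prime] (R : Type u) [CommRing R] [IsRegularLocalRing R] [CharP (ResidueField R) p]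
    (d : ℕ) (hd : ringKrullDim R = d) (hp0 : (p : R) ≠ 0)
    (hp2 : (p : R) ∈ maximalIdeal R ^ 2) : SerreAll R d := by
  obtain ⟨S, _, _, _, hflat, hm, hdS, hcomp, hch, hperf⟩ := exists_gonflement R p hd
  have hloc : IsLocalHom (algebraMap R S) := ((local_hom_TFAE (algebraMap R S)).out 0 2).2 hm.le
  have hff : Module.FaithfullyFlat R S := Module.FaithfullyFlat.of_flat_of_isLocalHom
  have hinj : Injective (algebraMap R S) := FaithfulSMul.algebraMap_injective R S
  refine SerreAll.descend hm (serreAll_complete_of_core h₀ h₁ p S d hdS ?_ ?_)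
  · rw [← map_natCast (algebraMap R S)]
    exact fun h => hp0 ((injective_iff_map_eq_zero _).1 hinj _ h)
  · rw [← map_natCast (algebraMap R S), ← hm, ← Ideal.map_pow]
    exact Ideal.mem_map_of_mem _ hp2

end Vale.Agent.P177
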