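import Vale.Agent.P177.TorComplete
import Vale.Agent.P177.PrincipalKernel
import Vale.Agent.P177.CoefficientField
import Vale.Agent.P177.CohenSurj

/-!
Positivity for modules killed by `p`.
-/

namespace Vale.Agent.P177

open CategoryTheory TensorProduct Function IsLocalRing RingTheory.Sequence Pointwise

universe u

theorem exists_completion (A : Type u) [CommRing A] [IsLocalRing A] [IsNoetherianRing A]
    (p : ℕ) [hpp : Fact p.Prime] (hp : (p : A) = 0) (e : ℕ) (x : Fin e → A)
    (hx : Ideal.span (Set.range x) = maximalIdeal A) :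
    ∃ (C : Type u) (_ : CommRing C) (_ : IsLocalRing C) (_ : Algebra A C) (_ : Module.Flat A C)
      (k : Type u) (_ : Field k) (φ : MvPowerSeries (Fin e) k →+* C),
      (maximalIdeal A).map (algebraMap A C) = maximalIdeal C ∧ Function.Surjective φ := by
  let C := AdicCompletion (maximalIdeal A) A
  have hloc : (maximalIdeal A).map (algebraMap A C) = maximalIdeal C :=
    (AdicCompletion.maximalIdeal_eq_map (R := A)).symm
  have hpC : (p : C) = 0 := by
    have := congrArg (algebraMap A C) hp
    rwa [map_natCast, map_zero] at this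
  have hchar : CharP C p := (CharP.charP_iff_prime_eq_zero hpp.out).2 hpC
  obtain ⟨σ, hσ⟩ := exists_coefficientField C p
  have hspan : Ideal.span (Set.range (algebraMap A C ∘ x)) = maximalIdeal C := by
    rw [Set.range_comp, ← Ideal.map_span, hx, hloc]
  obtain ⟨φ, hφ⟩ := exists_powerSeries_surjective C (ResidueField C) σ
    (fun y => ⟨y, hσ y⟩) e (algebraMap A C ∘ x) hspan
  exact ⟨C, inferInstance, inferInstance, inferInstance, inferInstance, ResidueField C,
    inferInstance, φ, hloc, hφ⟩

/-- Data over the power series ring attached to a pair of `A`-modules. -/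
theorem exists_powerSeries_modules (A : Type u) [CommRing A] [IsLocalRing A] [IsNoetherianRing A]
    (C : Type u) [CommRing C] [IsLocalRing C] [Algebra A C] [Module.Flat A C]
    (hloc : (maximalIdeal A).map (algebraMap A C) = maximalIdeal C)
    (k : Type u) [Field k] (e : ℕ) [Algebra (MvPowerSeries (Fin e) k) C]
    (hφ : Surjective (algebraMap (MvPowerSeries (Fin e) k) C))
    (M N : Type u) [AddCommGroup M] [Module A M] [Module.Finite A M]
    [AddCommGroup N] [Module A N] [Module.Finite A N]
    (hlen : Module.length A (M ⊗[A] N) ≠ ⊤) :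
    ∃ (X Y : Type u) (_ : AddCommGroup X) (_ : Module C X) (_ : Module (MvPowerSeries (Fin e) k) X)
      (_ : IsScalarTower (MvPowerSeries (Fin e) k) C X)
      (_ : AddCommGroup Y) (_ : Module C Y) (_ : Module (MvPowerSeries (Fin e) k) Y)
      (_ : IsScalarTower (MvPowerSeries (Fin e) k) C Y),
      (∀ n, Module.length A (TorM A n M N) = Module.length C (TorM C n X Y)) ∧
      (0 ≤ eulerTor (MvPowerSeries (Fin e) k) (e + 1) X Y) ∧
      (Module.Finite (MvPowerSeries (Fin e) k) X) ∧ (Module.Finite (MvPowerSeries (Fin e) k) Y) ∧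
      (∀ a b : ℕ, (a : WithBot ℕ∞) ≤ Module.supportDim A M →
        (b : WithBot ℕ∞) ≤ Module.supportDim A N →
        (a + b ≤ e) ∧ (e ≤ a + b → 0 < eulerTor (MvPowerSeries (Fin e) k) (e + 1) X Y)) := by
  let S := MvPowerSeries (Fin e) k
  obtain ⟨X, _, _, _, _, φ, hφX⟩ := exists_baseChange (R := A) C M
  obtain ⟨Y, _, _, _, _, ψ, hψY⟩ := exists_baseChange (R := A) C N
  let mX : Module (MvPowerSeries (Fin e) k) X := Module.compHom X (algebraMap (MvPowerSeries (Fin e) k) C)
  let mY : Module (MvPowerSeries (Fin e) k) Y := Module.compHom Y (algebraMap (MvPowerSeries (Fin e) k) C)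
  have sX : IsScalarTower (MvPowerSeries (Fin e) k) C X := ⟨fun s b t => by
    rw [Algebra.smul_def, mul_smul]
    rfl⟩
  have sY : IsScalarTower (MvPowerSeries (Fin e) k) C Y := ⟨fun s b t => by
    rw [Algebra.smul_def, mul_smul]
    rfl⟩
  have fX : Module.Finite C X := Module.Finite.of_surjective hφX.equiv.toLinearMap hφX.equiv.surjective
  have fY : Module.Finite C Y := Module.Finite.of_surjective hψY.equiv.toLinearMap hψY.equiv.surjective
  have fC : Module.Finite (MvPowerSeries (Fin e) k) C :=
    Module.Finite.of_surjective (Algebra.linearMap _ C) hφ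
  have fX' : Module.Finite (MvPowerSeries (Fin e) k) X := Module.Finite.trans C X
  have fY' : Module.Finite (MvPowerSeries (Fin e) k) Y := Module.Finite.trans C Y
  have ht : ∀ n, Module.length A (TorM A n M N) = Module.length C (TorM C n X Y) := fun n =>
    length_tor_bc₂ hloc n hφX hψY
  have hlenS : Module.length (MvPowerSeries (Fin e) k) (X ⊗[MvPowerSeries (Fin e) k] Y) ≠ ⊤ := by
    rw [length_tensor_baseChange hφ (isBaseChange_id_of_surjective hφ X) Y,
      ← (torZero X Y).length_eq, ← ht 0, (torZero M N).length_eq]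
    exact hlen
  obtain ⟨h1, h2⟩ := serre_mvPowerSeries k e X Y hlenS (e + 1) (by omega)
  have hdim : ∀ (M : Type u) [AddCommGroup M] [Module A M] [Module.Finite A M]
      (X : Type u) [AddCommGroup X] [Module A X] [Module C X] [IsScalarTower A C X]
      [Module (MvPowerSeries (Fin e) k) X] [IsScalarTower (MvPowerSeries (Fin e) k) C X]
      [Module.Finite (MvPowerSeries (Fin e) k) X]
      (φ : M →ₗ[A] X), IsBaseChange C φ →
      Module.supportDim A M ≤ Module.supportDim (MvPowerSeries (Fin e) k) X := by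
    intro M _ _ _ X _ _ _ _ _ _ _ φ hφX
    rw [supportDim_eq_of_surjective hφ X, ← Module.supportDim_eq_of_equiv hφX.equiv]
    have h5 := isLocalHom_of_map_maximalIdeal A C hloc
    have h6 : Module.FaithfullyFlat A C := Module.FaithfullyFlat.of_flat_of_isLocalHom
    exact supportDim_le_baseChange_of_faithfullyFlat M
  refine ⟨X, Y, inferInstance, inferInstance, mX, sX, inferInstance, inferInstance, mY, sY, ht, h1,
    fX', fY', ?_⟩
  intro a b ha hb
  exact h2 a b (ha.trans (hdim M X φ hφX)) (hb.trans (hdim N Y ψ hψY))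

/-- The conclusion of Serre's conjectures for a pair. -/
def Good (R : Type u) [CommRing R] (d : ℕ) (M N : Type u) [AddCommGroup M] [Module R M]
    [AddCommGroup N] [Module R N] : Prop :=
  0 ≤ eulerTor R (d + 1) M N ∧ ∀ a b : ℕ, (a : WithBot ℕ∞) ≤ Module.supportDim R M →
      (b : WithBot ℕ∞) ≤ Module.supportDim R N → d ≤ a + b → 0 < eulerTor R (d + 1) M N

section base

variable (R : Type u) [CommRing R] [IsRegularLocalRing R] (d : ℕ) (hd : ringKrullDim R = d)
  (p : ℕ) [Fact p.Prime] (hp0 : (p : R) ≠ 0) (hpm : (p : R) ∈ maximalIdeal R)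

include hd hp0 in
/-- Ramified case, modules over `A = R/p`. -/
theorem good_ramified (hp2 : (p : R) ∈ maximalIdeal R ^ 2)
    (M N : Type u) [AddCommGroup M] [Module R M] [Module.Finite R M]
    [Module (R ⧸ Ideal.span {(p : R)}) M] [IsScalarTower R (R ⧸ Ideal.span {(p : R)}) M]
    [AddCommGroup N] [Module R N] [Module.Finite R N]
    [Module (R ⧸ Ideal.span {(p : R)}) N] [IsScalarTower R (R ⧸ Ideal.span {(p : R)}) N]
    (hlen : Module.length R (M ⊗[R] N) ≠ ⊤) : Good R d M N := by
  have hdom : IsDomain R := regular_isDomain R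
  have hpm : (p : R) ∈ maximalIdeal R := Ideal.pow_le_self two_ne_zero hp2
  have hne : Ideal.span {(p : R)} ≠ ⊤ := by
    rw [Ne, Ideal.span_singleton_eq_top]
    exact hpm
  have hnt : Nontrivial (R ⧸ Ideal.span {(p : R)}) := Ideal.Quotient.nontrivial_iff.2 hne
  have hlA : IsLocalRing (R ⧸ Ideal.span {(p : R)}) :=
    IsLocalRing.of_surjective' (Ideal.Quotient.mk _) Ideal.Quotient.mk_surjective
  have hmA : (maximalIdeal R).map (Ideal.Quotient.mk (Ideal.span {(p : R)})) =
      maximalIdeal (R ⧸ Ideal.span {(p : R)}) :=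
    map_maximalIdeal_of_surjective _ Ideal.Quotient.mk_surjective
  have hsurj : Surjective (algebraMap R (R ⧸ Ideal.span {(p : R)})) :=
    Ideal.Quotient.mk_surjective
  have fM : Module.Finite (R ⧸ Ideal.span {(p : R)}) M :=
    Module.Finite.of_restrictScalars_finite R _ M
  have fN : Module.Finite (R ⧸ Ideal.span {(p : R)}) N :=
    Module.Finite.of_restrictScalars_finite R _ N
  have H : IsHypersurface R (R ⧸ Ideal.span {(p : R)}) (p : R) :=
    { regular := fun x y hxy => mul_left_cancel₀ hp0 hxy
      surj := hsurj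
      ker := Ideal.mk_ker }
  -- generators
  obtain ⟨rs, hrs, hlenrs⟩ := exists_list_maximalIdeal R
  have hrsd : rs.length = d := by
    rw [hd] at hlenrs
    exact_mod_cast hlenrs
  subst hrsd
  have hx : Ideal.span (Set.range (fun i : Fin rs.length =>
      Ideal.Quotient.mk (Ideal.span {(p : R)}) (rs.get i))) =
      maximalIdeal (R ⧸ Ideal.span {(p : R)}) := by
    rw [← hmA, ← hrs, Ideal.ofList, Ideal.map_span]
    congr 1
    ext z
    constructor
    · rintro ⟨i, rfl⟩
      exact ⟨rs.get i, List.get_mem rs i, rfl⟩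
    · rintro ⟨y, hy, rfl⟩
      obtain ⟨i, rfl⟩ := List.get_of_mem hy
      exact ⟨i, rfl⟩
  have hpA : (p : (R ⧸ Ideal.span {(p : R)})) = 0 := by
    rw [← map_natCast (Ideal.Quotient.mk (Ideal.span {(p : R)})) p]
    exact Ideal.Quotient.eq_zero_iff_mem.2 (Ideal.mem_span_singleton_self _)
  obtain ⟨C, _, _, _, _, k, _, φ, hloc, hφ⟩ := exists_completion (R ⧸ Ideal.span {(p : R)}) p hpA
    rs.length _ hx
  have hSreg : IsRegularLocalRing (MvPowerSeries (Fin rs.length) k) :=
    mvPowerSeries_isRegularLocalRing _ _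
  have hSdim : ringKrullDim (MvPowerSeries (Fin rs.length) k) = rs.length := by
    rw [mvPowerSeries_ringKrullDim]
    simp
  have hSdom : IsDomain (MvPowerSeries (Fin rs.length) k) := regular_isDomain _
  obtain ⟨g, hg0, hg⟩ := ker_isPrincipal (R := R) (S := MvPowerSeries (Fin rs.length) k)
    (by rw [hd, hSdim]) (p : R) hp2 hp0 (by rw [hmA]; exact hloc) φ hφ
  let _ : Algebra (MvPowerSeries (Fin rs.length) k) C := φ.toAlgebra
  have H' : IsHypersurface (MvPowerSeries (Fin rs.length) k) C g :=
    { regular := fun x y hxy => mul_left_cancel₀ hg0 hxy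
      surj := hφ
      ker := hg }
  have hlenA : Module.length (R ⧸ Ideal.span {(p : R)})
      (M ⊗[R ⧸ Ideal.span {(p : R)}] N) ≠ ⊤ := by
    rw [← length_tensor_baseChange hsurj (isBaseChange_id_of_surjective hsurj M) N]
    exact hlen
  obtain ⟨X, Y, _, _, _, _, _, _, _, _, ht, h1, fX, fY, h2⟩ :=
    exists_powerSeries_modules (R ⧸ Ideal.span {(p : R)}) C hloc k rs.length hφ M N hlenA
  have hfinA : ∀ n, Module.length (R ⧸ Ideal.span {(p : R)})
      (TorM (R ⧸ Ideal.span {(p : R)}) n M N) ≠ ⊤ := fun n =>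
    tor_length_ne_top n M N hlenA
  have hfinC : ∀ n, Module.length C (TorM C n X Y) ≠ ⊤ := fun n => by
    rw [← ht]
    exact hfinA n
  have hRv : Module.length R (TorM R (rs.length + 1) M N) = 0 := by
    have := regular_tor_vanish R rs.length hd M N (rs.length + 1) le_rfl
    exact Module.length_eq_zero
  have hSv : Module.length (MvPowerSeries (Fin rs.length) k)
      (TorM (MvPowerSeries (Fin rs.length) k) (rs.length + 1) X Y) = 0 := by
    have := regular_tor_vanish (MvPowerSeries (Fin rs.length) k) rs.length hSdim X Y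
      (rs.length + 1) le_rfl
    exact Module.length_eq_zero
  have heq : eulerTor R (rs.length + 1) M N =
      eulerTor (MvPowerSeries (Fin rs.length) k) (rs.length + 1) X Y := by
    rw [H.eulerTor_eq M N hfinA rs.length hRv, H'.eulerTor_eq X Y hfinC rs.length hSv, ht, ht]
  unfold Good
  rw [heq]
  refine ⟨h1, ?_⟩
  intro a b ha hb hab
  rw [supportDim_eq_of_surjective hsurj M] at ha
  rw [supportDim_eq_of_surjective hsurj N] at hb
  exact (h2 a b ha hb).2 hab

include hd hp0 hpm in
/-- Unramified case, modules over `A = R/p`. -/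
theorem good_unramified (hp2 : (p : R) ∉ maximalIdeal R ^ 2)
    (M N : Type u) [AddCommGroup M] [Module R M] [Module.Finite R M]
    [Module (R ⧸ Ideal.span {(p : R)}) M] [IsScalarTower R (R ⧸ Ideal.span {(p : R)}) M]
    [AddCommGroup N] [Module R N] [Module.Finite R N]
    [Module (R ⧸ Ideal.span {(p : R)}) N] [IsScalarTower R (R ⧸ Ideal.span {(p : R)}) N]
    (hlen : Module.length R (M ⊗[R] N) ≠ ⊤) : Good R d M N := by
  have hdom : IsDomain R := regular_isDomain R
  obtain ⟨hAreg, hAdim⟩ := regular_quotient R (p : R) hpm hp2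
  obtain ⟨e, he⟩ := exists_nat_eq_ringKrullDim (R ⧸ Ideal.span {(p : R)})
  have hed : e + 1 = d := by
    rw [he, hd] at hAdim
    exact_mod_cast hAdim
  subst hed
  have hsurj : Surjective (algebraMap R (R ⧸ Ideal.span {(p : R)})) :=
    Ideal.Quotient.mk_surjective
  have fM : Module.Finite (R ⧸ Ideal.span {(p : R)}) M :=
    Module.Finite.of_restrictScalars_finite R _ M
  have fN : Module.Finite (R ⧸ Ideal.span {(p : R)}) N :=
    Module.Finite.of_restrictScalars_finite R _ N
  have H : IsHypersurface R (R ⧸ Ideal.span {(p : R)}) (p : R) :=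
    { regular := fun x y hxy => mul_left_cancel₀ hp0 hxy
      surj := hsurj
      ker := Ideal.mk_ker }
  obtain ⟨rs, hrs, hlenrs⟩ := exists_list_maximalIdeal (R ⧸ Ideal.span {(p : R)})
  have hrsd : rs.length = e := by
    rw [he] at hlenrs
    exact_mod_cast hlenrs
  subst hrsd
  have hx : Ideal.span (Set.range (fun i : Fin rs.length => rs.get i)) =
      maximalIdeal (R ⧸ Ideal.span {(p : R)}) := by
    rw [← hrs, Ideal.ofList]
    congr 1
    ext z
    constructor
    · rintro ⟨i, rfl⟩
      exact List.get_mem rs i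
    · intro hz
      obtain ⟨i, rfl⟩ := List.get_of_mem hz
      exact ⟨i, rfl⟩
  have hpA : (p : (R ⧸ Ideal.span {(p : R)})) = 0 := by
    rw [← map_natCast (Ideal.Quotient.mk (Ideal.span {(p : R)})) p]
    exact Ideal.Quotient.eq_zero_iff_mem.2 (Ideal.mem_span_singleton_self _)
  obtain ⟨C, _, _, _, _, k, _, φ, hloc, hφ⟩ := exists_completion (R ⧸ Ideal.span {(p : R)}) p hpA
    rs.length _ hx
  let _ : Algebra (MvPowerSeries (Fin rs.length) k) C := φ.toAlgebra
  have hlenA : Module.length (R ⧸ Ideal.span {(p : R)})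
      (M ⊗[R ⧸ Ideal.span {(p : R)}] N) ≠ ⊤ := by
    rw [← length_tensor_baseChange hsurj (isBaseChange_id_of_surjective hsurj M) N]
    exact hlen
  obtain ⟨X, Y, _, _, _, _, _, _, _, _, -, -, -, -, h2⟩ :=
    exists_powerSeries_modules (R ⧸ Ideal.span {(p : R)}) C hloc k rs.length hφ M N hlenA
  have hfinA : ∀ n, Module.length (R ⧸ Ideal.span {(p : R)})
      (TorM (R ⧸ Ideal.span {(p : R)}) n M N) ≠ ⊤ := fun n =>
    tor_length_ne_top n M N hlenA
  have hAv : ∀ n, rs.length + 1 ≤ n → Module.length (R ⧸ Ideal.span {(p : R)})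
      (TorM (R ⧸ Ideal.span {(p : R)}) n M N) = 0 := by
    intro n hn
    have := regular_tor_vanish (R ⧸ Ideal.span {(p : R)}) rs.length he M N n hn
    exact Module.length_eq_zero
  have hRv : Module.length R (TorM R (rs.length + 1 + 1) M N) = 0 := by
    have := regular_tor_vanish R (rs.length + 1) hd M N (rs.length + 1 + 1) le_rfl
    exact Module.length_eq_zero
  constructor
  · rw [H.eulerTor_eq M N hfinA (rs.length + 1) hRv, hAv _ le_rfl, hAv _ (by omega)]
    simp
  · intro a b ha hb hab
    exfalso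
    rw [supportDim_eq_of_surjective hsurj M] at ha
    rw [supportDim_eq_of_surjective hsurj N] at hb
    have := (h2 a b ha hb).1
    omega

include hd hp0 hpm in
/-- Modules killed by `p`. -/
theorem good_killed_by_p
    (M N : Type u) [AddCommGroup M] [Module R M] [Module.Finite R M]
    [AddCommGroup N] [Module R N] [Module.Finite R N]
    (hM : ∀ m : M, (p : R) • m = 0) (hN : ∀ m : N, (p : R) • m = 0)
    (hlen : Module.length R (M ⊗[R] N) ≠ ⊤) : Good R d M N := by
  have tM : Module.IsTorsionBySet R M (Ideal.span {(p : R)} : Set R) := by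
    intro x a
    obtain ⟨c, hc⟩ := Ideal.mem_span_singleton'.1 a.2
    rw [← hc, mul_smul, hM, smul_zero]
  have tN : Module.IsTorsionBySet R N (Ideal.span {(p : R)} : Set R) := by
    intro x a
    obtain ⟨c, hc⟩ := Ideal.mem_span_singleton'.1 a.2
    rw [← hc, mul_smul, hN, smul_zero]
  let _ : Module (R ⧸ Ideal.span {(p : R)}) M := tM.module
  let _ : Module (R ⧸ Ideal.span {(p : R)}) N := tN.module
  have _ : IsScalarTower R (R ⧸ Ideal.span {(p : R)}) M := tM.isScalarTower
  have _ : IsScalarTower R (R ⧸ Ideal.span {(p : R)}) N := tN.isScalarTower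
  by_cases hp2 : (p : R) ∈ maximalIdeal R ^ 2
  · exact good_ramified R d hd p hp0 hp2 M N hlen
  · exact good_unramified R d hd p hp0 hpm hp2 M N hlen

end base

end Vale.Agent.P177
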