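import Vale.Agent.P177.OEndE
import Vale.Agent.P177.NatOfSum

/-!
The final form of Serre's positivity conjecture.
-/

namespace Vale.Agent.P177

open CategoryTheory TensorProduct Function IsLocalRing

universe u

/-- The final form of Serre's positivity conjecture. -/
theorem serre_final (hflag : FlagStmt.{u}) (R : Type u) [CommRing R] [IsRegularLocalRing R] (d : ℕ)
    (hd : ringKrullDim R = d) (M N : Type u) [AddCommGroup M] [Module R M] [Module.Finite R M]
    [AddCommGroup N] [Module R N] [Module.Finite R N]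
    (hlen : Module.length R (M ⊗[R] N) ≠ ⊤) :
    (∀ i : ℕ, Module.length R
      (((Tor (ModuleCat.{u} R) i).obj (ModuleCat.of R M)).obj (ModuleCat.of R N)) ≠ ⊤) ∧
    (∀ i : ℕ, d < i → Subsingleton
      (((Tor (ModuleCat.{u} R) i).obj (ModuleCat.of R M)).obj (ModuleCat.of R N))) ∧
    0 ≤ ∑ i ∈ Finset.range (d + 1), (-1 : ℤ) ^ i * ((Module.length R
      (((Tor (ModuleCat.{u} R) i).obj (ModuleCat.of R M)).obj (ModuleCat.of R N))).toNat : ℤ) ∧
    (Module.supportDim R M + Module.supportDim R N = d →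
      0 < ∑ i ∈ Finset.range (d + 1), (-1 : ℤ) ^ i * ((Module.length R
        (((Tor (ModuleCat.{u} R) i).obj (ModuleCat.of R M)).obj (ModuleCat.of R N))).toNat : ℤ)) := by
  have h := serreAll_of_flag hflag R d hd M N hlen
  refine ⟨fun i => tor_length_ne_top i M N hlen,
    fun i hi => regular_tor_vanish R d hd M N i hi, h.1, ?_⟩
  intro hdim
  obtain ⟨m, n, hm, hn, hmn⟩ := exists_nat_of_sum_eq _ _ d hdim
  exact (h.2 m n hm.ge hn.ge).2 hmn.ge

end Vale.Agent.P177
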