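import Vale.Agent.P177.DimLemma

/-!
Serre's positivity through the reduction to the diagonal, abstract form.
-/

namespace Vale.Agent.P177

open CategoryTheory TensorProduct Function IsLocalRing RingTheory.Sequence Pointwise

universe u

/-- Annihilator of a quotient. -/
theorem annihilator_quotient_le_radical {B : Type u} [CommRing B] (Z : Type u) [AddCommGroup Z]
    [Module B Z] [Module.Finite B Z] (I : Ideal B) :
    Module.annihilator B (Z ⧸ (I • ⊤ : Submodule B Z)) ≤ (Module.annihilator B Z ⊔ I).radical := by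
  have h := Module.support_quotient (R := B) (M := Z) I
  rw [Module.support_eq_zeroLocus, Module.support_eq_zeroLocus,
    ← PrimeSpectrum.zeroLocus_sup] at h
  have h2 := (PrimeSpectrum.zeroLocus_subset_zeroLocus_iff _ _).1 h.ge
  exact h2

theorem nontrivial_tor_zero {B : Type u} [CommRing B] [IsLocalRing B] (X Y : Type u)
    [AddCommGroup X] [Module B X] [Module.Finite B X] [Nontrivial X]
    [AddCommGroup Y] [Module B Y] [Module.Finite B Y] [Nontrivial Y] :
    Nontrivial (TorM B 0 X Y) := by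
  have h1 := IsLocalRing.closedPoint_mem_support B X
  have h2 := IsLocalRing.closedPoint_mem_support B Y
  have h3 := mem_support_tensorProduct _ h1 h2
  have h4 : Nontrivial (X ⊗[B] Y) := Module.nonempty_support_iff.1 ⟨_, h3⟩
  exact (torZero X Y).toEquiv.nontrivial

section residue

variable {S B : Type u} [CommRing S] [CommRing B] [Algebra S B] [IsLocalRing S] [IsLocalRing B]
  [IsLocalHom (algebraMap S B)]

theorem nontrivial_baseChange_residue : Nontrivial (B ⊗[S] (S ⧸ maximalIdeal S)) := by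
  have hle : (maximalIdeal S).map (algebraMap S B) ≤ maximalIdeal B :=
    ((IsLocalRing.local_hom_TFAE (algebraMap S B)).out 0 2).mp ‹_›
  have hne : (maximalIdeal S).map (algebraMap S B) ≠ ⊤ := fun h =>
    (maximalIdeal.isMaximal B).ne_top (top_le_iff.1 (h ▸ hle))
  have : Nontrivial (B ⧸ (maximalIdeal S).map (algebraMap S B)) :=
    Ideal.Quotient.nontrivial_iff.2 hne
  exact (Algebra.TensorProduct.quotIdealMapEquivTensorQuot B (maximalIdeal S)).symm.toEquiv.nontrivial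

end residue

section independence

variable {S₁ S₂ B : Type u} [CommRing S₁] [CommRing S₂] [CommRing B] [Algebra S₁ B]
  [Algebra S₂ B]
  [IsLocalRing S₁] [IsNoetherianRing S₁] [IsLocalRing S₂] [IsNoetherianRing S₂]
  [IsLocalRing B] [IsNoetherianRing B]
  [Module.Flat S₁ B] [Module.Flat S₂ B] [IsLocalHom (algebraMap S₁ B)]
  [IsLocalHom (algebraMap S₂ B)]

omit [IsLocalRing S₁] [IsNoetherianRing S₁] [IsLocalHom (algebraMap S₁ B)] in
/-- Tor-independence of modules coming from the two factors. -/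
theorem tor_independent
    (K : Type u) [AddCommGroup K] [Module B K] [Module S₁ K] [IsScalarTower S₁ B K]
    [Module.Flat S₁ K] (e : (B ⊗[S₂] (S₂ ⧸ maximalIdeal S₂)) ≃ₗ[B] K)
    (N : Type u) [AddCommGroup N] [Module S₁ N] [Module.Finite S₁ N]
    (M : Type u) [AddCommGroup M] [Module S₂ M] [Module.Finite S₂ M] (j : ℕ) (hj : 1 ≤ j) :
    Subsingleton (TorM B j (B ⊗[S₂] M) (B ⊗[S₁] N)) := by
  refine local_crit (S := S₂) (B := B) 1 (B ⊗[S₁] N) ?_ M j hj
  intro j hj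
  obtain ⟨i, rfl⟩ : ∃ k, j = k + 1 := ⟨j - 1, by omega⟩
  have h1 : Subsingleton (TorM B (i + 1) (B ⊗[S₁] N) K) :=
    tor_subsingleton_bc i (TensorProduct.isBaseChange S₁ N B) K
  obtain ⟨e2⟩ := tor_symm (R := B) (i + 1) K (B ⊗[S₁] N)
  have h2 : Subsingleton (TorM B (i + 1) K (B ⊗[S₁] N)) := e2.toEquiv.subsingleton
  exact (torCongrLeft (i + 1) e (B ⊗[S₁] N)).toEquiv.subsingleton

/-- Dimension of the external tensor product. -/
theorem le_supportDim_external
    (hv : ∀ (N : Type u) [AddCommGroup N] [Module S₁ N] [Module.Finite S₁ N]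
      (M : Type u) [AddCommGroup M] [Module S₂ M] [Module.Finite S₂ M],
      Subsingleton (TorM B 1 (B ⊗[S₂] M) (B ⊗[S₁] N)))
    (N : Type u) [AddCommGroup N] [Module S₁ N] [Module.Finite S₁ N]
    (M : Type u) [AddCommGroup M] [Module S₂ M] [Module.Finite S₂ M] (a b : ℕ)
    (ha : (a : WithBot ℕ∞) ≤ Module.supportDim S₂ M)
    (hb : (b : WithBot ℕ∞) ≤ Module.supportDim S₁ N) :
    ((a + b : ℕ) : WithBot ℕ∞) ≤ Module.supportDim B (TorM B 0 (B ⊗[S₂] M) (B ⊗[S₁] N)) := by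
  refine le_supportDim_tor (S := S₂) (B := B) (B ⊗[S₁] N) (fun M _ _ _ => hv N M) b ?_ a M ha
  have h1 : ((b + 0 : ℕ) : WithBot ℕ∞) ≤ Module.supportDim B
      (TorM B 0 (B ⊗[S₁] N) (B ⊗[S₂] (S₂ ⧸ maximalIdeal S₂))) := by
    refine le_supportDim_tor (S := S₁) (B := B) (B ⊗[S₂] (S₂ ⧸ maximalIdeal S₂))
      (fun N _ _ _ => ?_) 0 ?_ b N hb
    · have := hv N (S₂ ⧸ maximalIdeal S₂)
      obtain ⟨e⟩ := tor_symm (R := B) 1 (B ⊗[S₁] N) (B ⊗[S₂] (S₂ ⧸ maximalIdeal S₂))
      exact e.toEquiv.subsingleton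
    · have n1 : Nontrivial (B ⊗[S₁] (S₁ ⧸ maximalIdeal S₁)) := nontrivial_baseChange_residue
      have n2 : Nontrivial (B ⊗[S₂] (S₂ ⧸ maximalIdeal S₂)) := nontrivial_baseChange_residue
      have n3 := nontrivial_tor_zero (B := B) (B ⊗[S₁] (S₁ ⧸ maximalIdeal S₁))
        (B ⊗[S₂] (S₂ ⧸ maximalIdeal S₂))
      have n4 := (Module.supportDim_ne_bot_iff_nontrivial B (TorM B 0
        (B ⊗[S₁] (S₁ ⧸ maximalIdeal S₁)) (B ⊗[S₂] (S₂ ⧸ maximalIdeal S₂)))).2 n3
      generalize Module.supportDim B (TorM B 0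
        (B ⊗[S₁] (S₁ ⧸ maximalIdeal S₁)) (B ⊗[S₂] (S₂ ⧸ maximalIdeal S₂))) = c at n4 ⊢
      induction c using WithBot.recBotCoe with
      | bot => exact absurd rfl n4
      | coe a => exact_mod_cast bot_le
  rw [add_zero] at h1
  obtain ⟨e⟩ := tor_symm (R := B) 0 (B ⊗[S₁] N) (B ⊗[S₂] (S₂ ⧸ maximalIdeal S₂))
  rwa [Module.supportDim_eq_of_equiv e] at h1

end independence

section main

variable {S₁ S₂ B : Type u} [CommRing S₁] [CommRing S₂] [CommRing B] [Algebra S₁ B]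
  [Algebra S₂ B]

/-- `(B ⊗ N)/δ(B ⊗ N) = N` if `B = S₁ + (δ)`. -/
theorem exists_quot_equiv (N : Type u) [AddCommGroup N] [Module B N] [Module S₁ N]
    [IsScalarTower S₁ B N] (I : Ideal B)
    (hres : ∀ b : B, ∃ s : S₁, b - algebraMap S₁ B s ∈ I)
    (hkill : ∀ z ∈ I, ∀ t : N, z • t = 0) :
    Nonempty (((B ⊗[S₁] N) ⧸ (I • ⊤ : Submodule B (B ⊗[S₁] N))) ≃ₗ[B] N) := by
  let π : B ⊗[S₁] N →ₗ[B] N := LinearMap.liftBaseChange B (LinearMap.id : N →ₗ[S₁] N)
  have hπ : ∀ b t, π (b ⊗ₜ t) = b • t := fun b t => by simp [π]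
  have hs : Surjective π := fun t => ⟨1 ⊗ₜ t, by rw [hπ, one_smul]⟩
  have hker : LinearMap.ker π = (I • ⊤ : Submodule B (B ⊗[S₁] N)) := by
    apply le_antisymm
    · have key : ∀ x : B ⊗[S₁] N, ∃ t : N, x - (1 : B) ⊗ₜ[S₁] t ∈
          (I • ⊤ : Submodule B (B ⊗[S₁] N)) := by
        intro x
        induction x using TensorProduct.induction_on with
        | zero => exact ⟨0, by simp⟩
        | tmul b t =>
          obtain ⟨s, hs⟩ := hres b
          refine ⟨s • t, ?_⟩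
          have h1 : b ⊗ₜ[S₁] t - (1 : B) ⊗ₜ[S₁] (s • t) =
              (b - algebraMap S₁ B s) • ((1 : B) ⊗ₜ[S₁] t) := by
            rw [← TensorProduct.smul_tmul, TensorProduct.smul_tmul', smul_eq_mul, mul_one,
              TensorProduct.sub_tmul, Algebra.smul_def, mul_one]
          rw [h1]
          exact Submodule.smul_mem_smul hs trivial
        | add x y hx hy =>
          obtain ⟨t, ht⟩ := hx
          obtain ⟨u, hu⟩ := hy
          refine ⟨t + u, ?_⟩
          rw [TensorProduct.tmul_add]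
          have := add_mem ht hu
          convert this using 1
          abel
      intro x hx
      obtain ⟨t, ht⟩ := key x
      have h2 : π (x - (1 : B) ⊗ₜ[S₁] t) = 0 := by
        have : ∀ y ∈ (I • ⊤ : Submodule B (B ⊗[S₁] N)), π y = 0 := by
          intro y hy
          induction hy using Submodule.smul_induction_on' with
          | smul a ha b hb => rw [map_smul, hkill a ha]
          | add a ha b hb h1 h2 => rw [map_add, h1, h2, add_zero]
        exact this _ ht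
      rw [map_sub, hπ, one_smul, (LinearMap.mem_ker).1 hx, zero_sub, neg_eq_zero] at h2
      rwa [h2, TensorProduct.tmul_zero, sub_zero] at ht
    · rw [Submodule.smul_le]
      intro a ha b _
      rw [LinearMap.mem_ker, map_smul, hkill a ha]
  exact ⟨Submodule.quotEquivOfEq _ _ hker.symm ≪≫ₗ π.quotKerEquivOfSurjective hs⟩

variable [IsLocalRing S₁] [IsNoetherianRing S₁] [IsLocalRing S₂] [IsNoetherianRing S₂]
  [IsLocalRing B] [IsNoetherianRing B]
  [Module.Flat S₁ B] [Module.Flat S₂ B]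

omit [IsLocalRing S₁] [IsNoetherianRing S₁] in
/-- Reduction to the diagonal for the Euler characteristic. -/
theorem eulerTor_eq_eul (δ : List B) (hδm : ∀ z ∈ δ, z ∈ maximalIdeal B)
    (hδreg : IsWeaklyRegular B δ)
    (hres : ∀ b : B, ∃ s : S₁, b - algebraMap S₁ B s ∈ Ideal.ofList δ)
    (D : Type u) [AddCommGroup D] [Module B D] [Module S₁ D] [IsScalarTower S₁ B D]
    [Module.Flat S₁ D] (eD : (B ⧸ (Ideal.ofList δ • ⊤ : Submodule B B)) ≃ₗ[B] D)
    (N : Type u) [AddCommGroup N] [Module B N] [Module S₁ N] [Module S₂ N]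
    [IsScalarTower S₁ B N] [IsScalarTower S₂ B N] [Module.Finite S₁ N]
    (hkill : ∀ z ∈ Ideal.ofList δ, ∀ t : N, z • t = 0)
    (hN2 : ∀ b : B, ∃ s : S₂, ∀ t : N, b • t = s • t)
    (M : Type u) [AddCommGroup M] [Module S₂ M] [Module.Finite S₂ M]
    (hv : ∀ j, 1 ≤ j → Subsingleton (TorM B j (B ⊗[S₂] M) (B ⊗[S₁] N)))
    (hlen : Module.length S₂ (M ⊗[S₂] N) ≠ ⊤) (n : ℕ) (hn : 1 + δ.length ≤ n) :
    eulerTor S₂ n M N = eul δ (TorM B 0 (B ⊗[S₁] N) (B ⊗[S₂] M)) ∧
      FL2 δ (B ⊗[S₁] N) (B ⊗[S₂] M) := by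
  have hNfin : Module.Finite B N := Module.Finite.of_restrictScalars_finite S₁ B N
  obtain ⟨eq⟩ := exists_quot_equiv (S₁ := S₁) N (Ideal.ofList δ) hres hkill
  -- regularity of `δ` on `B ⊗ N`
  have h1 : ∀ j, 1 ≤ j → Subsingleton (TorM B j (B ⧸ (Ideal.ofList δ • ⊤ : Submodule B B))
      (B ⊗[S₁] N)) := by
    intro j hj
    obtain ⟨i, rfl⟩ : ∃ k, j = k + 1 := ⟨j - 1, by omega⟩
    have h1 : Subsingleton (TorM B (i + 1) (B ⊗[S₁] N) D) :=
      tor_subsingleton_bc i (TensorProduct.isBaseChange S₁ N B) D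
    obtain ⟨e2⟩ := tor_symm (R := B) (i + 1) D (B ⊗[S₁] N)
    have h2 : Subsingleton (TorM B (i + 1) D (B ⊗[S₁] N)) := e2.toEquiv.subsingleton
    exact (torCongrLeft (i + 1) eD (B ⊗[S₁] N)).toEquiv.subsingleton
  have h2 := (regular_of_tor_vanish δ hδm B hδreg (B ⊗[S₁] N) h1).2
  have h3 : IsWeaklyRegular (B ⊗[S₁] N) δ := by
    have e : TorM B 0 B (B ⊗[S₁] N) ≃ₗ[B] (B ⊗[S₁] N) :=
      (torZero B (B ⊗[S₁] N)) ≪≫ₗ TensorProduct.lid B _
    exact (e.isWeaklyRegular_congr δ).1 h2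
  -- vanishing
  have hv' : ∀ j, 1 ≤ j → Subsingleton (TorM B j (B ⊗[S₁] N) (B ⊗[S₂] M)) := by
    intro j hj
    have := hv j hj
    obtain ⟨e⟩ := tor_symm (R := B) j (B ⊗[S₁] N) (B ⊗[S₂] M)
    exact e.toEquiv.subsingleton
  -- finiteness
  have hlenB : Module.length B ((B ⊗[S₂] M) ⊗[B] N) ≠ ⊤ := by
    rw [← length_tensor_bc (TensorProduct.isBaseChange S₂ M B) N hN2]
    exact hlen
  obtain ⟨k, hk⟩ := exists_pow_le_sup_annihilator (R := B) (B ⊗[S₂] M) N hlenB
  have hFL : FL2 δ (B ⊗[S₁] N) (B ⊗[S₂] M) := by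
    have h4 : maximalIdeal B ≤ (Module.annihilator B (B ⊗[S₂] M) ⊔
        Module.annihilator B N).radical := by
      intro x hx
      exact ⟨k, hk (Ideal.pow_mem_pow hx k)⟩
    refine h4.trans ?_
    rw [Ideal.radical_le_radical_iff]
    refine sup_le ?_ ?_
    · exact (le_sup_of_le_left le_sup_right).trans Ideal.le_radical
    · rw [← eq.annihilator_eq]
      refine (annihilator_quotient_le_radical _ _).trans (Ideal.radical_mono ?_)
      exact sup_le (le_sup_of_le_left le_sup_left) le_sup_right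
  refine ⟨?_, hFL⟩
  have h5 := sum_length_tor_quot δ (B ⊗[S₂] M) n (B ⊗[S₁] N) h3 hFL 1 hv' hn
  have h6 : ∀ j, Module.length B (TorM B j ((B ⊗[S₁] N) ⧸
      (Ideal.ofList δ • ⊤ : Submodule B (B ⊗[S₁] N))) (B ⊗[S₂] M)) =
      Module.length S₂ (TorM S₂ j M N) := by
    intro j
    rw [(torCongrLeft j eq (B ⊗[S₂] M)).length_eq]
    obtain ⟨e⟩ := tor_symm (R := B) j N (B ⊗[S₂] M)
    rw [e.length_eq]
    exact (length_tor_bc j (TensorProduct.isBaseChange S₂ M B) N hN2).symm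
  simp only [h6] at h5
  unfold eulerTor
  rw [h5]
  obtain ⟨m, rfl⟩ : ∃ m, n = m + 1 := ⟨n - 1, by omega⟩
  rw [Finset.sum_range_succ']
  rw [Finset.sum_eq_zero, zero_add, pow_zero, one_mul]
  intro i _
  have := hv' (i + 1) (by omega)
  rw [eul_subsingleton δ (TorM B (i + 1) (B ⊗[S₁] N) (B ⊗[S₂] M)), mul_zero]

end main

end Vale.Agent.P177
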