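import Vale.Agent.P177.SerreDiag
import Vale.Agent.P177.Diagonal
import Vale.Agent.P177.PowerSeriesRegular

/-!
Serre positivity over power series rings over a field.
-/

namespace Vale.Agent.P177

open CategoryTheory TensorProduct Function IsLocalRing RingTheory.Sequence Pointwise

universe u

theorem serre_abstract {S₁ S₂ B : Type u} [CommRing S₁] [CommRing S₂] [CommRing B]
    [IsLocalRing S₁] [IsNoetherianRing S₁] [IsLocalRing S₂] [IsNoetherianRing S₂]
    [IsLocalRing B] [IsNoetherianRing B]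
    (i₁ : S₁ →+* B) (i₂ : S₂ →+* B) (h₁ : i₁.Flat) (h₂ : i₂.Flat) [hl₁ : IsLocalHom i₁]
    [hl₂ : IsLocalHom i₂]
    (ρ : B →+* S₁) (hρ : ρ.comp i₁ = RingHom.id S₁)
    (hkerρ : RingHom.ker ρ = (maximalIdeal S₂).map i₂)
    (μ : B →+* S₁) (hμ : μ.comp i₁ = RingHom.id S₁) (δ : List B)
    (hkerμ : RingHom.ker μ = Ideal.ofList δ) (hδreg : IsWeaklyRegular B δ)
    (hδm : ∀ z ∈ δ, z ∈ maximalIdeal B)
    (θ : S₂ ≃+* S₁) (hθ : ∀ s, μ (i₂ s) = θ s)
    (M N : Type u) [AddCommGroup M] [Module S₂ M] [Module.Finite S₂ M]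
    [AddCommGroup N] [Module S₁ N] [Module S₂ N] [Module.Finite S₁ N]
    (hN : ∀ (s : S₂) (t : N), s • t = θ s • t)
    (hlen : Module.length S₂ (M ⊗[S₂] N) ≠ ⊤) (n : ℕ) (hn : 1 + δ.length ≤ n) :
    0 ≤ eulerTor S₂ n M N ∧ ∀ a b : ℕ, (a : WithBot ℕ∞) ≤ Module.supportDim S₂ M →
      (b : WithBot ℕ∞) ≤ Module.supportDim S₁ N →
      (a + b ≤ δ.length) ∧ (δ.length ≤ a + b → 0 < eulerTor S₂ n M N) := by
  let _ : Algebra S₁ B := i₁.toAlgebra
  let _ : Algebra S₂ B := i₂.toAlgebra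
  have a₁ : ∀ s, algebraMap S₁ B s = i₁ s := fun s => rfl
  have a₂ : ∀ s, algebraMap S₂ B s = i₂ s := fun s => rfl
  have : Module.Flat S₁ B := h₁
  have : Module.Flat S₂ B := h₂
  have : IsLocalHom (algebraMap S₁ B) := hl₁
  have : IsLocalHom (algebraMap S₂ B) := hl₂
  have hμi : ∀ s, μ (i₁ s) = s := fun s => congrArg (fun f => f s) hμ
  have hρi : ∀ s, ρ (i₁ s) = s := fun s => congrArg (fun f => f s) hρ
  have hμs : Surjective μ := fun s => ⟨i₁ s, hμi s⟩
  have hρs : Surjective ρ := fun s => ⟨i₁ s, hρi s⟩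
  -- Tor independence
  have hv : ∀ (N : Type u) [AddCommGroup N] [Module S₁ N] [Module.Finite S₁ N]
      (M : Type u) [AddCommGroup M] [Module S₂ M] [Module.Finite S₂ M] (j : ℕ), 1 ≤ j →
      Subsingleton (TorM B j (B ⊗[S₂] M) (B ⊗[S₁] N)) := by
    let _ : Module B S₁ := Module.compHom S₁ ρ
    have hsm : ∀ (b : B) (t : S₁), b • t = ρ b * t := fun b t => rfl
    have : IsScalarTower S₁ B S₁ := ⟨fun s b t => by
      rw [hsm, hsm, Algebra.smul_def, map_mul, a₁, hρi, smul_eq_mul, mul_assoc]⟩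
    let ρl : B →ₗ[B] S₁ :=
      { toFun := ρ
        map_add' := map_add ρ
        map_smul' := fun b c => by
          rw [smul_eq_mul, map_mul, RingHom.id_apply, hsm] }
    have hker : LinearMap.ker ρl = (maximalIdeal S₂).map (algebraMap S₂ B) := by
      ext b
      have h1 : b ∈ RingHom.ker ρ ↔ b ∈ (maximalIdeal S₂).map i₂ := by rw [hkerρ]
      exact h1
    have e : (B ⊗[S₂] (S₂ ⧸ maximalIdeal S₂)) ≃ₗ[B] S₁ :=
      (Algebra.TensorProduct.quotIdealMapEquivTensorQuot B (maximalIdeal S₂)).symm.toLinearEquiv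
        ≪≫ₗ Submodule.quotEquivOfEq _ _ hker.symm ≪≫ₗ ρl.quotKerEquivOfSurjective hρs
    intro N _ _ _ M _ _ _ j hj
    exact tor_independent S₁ e N M j hj
  -- the module `N` over `B`
  let _ : Module B N := Module.compHom N μ
  have hsN : ∀ (b : B) (t : N), b • t = μ b • t := fun b t => rfl
  have : IsScalarTower S₁ B N := ⟨fun s b t => by
    rw [hsN, hsN, Algebra.smul_def, map_mul, a₁, hμi, mul_smul]⟩
  have : IsScalarTower S₂ B N := ⟨fun s b t => by
    rw [hsN, hsN, Algebra.smul_def, map_mul, a₂, hθ, mul_smul, hN]⟩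
  have hres : ∀ b : B, ∃ s : S₁, b - algebraMap S₁ B s ∈ Ideal.ofList δ := by
    intro b
    refine ⟨μ b, ?_⟩
    rw [← hkerμ, RingHom.mem_ker, map_sub, a₁, hμi, sub_self]
  have hkill : ∀ z ∈ Ideal.ofList δ, ∀ t : N, z • t = 0 := by
    intro z hz t
    rw [← hkerμ, RingHom.mem_ker] at hz
    rw [hsN, hz, zero_smul]
  have hN2 : ∀ b : B, ∃ s : S₂, ∀ t : N, b • t = s • t := by
    intro b
    refine ⟨θ.symm (μ b), fun t => ?_⟩
    rw [hN, RingEquiv.apply_symm_apply, hsN]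
  obtain ⟨heq, hFL⟩ : eulerTor S₂ n M N = eul δ (TorM B 0 (B ⊗[S₁] N) (B ⊗[S₂] M)) ∧
      FL2 δ (B ⊗[S₁] N) (B ⊗[S₂] M) := by
    let _ : Module B S₁ := Module.compHom S₁ μ
    have hsm : ∀ (b : B) (t : S₁), b • t = μ b * t := fun b t => rfl
    have : IsScalarTower S₁ B S₁ := ⟨fun s b t => by
      rw [hsm, hsm, Algebra.smul_def, map_mul, a₁, hμi, smul_eq_mul, mul_assoc]⟩
    let μl : B →ₗ[B] S₁ :=
      { toFun := μ
        map_add' := map_add μ
        map_smul' := fun b c => by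
          rw [smul_eq_mul, map_mul, RingHom.id_apply, hsm] }
    have hker : LinearMap.ker μl = (Ideal.ofList δ • ⊤ : Submodule B B) := by
      rw [smul_eq_mul, Ideal.mul_top, ← hkerμ]
      rfl
    have e : (B ⧸ (Ideal.ofList δ • ⊤ : Submodule B B)) ≃ₗ[B] S₁ :=
      Submodule.quotEquivOfEq _ _ hker.symm ≪≫ₗ μl.quotKerEquivOfSurjective hμs
    exact eulerTor_eq_eul δ hδm hδreg hres S₁ e N hkill hN2 M (hv N M) hlen n hn
  have hfin := tor_finite (R := B) 0 (B ⊗[S₁] N) (B ⊗[S₂] M)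
  have hpos := eul_nonneg_pos δ hδm (TorM B 0 (B ⊗[S₁] N) (B ⊗[S₂] M)) (hFL.tor 0)
  rw [heq]
  refine ⟨hpos.1, ?_⟩
  intro a b ha hb
  have h5 := le_supportDim_external (S₁ := S₁) (S₂ := S₂) (B := B)
    (fun N _ _ _ M _ _ _ => hv N M 1 le_rfl) N M a b ha hb
  obtain ⟨e⟩ := tor_symm (R := B) 0 (B ⊗[S₂] M) (B ⊗[S₁] N)
  rw [Module.supportDim_eq_of_equiv e] at h5
  constructor
  · have h6 := h5.trans (supportDim_le_length δ hδm _ (hFL.tor 0))
    exact_mod_cast h6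
  · intro hab
    apply hpos.2
    refine le_trans ?_ h5
    exact_mod_cast hab

/-- Serre's theorem over a ring with diagonal data. -/
theorem serre_of_diagData {S B : Type u} [CommRing S] [IsLocalRing S] [IsNoetherianRing S]
    [CommRing B] [IsLocalRing B] [IsNoetherianRing B] {d : ℕ} (D : DiagData S B d)
    (M N : Type u) [AddCommGroup M] [Module S M] [Module.Finite S M]
    [AddCommGroup N] [Module S N] [Module.Finite S N]
    (hlen : Module.length S (M ⊗[S] N) ≠ ⊤) (n : ℕ) (hn : 1 + d ≤ n) :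
    0 ≤ eulerTor S n M N ∧ ∀ a b : ℕ, (a : WithBot ℕ∞) ≤ Module.supportDim S M →
      (b : WithBot ℕ∞) ≤ Module.supportDim S N →
      (a + b ≤ d) ∧ (d ≤ a + b → 0 < eulerTor S n M N) := by
  have hμ1 : ∀ s, D.μ (D.i₁ s) = s := fun s => congrArg (fun f => f s) D.μ_i₁
  have hμ2 : ∀ s, D.μ (D.i₂ s) = s := fun s => congrArg (fun f => f s) D.μ_i₂
  have hμs : Surjective D.μ := fun s => ⟨D.i₁ s, hμ1 s⟩
  have hμloc : IsLocalHom D.μ := by
    have := IsLocalHom.of_surjective D.μ hμs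
    exact this
  have hl₁ : IsLocalHom D.i₁ := ⟨fun s hs => by
    have := hs.map D.μ
    rwa [hμ1] at this⟩
  have hl₂ : IsLocalHom D.i₂ := ⟨fun s hs => by
    have := hs.map D.μ
    rwa [hμ2] at this⟩
  have hδm : ∀ z ∈ D.δ, z ∈ maximalIdeal B := by
    intro z hz
    have h1 : z ∈ RingHom.ker D.μ := by
      rw [D.ker_μ]
      exact Ideal.subset_span hz
    rw [mem_maximalIdeal, mem_nonunits_iff]
    intro hu
    have h2 := hu.map D.μ
    rw [(RingHom.mem_ker).1 h1] at h2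
    exact not_isUnit_zero h2
  have h := serre_abstract D.i₁ D.i₂ D.flat₁ D.flat₂ D.ρ D.ρ_i₁ D.ker_ρ D.μ D.μ_i₁ D.δ D.ker_μ
    D.regular_δ.toIsWeaklyRegular hδm (RingEquiv.refl S) hμ2 M N (fun s t => rfl) hlen n
    (by rw [D.length_δ]; exact hn)
  rw [D.length_δ] at h
  exact h

/-- Serre's theorem over `k[[x_1, …, x_d]]`. -/
theorem serre_mvPowerSeries (k : Type u) [Field k] (d : ℕ)
    (M N : Type u) [AddCommGroup M] [Module (MvPowerSeries (Fin d) k) M]
    [Module.Finite (MvPowerSeries (Fin d) k) M]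
    [AddCommGroup N] [Module (MvPowerSeries (Fin d) k) N]
    [Module.Finite (MvPowerSeries (Fin d) k) N]
    (hlen : Module.length (MvPowerSeries (Fin d) k) (M ⊗[MvPowerSeries (Fin d) k] N) ≠ ⊤)
    (n : ℕ) (hn : 1 + d ≤ n) :
    0 ≤ eulerTor (MvPowerSeries (Fin d) k) n M N ∧
      ∀ a b : ℕ, (a : WithBot ℕ∞) ≤ Module.supportDim (MvPowerSeries (Fin d) k) M →
      (b : WithBot ℕ∞) ≤ Module.supportDim (MvPowerSeries (Fin d) k) N →
      (a + b ≤ d) ∧ (d ≤ a + b → 0 < eulerTor (MvPowerSeries (Fin d) k) n M N) := by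
  have h1 : IsRegularLocalRing (MvPowerSeries (Fin d) k) := mvPowerSeries_isRegularLocalRing _ _
  have h2 : IsRegularLocalRing (MvPowerSeries (Fin d ⊕ Fin d) k) :=
    mvPowerSeries_isRegularLocalRing _ _
  obtain ⟨D⟩ := exists_diagData k d
  exact serre_of_diagData D M N hlen n hn

end Vale.Agent.P177
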