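import Vale.Agent.P177.TorBasic

/-!
Unbundled API for Tor.
-/

namespace Vale.Agent.P177

open CategoryTheory MonoidalCategory Limits TensorProduct

universe u

variable {R : Type u} [CommRing R]
variable {M M' M'' N N' : Type u} [AddCommGroup M] [Module R M] [AddCommGroup M'] [Module R M']
  [AddCommGroup M''] [Module R M''] [AddCommGroup N] [Module R N] [AddCommGroup N'] [Module R N']

/-- Functoriality of Tor in the first variable. -/
noncomputable def torMap (n : ℕ) (f : M →ₗ[R] M') (N : Type u) [AddCommGroup N] [Module R N] :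
    TorM R n M N →ₗ[R] TorM R n M' N :=
  (((Tor (ModuleCat.{u} R) n).map (ModuleCat.ofHom f)).app (ModuleCat.of R N)).hom

/-- Functoriality of Tor in the second variable. -/
noncomputable def torMapRight (n : ℕ) (M : Type u) [AddCommGroup M] [Module R M]
    (f : N →ₗ[R] N') : TorM R n M N →ₗ[R] TorM R n M N' :=
  (((Tor (ModuleCat.{u} R) n).obj (ModuleCat.of R M)).map (ModuleCat.ofHom f)).hom

lemma torMap_id (n : ℕ) : torMap n (LinearMap.id : M →ₗ[R] M) N = LinearMap.id := by
  unfold torMap
  rw [ModuleCat.ofHom_id, (Tor (ModuleCat.{u} R) n).map_id]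
  rfl

lemma torMap_comp (n : ℕ) (f : M →ₗ[R] M') (g : M' →ₗ[R] M'') :
    torMap n (g ∘ₗ f) N = torMap n g N ∘ₗ torMap n f N := by
  unfold torMap
  rw [ModuleCat.ofHom_comp, (Tor (ModuleCat.{u} R) n).map_comp]
  rfl

lemma torMapRight_id (n : ℕ) : torMapRight n M (LinearMap.id : N →ₗ[R] N) = LinearMap.id := by
  unfold torMapRight
  rw [ModuleCat.ofHom_id, ((Tor (ModuleCat.{u} R) n).obj _).map_id]
  rfl

lemma torMapRight_comp {N'' : Type u} [AddCommGroup N''] [Module R N''] (n : ℕ)
    (f : N →ₗ[R] N') (g : N' →ₗ[R] N'') :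
    torMapRight n M (g ∘ₗ f) = torMapRight n M g ∘ₗ torMapRight n M f := by
  unfold torMapRight
  rw [ModuleCat.ofHom_comp, ((Tor (ModuleCat.{u} R) n).obj _).map_comp]
  rfl

/-- Tor respects isomorphisms in the first variable. -/
noncomputable def torCongrLeft (n : ℕ) (e : M ≃ₗ[R] M') (N : Type u) [AddCommGroup N]
    [Module R N] : TorM R n M N ≃ₗ[R] TorM R n M' N :=
  LinearEquiv.ofLinearMap (torMap n e.toLinearMap N) (torMap n e.symm.toLinearMap N)
    (by rw [← torMap_comp, ← LinearEquiv.coe_trans, LinearEquiv.symm_trans_self]; exact torMap_id n)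
    (by rw [← torMap_comp, ← LinearEquiv.coe_trans, LinearEquiv.self_trans_symm]; exact torMap_id n)

/-- Tor respects isomorphisms in the second variable. -/
noncomputable def torCongrRight (n : ℕ) (M : Type u) [AddCommGroup M] [Module R M]
    (e : N ≃ₗ[R] N') : TorM R n M N ≃ₗ[R] TorM R n M N' :=
  LinearEquiv.ofLinearMap (torMapRight n M e.toLinearMap) (torMapRight n M e.symm.toLinearMap)
    (by rw [← torMapRight_comp, ← LinearEquiv.coe_trans, LinearEquiv.symm_trans_self]
        exact torMapRight_id n)
    (by rw [← torMapRight_comp, ← LinearEquiv.coe_trans, LinearEquiv.self_trans_symm]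
        exact torMapRight_id n)

/-- The long exact sequence of Tor in the first variable. -/
theorem exists_torDelta (f : M' →ₗ[R] M) (g : M →ₗ[R] M'') (hf : Function.Injective f)
    (hg : Function.Surjective g) (h : Function.Exact f g) (N : Type u) [AddCommGroup N]
    [Module R N] :
    ∃ δ : ∀ n, TorM R (n + 1) M'' N →ₗ[R] TorM R n M' N,
      (∀ n, Function.Exact (torMap (n + 1) g N) (δ n)) ∧
      (∀ n, Function.Exact (δ n) (torMap n f N)) ∧
      (∀ n, Function.Exact (torMap n f N) (torMap n g N)) := by
  let S : ShortComplex (ModuleCat.{u} R) :=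
    ShortComplex.moduleCatMk f g (by ext x; exact (h (f x)).2 ⟨x, rfl⟩)
  have hS : S.ShortExact := {
    exact := by
      rw [ShortComplex.ShortExact.moduleCat_exact_iff_function_exact]
      exact h
    mono_f := (ModuleCat.mono_iff_injective _).2 hf
    epi_g := (ModuleCat.epi_iff_surjective _).2 hg }
  refine ⟨fun n => (torDelta hS (ModuleCat.of R N) n).hom, ?_, ?_, ?_⟩
  · intro n
    exact tor_exact₃ hS (ModuleCat.of R N) n
  · intro n
    exact tor_exact₁ hS (ModuleCat.of R N) n
  · intro n
    exact tor_exact₂ hS (ModuleCat.of R N) n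

/-- Tor vanishes in positive degrees if the first variable is flat. -/
theorem tor_subsingleton_of_flat [Module.Flat R M] (n : ℕ) :
    Subsingleton (TorM R (n + 1) M N) := by
  let P := projectiveResolution (ModuleCat.of R N)
  have h : IsZero (((tensorComplex R P.complex).obj (ModuleCat.of R M)).homology (n + 1)) := by
    rw [← HomologicalComplex.exactAt_iff_isZero_homology]
    rw [HomologicalComplex.exactAt_iff' _ (n + 2) (n + 1) n (by simp) (by simp)]
    have h1 : (P.complex.sc' (n + 2) (n + 1) n).Exact := P.exact_succ n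
    have h2 := Module.Flat.lTensor_shortComplex_exact (ModuleCat.of R M) _ h1
    exact h2
  have h2 : IsZero (TorM R (n + 1) M N) := h.of_iso (torIso R (n + 1) (ModuleCat.of R M) P)
  exact ModuleCat.subsingleton_of_isZero h2

/-- Tor vanishes in positive degrees if the second variable is projective. -/
theorem tor_subsingleton_of_projective_right [Module.Projective R N] (n : ℕ) :
    Subsingleton (TorM R (n + 1) M N) := by
  have : Projective (ModuleCat.of R N) :=
    (IsProjective.iff_projective (ModuleCat.of R N)).mp inferInstance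
  exact ModuleCat.subsingleton_of_isZero
    (isZero_Tor_succ_of_projective (ModuleCat.{u} R) (ModuleCat.of R M) (ModuleCat.of R N) n)

end Vale.Agent.P177
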