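import Mathlib

/-!
Tor toolkit: long exact sequence in the first variable.
-/

namespace Vale.Agent.P177

open CategoryTheory MonoidalCategory Limits TensorProduct

universe u

variable (R : Type u) [CommRing R]

/-- The n-th Tor module of M and N over R (Mathlib's `CategoryTheory.Tor` in `ModuleCat R`). -/
noncomputable abbrev TorM (n : ℕ) (M N : Type u) [AddCommGroup M] [Module R M]
    [AddCommGroup N] [Module R N] : ModuleCat.{u} R :=
  ((Tor (ModuleCat.{u} R) n).obj (ModuleCat.of R M)).obj (ModuleCat.of R N)

/-- The functor `M ↦ M ⊗ K` for a chain complex `K`. -/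
noncomputable def tensorComplex (K : ChainComplex (ModuleCat.{u} R) ℕ) :
    ModuleCat.{u} R ⥤ ChainComplex (ModuleCat.{u} R) ℕ where
  obj M := (((tensoringLeft (ModuleCat.{u} R)).obj M).mapHomologicalComplex _).obj K
  map f := (NatTrans.mapHomologicalComplex ((tensoringLeft (ModuleCat.{u} R)).map f) _).app K
  map_id M := by
    ext i : 1
    simp
  map_comp f g := by
    ext i : 1
    simp

@[simp]
lemma tensorComplex_obj_X (K : ChainComplex (ModuleCat.{u} R) ℕ) (M : ModuleCat.{u} R) (i : ℕ) :
    ((tensorComplex R K).obj M).X i = M ⊗ K.X i := rfl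

@[simp]
lemma tensorComplex_map_f (K : ChainComplex (ModuleCat.{u} R) ℕ) {M M' : ModuleCat.{u} R}
    (f : M ⟶ M') (i : ℕ) :
    ((tensorComplex R K).map f).f i = f ▷ K.X i := rfl

instance (K : ChainComplex (ModuleCat.{u} R) ℕ) : (tensorComplex R K).PreservesZeroMorphisms where
  map_zero M N := by
    ext i : 1
    rw [tensorComplex_map_f]
    exact MonoidalPreadditive.zero_whiskerRight

/-- Tor computed by a resolution of the second variable. -/
noncomputable def torIso (n : ℕ) (M : ModuleCat.{u} R) {N : ModuleCat.{u} R}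
    (P : ProjectiveResolution N) :
    ((Tor (ModuleCat.{u} R) n).obj M).obj N ≅ ((tensorComplex R P.complex).obj M).homology n :=
  P.isoLeftDerivedObj _ n

lemma torIso_naturality (n : ℕ) {M M' : ModuleCat.{u} R} (f : M ⟶ M') {N : ModuleCat.{u} R}
    (P : ProjectiveResolution N) :
    ((Tor (ModuleCat.{u} R) n).map f).app N ≫ (torIso R n M' P).hom =
      (torIso R n M P).hom ≫
        HomologicalComplex.homologyMap ((tensorComplex R P.complex).map f) n := by
  change (NatTrans.leftDerived ((tensoringLeft (ModuleCat.{u} R)).map f) n).app N ≫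
    (P.isoLeftDerivedObj ((tensoringLeft (ModuleCat.{u} R)).obj M') n).hom =
    (P.isoLeftDerivedObj ((tensoringLeft (ModuleCat.{u} R)).obj M) n).hom ≫ _
  rw [ProjectiveResolution.leftDerived_app_eq _ P n]
  simp only [Category.assoc, Iso.inv_hom_id, Category.comp_id]
  rfl

instance flat_of_projective (P : ModuleCat.{u} R) [Projective P] : Module.Flat R P := by
  have : Module.Projective R P := (IsProjective.iff_projective P).mpr inferInstance
  infer_instance

lemma shortExact_whiskerRight {S : ShortComplex (ModuleCat.{u} R)} (hS : S.ShortExact)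
    (P : ModuleCat.{u} R) [Module.Flat R P] :
    (S.map (tensorRight P)).ShortExact := by
  have : PreservesFiniteLimits (tensorRight P) := inferInstance
  exact hS.map_of_exact _

/-- The short exact sequence of complexes. -/
lemma shortExact_tensorComplex {S : ShortComplex (ModuleCat.{u} R)} (hS : S.ShortExact)
    (K : ChainComplex (ModuleCat.{u} R) ℕ) (hK : ∀ i, Module.Flat R (K.X i)) :
    (S.map (tensorComplex R K)).ShortExact := by
  apply HomologicalComplex.shortExact_of_degreewise_shortExact
  intro i
  have := hK i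
  exact shortExact_whiskerRight R hS (K.X i)

lemma exact_transport {R : Type u} [CommRing R] {A B C A' B' C' : ModuleCat.{u} R}
    {f : A ⟶ B} {g : B ⟶ C} {f' : A' ⟶ B'} {g' : B' ⟶ C'} (a : A ≅ A') (b : B ≅ B') (c : C ≅ C')
    (h1 : f ≫ b.hom = a.hom ≫ f') (h2 : g ≫ c.hom = b.hom ≫ g') (h : Function.Exact f' g') :
    Function.Exact f g := by
  have k1 : ∀ x, b.hom (f x) = f' (a.hom x) := fun x => by
    have := congrArg (fun t => t.hom x) h1
    simpa using this
  have k2 : ∀ x, c.hom (g x) = g' (b.hom x) := fun x => by
    have := congrArg (fun t => t.hom x) h2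
    simpa using this
  have bi : Function.Injective b.hom := (ConcreteCategory.bijective_of_isIso b.hom).1
  have ci : Function.Injective c.hom := (ConcreteCategory.bijective_of_isIso c.hom).1
  have asj : Function.Surjective a.hom := (ConcreteCategory.bijective_of_isIso a.hom).2
  intro x
  constructor
  · intro hx
    have : g' (b.hom x) = 0 := by rw [← k2, hx, map_zero]
    obtain ⟨y, hy⟩ := (h (b.hom x)).1 this
    obtain ⟨z, rfl⟩ := asj y
    refine ⟨z, bi ?_⟩
    rw [k1, hy]
  · rintro ⟨z, rfl⟩
    apply ci
    rw [k2, k1, map_zero]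
    exact (h _).2 ⟨_, rfl⟩

lemma comp_iso_aux {𝒞 : Type*} [Category 𝒞] {A B C D : 𝒞} (a : A ⟶ B) (δ : B ⟶ C) (b : D ≅ C) :
    (a ≫ δ ≫ b.inv) ≫ b.hom = a ≫ δ := by simp

section LES

variable {R}
variable {S : ShortComplex (ModuleCat.{u} R)}

lemma ses (hS : S.ShortExact) {N : ModuleCat.{u} R} (P : ProjectiveResolution N) :
    (S.map (tensorComplex R P.complex)).ShortExact :=
  shortExact_tensorComplex R hS P.complex (fun _ => inferInstance)

/-- The connecting map for Tor in the first variable. -/
noncomputable def torDelta (hS : S.ShortExact) (N : ModuleCat.{u} R) (n : ℕ) :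
    ((Tor (ModuleCat.{u} R) (n + 1)).obj S.X₃).obj N ⟶ ((Tor (ModuleCat.{u} R) n).obj S.X₁).obj N :=
  (torIso R (n + 1) S.X₃ (projectiveResolution N)).hom ≫
    (ses hS (projectiveResolution N)).δ (n + 1) n (by simp) ≫
      (torIso R n S.X₁ (projectiveResolution N)).inv

lemma tor_exact₂ (hS : S.ShortExact) (N : ModuleCat.{u} R) (n : ℕ) :
    Function.Exact (((Tor (ModuleCat.{u} R) n).map S.f).app N)
      (((Tor (ModuleCat.{u} R) n).map S.g).app N) := by
  have h := (ses hS (projectiveResolution N)).homology_exact₂ n
  rw [ShortComplex.ShortExact.moduleCat_exact_iff_function_exact] at h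
  exact exact_transport _ _ _ (torIso_naturality R n S.f (projectiveResolution N))
    (torIso_naturality R n S.g (projectiveResolution N)) h

lemma tor_exact₁ (hS : S.ShortExact) (N : ModuleCat.{u} R) (n : ℕ) :
    Function.Exact (torDelta hS N n)
      (((Tor (ModuleCat.{u} R) n).map S.f).app N) := by
  have h := (ses hS (projectiveResolution N)).homology_exact₁ (n + 1) n (by simp)
  rw [ShortComplex.ShortExact.moduleCat_exact_iff_function_exact] at h
  refine exact_transport (torIso R (n + 1) S.X₃ (projectiveResolution N)) _ _ ?_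
    (torIso_naturality R n S.f (projectiveResolution N)) h
  exact comp_iso_aux _ _ _

lemma tor_exact₃ (hS : S.ShortExact) (N : ModuleCat.{u} R) (n : ℕ) :
    Function.Exact (((Tor (ModuleCat.{u} R) (n + 1)).map S.g).app N) (torDelta hS N n) := by
  have h := (ses hS (projectiveResolution N)).homology_exact₃ (n + 1) n (by simp)
  rw [ShortComplex.ShortExact.moduleCat_exact_iff_function_exact] at h
  refine exact_transport _ _ (torIso R n S.X₁ (projectiveResolution N))
    (torIso_naturality R (n + 1) S.g (projectiveResolution N)) ?_ h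
  exact comp_iso_aux _ _ _

end LES

end Vale.Agent.P177
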