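import Vale.Agent.P177.EulPos

/-!
Euler characteristics of Tor along a regular sequence.
-/

namespace Vale.Agent.P177

open CategoryTheory TensorProduct Function IsLocalRing RingTheory.Sequence Pointwise

universe u

variable {B : Type u} [CommRing B] [IsLocalRing B]

/-- Finiteness condition for pairs. -/
def FL2 (zs : List B) (Z W : Type u) [AddCommGroup Z] [Module B Z] [AddCommGroup W]
    [Module B W] : Prop :=
  maximalIdeal B ≤ (Module.annihilator B Z ⊔ Module.annihilator B W ⊔ Ideal.ofList zs).radical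

theorem FL2.tor {zs : List B} {Z W : Type u} [AddCommGroup Z] [Module B Z] [AddCommGroup W]
    [Module B W] (h : FL2 zs Z W) (j : ℕ) : FL zs (TorM B j Z W) := by
  refine h.trans (Ideal.radical_mono (sup_le_sup_right (sup_le ?_ ?_) _))
  · intro a ha
    rw [Module.mem_annihilator]
    exact tor_smul_eq_zero_left a (fun m => Module.mem_annihilator.1 ha m) j W
  · intro a ha
    rw [Module.mem_annihilator]
    exact tor_smul_eq_zero_right a (fun m => Module.mem_annihilator.1 ha m) j Z

theorem FL2.quot {z : B} {zs : List B} {Z W : Type u} [AddCommGroup Z] [Module B Z]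
    [AddCommGroup W] [Module B W] (h : FL2 (z :: zs) Z W) : FL2 zs (QuotSMulTop z Z) W := by
  refine h.trans (Ideal.radical_mono ?_)
  rw [Ideal.ofList_cons]
  refine sup_le (sup_le ?_ ?_) (sup_le ?_ ?_)
  · exact le_sup_of_le_left (le_sup_of_le_left
      (LinearMap.annihilator_le_of_surjective _ (Submodule.mkQ_surjective _)))
  · exact le_sup_of_le_left le_sup_right
  · refine le_sup_of_le_left (le_sup_of_le_left ?_)
    rw [Ideal.span_singleton_le_iff_mem]
    exact QuotSMulTop.mem_annihilator Z z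
  · exact le_sup_right

variable [IsNoetherianRing B]

theorem eul_tor_quot_succ (z : B) (ws : List B) (Z W : Type u) [AddCommGroup Z] [Module B Z]
    [Module.Finite B Z] [AddCommGroup W] [Module B W] [Module.Finite B W]
    (hz : IsSMulRegular Z z) (hFL : FL2 (z :: ws) Z W) (n : ℕ) :
    eul ws (TorM B (n + 1) (QuotSMulTop z Z) W) =
      eul ws (QuotSMulTop z (TorM B (n + 1) Z W)) +
        eul ws (Submodule.torsionBy B (TorM B n Z W) z) := by
  obtain ⟨f, g, hf, hi, hs, hex⟩ := quot_ses Z z hz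
  obtain ⟨δ, h1, h2, h3⟩ := exists_torDelta f g hi hs hex W
  have i1 := tor_finite (R := B) (n + 1) (QuotSMulTop z Z) W
  have i2 := tor_finite (R := B) n Z W
  have i3 := tor_finite (R := B) (n + 1) Z W
  rw [eul_ker_add_range ws (δ n) (hFL.quot.tor (n + 1))]
  congr 1
  · rw [LinearMap.exact_iff.1 (h1 n)]
    obtain ⟨e⟩ := exists_quotSMulTop_equiv z (torMap (n + 1) f W)
      (torMap_smul_id (n + 1) z f hf) (torMap (n + 1) g W).rangeRestrict
      (LinearMap.surjective_rangeRestrict _) (by
        intro x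
        rw [← h3 (n + 1) x, Subtype.ext_iff]
        rfl)
    exact (eul_congr ws e).symm
  · rw [← LinearMap.exact_iff.1 (h2 n)]
    have : LinearMap.ker (torMap n f W) = Submodule.torsionBy B (TorM B n Z W) z := by
      ext x
      rw [LinearMap.mem_ker, torMap_smul_id n z f hf, Submodule.mem_torsionBy_iff]
    rw [this]

theorem eul_tor_quot_zero (z : B) (ws : List B) (Z W : Type u) [AddCommGroup Z] [Module B Z]
    [AddCommGroup W] [Module B W]
    (hz : IsSMulRegular Z z) :
    eul ws (TorM B 0 (QuotSMulTop z Z) W) = eul ws (QuotSMulTop z (TorM B 0 Z W)) := by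
  obtain ⟨f, g, hf, hi, hs, hex⟩ := quot_ses Z z hz
  obtain ⟨δ, h1, h2, h3⟩ := exists_torDelta f g hi hs hex W
  obtain ⟨e⟩ := exists_quotSMulTop_equiv z (torMap 0 f W)
      (torMap_smul_id 0 z f hf) (torMap 0 g W) (torMap_zero_surjective g hs W) (h3 0)
  exact (eul_congr ws e).symm

theorem sum_eul_quot (z : B) (ws : List B) (Z W : Type u) [AddCommGroup Z] [Module B Z]
    [Module.Finite B Z] [AddCommGroup W] [Module B W] [Module.Finite B W]
    (hz : IsSMulRegular Z z) (hFL : FL2 (z :: ws) Z W) (n : ℕ) :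
    ∑ j ∈ Finset.range (n + 1), (-1 : ℤ) ^ j * eul ws (TorM B j (QuotSMulTop z Z) W) =
      ∑ j ∈ Finset.range (n + 1), (-1 : ℤ) ^ j * eul (z :: ws) (TorM B j Z W) +
        (-1) ^ n * eul ws (Submodule.torsionBy B (TorM B n Z W) z) := by
  have hdef : ∀ j, eul (z :: ws) (TorM B j Z W) = eul ws (QuotSMulTop z (TorM B j Z W)) -
      eul ws (Submodule.torsionBy B (TorM B j Z W) z) := fun j => rfl
  induction n with
  | zero =>
    simp only [zero_add, Finset.sum_range_one, pow_zero, one_mul]
    rw [eul_tor_quot_zero z ws Z W hz, hdef]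
    ring
  | succ n ih =>
    rw [Finset.sum_range_succ, ih, Finset.sum_range_succ _ (n + 1),
      eul_tor_quot_succ z ws Z W hz hFL, hdef]
    ring

/-- Euler characteristic of `Tor(Z/zsZ, W)` along a `Z`-regular sequence `zs`. -/
theorem sum_length_tor_quot (zs : List B) (W : Type u) [AddCommGroup W] [Module B W]
    [Module.Finite B W] (n : ℕ) (Z : Type u) [AddCommGroup Z] [Module B Z]
    [Module.Finite B Z] (hreg : IsWeaklyRegular Z zs) (hFL : FL2 zs Z W) (n₀ : ℕ)
    (hv : ∀ j, n₀ ≤ j → Subsingleton (TorM B j Z W)) (hn : n₀ + zs.length ≤ n) :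
    ∑ j ∈ Finset.range n, (-1 : ℤ) ^ j * ((Module.length B
      (TorM B j (Z ⧸ (Ideal.ofList zs • ⊤ : Submodule B Z)) W)).toNat : ℤ) =
      ∑ j ∈ Finset.range n, (-1 : ℤ) ^ j * eul zs (TorM B j Z W) := by
  induction zs generalizing Z n₀ with
  | nil =>
    refine Finset.sum_congr rfl fun j _ => ?_
    have e : (Z ⧸ (Ideal.ofList ([] : List B) • ⊤ : Submodule B Z)) ≃ₗ[B] Z :=
      Submodule.quotEquivOfEqBot _ (by simp)
    rw [(torCongrLeft j e W).length_eq]
    rfl
  | cons z zs ih =>
    rw [isWeaklyRegular_cons_iff] at hreg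
    rw [List.length_cons] at hn
    have h1 : ∀ j, n₀ + 1 ≤ j → Subsingleton (TorM B j (QuotSMulTop z Z) W) := by
      intro j hj
      obtain ⟨j, rfl⟩ : ∃ k, j = k + 1 := ⟨j - 1, by omega⟩
      exact tor_subsingleton_step Z z hreg.1 W j (hv _ (by omega)) (hv _ (by omega))
    have h2 := ih (QuotSMulTop z Z) hreg.2 hFL.quot (n₀ + 1) h1 (by omega)
    have h3 : ∀ j, Module.length B
        (TorM B j (Z ⧸ (Ideal.ofList (z :: zs) • ⊤ : Submodule B Z)) W) =
        Module.length B (TorM B j (QuotSMulTop z Z ⧸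
          (Ideal.ofList zs • ⊤ : Submodule B (QuotSMulTop z Z))) W) := fun j =>
      (torCongrLeft j
        (Submodule.quotOfListConsSMulTopEquivQuotSMulTopInner Z z zs) W).length_eq
    simp only [h3]
    rw [h2]
    obtain ⟨m, rfl⟩ : ∃ m, n = m + 1 := ⟨n - 1, by omega⟩
    rw [sum_eul_quot z zs Z W hreg.1 hFL m]
    have h4 := hv m (by omega)
    have h5 : Subsingleton (Submodule.torsionBy B (TorM B m Z W) z) := inferInstance
    rw [eul_subsingleton zs (Submodule.torsionBy B (TorM B m Z W) z), mul_zero, add_zero]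

end Vale.Agent.P177
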