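import Vale.Agent.P177.FlatTor

/-!
Multiplication maps on Tor.
-/

namespace Vale.Agent.P177

open CategoryTheory TensorProduct Function

universe u

variable {R : Type u} [CommRing R]

theorem homologyMap_eq_smul (L : ChainComplex (ModuleCat.{u} R) ℕ) (φ : L ⟶ L) (a : R) (n : ℕ)
    (h : ∀ x : L.X n, φ.f n x = a • x) (y : L.homology n) :
    HomologicalComplex.homologyMap φ n y = a • y := by
  have hπ : Function.Surjective (L.homologyπ n) :=
    (ModuleCat.epi_iff_surjective _).1 inferInstance
  have hi : Function.Injective (L.iCycles n) :=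
    (ModuleCat.mono_iff_injective _).1 inferInstance
  obtain ⟨z, rfl⟩ := hπ y
  have h1 : HomologicalComplex.cyclesMap φ n z = a • z := by
    apply hi
    rw [map_smul, ← h]
    exact congrArg (fun t => t.hom z) (HomologicalComplex.cyclesMap_i φ n)
  have h3 : HomologicalComplex.homologyMap φ n (L.homologyπ n z) =
      L.homologyπ n (HomologicalComplex.cyclesMap φ n z) :=
    congrArg (fun t => t.hom z) (HomologicalComplex.homologyπ_naturality φ n)
  rw [h3, h1, map_smul]

variable {M N : Type u} [AddCommGroup M] [Module R M] [AddCommGroup N] [Module R N]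

theorem rTensor_eq_smul (a : R) (f : M →ₗ[R] M) (hf : ∀ m, f m = a • m) (y : M ⊗[R] N) :
    f.rTensor N y = a • y := by
  induction y using TensorProduct.induction_on with
  | zero => simp
  | tmul m p =>
    rw [LinearMap.rTensor_tmul, hf]
    rfl
  | add y z hy hz => rw [map_add, smul_add, hy, hz]

theorem torMap_smul_id (n : ℕ) (a : R) (f : M →ₗ[R] M) (hf : ∀ m, f m = a • m)
    (x : TorM R n M N) : torMap n f N x = a • x := by
  let P := projectiveResolution (ModuleCat.of R N)
  let e := (torIso R n (ModuleCat.of R M) P).toLinearEquiv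
  apply e.injective
  rw [map_smul]
  have h2 : e (torMap n f N x) = HomologicalComplex.homologyMap
      ((tensorComplex R P.complex).map (ModuleCat.ofHom f)) n (e x) :=
    congrArg (fun t => t.hom x) (torIso_naturality R n (ModuleCat.ofHom f) P)
  rw [h2]
  apply homologyMap_eq_smul
  intro y
  exact rTensor_eq_smul a f hf y

end Vale.Agent.P177
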