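import Vale.Agent.P202.Mix.TeiA

/-!
# Perfect ideals and their Witt vectors (P177)

`C` perfect of characteristic `p`.  An ideal `J` is *perfect* if it is closed under the
weighted geometric means `a ^ (i/p) * b ^ ((p-i)/p)`.  Then
`WJ J = {∑ pⁿ [xₙ] : xₙ ∈ J}` is an ideal of `W(C)` with `W(J) ∩ p W(C) = p W(J)` and
`W(J) / p = J`.
-/

namespace Vale.Agent.P177.WJ

set_option linter.unusedSectionVars false
set_option linter.dupNamespace false

open WittVector

variable {p : ℕ} [hp : Fact (Nat.Prime p)] {C : Type*} [CommRing C] [CharP C p] [PerfectRing C p]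


/-- The `n`-fold Frobenius root. -/
noncomputable def rt (p : ℕ) [Fact (Nat.Prime p)] {C : Type*} [CommRing C] [CharP C p]
    [PerfectRing C p] (n : ℕ) (x : C) : C := ((_root_.frobeniusEquiv C p).symm ^ n) x

theorem rt_zero (x : C) : rt p 0 x = x := rfl

theorem rt_pow (n : ℕ) (x : C) : rt p n x ^ p ^ n = x := by
  induction n generalizing x with
  | zero => simp [rt]
  | succ n ih =>
    have h : rt p (n + 1) x = rt p n ((_root_.frobeniusEquiv C p).symm x) := by
      simp only [rt, pow_succ]; rfl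
    rw [h, pow_succ, pow_mul, ih]
    exact (_root_.frobeniusEquiv C p).apply_symm_apply x

theorem eq_of_pow (n : ℕ) {x y : C} (h : x ^ p ^ n = y ^ p ^ n) : x = y := by
  induction n with
  | zero => simpa using h
  | succ n ih =>
    apply ih
    apply (_root_.frobeniusEquiv C p).injective
    rw [_root_.frobeniusEquiv_apply, _root_.frobeniusEquiv_apply, frobenius_def, frobenius_def,
      ← pow_mul, ← pow_mul, ← pow_succ, h]

theorem rt_unique (n : ℕ) {x y : C} (h : y ^ p ^ n = x) : rt p n x = y :=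
  eq_of_pow (p := p) n (by rw [rt_pow, h])

theorem rt_mul (n : ℕ) (x y : C) : rt p n (x * y) = rt p n x * rt p n y :=
  rt_unique n (by rw [mul_pow, rt_pow, rt_pow])

theorem rt_pow_comm (n m : ℕ) (x : C) : rt p n (x ^ m) = rt p n x ^ m :=
  rt_unique n (by rw [← pow_mul, mul_comm, pow_mul, rt_pow])

theorem rt_rt (n m : ℕ) (x : C) : rt p n (rt p m x) = rt p (n + m) x :=
  (rt_unique (n + m) (by rw [pow_add, pow_mul, rt_pow, rt_pow])).symm

/-- Perfect ideals: closed under `a ^ (i/p) * b ^ ((p-i)/p)`. -/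
def IsPerf (p : ℕ) [Fact (Nat.Prime p)] {C : Type*} [CommRing C] [CharP C p]
    [PerfectRing C p] (J : Ideal C) : Prop :=
  ∀ a ∈ J, ∀ b ∈ J, ∀ i ≤ p, rt p 1 (a ^ i * b ^ (p - i)) ∈ J

/-- All weights with denominator `p ^ n`. -/
theorem IsPerf.mean {J : Ideal C} (hJ : IsPerf p J) {a b : C} (ha : a ∈ J) (hb : b ∈ J) (n : ℕ) :
    ∀ i ≤ p ^ n, rt p n (a ^ i * b ^ (p ^ n - i)) ∈ J := by
  induction n with
  | zero =>
    intro i hi
    rw [pow_zero] at hi ⊢
    rcases Nat.le_one_iff_eq_zero_or_eq_one.1 hi with rfl | rfl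
    · simpa [rt] using hb
    · simpa [rt] using ha
  | succ n ih =>
    intro i hi
    -- i = p * q + r
    have hp0 : 0 < p := hp.out.pos
    obtain ⟨q, r, hr, rfl⟩ : ∃ q r, r < p ∧ i = p * q + r :=
      ⟨i / p, i % p, Nat.mod_lt _ hp0, (Nat.div_add_mod i p).symm⟩
    have hpn : p ^ (n + 1) = p * p ^ n := by rw [pow_succ]; ring
    rcases Nat.eq_zero_or_pos r with hr0 | hr0
    · subst hr0
      have hq : q ≤ p ^ n := by
        rw [hpn, add_zero] at hi; exact Nat.le_of_mul_le_mul_left hi hp0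
      have h1 := ih q hq
      have h2 : rt p (n + 1) (a ^ (p * q + 0) * b ^ (p ^ (n + 1) - (p * q + 0))) =
          rt p n (a ^ q * b ^ (p ^ n - q)) := by
        apply rt_unique
        rw [pow_succ, pow_mul, rt_pow, mul_pow, ← pow_mul, ← pow_mul]
        congr 2
        · ring
        · rw [add_zero, ← pow_succ, hpn, Nat.mul_sub_right_distrib, mul_comm p, mul_comm p]
      rw [h2]; exact h1
    · have hq : q + 1 ≤ p ^ n := by
        rw [hpn] at hi
        by_contra hcon
        have h3 : p ^ n ≤ q := by omega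
        have h4 : p * p ^ n ≤ p * q := Nat.mul_le_mul_left _ h3
        omega
      have h1 := ih q (by omega)
      have h2 := ih (q + 1) hq
      have h3 := hJ _ h2 _ h1 r hr.le
      have h4 : rt p (n + 1) (a ^ (p * q + r) * b ^ (p ^ (n + 1) - (p * q + r))) =
          rt p 1 (rt p n (a ^ (q + 1) * b ^ (p ^ n - (q + 1))) ^ r *
            rt p n (a ^ q * b ^ (p ^ n - q)) ^ (p - r)) := by
        apply rt_unique
        have h6 : ∀ z : C, rt p 1 z ^ p ^ (n + 1) = z ^ p ^ n := by
          intro z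
          have h7 := rt_pow (p := p) 1 z
          rw [pow_one] at h7
          rw [hpn, pow_mul, h7]
        rw [h6, mul_pow, ← pow_mul, ← pow_mul, mul_comm r, mul_comm (p - r), pow_mul, pow_mul, rt_pow,
          rt_pow, mul_pow, mul_pow, ← pow_mul, ← pow_mul, ← pow_mul, ← pow_mul]
        have e1 : (q + 1) * r + q * (p - r) = p * q + r := by
          obtain ⟨s, rfl⟩ : ∃ s, p = r + s := ⟨p - r, by omega⟩
          rw [Nat.add_sub_cancel_left]; ring
        have e2 : (p ^ n - (q + 1)) * r + (p ^ n - q) * (p - r) = p ^ (n + 1) - (p * q + r) := by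
          obtain ⟨u, hu⟩ : ∃ u, p ^ n = (q + 1) + u := ⟨p ^ n - (q + 1), by omega⟩
          rw [hpn, hu]
          obtain ⟨s, hs⟩ : ∃ s, p = r + s := ⟨p - r, by omega⟩
          have e3 : q + 1 + u - (q + 1) = u := by omega
          have e4 : q + 1 + u - q = u + 1 := by omega
          have e5 : p - r = s := by omega
          rw [e3, e4, e5]
          have : p * (q + 1 + u) = (u * r + (u + 1) * s) + (p * q + r) := by
            rw [hs]; ring
          omega
        rw [← e2, ← e1, pow_add, pow_add]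
        ring
      rw [h4]; exact h3

/-- The form with `p` elements implies the binary form. -/
theorem isPerf_of_forall {J : Ideal C}
    (h : ∀ c : Fin p → C, (∀ j, c j ∈ J) → ∏ j, rt p 1 (c j) ∈ J) : IsPerf p J := by
  intro a ha b hb i hi
  have h1 := h (fun j => if (j : ℕ) < i then a else b) (by
    intro j; by_cases hj : (j : ℕ) < i
    · simpa [hj] using ha
    · simpa [hj] using hb)
  have h2 : rt p 1 (a ^ i * b ^ (p - i)) =
      ∏ j : Fin p, rt p 1 (if (j : ℕ) < i then a else b) := by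
    have h3 : ∀ j : Fin p, rt p 1 (if (j : ℕ) < i then a else b) =
        (fun k : ℕ => if k < i then rt p 1 a else rt p 1 b) j := by
      intro j; split_ifs <;> simp_all
    rw [Finset.prod_congr rfl (fun j _ => h3 j), Fin.prod_univ_eq_prod_range
      (fun k : ℕ => if k < i then rt p 1 a else rt p 1 b) p, Finset.prod_ite]
    have e1 : (Finset.range p).filter (fun k => k < i) = Finset.range i := by
      ext k; simp only [Finset.mem_filter, Finset.mem_range]; omega
    have e2 : ((Finset.range p).filter (fun k => ¬ k < i)).card = p - i := by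
      have := Finset.card_filter_add_card_filter_not (s := Finset.range p) (fun k => k < i)
      rw [e1, Finset.card_range, Finset.card_range] at this
      omega
    rw [Finset.prod_const, Finset.prod_const, e1, Finset.card_range, e2, rt_mul, rt_pow_comm,
      rt_pow_comm]
  rw [h2]; exact h1

/-- `T J`: finite sums of `pᵏ [a]`, `a ∈ J`. -/
noncomputable def T (p : ℕ) [Fact (Nat.Prime p)] {C : Type*} [CommRing C] (J : Ideal C) :
    AddSubmonoid (WittVector p C) :=
  AddSubmonoid.closure {x | ∃ k : ℕ, ∃ a ∈ J, x = (p : WittVector p C) ^ k * teichmuller p a}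

theorem mem_T (J : Ideal C) (k : ℕ) {a : C} (ha : a ∈ J) :
    (p : WittVector p C) ^ k * teichmuller p a ∈ T p J :=
  AddSubmonoid.subset_closure ⟨k, a, ha, rfl⟩

theorem p_mul_T (J : Ideal C) (k : ℕ) {x : WittVector p C} (hx : x ∈ T p J) (c : C) :
    (p : WittVector p C) ^ k * teichmuller p c * x ∈ T p J := by
  induction hx using AddSubmonoid.closure_induction with
  | mem x hx =>
    obtain ⟨l, a, ha, rfl⟩ := hx
    have : (p : WittVector p C) ^ k * teichmuller p c * ((p : WittVector p C) ^ l * teichmuller p a)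
        = (p : WittVector p C) ^ (k + l) * teichmuller p (c * a) := by
      rw [map_mul, pow_add]; ring
    rw [this]
    exact mem_T J _ (J.mul_mem_left _ ha)
  | zero => rw [mul_zero]; exact zero_mem _
  | add x y _ _ hx hy => rw [mul_add]; exact add_mem hx hy

theorem pow_mul_T (J : Ideal C) (k : ℕ) {x : WittVector p C} (hx : x ∈ T p J) :
    (p : WittVector p C) ^ k * x ∈ T p J := by
  have := p_mul_T J k hx 1
  rwa [map_one, mul_one] at this

/-- Truncated Teichmüller expansion. -/
theorem exists_digits (x : WittVector p C) (N : ℕ) :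
    (p : WittVector p C) ^ N ∣
      x - ∑ i ∈ Finset.range N, (p : WittVector p C) ^ i * teichmuller p (rt p i (x.coeff i)) := by
  cases N with
  | zero => simp
  | succ n =>
    have h := dvd_sub_sum_teichmuller_iterateFrobeniusEquiv_coeff x n
    have h1 : ∑ i ∈ Finset.range (n + 1), (p : WittVector p C) ^ i *
        teichmuller p (rt p i (x.coeff i)) = ∑ i ∈ Finset.Iic n, teichmuller p
        (((_root_.frobeniusEquiv C p).symm ^ i) (x.coeff i)) * (p : WittVector p C) ^ i := by
      have h2 : Finset.range (n + 1) = Finset.Iic n := by ext i; simp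
      rw [h2]
      exact Finset.sum_congr rfl fun i _ => by rw [mul_comm]; rfl
    rw [h1]; exact h

/-- `T J` is stable under multiplication modulo `p ^ N`. -/
theorem mul_T (J : Ideal C) {x : WittVector p C} (hx : x ∈ T p J) (c : WittVector p C) (N : ℕ) :
    ∃ y ∈ T p J, (p : WittVector p C) ^ N ∣ c * x - y := by
  refine ⟨∑ i ∈ Finset.range N, (p : WittVector p C) ^ i * teichmuller p (rt p i (c.coeff i)) * x,
    sum_mem fun i _ => p_mul_T J i hx _, ?_⟩
  rw [← Finset.sum_mul, ← sub_mul]
  exact Dvd.dvd.mul_right (exists_digits c N) _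

theorem p_dvd_of_coeff_zero {x y : WittVector p C} (h : x.coeff 0 = y.coeff 0) :
    (p : WittVector p C) ∣ x - y := by
  have := (P202.Mix.dvd_sub_iff x y 1).2 (by
    intro i hi
    obtain rfl : i = 0 := by omega
    exact h)
  simpa using this

/-- `[a + b] = [a] + [b] + p * (element of T J)` modulo `p ^ (n + 1)`. -/
theorem teichmuller_add {J : Ideal C} (hJ : IsPerf p J) {a b : C} (ha : a ∈ J) (hb : b ∈ J)
    (n : ℕ) : ∃ τ ∈ T p J, (p : WittVector p C) ^ (n + 1) ∣
      (teichmuller p a + teichmuller p b + p * τ) - teichmuller p (a + b) := by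
  classical
  obtain ⟨M, hM⟩ : ∃ M, p ^ n = M + 1 :=
    ⟨p ^ n - 1, by have := Nat.pow_pos (n := n) hp.out.pos; omega⟩
  have hrt : rt p n (a + b) = rt p n a + rt p n b :=
    rt_unique n (by rw [add_pow_char_pow, rt_pow, rt_pow])
  have h1 : (p : WittVector p C) ∣
      (teichmuller p (rt p n a) + teichmuller p (rt p n b)) - teichmuller p (rt p n (a + b)) := by
    apply p_dvd_of_coeff_zero
    rw [teichmuller_coeff_zero, hrt, WittVector.add_coeff_zero, teichmuller_coeff_zero,
      teichmuller_coeff_zero]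
  have h2 := dvd_sub_pow_of_dvd_sub h1 n
  rw [← map_pow, rt_pow] at h2
  -- the coefficients
  have hc : ∀ m : ℕ, ∃ c : ℕ, m < M → (p ^ n).choose (m + 1) = p * c := by
    intro m
    by_cases hm : m < M
    · obtain ⟨c, hc⟩ := Nat.Prime.dvd_choose_pow hp.out (n := n) (k := m + 1) (by omega) (by omega)
      exact ⟨c, fun _ => hc⟩
    · exact ⟨0, fun h => absurd h hm⟩
  choose c hc using hc
  refine ⟨∑ m ∈ Finset.range M, (c m) •
    ((p : WittVector p C) ^ 0 * teichmuller p (rt p n (a ^ (m + 1) * b ^ (p ^ n - (m + 1))))),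
    ?_, ?_⟩
  · refine sum_mem fun m hm => nsmul_mem (mem_T J 0 ?_) _
    have := Finset.mem_range.1 hm
    exact hJ.mean ha hb n (m + 1) (by omega)
  · convert h2 using 2
    rw [add_pow, hM, Finset.sum_range_succ, Finset.sum_range_succ']
    have e0 : teichmuller p (rt p n a) ^ 0 * teichmuller p (rt p n b) ^ (M + 1 - 0) *
        (((M + 1).choose 0 : ℕ) : WittVector p C) = teichmuller p b := by
      rw [pow_zero, one_mul, Nat.choose_zero_right, Nat.cast_one, mul_one, Nat.sub_zero, ← hM,
        ← map_pow, rt_pow]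
    have e1 : teichmuller p (rt p n a) ^ (M + 1) * teichmuller p (rt p n b) ^ (M + 1 - (M + 1)) *
        (((M + 1).choose (M + 1) : ℕ) : WittVector p C) = teichmuller p a := by
      rw [Nat.choose_self, Nat.cast_one, mul_one, Nat.sub_self, pow_zero, mul_one, ← hM,
        ← map_pow, rt_pow]
    rw [e0, e1, Finset.mul_sum]
    have e2 : ∀ m ∈ Finset.range M, (p : WittVector p C) * ((c m) • ((p : WittVector p C) ^ 0 *
        teichmuller p (rt p n (a ^ (m + 1) * b ^ (M + 1 - (m + 1)))))) =
        teichmuller p (rt p n a) ^ (m + 1) * teichmuller p (rt p n b) ^ (M + 1 - (m + 1)) *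
        (((M + 1).choose (m + 1) : ℕ) : WittVector p C) := by
      intro m hm
      have hm' := Finset.mem_range.1 hm
      rw [rt_mul, rt_pow_comm, rt_pow_comm, map_mul, map_pow, map_pow, ← hM, hc m hm', pow_zero,
        one_mul, nsmul_eq_mul, Nat.cast_mul]
      ring
    rw [Finset.sum_congr rfl e2]
    ring

/-- The `n`-th Teichmüller digit. -/
noncomputable def dig (x : WittVector p C) (n : ℕ) : C := rt p n (x.coeff n)

theorem dig_pow (x : WittVector p C) (n : ℕ) : dig x n ^ p ^ n = x.coeff n := rt_pow n _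

theorem dig_eq_iff {x : WittVector p C} {n : ℕ} {c : C} : dig x n = c ↔ x.coeff n = c ^ p ^ n :=
  ⟨fun h => by rw [← h, dig_pow], fun h => rt_unique n h.symm⟩

theorem dig_congr {x y : WittVector p C} {N : ℕ} (h : (p : WittVector p C) ^ N ∣ x - y) {n : ℕ}
    (hn : n < N) : dig x n = dig y n := by
  unfold dig
  rw [P202.Mix.coeff_eq_of_dvd_sub h hn]

/-- Digits of `[d] + p y`. -/
theorem dig_succ (d : C) (y : WittVector p C) (n : ℕ) :
    dig (teichmuller p d + (p : WittVector p C) * y) (n + 1) = dig y n := by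
  rw [dig_eq_iff, coeff_add_of_disjoint, teichmuller_coeff_pos p d (n + 1) (by omega), zero_add,
    mul_comm, mul_charP_coeff_succ, ← dig_pow y n, ← pow_mul, ← pow_succ]
  intro m
  rcases Nat.eq_zero_or_pos m with rfl | hm
  · right; rw [mul_comm, mul_charP_coeff_zero]
  · left; exact teichmuller_coeff_pos p d m hm

theorem dig_zero (d : C) (y : WittVector p C) :
    dig (teichmuller p d + (p : WittVector p C) * y) 0 = d := by
  rw [dig_eq_iff, coeff_add_of_disjoint, teichmuller_coeff_zero, mul_comm, mul_charP_coeff_zero,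
    pow_zero, pow_one, add_zero]
  intro m
  rcases Nat.eq_zero_or_pos m with rfl | hm
  · right; rw [mul_comm, mul_charP_coeff_zero]
  · left; exact teichmuller_coeff_pos p d m hm

/-- Every element of `T J` is `[d] + p τ` modulo `p ^ N`. -/
theorem T_decomp {J : Ideal C} (hJ : IsPerf p J) {x : WittVector p C} (hx : x ∈ T p J) (N : ℕ) :
    ∃ d ∈ J, ∃ τ ∈ T p J, (p : WittVector p C) ^ (N + 1) ∣ x - (teichmuller p d + p * τ) := by
  induction hx using AddSubmonoid.closure_induction with
  | mem x hx =>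
    obtain ⟨k, a, ha, rfl⟩ := hx
    cases k with
    | zero => exact ⟨a, ha, 0, zero_mem _, by simp⟩
    | succ k =>
      refine ⟨0, zero_mem _, _, mem_T J k ha, ?_⟩
      rw [teichmuller_zero, zero_add, pow_succ' (p : WittVector p C) k, mul_assoc, sub_self]
      exact dvd_zero _
  | zero => exact ⟨0, zero_mem _, 0, zero_mem _, by simp⟩
  | add x y _ _ hx hy =>
    obtain ⟨d, hd, τ, hτ, h1⟩ := hx
    obtain ⟨e, he, σ, hσ, h2⟩ := hy
    obtain ⟨ρ, hρ, h3⟩ := teichmuller_add hJ hd he N
    obtain ⟨ρ', hρ', h4⟩ := mul_T J hρ (-1) N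
    refine ⟨d + e, add_mem hd he, τ + σ + ρ', add_mem (add_mem hτ hσ) hρ', ?_⟩
    have h5 : (p : WittVector p C) ^ (N + 1) ∣ p * (-1 * ρ - ρ') := by
      rw [pow_succ']; exact mul_dvd_mul_left _ h4
    have : x + y - (teichmuller p (d + e) + p * (τ + σ + ρ')) =
        (x - (teichmuller p d + p * τ)) + (y - (teichmuller p e + p * σ)) +
        ((teichmuller p d + teichmuller p e + p * ρ) - teichmuller p (d + e)) +
        p * (-1 * ρ - ρ') := by
      ring
    rw [this]
    exact dvd_add (dvd_add (dvd_add h1 h2) h3) h5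

/-- The digits of an element of `T J` are in `J`. -/
theorem dig_mem_of_T {J : Ideal C} (hJ : IsPerf p J) (n : ℕ) :
    ∀ {x : WittVector p C}, x ∈ T p J → dig x n ∈ J := by
  induction n with
  | zero =>
    intro x hx
    obtain ⟨d, hd, τ, -, h⟩ := T_decomp hJ hx 1
    rw [dig_congr h (n := 0) (by omega), dig_zero]
    exact hd
  | succ n ih =>
    intro x hx
    obtain ⟨d, hd, τ, hτ, h⟩ := T_decomp hJ hx (n + 1)
    rw [dig_congr h (n := n + 1) (by omega), dig_succ]
    exact ih hτ

/-- `x` has all digits in `J` iff it is a `p`-adic limit of elements of `T J`. -/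
theorem dig_mem_iff {J : Ideal C} (hJ : IsPerf p J) {x : WittVector p C} :
    (∀ n, dig x n ∈ J) ↔ ∀ N : ℕ, ∃ τ ∈ T p J, (p : WittVector p C) ^ N ∣ x - τ := by
  constructor
  · intro h N
    exact ⟨_, sum_mem fun i _ => mem_T J i (h i), exists_digits x N⟩
  · intro h n
    obtain ⟨τ, hτ, h1⟩ := h (n + 1)
    rw [dig_congr h1 (n := n) (by omega)]
    exact dig_mem_of_T hJ n hτ

/-- The ideal `W(J)` of a perfect ideal `J`. -/
noncomputable def WJ {J : Ideal C} (hJ : IsPerf p J) : Ideal (WittVector p C) where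
  carrier := {x | ∀ n, dig x n ∈ J}
  zero_mem' := (dig_mem_iff hJ).2 fun N => ⟨0, zero_mem _, by simp⟩
  add_mem' := by
    intro x y hx hy
    rw [Set.mem_ofPred_eq, dig_mem_iff hJ] at hx hy ⊢
    intro N
    obtain ⟨τ, hτ, h1⟩ := hx N
    obtain ⟨σ, hσ, h2⟩ := hy N
    refine ⟨τ + σ, add_mem hτ hσ, ?_⟩
    rw [add_sub_add_comm]
    exact dvd_add h1 h2
  smul_mem' := by
    intro c x hx
    rw [Set.mem_ofPred_eq, dig_mem_iff hJ] at hx ⊢
    intro N
    obtain ⟨τ, hτ, h1⟩ := hx N
    obtain ⟨σ, hσ, h2⟩ := mul_T J hτ c N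
    refine ⟨σ, hσ, ?_⟩
    have : c • x - σ = c * (x - τ) + (c * τ - σ) := by rw [smul_eq_mul]; ring
    rw [this]
    exact dvd_add (Dvd.dvd.mul_left h1 _) h2

theorem mem_WJ {J : Ideal C} (hJ : IsPerf p J) {x : WittVector p C} :
    x ∈ WJ hJ ↔ ∀ n, dig x n ∈ J := Iff.rfl

theorem mem_WJ_iff {J : Ideal C} (hJ : IsPerf p J) {x : WittVector p C} :
    x ∈ WJ hJ ↔ ∀ N : ℕ, ∃ τ ∈ T p J, (p : WittVector p C) ^ N ∣ x - τ := dig_mem_iff hJ

theorem T_le_WJ {J : Ideal C} (hJ : IsPerf p J) {x : WittVector p C} (hx : x ∈ T p J) :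
    x ∈ WJ hJ := fun n => dig_mem_of_T hJ n hx

theorem coeff_mem {J : Ideal C} (hJ : IsPerf p J) {x : WittVector p C} (hx : x ∈ WJ hJ) :
    x.coeff 0 ∈ J := by
  have := hx 0
  rwa [dig, rt_zero] at this

theorem teichmuller_mem {J : Ideal C} (hJ : IsPerf p J) {a : C} :
    teichmuller p a ∈ WJ hJ ↔ a ∈ J := by
  constructor
  · intro h
    have := coeff_mem hJ h
    rwa [teichmuller_coeff_zero] at this
  · intro h
    have := T_le_WJ hJ (mem_T J 0 h)
    rwa [pow_zero, one_mul] at this

/-- `W(J) ∩ p W(C) = p W(J)`. -/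
theorem p_mul_mem {J : Ideal C} (hJ : IsPerf p J) {y : WittVector p C} :
    (p : WittVector p C) * y ∈ WJ hJ ↔ y ∈ WJ hJ := by
  constructor
  · intro h n
    have := h (n + 1)
    have h1 := dig_succ (0 : C) y n
    rw [teichmuller_zero, zero_add] at h1
    rwa [h1] at this
  · intro h
    exact (WJ hJ).mul_mem_left _ h

theorem p_pow_mul_mem {J : Ideal C} (hJ : IsPerf p J) {y : WittVector p C} (k : ℕ) :
    (p : WittVector p C) ^ k * y ∈ WJ hJ ↔ y ∈ WJ hJ := by
  induction k with
  | zero => rw [pow_zero, one_mul]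
  | succ k ih => rw [pow_succ', mul_assoc, p_mul_mem, ih]

/-- Every element of `W(J)` with zeroth coefficient `0` is in `p W(J)`. -/
theorem exists_of_coeff_zero {J : Ideal C} (hJ : IsPerf p J) {x : WittVector p C} (hx : x ∈ WJ hJ)
    (h : x.coeff 0 = 0) : ∃ y ∈ WJ hJ, x = (p : WittVector p C) * y := by
  obtain ⟨y, hy⟩ := p_dvd_of_coeff_zero (x := x) (y := 0) (by rw [h, zero_coeff])
  rw [sub_zero] at hy
  exact ⟨y, (p_mul_mem hJ).1 (hy ▸ hx), hy⟩

/-- `W(J)` is closed for the `p`-adic topology. -/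
theorem mem_of_forall_approx {J : Ideal C} (hJ : IsPerf p J) {x : WittVector p C}
    (h : ∀ N : ℕ, ∃ y ∈ WJ hJ, (p : WittVector p C) ^ N ∣ x - y) : x ∈ WJ hJ := by
  intro n
  obtain ⟨y, hy, h1⟩ := h (n + 1)
  rw [dig_congr h1 (n := n) (by omega)]
  exact hy n

end Vale.Agent.P177.WJ
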